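import Crest.Agent.R214.DirA

/-! Row 214: the two analytic exclusion lemmas. -/

set_option autoImplicit false

namespace Crest.Agent.R214

open MeasureTheory Set Filter Topology Real
open scoped ENNReal

variable {a l ρ σ : ℝ → ℝ} {A V H F α β : ℝ}

/-- the calibration of the B-lemma, as a function of `s = √b` -/
noncomputable def bc (x y s : ℝ) : ℝ :=
  (4 * x * (s - x) * (y - s) / (y - x) + (s - x) * √((y - x) ^ 2 - (s - x) ^ 2)) / ((x + y) * s)

lemma blem_key {x d p : ℝ} (hx : 0 ≤ x) (hd : 0 < d) (hp : 0 ≤ p) (hpd : p ≤ d) :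
    (4 * x * p * (d - p) / d + p * √(d ^ 2 - p ^ 2)) ^ 2 ≤
      p * (d - p) * ((p + 2 * x) * (p + d + 2 * x)) := by
  have h0 : 0 ≤ d ^ 2 - p ^ 2 := by nlinarith
  have hw2 := Real.sq_sqrt h0
  have hw0 := Real.sqrt_nonneg (d ^ 2 - p ^ 2)
  set w := √(d ^ 2 - p ^ 2) with hw
  have hq : 0 ≤ d - p := sub_nonneg.mpr hpd
  have hwd : w ≤ d := le_of_sq_le_sq (by nlinarith) hd.le
  have h1 : 4 * p * w ≤ d * (2 * p + d) := by
    rcases le_total (2 * p) d with h | h
    · nlinarith [mul_le_mul_of_nonneg_left hwd hp, mul_le_mul_of_nonneg_left h hd.le]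
    · nlinarith [sq_nonneg (p - w), mul_le_mul_of_nonneg_left h hd.le]
  have h2 : 4 * p * (d - p) ≤ d ^ 2 := by nlinarith [sq_nonneg (d - 2 * p)]
  have h3 : (4 * x * p * (d - p) / d + p * w) ^ 2 =
      4 * x ^ 2 * (p * (d - p)) * (4 * p * (d - p) / d ^ 2) +
        2 * x * (p * (d - p)) * (4 * p * w / d) + p ^ 2 * w ^ 2 := by
    field_simp
    ring
  have h4 : 4 * p * (d - p) / d ^ 2 ≤ 1 := (div_le_one (by positivity)).mpr h2
  have h5 : 4 * p * w / d ≤ 2 * p + d := by rw [div_le_iff₀ hd]; linarith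
  have h6 := mul_le_mul_of_nonneg_left h4 (by positivity : 0 ≤ 4 * x ^ 2 * (p * (d - p)))
  have h7 := mul_le_mul_of_nonneg_left h5 (by positivity : 0 ≤ 2 * x * (p * (d - p)))
  rw [h3, hw2]
  have h8 : p * (d - p) * ((p + 2 * x) * (p + d + 2 * x)) =
      4 * x ^ 2 * (p * (d - p)) * 1 + 2 * x * (p * (d - p)) * (2 * p + d) +
        p ^ 2 * (d ^ 2 - p ^ 2) := by ring
  linarith

lemma blem_roots {H F r m : ℝ} (hH : 0 < H) (hF : 0 < F) (hr : 0 < r)
    (h : H * m ^ 2 + F < r * m) :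
    ∃ x y, 0 < x ∧ x < m ∧ m < y ∧ H * (x + y) = r ∧ H * (x * y) = F := by
  have h1 : (2 * H * m - r) ^ 2 < r ^ 2 - 4 * H * F := by
    have := mul_lt_mul_of_pos_left h (by positivity : 0 < 4 * H)
    nlinarith
  have h0 : 0 ≤ r ^ 2 - 4 * H * F := (sq_nonneg _).trans h1.le
  have hw2 := Real.sq_sqrt h0
  have hw0 := Real.sqrt_nonneg (r ^ 2 - 4 * H * F)
  set w := √(r ^ 2 - 4 * H * F) with hw
  have h2 : |2 * H * m - r| < w := by
    refine lt_of_pow_lt_pow_left₀ 2 hw0 ?_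
    rw [sq_abs, hw2]; exact h1
  obtain ⟨h3, h4⟩ := abs_lt.mp h2
  have h5 : w < r := by
    refine lt_of_pow_lt_pow_left₀ 2 hr.le ?_
    have : 0 < 4 * H * F := by positivity
    linarith
  have hH2 : 0 < 2 * H := by positivity
  refine ⟨(r - w) / (2 * H), (r + w) / (2 * H), div_pos (by linarith) hH2, ?_, ?_, ?_, ?_⟩
  · rw [div_lt_iff₀ hH2]; linarith
  · rw [lt_div_iff₀ hH2]; linarith
  · field_simp; ring
  · field_simp; linarith

/-- With `p = s - x`, `d = y - x`: `1 - ((s² + x y) / ((x + y) s))² =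
p (d - p) (p + 2x) (p + d + 2x) / ((x + y) s)²`, `√((p + 2x) (p + d + 2x)) ≥ 2x + √(p (p + d))`,
`√(p (d - p)) ≥ 2 p (d - p) / d`. -/
lemma bc_sq_le {x y s : ℝ} (hx : 0 < x) (hxy : x < y) (hs : s ∈ Icc x y) :
    0 ≤ bc x y s ∧ bc x y s ^ 2 + ((s ^ 2 + x * y) / ((x + y) * s)) ^ 2 ≤ 1 := by
  obtain ⟨h1, h2⟩ := hs
  have hd : 0 < y - x := sub_pos.mpr hxy
  have hp : 0 ≤ s - x := sub_nonneg.mpr h1
  have hq : 0 ≤ y - s := sub_nonneg.mpr h2
  have hS : 0 < (x + y) * s := mul_pos (by linarith) (by linarith)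
  refine ⟨by unfold bc; positivity, ?_⟩
  unfold bc
  rw [div_pow, div_pow, ← add_div, div_le_one (by positivity)]
  have h3 := blem_key hx.le hd hp (by linarith : s - x ≤ y - x)
  rw [show y - x - (s - x) = y - s by ring] at h3
  have h4 : ((x + y) * s) ^ 2 - (s ^ 2 + x * y) ^ 2 =
      (s - x) * (y - s) * ((s - x + 2 * x) * (s - x + (y - x) + 2 * x)) := by ring
  linarith
/-- substitute `b = s²` (`intervalIntegral.integral_comp_mul_deriv (primed versions)` or the fundamental theorem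
of calculus with an explicit primitive in `√b`): `∫₀ᵈ p (d - p) = d³/6`, `∫₀ᵈ p √(d² - p²) = d³/3` -/
lemma integral_bc {x y : ℝ} (hx : 0 < x) (hxy : x < y) :
    ∫ b in (x ^ 2)..(y ^ 2), bc x y √b = (y - x) ^ 2 * (4 * x / 3 + 2 * (y - x) / 3) / (x + y) := by
  have hd : 0 < y - x := sub_pos.mpr hxy
  have hxy' : 0 < x + y := by linarith
  have hg : ContinuousOn (fun b => bc x y √b) ((fun s : ℝ => s ^ 2) '' uIcc x y) := by
    unfold bc
    refine ContinuousOn.div (by fun_prop) (by fun_prop) ?_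
    rintro _ ⟨s, hs, rfl⟩
    rw [uIcc_of_le hxy.le] at hs
    have : 0 < s := hx.trans_le hs.1
    positivity
  have h1 := intervalIntegral.integral_comp_mul_deriv'' (a := x) (b := y) (f := fun s : ℝ => s ^ 2)
    (f' := fun s => 2 * s) (g := fun b => bc x y √b) (by fun_prop)
    (fun s _ => by simpa using (hasDerivAt_pow 2 s).hasDerivWithinAt) (by fun_prop) hg
  rw [← h1]
  have h2 : ∫ s in x..y, ((fun b => bc x y √b) ∘ fun s : ℝ => s ^ 2) s * (2 * s) =
      ∫ s in x..y, 2 / (x + y) * (4 * x * (s - x) * (y - s) / (y - x) +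
        (s - x) * √((y - x) ^ 2 - (s - x) ^ 2)) := by
    refine intervalIntegral.integral_congr fun s hs => ?_
    rw [uIcc_of_le hxy.le] at hs
    have hs0 : 0 < s := hx.trans_le hs.1
    simp only [Function.comp, Real.sqrt_sq hs0.le, bc]
    field_simp
  rw [h2, intervalIntegral.integral_const_mul,
    intervalIntegral.integral_eq_sub_of_hasDerivAt_of_le hxy.le
      (f := fun s => 4 * x / (y - x) * ((y - x) * (s - x) ^ 2 / 2 - (s - x) ^ 3 / 3) -
        ((y - x) ^ 2 - (s - x) ^ 2) * √((y - x) ^ 2 - (s - x) ^ 2) / 3) (by fun_prop)]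
  · simp only [sub_self, Real.sqrt_zero, ne_eq, OfNat.ofNat_ne_zero, not_false_eq_true, zero_pow,
      sub_zero, Real.sqrt_sq hd.le]
    field_simp
    ring
  · intro s hs
    have h3 : 0 < (y - x) ^ 2 - (s - x) ^ 2 := by nlinarith [hs.1, hs.2]
    have h4 : HasDerivAt (fun s : ℝ => s - x) 1 s := (hasDerivAt_id s).sub_const x
    have h5 : HasDerivAt (fun s : ℝ => (y - x) ^ 2 - (s - x) ^ 2) (-(2 * (s - x))) s := by
      refine HasDerivAt.congr_deriv ((h4.pow 2).const_sub _) ?_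
      simp
    have h6 := (((((h4.pow 2).const_mul (y - x)).div_const 2).sub ((h4.pow 3).div_const 3)).const_mul
      (4 * x / (y - x))).sub ((h5.mul (h5.sqrt h3.ne')).div_const 3)
    refine HasDerivAt.congr_deriv h6 ?_
    have h7 : 0 < √((y - x) ^ 2 - (s - x) ^ 2) := Real.sqrt_pos.mpr h3
    have h8 := Real.sq_sqrt h3.le
    set w := √((y - x) ^ 2 - (s - x) ^ 2) with hw
    rw [← h8]
    simp only [Nat.cast_ofNat]
    field_simp
    ring
  · exact Continuous.intervalIntegrable (by fun_prop) _ _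
/-- `p (d - p) ≤ d² / 4`, `p² (d - p) ≤ 4 d³ / 27` -/
lemma blem_num {x y m : ℝ} (hx : 0 < x) (hm : x < m) (hy : m < y) :
    9 / 2 * m * (m - x) * (y - m) < (y - x) ^ 2 * (4 * x / 3 + 2 * (y - x) / 3) := by
  obtain ⟨p, rfl⟩ : ∃ p, m = x + p := ⟨m - x, by ring⟩
  obtain ⟨d, rfl⟩ : ∃ d, y = x + d := ⟨y - x, by ring⟩
  have hp : 0 < p := by linarith
  have hd : 0 < d := by linarith
  have h1 : 0 ≤ x * (d - 2 * p) ^ 2 := by positivity
  have h2 : 0 ≤ (3 * p - 2 * d) ^ 2 * (3 * p + d) := by positivity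
  have h3 : 0 < x * d ^ 2 := by positivity
  nlinarith

/-- Suppose `F > 0`.  Let `m = √V` and `x < m < y` be the roots of `H s² - √π s + F`
(`x + y = √π / H`, `x y = F / H`, `√π s - H s² - F = H (s - x) (y - s)`).  Then `x > 0`,
`α ≤ x²`, `y² ≤ 0.42`, and `y² ≤ β` (otherwise `bot'` with `j b = √(π b)`).  Apply `calib` on
`[x², y²]` with `c b = max 0 (min (bc x y √b) 1)`; here
`√(1 - c²) ≥ (s² + x y) / ((x + y) s) = (H b + F) / √(π b)`.  Finally `√π ≤ 9/2 m` as `v0 ≤ V`. -/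
theorem Dir.blem (h : Dir a l A V H F α β) (top : √(π * α) ≤ H * α + F)
    (hno : H * V + F < √(π * V)) (hv : v0 ≤ V) (hV : V ≤ 1 / π) (hA : A ≤ √(π * V)) (hH : 0 < H)
    (hadm : ∀ᵐ t, t ∈ I → a t ≤ 0.42 → √(π * a t) ≤ l t) (h42 : √(π * 0.42) ≤ H * 0.42 + F) :
    F ≤ 0 := by
  by_contra hF
  have hF : 0 < F := not_le.mp hF
  have hπ := Real.pi_pos
  have hV0 : 0 < V := lt_of_lt_of_le (by unfold v0; positivity) hv
  set r := √π with hr
  set m := √V with hm
  have hr0 : 0 < r := Real.sqrt_pos.mpr hπ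
  have hm0 : 0 < m := Real.sqrt_pos.mpr hV0
  have hr2 : r ^ 2 = π := Real.sq_sqrt hπ.le
  have hm2 : m ^ 2 = V := Real.sq_sqrt hV0.le
  have hsq : ∀ b, √(π * b) = r * √b := fun b => Real.sqrt_mul hπ.le b
  rw [hsq, ← hm] at hno hA
  obtain ⟨x, y, hx, hxm, hmy, hsum, hprod⟩ := blem_roots hH hF (r := r) (m := m) hr0
    (by rw [hm2]; exact hno)
  have hfac : ∀ s, r * s - H * s ^ 2 - F = H * ((s - x) * (y - s)) := fun s => by
    rw [← hsum, ← hprod]; ring
  have hsplit : ∀ b, 0 ≤ b → √(π * b) ≤ H * b + F → √b ≤ x ∨ y ≤ √b := by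
    intro b hb hle
    by_contra hc
    push Not at hc
    have h1 := hfac √b
    rw [Real.sq_sqrt hb, ← hsq] at h1
    have h2 : 0 < H * ((√b - x) * (y - √b)) :=
      mul_pos hH (mul_pos (sub_pos.mpr hc.1) (sub_pos.mpr hc.2))
    linarith
  have hy0 : 0 < y := hm0.trans hmy
  have hα : α ≤ x ^ 2 := by
    rcases hsplit α h.α0 top with h1 | h1
    · exact (Real.sqrt_le_left hx.le).mp h1
    · have : √α ≤ m := Real.sqrt_le_sqrt h.α_le
      linarith
  have hy42 : y ^ 2 ≤ 0.42 := by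
    rcases hsplit 0.42 (by norm_num) h42 with h1 | h1
    · have h2 : V ≤ 0.42 := by
        refine hV.trans ?_
        rw [div_le_iff₀ hπ]
        linarith [Real.pi_gt_three]
      have : m ≤ √0.42 := Real.sqrt_le_sqrt h2
      linarith
    · exact (Real.le_sqrt hy0.le (by norm_num)).mp h1
  have hβ0 : 0 ≤ β := hV0.le.trans h.le_β
  have hβ : y ^ 2 ≤ β := by
    by_contra hc
    have hc := not_le.mp hc
    have h1 := h.bot' (j := fun b => √(π * b)) (by fun_prop) (by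
      filter_upwards [hadm] with t ht htI
      exact ht htI (by linarith [h.hi t htI]))
    rcases hsplit β hβ0 h1 with h2 | h2
    · have : m ≤ √β := Real.sqrt_le_sqrt h.le_β
      linarith
    · exact absurd ((Real.le_sqrt hy0.le hβ0).mp h2) (not_le.mpr hc)
  have hxy : x < y := hxm.trans hmy
  have hxy2 : x ^ 2 ≤ y ^ 2 := pow_le_pow_left₀ hx.le hxy.le 2
  have hmem : ∀ b ∈ Icc (x ^ 2) (y ^ 2), √b ∈ Icc x y := fun b hb =>
    ⟨Real.le_sqrt_of_sq_le hb.1, (Real.sqrt_le_left hy0.le).mpr hb.2⟩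
  have hcl : ∀ b ∈ Icc (x ^ 2) (y ^ 2), max 0 (min (bc x y √b) 1) = bc x y √b := by
    intro b hb
    obtain ⟨h1, h2⟩ := bc_sq_le hx hxy (hmem b hb)
    have h3 : bc x y √b ≤ 1 := by
      have h4 : bc x y √b ^ 2 ≤ 1 := by linarith [sq_nonneg ((√b ^ 2 + x * y) / ((x + y) * √b))]
      exact (abs_le_one_iff_mul_self_le_one.mpr (by rw [← sq]; exact h4)).trans' (le_abs_self _)
    rw [min_eq_left h3, max_eq_right h1]
  have hcal := h.calib (c := fun b => max 0 (min (bc x y √b) 1)) (by unfold bc; fun_prop)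
    (fun b => le_max_left _ _) (fun b => max_le zero_le_one (min_le_right _ _)) hα hxy2 hβ
    le_rfl le_rfl (by
      filter_upwards [hadm] with t ht htI hb
      have h1 := ht htI (hb.2.trans hy42)
      obtain ⟨-, h2⟩ := bc_sq_le hx hxy (hmem _ hb)
      have hs := hmem _ hb
      have hb0 : 0 ≤ a t := (sq_nonneg x).trans hb.1
      rw [hcl _ hb]
      rw [hsq] at h1
      have hs2 := Real.sq_sqrt hb0
      set s := √(a t) with hsdef
      have hs0 : 0 < s := hx.trans_le hs.1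
      have h3 : (s ^ 2 + x * y) / ((x + y) * s) ≤ √(1 - bc x y s ^ 2) :=
        Real.le_sqrt_of_sq_le (by linarith)
      have h4 : H * a t + F = (s ^ 2 + x * y) / ((x + y) * s) * (r * s) := by
        rw [← hs2, ← hsum, ← hprod]
        have : 0 < x + y := by linarith
        field_simp
      rw [h4]
      exact mul_le_mul h3 h1 (by positivity) (Real.sqrt_nonneg _))
  rw [intervalIntegral.integral_congr (g := fun b => bc x y √b)
    (fun b hb => hcl b (by rwa [uIcc_of_le hxy2] at hb)), integral_bc hx hxy] at hcal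
  have h1 := hfac m
  rw [hm2] at h1
  have h2 := blem_num hx hxm hmy
  have hxy0 : 0 < x + y := by linarith
  have h3 : (y - x) ^ 2 * (4 * x / 3 + 2 * (y - x) / 3) / (x + y) ≤ H * ((m - x) * (y - m)) := by
    linarith
  rw [div_le_iff₀ hxy0] at h3
  have h4 : r ≤ 9 / 2 * m := by
    refine le_of_sq_le_sq ?_ (by positivity)
    rw [mul_pow, hr2, hm2]
    unfold v0 at hv
    linarith
  have h5 : H * ((m - x) * (y - m)) * (x + y) = r * ((m - x) * (y - m)) := by
    rw [← hsum]; ring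
  have h6 : r * ((m - x) * (y - m)) ≤ 9 / 2 * m * ((m - x) * (y - m)) :=
    mul_le_mul_of_nonneg_right h4 (mul_pos (sub_pos.mpr hxm) (sub_pos.mpr hmy)).le
  linarith

/-- `κ = (u² + v²) / π`; for `v ≤ 0.14` use `u ≤ π v`, otherwise `u ≤ v + 0.2046` -/
lemma small_num {u v : ℝ} (hv : 0 < v) (hv1 : v ≤ 2 / 3) (hu : 0 ≤ u) (h1 : u ≤ v + 0.2046)
    (h2 : u ≤ π * v) : (u ^ 2 + v ^ 2) / π ≤ 1 ∧ 1 - v < (1 - (u ^ 2 + v ^ 2) / π) ^ 2 := by
  have hπ := Real.pi_pos
  have hπ1 := Real.pi_gt_d2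
  have hπ2 := Real.pi_lt_d2
  have hu2 : u ^ 2 ≤ (v + 0.2046) ^ 2 := pow_le_pow_left₀ hu h1 2
  set κ := (u ^ 2 + v ^ 2) / π with hκ
  have hκ0 : 0 ≤ κ := by positivity
  have hκπ : κ * π = u ^ 2 + v ^ 2 := by rw [hκ]; field_simp
  have hκ3 : κ * 3.14 ≤ u ^ 2 + v ^ 2 := by
    rw [← hκπ]; exact mul_le_mul_of_nonneg_left hπ1.le hκ0
  refine ⟨by nlinarith, ?_⟩
  rcases le_total v 0.14 with h | h
  · have h3 : u ≤ 3.15 * v := h2.trans (mul_le_mul_of_nonneg_right hπ2.le hv.le)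
    have h4 : u ^ 2 ≤ (3.15 * v) ^ 2 := pow_le_pow_left₀ hu h3 2
    have h5 : v ^ 2 ≤ 0.14 * v := by nlinarith
    nlinarith [sq_nonneg κ]
  · have h3 : κ ≤ 0.6443 * v - 0.046 := by
      nlinarith [mul_nonneg (sub_nonneg.mpr h) (sub_nonneg.mpr hv1)]
    have h4 : (1.046 - 0.6443 * v) ^ 2 ≤ (1 - κ) ^ 2 :=
      pow_le_pow_left₀ (by linarith) (by linarith) 2
    nlinarith [sq_nonneg (v - 0.42)]

/-- `v = H V + F`, `u = H + F < 1`.  `bot'` with `Adm.min_le` gives `√(π (1 - β)) ≤ H β + F ≤ u`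
(since `β ≥ V ≥ 1/π`), `top` gives `√(π α) ≤ v`; so `β - α ≥ 1 - (u² + v²) / π`, while `cs` gives
`(β - α)² ≤ A (A - v) ≤ 1 - v`.  If `v = 0` then `u = 0`, `β = 1`. -/
theorem Dir.smallH (h : Dir a l A V H F α β) (top : √(π * α) ≤ H * α + F) (hβ : β < 1)
    (hadm : ∀ᵐ t, t ∈ I → Adm 1 0 1 (a t) (l t)) (hH : 0 ≤ H) (hF : 0 ≤ F) (hV : 1 / π ≤ V)
    (hA : A ≤ 1) (hs : H * (1 - V) ≤ 0.2046) (hv : 3 * (H * V + F) ≤ 2) : False := by
  have hπ := Real.pi_pos
  have hV0 : 0 < V := lt_of_lt_of_le (by positivity) hV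
  have hπV : 1 ≤ π * V := by
    rw [div_le_iff₀ hπ] at hV; linarith
  have hv0 : 0 ≤ H * V + F := by positivity
  have hu0 : 0 ≤ H + F := by positivity
  have h1 : H + F ≤ H * V + F + 0.2046 := by linarith
  have h2 : H + F ≤ π * (H * V + F) := by
    have := mul_le_mul_of_nonneg_left hπV hH
    have h3 : F * 1 ≤ F * π := mul_le_mul_of_nonneg_left (by linarith [Real.pi_gt_three]) hF
    linarith
  have hb := h.bot' (j := fun b => min (min √(π * b) 1) √(π * (1 - b))) (by fun_prop) (by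
    filter_upwards [hadm] with t ht htI
    exact (ht htI).min_le ((h.hi t htI).trans h.β1))
  have hβu : H * β + F ≤ H + F := by
    have := mul_le_mul_of_nonneg_left h.β1 hH
    linarith
  have h3 : 1 ≤ √(π * β) := by
    refine Real.le_sqrt_of_sq_le ?_
    have := mul_le_mul_of_nonneg_left h.le_β hπ.le
    linarith
  have h4 : √(π * (1 - β)) ≤ H + F := by
    rw [min_eq_right h3] at hb
    rcases min_le_iff.mp (hb.trans hβu) with h5 | h5
    · linarith
    · exact h5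
  have h5 : π * (1 - β) ≤ (H + F) ^ 2 := (Real.sqrt_le_left hu0).mp h4
  have h6 : π * α ≤ (H * V + F) ^ 2 := by
    refine (Real.sqrt_le_left hv0).mp (top.trans ?_)
    have := mul_le_mul_of_nonneg_left h.α_le hH
    linarith
  rcases hv0.lt_or_eq with hv1 | hv1
  · obtain ⟨h7, h8⟩ := small_num hv1 (by linarith) hu0 h1 h2
    have h9 : 1 - ((H + F) ^ 2 + (H * V + F) ^ 2) / π ≤ β - α := by
      rw [sub_le_comm, le_div_iff₀ hπ]
      linarith
    have h10 := pow_le_pow_left₀ (by linarith) h9 2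
    have h11 := h.cs
    have h12 : A * (A - H * V - F) ≤ 1 * (A - H * V - F) :=
      mul_le_mul_of_nonneg_right hA (by linarith [h.le_A])
    linarith
  · rw [← hv1, mul_zero] at h2
    have h7 : H + F = 0 := le_antisymm h2 hu0
    rw [h7] at h5
    have : 0 < π * (1 - β) := mul_pos hπ (sub_pos.mpr hβ)
    linarith

end Crest.Agent.R214
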