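import Crest.Agent.R214.TInv

/-! Row 214: transport between `EuclideanSpace ℝ (Fin 3)` and `X`. -/

set_option autoImplicit false

namespace Crest.Agent.R214

open MeasureTheory Set Filter Topology Real
open scoped ENNReal

open Crest.GeometryTopology.PeriodicPerimeter

@[simp] lemma toX_ofX (p : X) : toX (ofX p) = p := by
  rfl
@[simp] lemma ofX_toX (x : E3) : ofX (toX x) = x := by
  ext i
  fin_cases i <;> rfl

@[simp] lemma bridge_ofX0 (p : X) : ofX p 0 = p.1 := rfl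
@[simp] lemma bridge_ofX1 (p : X) : ofX p 1 = p.2.1 := rfl
@[simp] lemma bridge_ofX2 (p : X) : ofX p 2 = p.2.2 := rfl

/-- `ofX` as a linear equivalence -/
noncomputable def bridge_lin : X ≃ₗ[ℝ] E3 where
  toFun := ofX
  invFun := toX
  map_add' p q := by
    ext i
    fin_cases i <;> rfl
  map_smul' c p := by
    ext i
    fin_cases i <;> rfl
  left_inv := toX_ofX
  right_inv := ofX_toX

/-- `ofX` as a continuous linear equivalence -/
noncomputable def bridge_L : X ≃L[ℝ] E3 := bridge_lin.toContinuousLinearEquiv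

lemma bridge_L_coe : (bridge_L : X → E3) = ofX := rfl
lemma bridge_L_symm_coe : (bridge_L.symm : E3 → X) = toX := rfl

/-- `toX` as a measurable equivalence -/
noncomputable def bridge_M : E3 ≃ᵐ X := bridge_L.symm.toHomeomorph.toMeasurableEquiv

lemma bridge_mp_toX : MeasurePreserving toX (volume : Measure E3) volume := by
  have h1 := PiLp.volume_preserving_ofLp (Fin 3)
  have h2 := volume_preserving_piFinSuccAbove (fun _ : Fin 3 => ℝ) 0
  have h3 := (MeasurePreserving.id (volume : Measure ℝ)).prod (volume_preserving_finTwoArrow ℝ)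
  exact (h3.comp h2).comp h1

lemma measurePreserving_ofX : MeasurePreserving ofX (volume : Measure X) volume := by
  exact MeasurePreserving.symm bridge_M bridge_mp_toX
lemma measurePreserving_toX : MeasurePreserving toX (volume : Measure E3) volume := by
  exact bridge_mp_toX

lemma bridge_emb : MeasurableEmbedding ofX := bridge_M.symm.measurableEmbedding

lemma bridge_ofX_add (p q : X) : ofX (p + q) = ofX p + ofX q := bridge_lin.map_add p q
lemma bridge_toX_add (x y : E3) : toX (x + y) = toX x + toX y := rfl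

lemma bridge_int (a b c : ℤ) : HasIntegerCoords (ofX ((a : ℝ), (b : ℝ), (c : ℝ))) := by
  intro i
  fin_cases i
  exacts [⟨a, rfl⟩, ⟨b, rfl⟩, ⟨c, rfl⟩]

lemma bridge_int' {v : E3} (hv : HasIntegerCoords v) :
    ∃ a b c : ℤ, toX v = ((a : ℝ), (b : ℝ), (c : ℝ)) := by
  obtain ⟨a, ha⟩ := hv 0
  obtain ⟨b, hb⟩ := hv 1
  obtain ⟨c, hc⟩ := hv 2
  exact ⟨a, b, c, by rw [toX, ha, hb, hc]⟩

lemma bridge_cell (E : Set E3) : ofX ⁻¹' E ∩ C0 = ofX ⁻¹' (E ∩ unitCell 3) := by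
  ext p
  simp only [mem_inter_iff, mem_preimage, C0, C2, mem_prod, mem_Ico, unitCell, mem_ofPred_eq,
    Fin.forall_fin_succ, IsEmpty.forall_iff, and_true]
  rfl

lemma bridge_norm_sq (x : E3) : ‖x‖ ^ 2 = x 0 ^ 2 + x 1 ^ 2 + x 2 ^ 2 := by
  rw [EuclideanSpace.norm_sq_eq, Fin.sum_univ_three]
  simp

lemma bridge_fderiv {φ : E3 → E3} (hφ : ContDiff ℝ 1 φ) (i : Fin 3) (p v : X) :
    fderiv ℝ (fun p => φ (ofX p) i) p v = fderiv ℝ φ (ofX p) (ofX v) i := by
  have h1 : HasFDerivAt φ (fderiv ℝ φ (ofX p)) (ofX p) :=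
    (hφ.differentiable one_ne_zero _).hasFDerivAt
  have h2 : HasFDerivAt ofX (bridge_L : X →L[ℝ] E3) p := bridge_L.hasFDerivAt
  have h3 := (EuclideanSpace.proj (𝕜 := ℝ) i).hasFDerivAt.comp p (h1.comp p h2)
  exact congrArg (fun T : X →L[ℝ] ℝ => T v) h3.fderiv

lemma bridge_dv {φ : E3 → E3} (hφ : ContDiff ℝ 1 φ) (p : X) :
    dv (fun p => φ (ofX p) 0) (fun p => φ (ofX p) 1) (fun p => φ (ofX p) 2) p =
      divergence φ (ofX p) := by
  have e0 : ofX (1, 0, 0) = EuclideanSpace.single 0 1 := by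
    ext i
    fin_cases i <;> simp
  have e1 : ofX (0, 1, 0) = EuclideanSpace.single 1 1 := by
    ext i
    fin_cases i <;> simp
  have e2 : ofX (0, 0, 1) = EuclideanSpace.single 2 1 := by
    ext i
    fin_cases i <;> simp
  unfold dv d1 d2 d3 divergence
  rw [bridge_fderiv hφ, bridge_fderiv hφ, bridge_fderiv hφ, e0, e1, e2, Fin.sum_univ_three]

lemma bridge_integral {φ : E3 → E3} (hφ : ContDiff ℝ 1 φ) (E : Set E3) :
    ∫ p in ofX ⁻¹' E ∩ C0, dv (fun p => φ (ofX p) 0) (fun p => φ (ofX p) 1)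
      (fun p => φ (ofX p) 2) p = ∫ x in E ∩ unitCell 3, divergence φ x := by
  simp only [bridge_dv hφ]
  rw [bridge_cell]
  exact measurePreserving_ofX.setIntegral_preimage_emb bridge_emb _ _

lemma perSet_pull {E : Set E3} (hE : MeasurableSet E) (hp : IsLatticePeriodic E) :
    PerSet (ofX ⁻¹' E) := by
  refine ⟨measurePreserving_ofX.measurable hE, fun a b c p => ?_⟩
  rw [mem_preimage, mem_preimage, bridge_ofX_add]
  exact hp _ (bridge_int a b c) _
lemma PerSet.push {E : Set X} (h : PerSet E) :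
    MeasurableSet (toX ⁻¹' E) ∧ IsLatticePeriodic (toX ⁻¹' E) := by
  refine ⟨measurePreserving_toX.measurable h.meas, fun v hv x => ?_⟩
  obtain ⟨a, b, c, e⟩ := bridge_int' hv
  rw [mem_preimage, mem_preimage, bridge_toX_add, e]
  exact h.per a b c _
lemma tvol_pull (E : Set E3) : tvol (ofX ⁻¹' E) = periodicVolume E := by
  unfold tvol periodicVolume
  rw [bridge_cell]
  congr 1
  exact measurePreserving_ofX.measure_preimage_emb bridge_emb _
/-- `φ` corresponds to `f i = fun p => φ (ofX p) i` and conversely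
`φ = fun x => !₂[f1 (toX x), f2 (toX x), f3 (toX x)]`. -/
lemma tper_pull (E : Set E3) : tper (ofX ⁻¹' E) = periodicPerimeter E := by
  apply le_antisymm
  · refine tper_le fun f1 f2 f3 hf => ?_
    let φ : E3 → E3 := fun x => ofX (f1 (toX x), f2 (toX x), f3 (toX x))
    have ht : ContDiff ℝ 1 toX := bridge_L.symm.contDiff
    have ho : ContDiff ℝ 1 ofX := bridge_L.contDiff
    have hφ : IsAdmissibleField φ := by
      refine ⟨ho.comp ((hf.c1.comp ht).prodMk ((hf.c2.comp ht).prodMk (hf.c3.comp ht))),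
        fun v hv x => ?_, fun x => ?_⟩
      · obtain ⟨a, b, c, e⟩ := bridge_int' hv
        simp only [φ, bridge_toX_add, e, hf.p1 a b c, hf.p2 a b c, hf.p3 a b c]
      · have h1 := bridge_norm_sq (φ x)
        have h2 := hf.le (toX x)
        have h3 : ‖φ x‖ ^ 2 ≤ 1 := h1.trans_le h2
        nlinarith [norm_nonneg (φ x)]
    have h1 := bridge_integral hφ.1 E
    have h2 : ∫ p in ofX ⁻¹' E ∩ C0, dv f1 f2 f3 p = ∫ x in E ∩ unitCell 3, divergence φ x := h1
    rw [h2]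
    exact le_iSup (fun φ : {φ : E3 → E3 // IsAdmissibleField φ} =>
      ENNReal.ofReal (∫ x in E ∩ unitCell 3, divergence φ.1 x)) ⟨φ, hφ⟩
  · refine iSup_le fun ⟨φ, hφ⟩ => ?_
    have ho : ContDiff ℝ 1 ofX := bridge_L.contDiff
    have hc : ∀ i, ContDiff ℝ 1 fun p => φ (ofX p) i := fun i =>
      (EuclideanSpace.proj (𝕜 := ℝ) i).contDiff.comp (hφ.1.comp ho)
    have hp : ∀ i, ZPer fun p => φ (ofX p) i := fun i a b c p => by
      simp only [bridge_ofX_add, hφ.2.1 _ (bridge_int a b c)]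
    have hf : TField (fun p => φ (ofX p) 0) (fun p => φ (ofX p) 1) (fun p => φ (ofX p) 2) := by
      refine ⟨hc 0, hc 1, hc 2, hp 0, hp 1, hp 2, fun p => ?_⟩
      rw [← bridge_norm_sq]
      exact pow_le_one₀ (norm_nonneg _) (hφ.2.2 _)
    have := le_tper hf (ofX ⁻¹' E)
    rwa [bridge_integral hφ.1 E] at this

/-- the models in `E3` -/
def bridge_mod (e : Fin 3 → ℝ) (r : ℝ) (c : E3) : Set E3 :=
  {x | ∑ i, e i * dz (x i - c i) ^ 2 < r ^ 2}

lemma bridge_mod_pull (e : Fin 3 → ℝ) (r : ℝ) (c : E3) :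
    ofX ⁻¹' bridge_mod e r c = tr (toX c) (Mod (e 0) (e 1) (e 2) r) := by
  ext p
  simp only [mem_preimage, bridge_mod, mem_ofPred_eq, Fin.sum_univ_three, tr, Mod]
  rfl

lemma bridge_ae_iff {E F : Set E3} : ofX ⁻¹' E =ᵐ[volume] ofX ⁻¹' F ↔ E =ᵐ[volume] F := by
  refine ⟨fun h => ?_, fun h => measurePreserving_ofX.quasiMeasurePreserving.preimage_ae_eq h⟩
  have := measurePreserving_toX.quasiMeasurePreserving.preimage_ae_eq h
  simpa only [preimage_preimage, ofX_toX, preimage_id'] using this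

lemma bridge_ae_ne (i : Fin 3) (f : ℤ → ℝ) : ∀ᵐ x : E3, ∀ a, x i ≠ f a := by
  rw [ae_all_iff]
  intro a
  exact (PiLp.volume_preserving_ofLp (Fin 3)).quasiMeasurePreserving.ae
    (Measure.ae_eval_ne (fun _ : Fin 3 => (volume : Measure ℝ)) i (f a))

/-- `F` agrees with a model off the integer points of the first coordinate -/
def bridge_Is (F : Set E3) (e : Fin 3 → ℝ) (r : ℝ) (c₀ : E3) : Prop :=
  ∀ y : E3, (∀ a : ℤ, y 0 ≠ a) → (y ∈ F ↔ y ∈ bridge_mod e r c₀)

lemma bridge_image {F : Set E3} {e : Fin 3 → ℝ} {r : ℝ} {c₀ : E3} (h : bridge_Is F e r c₀)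
    {g : E3 → E3} {σ : Equiv.Perm (Fin 3)} {ε : Fin 3 → ℝ} {c : E3}
    (hε : ∀ i, ε i = 1 ∨ ε i = -1) (hg : ∀ x i, g x i = ε i * x (σ i) + c i) :
    g '' F =ᵐ[volume] bridge_mod (e ∘ σ) r (g c₀) := by
  have hε2 : ∀ i, ε i * ε i = 1 := fun i => by
    rcases hε i with h | h <;> rw [h] <;> norm_num
  have hinj : Function.Injective g := by
    intro y y' hy
    ext j
    have h1 := hg y (σ.symm j)
    have h2 := hg y' (σ.symm j)
    rw [hy, h2, Equiv.apply_symm_apply] at h1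
    have h3 := hε2 (σ.symm j)
    have h4 : ε (σ.symm j) * y' j = ε (σ.symm j) * y j := by linarith
    calc y j = ε (σ.symm j) * (ε (σ.symm j) * y j) := by rw [← mul_assoc, h3, one_mul]
      _ = y' j := by rw [← h4, ← mul_assoc, h3, one_mul]
  have hsurj : Function.Surjective g := by
    intro x
    refine ⟨WithLp.toLp 2 fun j => ε (σ.symm j) * (x (σ.symm j) - c (σ.symm j)), ?_⟩
    ext i
    rw [hg]
    simp only [Equiv.symm_apply_apply]
    rw [← mul_assoc, hε2, one_mul, sub_add_cancel]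
  filter_upwards [bridge_ae_ne (σ.symm 0) fun a => ε (σ.symm 0) * a + c (σ.symm 0)] with x hx
  obtain ⟨y, rfl⟩ := hsurj x
  have hy : ∀ a : ℤ, y 0 ≠ a := fun a ha => hx a (by rw [hg, Equiv.apply_symm_apply, ha])
  apply propext
  change g y ∈ g '' F ↔ g y ∈ bridge_mod (e ∘ σ) r (g c₀)
  rw [hinj.mem_set_image, h y hy]
  have e1 : ∑ i, (e ∘ σ) i * dz (g y i - g c₀ i) ^ 2 = ∑ j, e j * dz (y j - c₀ j) ^ 2 := by
    rw [← Equiv.sum_comp σ fun j => e j * dz (y j - c₀ j) ^ 2]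
    refine Finset.sum_congr rfl fun i _ => ?_
    rw [hg, hg]
    rcases hε i with h | h
    · rw [h, show 1 * y (σ i) + c i - (1 * c₀ (σ i) + c i) = y (σ i) - c₀ (σ i) by ring]
      rfl
    · rw [h, show -1 * y (σ i) + c i - (-1 * c₀ (σ i) + c i) = -(y (σ i) - c₀ (σ i)) by ring,
        dz_neg]
      rfl
  simp only [bridge_mod, mem_ofPred_eq, e1]

lemma bridge_congr_of {E F : Set E3} {e : Fin 3 → ℝ} {r : ℝ} {c₀ : E3} (h : bridge_Is F e r c₀)
    (σ : Equiv.Perm (Fin 3)) {c : X}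
    (hE : ofX ⁻¹' E =ᵐ[volume] tr c (Mod (e (σ 0)) (e (σ 1)) (e (σ 2)) r)) :
    CongruentModNull E F := by
  let g : E3 → E3 := fun x => WithLp.toLp 2 fun i => 1 * x (σ i) + (ofX c i - c₀ (σ i))
  have hg : ∀ x i, g x i = (fun _ => (1 : ℝ)) i * x (σ i) +
      (WithLp.toLp 2 fun i => ofX c i - c₀ (σ i) : E3) i := fun x i => rfl
  refine ⟨g, ⟨σ, fun _ => 1, _, fun _ => Or.inl rfl, hg⟩, ?_⟩
  rw [measure_symmDiff_eq_zero_iff]
  have h1 := bridge_image h (fun _ => Or.inl rfl) hg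
  have h2 : g c₀ = ofX c := by
    ext i
    simp [g]
  rw [h2] at h1
  refine EventuallyEq.trans ?_ h1.symm
  rw [← bridge_ae_iff, bridge_mod_pull, toX_ofX]
  exact hE

lemma bridge_of_congr {E F : Set E3} {e : Fin 3 → ℝ} {r : ℝ} {c₀ : E3} (h : bridge_Is F e r c₀)
    (he : ∀ i, e i = 0 ∨ e i = 1) (hs : 1 ≤ e 0 + e 1 + e 2) (hE : CongruentModNull E F) :
    ∃ (e1 e2 e3 : ℝ) (c : X), Bits e1 e2 e3 ∧ e1 + e2 + e3 = e 0 + e 1 + e 2 ∧
      ofX ⁻¹' E =ᵐ[volume] tr c (Mod e1 e2 e3 r) := by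
  obtain ⟨g, ⟨σ, ε, c, hε, hg⟩, h0⟩ := hE
  rw [measure_symmDiff_eq_zero_iff] at h0
  have h1 := h0.trans (bridge_image h hε hg)
  rw [← bridge_ae_iff, bridge_mod_pull] at h1
  have h2 : e (σ 0) + e (σ 1) + e (σ 2) = e 0 + e 1 + e 2 := by
    have := Equiv.sum_comp σ e
    rwa [Fin.sum_univ_three, Fin.sum_univ_three] at this
  exact ⟨e (σ 0), e (σ 1), e (σ 2), _, ⟨he _, he _, he _, h2 ▸ hs⟩, h2, h1⟩

lemma bridge_dz_sq_le (s : ℝ) (a : ℤ) : dz s ^ 2 ≤ (s - a) ^ 2 := by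
  rw [← sq_abs (s - a)]
  exact pow_le_pow_left₀ (dz_nonneg s) (dz_le_abs s a) 2

lemma bridge_dz_sq (s : ℝ) : dz s ^ 2 = (s - round s) ^ 2 := sq_abs _

lemma bridge_ball {r : ℝ} (hr : 0 < r) : bridge_Is (periodicBall r) ![1, 1, 1] r 0 := by
  intro y _
  have hd : ∀ v : E3, dist y v < r ↔ (y 0 - v 0) ^ 2 + (y 1 - v 1) ^ 2 + (y 2 - v 2) ^ 2 < r ^ 2 := by
    intro v
    rw [dist_eq_norm, ← sq_lt_sq₀ (norm_nonneg _) hr.le, bridge_norm_sq]
    rfl
  simp only [periodicBall, bridge_mod, mem_ofPred_eq, hd, Fin.sum_univ_three, PiLp.zero_apply,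
    sub_zero, Matrix.cons_val_zero, Matrix.cons_val_one, Matrix.cons_val, one_mul]
  constructor
  · rintro ⟨v, hv, h⟩
    obtain ⟨a, ha⟩ := hv 0
    obtain ⟨b, hb⟩ := hv 1
    obtain ⟨c, hc⟩ := hv 2
    rw [ha, hb, hc] at h
    linarith [bridge_dz_sq_le (y 0) a, bridge_dz_sq_le (y 1) b, bridge_dz_sq_le (y 2) c]
  · intro h
    refine ⟨_, bridge_int (round (y 0)) (round (y 1)) (round (y 2)), ?_⟩
    simpa only [bridge_dz_sq, bridge_ofX0, bridge_ofX1, bridge_ofX2] using h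

lemma bridge_tube (r : ℝ) : bridge_Is (periodicTube r) ![1, 1, 0] r 0 := by
  intro y _
  simp only [periodicTube, bridge_mod, mem_ofPred_eq, Fin.sum_univ_three, PiLp.zero_apply,
    sub_zero, Matrix.cons_val_zero, Matrix.cons_val_one, Matrix.cons_val, one_mul, zero_mul,
    add_zero]
  constructor
  · rintro ⟨a, b, h⟩
    linarith [bridge_dz_sq_le (y 0) a, bridge_dz_sq_le (y 1) b]
  · intro h
    exact ⟨round (y 0), round (y 1), by simpa only [bridge_dz_sq] using h⟩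

lemma bridge_slab {w : ℝ} (hw : 0 < w) :
    bridge_Is (periodicSlab w) ![1, 0, 0] (w / 2) (ofX (w / 2, 0, 0)) := by
  intro y hy
  simp only [periodicSlab, bridge_mod, mem_ofPred_eq, Fin.sum_univ_three, bridge_ofX0,
    Matrix.cons_val_zero, Matrix.cons_val_one, Matrix.cons_val, one_mul, zero_mul, add_zero]
  rw [sq_lt_sq₀ (dz_nonneg _) (by linarith)]
  constructor
  · rintro ⟨a, h1, h2⟩
    have h3 : (a : ℝ) < y 0 := lt_of_le_of_ne h1 (hy a).symm
    refine (dz_le_abs _ a).trans_lt (abs_lt.2 ⟨by linarith, by linarith⟩)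
  · intro h
    obtain ⟨h1, h2⟩ := abs_lt.1 h
    exact ⟨round (y 0 - w / 2), by linarith, by linarith⟩

/-- `periodicBall r = toX ⁻¹' Mod 1 1 1 r`, `periodicTube r = toX ⁻¹' Mod 1 1 0 r`, and
`periodicSlab w` is `toX ⁻¹' tr (w / 2, 0, 0) (Mod 1 0 0 (w / 2))` up to a null set.  The isometry
is a permutation followed by a translation (note `x ∈ g '' F ↔ g⁻¹ x ∈ F`). -/
theorem isStandardRegion_of_mod {V : ℝ} {E : Set E3} {e1 e2 e3 r : ℝ} {c : X} (hb : Bits e1 e2 e3)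
    (hs : Std V (e1 + e2 + e3) r) (h : ofX ⁻¹' E =ᵐ[volume] tr c (Mod e1 e2 e3 r)) :
    IsStandardRegion V E := by
  obtain ⟨hr, hV, hc⟩ := hs
  have hπ := Real.pi_pos
  rcases hc with ⟨h3, h4⟩ | ⟨h3, h4, h5⟩ | ⟨h3, h4, h5⟩
  · refine Or.inl ⟨h4, ?_⟩
    rw [h3, mvol, if_pos rfl] at hV
    have e : (3 * V / (4 * π)) ^ ((1 : ℝ) / 3) = r := by
      rw [show 3 * V / (4 * π) = r ^ 3 by rw [hV]; field_simp, one_div]
      exact_mod_cast Real.pow_rpow_inv_natCast hr.le (by norm_num : (3 : ℕ) ≠ 0)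
    rw [e]
    rcases hb.b1 with rfl | rfl <;> rcases hb.b2 with rfl | rfl <;> rcases hb.b3 with rfl | rfl <;>
      try (norm_num at h3; done)
    exact bridge_congr_of (bridge_ball hr) 1 h
  · refine Or.inr (Or.inl ⟨h4, h5, ?_⟩)
    rw [h3, mvol, if_neg (by norm_num), if_pos rfl] at hV
    have e : √(V / π) = r := by
      rw [show V / π = r ^ 2 by rw [hV]; field_simp, Real.sqrt_sq hr.le]
    rw [e]
    rcases hb.b1 with rfl | rfl <;> rcases hb.b2 with rfl | rfl <;> rcases hb.b3 with rfl | rfl <;>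
      try (norm_num at h3; done)
    · exact bridge_congr_of (bridge_tube r) (Equiv.swap 0 2) h
    · exact bridge_congr_of (bridge_tube r) (Equiv.swap 1 2) h
    · exact bridge_congr_of (bridge_tube r) 1 h
  · refine Or.inr (Or.inr ⟨h4, ?_⟩)
    rw [h3, mvol, if_neg (by norm_num), if_neg (by norm_num)] at hV
    obtain rfl : r = V / 2 := by linarith
    have hV0 : 0 < V := by linarith
    rcases hb.b1 with rfl | rfl <;> rcases hb.b2 with rfl | rfl <;> rcases hb.b3 with rfl | rfl <;>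
      try (norm_num at h3; done)
    · exact bridge_congr_of (bridge_slab hV0) (Equiv.swap 0 2) h
    · exact bridge_congr_of (bridge_slab hV0) (Equiv.swap 0 1) h
    · exact bridge_congr_of (bridge_slab hV0) 1 h

/-- signs do not matter since `dz (-s) = dz s` -/
theorem mod_of_isStandardRegion {V : ℝ} {E : Set E3} (h0 : 0 < V) (h1 : V ≤ 1 / 2)
    (h : IsStandardRegion V E) : ∃ (e1 e2 e3 r : ℝ) (c : X), Bits e1 e2 e3 ∧
      Std V (e1 + e2 + e3) r ∧ ofX ⁻¹' E =ᵐ[volume] tr c (Mod e1 e2 e3 r) := by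
  have hπ := Real.pi_pos
  rcases h with ⟨h2, h3⟩ | ⟨h2, h3, h4⟩ | ⟨h2, h3⟩
  · have hx : 0 < 3 * V / (4 * π) := by positivity
    have hr : 0 < (3 * V / (4 * π)) ^ ((1 : ℝ) / 3) := Real.rpow_pos_of_pos hx _
    obtain ⟨e1, e2, e3, c, hb, hs, hE⟩ := bridge_of_congr (bridge_ball hr)
      (fun i => by fin_cases i <;> simp) (by simp) h3
    have hs' : e1 + e2 + e3 = 3 := by rw [hs]; simp; norm_num
    refine ⟨e1, e2, e3, _, c, hb, ⟨hr, ?_, Or.inl ⟨hs', h2⟩⟩, hE⟩
    have e : ((3 * V / (4 * π)) ^ ((1 : ℝ) / 3)) ^ 3 = 3 * V / (4 * π) := by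
      rw [one_div]
      exact_mod_cast Real.rpow_inv_natCast_pow hx.le (by norm_num : (3 : ℕ) ≠ 0)
    rw [hs', mvol, if_pos rfl, e]
    field_simp
  · have hx : 0 < V / π := by positivity
    obtain ⟨e1, e2, e3, c, hb, hs, hE⟩ := bridge_of_congr (bridge_tube √(V / π))
      (fun i => by fin_cases i <;> simp) (by simp) h4
    have hs' : e1 + e2 + e3 = 2 := by rw [hs]; simp; norm_num
    refine ⟨e1, e2, e3, _, c, hb, ⟨Real.sqrt_pos.2 hx, ?_, Or.inr (Or.inl ⟨hs', h2, h3⟩)⟩, hE⟩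
    rw [hs', mvol, if_neg (by norm_num), if_pos rfl, Real.sq_sqrt hx.le]
    field_simp
  · obtain ⟨e1, e2, e3, c, hb, hs, hE⟩ := bridge_of_congr (bridge_slab h0)
      (fun i => by fin_cases i <;> simp) (by simp) h3
    have hs' : e1 + e2 + e3 = 1 := by rw [hs]; simp
    refine ⟨e1, e2, e3, _, c, hb, ⟨by linarith, ?_, Or.inr (Or.inr ⟨hs', h2, h1⟩)⟩, hE⟩
    rw [hs', mvol, if_neg (by norm_num), if_neg (by norm_num)]
    ring

end Crest.Agent.R214
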