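import Crest.Agent.R214.TBasic

/-! Row 214: down-sets, heights and slices. -/

set_option autoImplicit false

namespace Crest.Agent.R214

open MeasureTheory Set Filter Topology Real
open scoped ENNReal

variable {D : Set X}

lemma measurableSet_Q : MeasurableSet Q :=
  measurableSet_Ioo.prod (measurableSet_Ioo.prod measurableSet_Ioo)
lemma volume_Q : volume Q = 1 := by
  simp [Q, Measure.volume_eq_prod, Measure.prod_prod]
lemma volume_II : volume (I ×ˢ I : Set (ℝ × ℝ)) = 1 := by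
  simp [Measure.volume_eq_prod, Measure.prod_prod]

lemma cbasic_refl : MeasurePreserving (fun p : X => ((1 - p.1, 1 - p.2.1, 1 - p.2.2) : X))
    volume volume :=
  (Measure.measurePreserving_sub_left volume (1 : ℝ)).prod
    ((Measure.measurePreserving_sub_left volume (1 : ℝ)).prod
      (Measure.measurePreserving_sub_left volume (1 : ℝ)))
lemma cbasic_refl_Q {p : X} : ((1 - p.1, 1 - p.2.1, 1 - p.2.2) : X) ∈ Q ↔ p ∈ Q := by
  simp only [Q, mem_prod, mem_Ioo, sub_pos, sub_lt_self_iff]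
  tauto
lemma cbasic_swap (s : Set (ℝ × ℝ)) : volume (Prod.swap ⁻¹' s) = volume s :=
  MeasurePreserving.measure_preimage_equiv (f := MeasurableEquiv.prodComm)
    Measure.measurePreserving_swap s
lemma cbasic_ne_top {s : Set (ℝ × ℝ)} (hs : s ⊆ I ×ˢ I) : volume s ≠ ⊤ :=
  ne_top_of_le_ne_top ENNReal.one_ne_top ((measure_mono hs).trans_eq volume_II)
lemma cbasic_fubini {β : Type*} [MeasureSpace β] [SFinite (volume : Measure β)] {s : Set (ℝ × β)}
    (hs : MeasurableSet s) (h1 : ∀ p ∈ s, p.1 ∈ I) (h2 : ∀ t, volume (Prod.mk t ⁻¹' s) ≠ ⊤) :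
    ∫ t in I, (volume (Prod.mk t ⁻¹' s)).toReal = (volume s).toReal := by
  rw [setIntegral_eq_integral_of_forall_compl_eq_zero, Measure.volume_eq_prod,
    Measure.prod_apply hs, integral_toReal (measurable_measure_prodMk_left hs).aemeasurable
      (Eventually.of_forall fun t => (h2 t).lt_top)]
  intro t ht
  have : Prod.mk t ⁻¹' s = ∅ := eq_empty_of_forall_notMem fun q hq => ht (h1 _ hq)
  simp [this]

protected lemma Down.cyc (h : Down D) : Down (cyc ⁻¹' D) := by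
  refine ⟨measurePreserving_cyc.measurable h.meas, fun p hp => ?_, fun p hp q hq hle => ?_⟩
  · have := h.sub hp
    exact ⟨this.2.2, this.1, this.2.1⟩
  · exact h.low _ hp _ ⟨hq.2.1, hq.2.2, hq.1⟩ ⟨hle.2.1, hle.2.2, hle.1⟩
protected lemma Down.swp (h : Down D) : Down (swp ⁻¹' D) := by
  refine ⟨measurePreserving_swp.measurable h.meas, fun p hp => ?_, fun p hp q hq hle => ?_⟩
  · have := h.sub hp
    exact ⟨this.1, this.2.2, this.2.1⟩
  · exact h.low _ hp _ ⟨hq.1, hq.2.2, hq.2.1⟩ ⟨hle.1, hle.2.2, hle.2.1⟩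
protected lemma Down.cpl (h : Down D) : Down (cpl D) := by
  refine ⟨measurableSet_Q.diff (cbasic_refl.measurable h.meas), fun p hp => hp.1,
    fun p hp q hq hle => ⟨hq, fun hm => hp.2 (h.low _ hm _ (cbasic_refl_Q.2 hp.1) ?_)⟩⟩
  exact ⟨sub_le_sub_left hle.1 1, sub_le_sub_left hle.2.1 1, sub_le_sub_left hle.2.2 1⟩
lemma down_empty : Down ∅ := by
  exact ⟨MeasurableSet.empty, empty_subset _, fun _ h => h.elim⟩
lemma vol_cyc (D : Set X) : vol (cyc ⁻¹' D) = vol D := by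
  exact congrArg ENNReal.toReal (MeasurePreserving.measure_preimage_equiv
    (f := ⟨⟨cyc, cyi, fun _ => rfl, fun _ => rfl⟩, measurePreserving_cyc.measurable,
      measurePreserving_cyi.measurable⟩) measurePreserving_cyc D)
lemma vol_swp (D : Set X) : vol (swp ⁻¹' D) = vol D := by
  exact congrArg ENNReal.toReal (MeasurePreserving.measure_preimage_equiv
    (f := ⟨⟨swp, swp, fun _ => rfl, fun _ => rfl⟩, measurePreserving_swp.measurable,
      measurePreserving_swp.measurable⟩) measurePreserving_swp D)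
lemma Down.vol_cpl (h : Down D) : vol (cpl D) = 1 - vol D := by
  have e : R214.cpl D = Q \ (fun p : X => ((1 - p.1, 1 - p.2.1, 1 - p.2.2) : X)) ⁻¹' D := rfl
  have h1 := cbasic_refl.measure_preimage h.meas.nullMeasurableSet
  have h2 : volume D ≤ 1 := (measure_mono h.sub).trans_eq volume_Q
  have h3 : volume D ≠ ⊤ := ne_top_of_le_ne_top ENNReal.one_ne_top h2
  have h4 : (fun p : X => ((1 - p.1, 1 - p.2.1, 1 - p.2.2) : X)) ⁻¹' D ⊆ Q :=
    fun p hp => cbasic_refl_Q.1 (h.sub hp)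
  rw [vol, e, measure_sdiff h4
    (cbasic_refl.measurable h.meas).nullMeasurableSet (by rw [h1]; exact h3), h1, volume_Q,
    ENNReal.toReal_sub_of_le h2 ENNReal.one_ne_top, ENNReal.toReal_one, vol]
lemma vol_nonneg (D : Set X) : 0 ≤ vol D := ENNReal.toReal_nonneg
lemma Down.vol_le_one (h : Down D) : vol D ≤ 1 := by
  exact ENNReal.toReal_le_of_le_ofReal zero_le_one
    ((measure_mono h.sub).trans_eq (by rw [volume_Q, ENNReal.ofReal_one]))

lemma u1_cyc (D : Set X) : u1 (cyc ⁻¹' D) = u3 D := rfl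
lemma u2_cyc (D : Set X) (q : ℝ × ℝ) : u2 (cyc ⁻¹' D) q = u1 D (q.2, q.1) := rfl
lemma u3_cyc (D : Set X) (q : ℝ × ℝ) : u3 (cyc ⁻¹' D) q = u2 D (q.2, q.1) := rfl
lemma u1_swp (D : Set X) (q : ℝ × ℝ) : u1 (swp ⁻¹' D) q = u1 D (q.2, q.1) := rfl
lemma u2_swp (D : Set X) : u2 (swp ⁻¹' D) = u3 D := rfl
lemma u3_swp (D : Set X) : u3 (swp ⁻¹' D) = u2 D := rfl
lemma sa_cyc (D : Set X) : sa (cyc ⁻¹' D) = sc D := rfl
lemma sb_cyc (D : Set X) : sb (cyc ⁻¹' D) = sa D := by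
  exact funext fun t => congrArg ENNReal.toReal (cbasic_swap {q : ℝ × ℝ | (t, q.1, q.2) ∈ D})
lemma sc_cyc (D : Set X) : sc (cyc ⁻¹' D) = sb D := by
  exact funext fun t => congrArg ENNReal.toReal (cbasic_swap {q : ℝ × ℝ | (q.1, t, q.2) ∈ D})
lemma sa_swp (D : Set X) : sa (swp ⁻¹' D) = sa D := by
  exact funext fun t => congrArg ENNReal.toReal (cbasic_swap {q : ℝ × ℝ | (t, q.1, q.2) ∈ D})
lemma sa_cyc_cyc (D : Set X) : sa (cyc ⁻¹' (cyc ⁻¹' D)) = sb D := by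
  rw [sa_cyc, sc_cyc]
lemma rho_swp (D : Set X) : rho (swp ⁻¹' D) = sig D := rfl
lemma sig_swp (D : Set X) : sig (swp ⁻¹' D) = rho D := rfl
lemma ext2_swp (D : Set X) : ext2 (swp ⁻¹' D) = ext3 D := rfl
lemma ext3_swp (D : Set X) : ext3 (swp ⁻¹' D) = ext2 D := rfl
lemma cyc_cmod (e1 e2 e3 R : ℝ) : cyc ⁻¹' CMod e1 e2 e3 R = CMod e3 e1 e2 R := by
  ext p
  simp only [CMod, cyc, Q, mem_preimage, mem_ofPred_eq, mem_prod]
  refine and_congr (by tauto) ?_
  rw [add_comm, ← add_assoc]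

/-- a subset of `I` that is a lower set of `I` is squeezed between `(0, u)` and `(0, u]`, `u` its
measure -/
lemma lower_iff {s : Set ℝ} (hs : s ⊆ I) (hl : ∀ x ∈ s, ∀ y ∈ I, y ≤ x → y ∈ s) :
    (∀ x ∈ I, x < (volume s).toReal → x ∈ s) ∧ (∀ x ∈ s, x ≤ (volume s).toReal) ∧
      (volume s).toReal ≤ 1 := by
  have h1 : volume s ≤ 1 := (measure_mono hs).trans_eq (by simp)
  refine ⟨fun x hx hlt => ?_, fun x hx => ?_,
    ENNReal.toReal_le_of_le_ofReal zero_le_one (by simpa using h1)⟩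
  · by_contra hn
    have h2 : s ⊆ Ioo 0 x := fun y hy => ⟨(hs hy).1, not_le.1 fun hxy => hn (hl y hy x hx hxy)⟩
    have h3 : volume s ≤ ENNReal.ofReal x := (measure_mono h2).trans_eq (by simp)
    exact absurd (ENNReal.toReal_le_of_le_ofReal hx.1.le h3) (not_le.2 hlt)
  · have h2 : Ioo 0 x ⊆ s := fun y hy => hl x hx y ⟨hy.1, hy.2.trans (hs hx).2⟩ hy.2.le
    have h3 : ENNReal.ofReal x ≤ volume s := le_of_eq_of_le (by simp) (measure_mono h2)
    exact (ENNReal.ofReal_le_iff_le_toReal (ne_top_of_le_ne_top ENNReal.one_ne_top h1)).1 h3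
lemma lower_ae {s : Set ℝ} (hs : s ⊆ I) (hl : ∀ x ∈ s, ∀ y ∈ I, y ≤ x → y ∈ s) :
    s =ᵐ[volume] Ioo 0 (volume s).toReal := by
  obtain ⟨h1, h2, h3⟩ := lower_iff hs hl
  filter_upwards [compl_mem_ae_iff.2 (measure_singleton (volume s).toReal)] with x hx
  exact propext ⟨fun h => ⟨(hs h).1, lt_of_le_of_ne (h2 x h) hx⟩,
    fun h => h1 x ⟨h.1, h.2.trans_le h3⟩ h.2⟩

lemma Down.cbasic_low (h : Down D) (y z : ℝ) :
    (∀ x ∈ I, x < u1 D (y, z) → (x, y, z) ∈ D) ∧ (∀ x, (x, y, z) ∈ D → x ≤ u1 D (y, z)) ∧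
      u1 D (y, z) ≤ 1 :=
  lower_iff (s := {x : ℝ | (x, y, z) ∈ D}) (fun _ hx => (h.sub hx).1)
    fun _ hx _ hy hle => h.low _ hx _ ⟨hy, (h.sub hx).2⟩ ⟨hle, le_rfl⟩
lemma Down.cbasic_le (h : Down D) (t : ℝ) : volume {q : ℝ × ℝ | (t, q.1, q.2) ∈ D} ≤ 1 :=
  le_of_le_of_eq (measure_mono fun _ hq => (h.sub hq).2) volume_II
lemma Down.cbasic_ne (h : Down D) (t : ℝ) : volume {q : ℝ × ℝ | (t, q.1, q.2) ∈ D} ≠ ⊤ :=
  cbasic_ne_top fun _ hq => (h.sub hq).2
lemma Down.cbasic_u3 (h : Down D) (t : ℝ) : sa D t = ∫ y in I, u3 D (t, y) :=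
  (cbasic_fubini (s := {q : ℝ × ℝ | (t, q.1, q.2) ∈ D}) (measurable_prodMk_left h.meas)
    (fun _ hp => (h.sub hp).2.1) fun _ => ne_top_of_le_ne_top (b := volume I) (by simp)
      (measure_mono fun _ hx => (h.sub hx).2.2)).symm

lemma Down.measurable_u1 (h : Down D) : Measurable (u1 D) := by
  exact (measurable_measure_prodMk_right (μ := volume) h.meas).ennreal_toReal
lemma Down.measurable_u2 (h : Down D) : Measurable (u2 D) := by
  exact h.swp.cyc.measurable_u1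
lemma Down.measurable_u3 (h : Down D) : Measurable (u3 D) := by
  exact h.cyc.measurable_u1
lemma u1_nonneg (D : Set X) (q : ℝ × ℝ) : 0 ≤ u1 D q := ENNReal.toReal_nonneg
lemma u2_nonneg (D : Set X) (q : ℝ × ℝ) : 0 ≤ u2 D q := ENNReal.toReal_nonneg
lemma u3_nonneg (D : Set X) (q : ℝ × ℝ) : 0 ≤ u3 D q := ENNReal.toReal_nonneg
lemma Down.u1_le (h : Down D) (q : ℝ × ℝ) : u1 D q ≤ 1 := by
  exact (h.cbasic_low q.1 q.2).2.2
lemma Down.u2_le (h : Down D) (q : ℝ × ℝ) : u2 D q ≤ 1 := by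
  exact h.swp.cyc.u1_le q
lemma Down.u3_le (h : Down D) (q : ℝ × ℝ) : u3 D q ≤ 1 := by
  exact h.cyc.u1_le q
lemma Down.mem_of_lt_u1 (h : Down D) {x y z : ℝ} (hx : x ∈ I) (hl : x < u1 D (y, z)) :
    (x, y, z) ∈ D := by
  exact (h.cbasic_low y z).1 x hx hl
lemma Down.mem_of_lt_u2 (h : Down D) {x y z : ℝ} (hy : y ∈ I) (hl : y < u2 D (x, z)) :
    (x, y, z) ∈ D := by
  exact h.swp.cyc.mem_of_lt_u1 hy hl
lemma Down.mem_of_lt_u3 (h : Down D) {x y z : ℝ} (hz : z ∈ I) (hl : z < u3 D (x, y)) :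
    (x, y, z) ∈ D := by
  exact h.cyc.mem_of_lt_u1 hz hl
lemma Down.le_u1 (h : Down D) {x y z : ℝ} (hm : (x, y, z) ∈ D) : x ≤ u1 D (y, z) := by
  exact (h.cbasic_low y z).2.1 x hm
lemma Down.le_u2 (h : Down D) {x y z : ℝ} (hm : (x, y, z) ∈ D) : y ≤ u2 D (x, z) := by
  exact h.swp.cyc.le_u1 (x := y) (y := x) (z := z) hm
lemma Down.le_u3 (h : Down D) {x y z : ℝ} (hm : (x, y, z) ∈ D) : z ≤ u3 D (x, y) := by
  exact h.cyc.le_u1 (x := z) (y := x) (z := y) hm
lemma Down.anti_u1 (h : Down D) {q q' : ℝ × ℝ} (hq : q ∈ I ×ˢ I) (hle : q ≤ q') :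
    u1 D q' ≤ u1 D q := by
  refine ENNReal.toReal_mono (ne_top_of_le_ne_top (b := volume I) (by simp)
    (measure_mono fun x hx => (h.sub hx).1)) (measure_mono fun x hx => ?_)
  exact h.low _ hx _ ⟨(h.sub hx).1, hq⟩ ⟨le_rfl, hle⟩
lemma Down.anti_u2 (h : Down D) {q q' : ℝ × ℝ} (hq : q ∈ I ×ˢ I) (hle : q ≤ q') :
    u2 D q' ≤ u2 D q := by
  exact h.swp.cyc.anti_u1 hq hle
lemma Down.anti_u3 (h : Down D) {q q' : ℝ × ℝ} (hq : q ∈ I ×ˢ I) (hle : q ≤ q') :
    u3 D q' ≤ u3 D q := by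
  exact h.cyc.anti_u1 hq hle
lemma Down.measurableSet_act1 (h : Down D) : MeasurableSet (act (u1 D)) := by
  exact (measurableSet_Ioo.prod measurableSet_Ioo).inter
    ((measurableSet_lt measurable_const h.measurable_u1).inter
      (measurableSet_lt h.measurable_u1 measurable_const))
lemma Down.measurableSet_act2 (h : Down D) : MeasurableSet (act (u2 D)) := by
  exact h.swp.cyc.measurableSet_act1
lemma Down.measurableSet_act3 (h : Down D) : MeasurableSet (act (u3 D)) := by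
  exact h.cyc.measurableSet_act1

/-- a down-set is a.e. the subgraph of its height -/
lemma Down.ae_eq_u1 (h : Down D) : D =ᵐ[volume] {p : X | p ∈ Q ∧ p.1 < u1 D p.2} := by
  have h1 : volume {p : X | p.1 = u1 D p.2} = 0 := by
    have hm : MeasurableSet {p : X | p.1 = u1 D p.2} :=
      measurableSet_eq_fun measurable_fst (h.measurable_u1.comp measurable_snd)
    rw [Measure.volume_eq_prod, Measure.prod_apply_symm hm]
    simp
  filter_upwards [compl_mem_ae_iff.2 h1] with p hp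
  exact propext ⟨fun hm => ⟨h.sub hm, lt_of_le_of_ne (h.le_u1 hm) hp⟩,
    fun hm => h.mem_of_lt_u1 hm.1.1 hm.2⟩
lemma Down.ae_eq_u3 (h : Down D) :
    D =ᵐ[volume] {p : X | p ∈ Q ∧ p.2.2 < u3 D (p.1, p.2.1)} := by
  filter_upwards [measurePreserving_cyi.quasiMeasurePreserving.ae h.cyc.ae_eq_u1] with p hp
  refine hp.trans (propext (and_congr_left' ?_))
  exact ⟨fun hq => ⟨hq.2.1, hq.2.2, hq.1⟩, fun hq => ⟨hq.2.2, hq.1, hq.2.1⟩⟩

lemma Down.measurable_sa (h : Down D) : Measurable (sa D) := by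
  exact (measurable_measure_prodMk_left (ν := volume) h.meas).ennreal_toReal
lemma sa_nonneg (D : Set X) (t : ℝ) : 0 ≤ sa D t := ENNReal.toReal_nonneg
lemma Down.sa_le_one (h : Down D) (t : ℝ) : sa D t ≤ 1 := by
  exact ENNReal.toReal_le_of_le_ofReal zero_le_one (by simpa using h.cbasic_le t)
lemma Down.anti_sa (h : Down D) : AntitoneOn (sa D) I := by
  intro s hs t _ hst
  exact ENNReal.toReal_mono (h.cbasic_ne s) (measure_mono fun q hq =>
    h.low _ hq _ ⟨hs, (h.sub hq).2⟩ ⟨hst, le_rfl⟩)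
lemma Down.integral_sa (h : Down D) : ∫ t in I, sa D t = vol D := by
  exact cbasic_fubini h.meas (fun p hp => (h.sub hp).1) h.cbasic_ne
lemma Down.sa_eq_u2 (h : Down D) (t : ℝ) : sa D t = ∫ z in I, u2 D (t, z) := by
  rw [← sa_swp]
  exact h.swp.cbasic_u3 t
lemma Down.sa_eq_u3 (h : Down D) (t : ℝ) : sa D t = ∫ y in I, u3 D (t, y) := by
  exact h.cbasic_u3 t
lemma al_nonneg (D : Set X) : 0 ≤ al D := ENNReal.toReal_nonneg
lemma be_le_one (D : Set X) : be D ≤ 1 := by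
  exact ENNReal.toReal_le_of_le_ofReal zero_le_one
    ((measure_mono fun q hq => hq.1).trans_eq (by rw [volume_II, ENNReal.ofReal_one]))
lemma Down.al_le_sa (h : Down D) {t : ℝ} (ht : t ∈ I) : al D ≤ sa D t := by
  exact ENNReal.toReal_mono (h.cbasic_ne t) (measure_mono fun q hq =>
    h.mem_of_lt_u1 ht (ht.2.trans_eq hq.2.symm))
lemma Down.sa_le_be (h : Down D) {t : ℝ} (ht : t ∈ I) : sa D t ≤ be D := by
  exact ENNReal.toReal_mono (cbasic_ne_top fun q hq => hq.1) (measure_mono fun q hq =>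
    ⟨(h.sub hq).2, ht.1.trans_le (h.le_u1 hq)⟩)
/-- continuity of the measure along monotone families -/
lemma Down.tendsto_al (h : Down D) : Tendsto (sa D) (𝓝[<] 1) (𝓝 (al D)) := by
  refine (ENNReal.tendsto_toReal (cbasic_ne_top fun q hq => hq.1)).comp
    (tendsto_measure_of_tendsto_indicator (As := fun t => {q : ℝ × ℝ | (t, q.1, q.2) ∈ D})
      (𝓝[<] (1 : ℝ)) (fun t => measurable_prodMk_left h.meas)
      (measurableSet_Ioo.prod measurableSet_Ioo) (cbasic_ne_top le_rfl)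
      (Eventually.of_forall fun t q hq => (h.sub hq).2) fun q => ?_)
  by_cases hq : u1 D q = 1
  · filter_upwards [Ioo_mem_nhdsLT (zero_lt_one (α := ℝ))] with t ht
    exact ⟨fun hm => ⟨(h.sub hm).2, hq⟩, fun _ => h.mem_of_lt_u1 ht (ht.2.trans_eq hq.symm)⟩
  · filter_upwards [Ioo_mem_nhdsLT (lt_of_le_of_ne (h.u1_le q) hq)] with t ht
    exact ⟨fun hm => absurd (h.le_u1 hm) (not_le.2 ht.1), fun hm => absurd hm.2 hq⟩
lemma Down.tendsto_be (h : Down D) : Tendsto (sa D) (𝓝[>] 0) (𝓝 (be D)) := by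
  refine (ENNReal.tendsto_toReal (cbasic_ne_top fun q hq => hq.1)).comp
    (tendsto_measure_of_tendsto_indicator (As := fun t => {q : ℝ × ℝ | (t, q.1, q.2) ∈ D})
      (𝓝[>] (0 : ℝ)) (fun t => measurable_prodMk_left h.meas)
      (measurableSet_Ioo.prod measurableSet_Ioo) (cbasic_ne_top le_rfl)
      (Eventually.of_forall fun t q hq => (h.sub hq).2) fun q => ?_)
  by_cases hq : 0 < u1 D q
  · filter_upwards [Ioo_mem_nhdsGT hq] with t ht
    exact ⟨fun hm => ⟨(h.sub hm).2, hq⟩,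
      fun _ => h.mem_of_lt_u1 ⟨ht.1, ht.2.trans_le (h.u1_le q)⟩ ht.2⟩
  · exact Eventually.of_forall fun t =>
      ⟨fun hm => absurd ((h.sub hm).1.1.trans_le (h.le_u1 hm)) hq, fun hm => absurd hm.2 hq⟩
lemma Down.real_act1 (h : Down D) : (volume (act (u1 D))).toReal = be D - al D := by
  have e : act (u1 D) = {q : ℝ × ℝ | q ∈ I ×ˢ I ∧ 0 < u1 D q} \ {q | q ∈ I ×ˢ I ∧ u1 D q = 1} := by
    ext q
    exact ⟨fun hq => ⟨⟨hq.1, hq.2.1⟩, fun h' => hq.2.2.ne h'.2⟩, fun hq =>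
      ⟨hq.1.1, hq.1.2, lt_of_le_of_ne (h.u1_le q) fun h' => hq.2 ⟨hq.1.1, h'⟩⟩⟩
  have hs : {q : ℝ × ℝ | q ∈ I ×ˢ I ∧ u1 D q = 1} ⊆ {q | q ∈ I ×ˢ I ∧ 0 < u1 D q} :=
    fun q hq => ⟨hq.1, zero_lt_one.trans_eq hq.2.symm⟩
  have hm : MeasurableSet {q : ℝ × ℝ | q ∈ I ×ˢ I ∧ u1 D q = 1} :=
    (measurableSet_Ioo.prod measurableSet_Ioo).inter
      (measurableSet_eq_fun h.measurable_u1 measurable_const)
  rw [e, measure_sdiff hs hm.nullMeasurableSet (cbasic_ne_top fun q hq => hq.1),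
    ENNReal.toReal_sub_of_le (measure_mono hs) (cbasic_ne_top fun q hq => hq.1)]
  rfl

end Crest.Agent.R214
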