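import Crest.Agent.R214.CBasic

/-! Row 214: contacts and extents of the slices. -/

set_option autoImplicit false

namespace Crest.Agent.R214

open MeasureTheory Set Filter Topology Real
open scoped ENNReal

variable {D : Set X}

lemma cgeo_fin {s : Set ℝ} (hs : s ⊆ I) : volume s ≠ ⊤ :=
  ((measure_mono hs).trans_lt measure_Ioo_lt_top).ne
lemma cgeo_mono {s s' : Set ℝ} (h : s ⊆ s') (hs : s' ⊆ I) :
    (volume s).toReal ≤ (volume s').toReal :=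
  ENNReal.toReal_mono (cgeo_fin hs) (measure_mono h)
lemma cgeo_one {P : ℝ → Prop} (h : ∀ y ∈ I, P y) : (volume {y | y ∈ I ∧ P y}).toReal = 1 := by
  rw [show {y | y ∈ I ∧ P y} = I from Set.ext fun y => ⟨fun hy => hy.1, fun hy => ⟨hy, h y hy⟩⟩]
  simp
lemma cgeo_ne {α : Type*} [MeasureSpace α] {s : Set α} (h : 0 < (volume s).toReal) : s.Nonempty :=
  nonempty_of_measure_ne_zero (ENNReal.toReal_pos_iff.1 h).1.ne'
lemma cgeo_u3_pos (h : Down D) {t y : ℝ} (h0 : 0 < u3 D (t, y)) : t ∈ I := by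
  obtain ⟨z, hz⟩ := cgeo_ne h0
  exact (h.sub hz).1
lemma cgeo_fin2 (P : ℝ × ℝ → Prop) : volume {q : ℝ × ℝ | q ∈ I ×ˢ I ∧ P q} ≠ ⊤ :=
  ((measure_mono fun _ hq => hq.1).trans_lt (volume_II.trans_lt ENNReal.one_lt_top)).ne
lemma cgeo_meas {P : ℝ × ℝ → Prop} (hP : MeasurableSet {q | P q}) :
    Measurable fun t => volume {y | y ∈ I ∧ P (t, y)} :=
  measurable_measure_prodMk_left (s := {q : ℝ × ℝ | q.2 ∈ I ∧ P q})
    ((measurable_snd measurableSet_Ioo).inter hP)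
lemma cgeo_int {f : ℝ → ℝ} (hf : Measurable f) (h0 : ∀ t, 0 ≤ f t) (h1 : ∀ t, f t ≤ 1) :
    IntegrableOn f I :=
  IntegrableOn.of_bound measure_Ioo_lt_top hf.aestronglyMeasurable 1
    (ae_of_all _ fun t => by rw [Real.norm_of_nonneg (h0 t)]; exact h1 t)
lemma cgeo_ae_eq {f g : ℝ → ℝ} (hf : IntegrableOn f I) (hg : IntegrableOn g I)
    (hle : ∀ t ∈ I, f t ≤ g t) (he : ∫ t in I, f t = ∫ t in I, g t) :
    f =ᵐ[volume.restrict I] g :=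
  (integral_eq_iff_of_ae_le hf hg (ae_restrict_of_forall_mem measurableSet_Ioo hle)).1 he
lemma cgeo_ex {f g : ℝ → ℝ} (h : f =ᵐ[volume.restrict I] g) {a b : ℝ} (h0 : 0 ≤ a) (hab : a < b)
    (h1 : b ≤ 1) : ∃ z ∈ Ioo a b, f z = g z :=
  Measure.exists_mem_of_measure_ne_zero_of_ae (μ := volume) (by simpa using hab)
    (ae_restrict_of_ae_restrict_of_subset (Ioo_subset_Ioo h0 h1) h)
lemma cgeo_fubini {P : ℝ × ℝ → Prop} (hP : MeasurableSet {q | P q}) :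
    ∫ t in I, (volume {y | y ∈ I ∧ P (t, y)}).toReal =
      (volume {q : ℝ × ℝ | q ∈ I ×ˢ I ∧ P q}).toReal := by
  have hS : MeasurableSet {q : ℝ × ℝ | q ∈ I ×ˢ I ∧ P q} :=
    (measurableSet_Ioo.prod measurableSet_Ioo).inter hP
  rw [integral_toReal (cgeo_meas hP).aemeasurable
    (ae_of_all _ fun t => (cgeo_fin fun _ hy => hy.1).lt_top), Measure.volume_eq_prod,
    Measure.prod_apply hS, ← lintegral_indicator measurableSet_Ioo]
  congr 1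
  refine lintegral_congr fun t => ?_
  by_cases ht : t ∈ I
  · rw [indicator_of_mem ht]
    congr 1
    exact Set.ext fun y => ⟨fun hy => ⟨⟨ht, hy.1⟩, hy.2⟩, fun hy => ⟨hy.1.2, hy.2⟩⟩
  · rw [indicator_of_notMem ht]
    exact (measure_mono_null (t := ∅) (fun y hy => ht hy.1.1) measure_empty).symm
lemma cgeo_swap (P : ℝ × ℝ → Prop) : volume {q : ℝ × ℝ | q ∈ I ×ˢ I ∧ P (q.2, q.1)} =
    volume {q : ℝ × ℝ | q ∈ I ×ˢ I ∧ P q} := by
  refine Eq.trans ?_ ((Measure.measurePreserving_swap (μ := (volume : Measure ℝ))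
    (ν := (volume : Measure ℝ))).measure_preimage_emb
    MeasurableEquiv.prodComm.measurableEmbedding {q : ℝ × ℝ | q ∈ I ×ˢ I ∧ P q})
  exact congrArg _ (Set.ext fun q => ⟨fun hq => ⟨⟨hq.1.2, hq.1.1⟩, hq.2⟩,
    fun hq => ⟨⟨hq.1.2, hq.1.1⟩, hq.2⟩⟩)
lemma cgeo_al (D : Set X) : al (cyc ⁻¹' (cyc ⁻¹' D)) = al (cyc ⁻¹' (swp ⁻¹' D)) :=
  congrArg ENNReal.toReal (cgeo_swap fun q => u2 D q = 1)
lemma cgeo_be (D : Set X) : be (cyc ⁻¹' (cyc ⁻¹' D)) = be (cyc ⁻¹' (swp ⁻¹' D)) :=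
  congrArg ENNReal.toReal (cgeo_swap fun q => 0 < u2 D q)
lemma cgeo_integral_sig (h : Down D) : ∫ t in I, sig D t = al (cyc ⁻¹' D) :=
  cgeo_fubini (P := fun q => u3 D q = 1) (h.measurable_u3 (measurableSet_singleton 1))
lemma cgeo_sig_eq_zero (h : Down D) (h0 : al (cyc ⁻¹' D) = 0) {t : ℝ} (ht : t ∈ I) :
    sig D t = 0 := by
  by_contra hne
  obtain ⟨y, hy, hy1⟩ := cgeo_ne (lt_of_le_of_ne ENNReal.toReal_nonneg (Ne.symm hne))
  have h1 : volume {q : ℝ × ℝ | q ∈ I ×ˢ I ∧ u3 D q = 1} = 0 :=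
    ((ENNReal.toReal_eq_zero_iff _).1 h0).resolve_right (cgeo_fin2 _)
  have h2 : volume (Ioo 0 t ×ˢ Ioo 0 y : Set (ℝ × ℝ)) = 0 := by
    refine measure_mono_null (fun q hq => ?_) h1
    have hq' : q ∈ I ×ˢ I := ⟨⟨hq.1.1, hq.1.2.trans ht.2⟩, hq.2.1, hq.2.2.trans hy.2⟩
    exact ⟨hq', le_antisymm (h.u3_le q)
      (hy1.ge.trans (h.anti_u3 (q' := (t, y)) hq' ⟨hq.1.2.le, hq.2.2.le⟩))⟩
  rw [Measure.volume_eq_prod, Measure.prod_prod] at h2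
  simp [ht.1.not_ge, hy.1.not_ge] at h2

lemma rho_nonneg (D : Set X) (t : ℝ) : 0 ≤ rho D t := ENNReal.toReal_nonneg
lemma sig_nonneg (D : Set X) (t : ℝ) : 0 ≤ sig D t := ENNReal.toReal_nonneg
lemma Down.measurable_rho (h : Down D) : Measurable (rho D) := by
  exact (cgeo_meas (P := fun q => u2 D q = 1)
    (h.measurable_u2 (measurableSet_singleton 1))).ennreal_toReal
lemma Down.measurable_sig (h : Down D) : Measurable (sig D) := h.swp.measurable_rho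
lemma Down.measurable_ext2 (h : Down D) : Measurable (ext2 D) := by
  exact (cgeo_meas (P := fun q => 0 < u3 D q) (h.measurable_u3 measurableSet_Ioi)).ennreal_toReal
lemma Down.measurable_ext3 (h : Down D) : Measurable (ext3 D) := h.swp.measurable_ext2
lemma Down.anti_rho (h : Down D) : AntitoneOn (rho D) I := by
  intro s hs t _ hst
  exact cgeo_mono (fun z hz => ⟨hz.1, le_antisymm (h.u2_le _)
    (hz.2.ge.trans (h.anti_u2 (q := (s, z)) ⟨hs, hz.1⟩ ⟨hst, le_rfl⟩))⟩) fun _ hz => hz.1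
lemma Down.anti_sig (h : Down D) : AntitoneOn (sig D) I := h.swp.anti_rho
lemma Down.rho_le_sa (h : Down D) (t : ℝ) : rho D t ≤ sa D t := by
  have hm : Measurable fun z => u2 D (t, z) := h.measurable_u2.comp measurable_prodMk_left
  have hS : MeasurableSet {z : ℝ | z ∈ I ∧ u2 D (t, z) = 1} :=
    measurableSet_Ioo.inter (hm (measurableSet_singleton 1))
  calc rho D t = ∫ z in {z : ℝ | z ∈ I ∧ u2 D (t, z) = 1}, u2 D (t, z) := by
        rw [setIntegral_congr_fun hS (g := fun _ => 1) fun z hz => hz.2]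
        simp [rho, Measure.real]
    _ ≤ ∫ z in I, u2 D (t, z) :=
        setIntegral_mono_set (cgeo_int hm (fun _ => u2_nonneg _ _) fun _ => h.u2_le _)
          (ae_of_all _ fun _ => u2_nonneg _ _) (LE.le.eventuallyLE fun _ hz => hz.1)
    _ = _ := (h.sa_eq_u2 t).symm
lemma Down.sig_le_sa (h : Down D) (t : ℝ) : sig D t ≤ sa D t := by
  exact (h.swp.rho_le_sa t).trans_eq (by rw [sa_swp])
lemma Down.ext2_of_rho (h : Down D) {t : ℝ} (hr : 0 < rho D t) : ext2 D t = 1 := by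
  obtain ⟨z, hz, hz1⟩ := cgeo_ne hr
  exact cgeo_one fun y hy => hz.1.trans_le (h.le_u3 (h.mem_of_lt_u2 hy (hy.2.trans_eq hz1.symm)))
lemma Down.ext3_of_sig (h : Down D) {t : ℝ} (hr : 0 < sig D t) : ext3 D t = 1 :=
  h.swp.ext2_of_rho hr
/-- `u2 D (t, z) ≤ ext2 D t`, `rho D t ≤ u3 D (t, y)` -/
lemma Down.u2_le_ext2 (h : Down D) (t z : ℝ) : u2 D (t, z) ≤ ext2 D t := by
  exact cgeo_mono (fun y hy => ⟨(h.sub hy).2.1, (h.sub hy).2.2.1.trans_le (h.le_u3 hy)⟩)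
    fun _ hy => hy.1
lemma Down.rho_le_u3 (h : Down D) (t : ℝ) {y : ℝ} (hy : y ∈ I) : rho D t ≤ u3 D (t, y) := by
  exact cgeo_mono (fun z hz => h.mem_of_lt_u2 hy (hy.2.trans_eq hz.2.symm))
    fun _ hz => (h.sub hz).2.2
/-- the sets defining `ext2` and `sig` are initial intervals -/
lemma Down.ext2_ae (h : Down D) (t : ℝ) :
    {y : ℝ | y ∈ I ∧ 0 < u3 D (t, y)} =ᵐ[volume] Ioo 0 (ext2 D t) := by
  exact lower_ae (fun _ hy => hy.1) fun x hx y hy hle => ⟨hy, hx.2.trans_le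
    (h.anti_u3 (q := (t, y)) ⟨cgeo_u3_pos h hx.2, hy⟩ ⟨le_rfl, hle⟩)⟩
lemma Down.sig_ae (h : Down D) (t : ℝ) :
    {y : ℝ | y ∈ I ∧ u3 D (t, y) = 1} =ᵐ[volume] Ioo 0 (sig D t) := by
  exact lower_ae (fun _ hy => hy.1) fun x hx y hy hle => ⟨hy, le_antisymm (h.u3_le _) (hx.2.ge.trans
    (h.anti_u3 (q := (t, y)) ⟨cgeo_u3_pos h (one_pos.trans_eq hx.2.symm), hy⟩ ⟨le_rfl, hle⟩))⟩

lemma Down.integral_rho (h : Down D) : ∫ t in I, rho D t = al (cyc ⁻¹' (cyc ⁻¹' D)) := by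
  rw [cgeo_al]
  exact cgeo_integral_sig h.swp
lemma Down.integral_sig (h : Down D) : ∫ t in I, sig D t = al (cyc ⁻¹' D) := by
  exact cgeo_integral_sig h
lemma Down.rho_eq_zero (h : Down D) (h0 : al (cyc ⁻¹' (cyc ⁻¹' D)) = 0) {t : ℝ} (ht : t ∈ I) :
    rho D t = 0 := by
  exact cgeo_sig_eq_zero h.swp (cgeo_al D ▸ h0) ht
lemma Down.sig_eq_zero (h : Down D) (h0 : al (cyc ⁻¹' D) = 0) {t : ℝ} (ht : t ∈ I) :
    sig D t = 0 := by
  exact cgeo_sig_eq_zero h h0 ht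

/-- there is `(x₀, y₀) ∈ I × I` with `u3 D (x₀, y₀) = 0` -/
lemma Down.rho_eventually (h : Down D) (hb : be (cyc ⁻¹' D) < 1) :
    ∀ᶠ t in 𝓝[<] (1 : ℝ), rho D t = 0 := by
  obtain ⟨q, hq, hq0⟩ : ∃ q ∈ I ×ˢ I, u3 D q ≤ 0 := by
    by_contra hn
    push Not at hn
    have e : {q : ℝ × ℝ | q ∈ I ×ˢ I ∧ 0 < u1 (cyc ⁻¹' D) q} = I ×ˢ I :=
      Set.ext fun q => ⟨fun hq => hq.1, fun hq => ⟨hq, hn q hq⟩⟩
    rw [be, e, volume_II] at hb
    simp at hb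
  filter_upwards [Ioo_mem_nhdsLT hq.1.2] with t ht
  exact le_antisymm ((h.rho_le_u3 t hq.2).trans
    ((h.anti_u3 (q' := (t, q.2)) hq ⟨ht.1.le, le_rfl⟩).trans hq0)) (rho_nonneg _ _)
lemma Down.sig_eventually (h : Down D) (hb : be (cyc ⁻¹' (cyc ⁻¹' D)) < 1) :
    ∀ᶠ t in 𝓝[<] (1 : ℝ), sig D t = 0 := by
  exact h.swp.rho_eventually (cgeo_be D ▸ hb)
/-- `{u3 D = 0}` is null and an upper set of `I × I`, so empty -/
lemma Down.ext2_of_be (h : Down D) (hb : be (cyc ⁻¹' D) = 1) {t : ℝ} (ht : t ∈ I) :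
    ext2 D t = 1 := by
  refine cgeo_one fun y hy => ?_
  by_contra hn
  have h1 : volume {q : ℝ × ℝ | q ∈ I ×ˢ I ∧ 0 < u3 D q} = 1 := (ENNReal.toReal_eq_one_iff _).1 hb
  have h2 : volume ({q : ℝ × ℝ | q ∈ I ×ˢ I ∧ 0 < u3 D q} ∪ Ioo t 1 ×ˢ Ioo y 1) ≤ 1 := by
    rw [← volume_II]
    exact measure_mono (union_subset (fun _ hq => hq.1)
      (prod_mono (Ioo_subset_Ioo_left ht.1.le) (Ioo_subset_Ioo_left hy.1.le)))
  rw [measure_union (disjoint_left.2 fun q hq hq' => hn (hq.2.trans_le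
    (h.anti_u3 (q := (t, y)) ⟨ht, hy⟩ ⟨hq'.1.1.le, hq'.2.1.le⟩)))
    (measurableSet_Ioo.prod measurableSet_Ioo), h1, Measure.volume_eq_prod, Measure.prod_prod] at h2
  refine h2.not_gt (ENNReal.lt_add_right ENNReal.one_ne_top ?_)
  simp [ht.2, hy.2]
lemma Down.ext3_of_be (h : Down D) (hb : be (cyc ⁻¹' (cyc ⁻¹' D)) = 1) {t : ℝ} (ht : t ∈ I) :
    ext3 D t = 1 := by
  exact h.swp.ext2_of_be (cgeo_be D ▸ hb) ht
/-- if `u2 D (t, z) = 1` then `u1 D (s, z) ≥ t > 0` -/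
lemma Down.rho_le_ext2 (h : Down D) {s t : ℝ} (hs : s ∈ I) (ht : t ∈ I) :
    rho D t ≤ ext2 (cyc ⁻¹' (cyc ⁻¹' D)) s := by
  exact cgeo_mono (fun z hz => ⟨hz.1, ht.1.trans_le
    (h.le_u1 (h.mem_of_lt_u2 hs (hs.2.trans_eq hz.2.symm)))⟩) fun _ hz => hz.1
lemma Down.sig_le_ext3 (h : Down D) {s t : ℝ} (hs : s ∈ I) (ht : t ∈ I) :
    sig D t ≤ ext3 (cyc ⁻¹' D) s := by
  exact cgeo_mono (fun y hy => ⟨hy.1, ht.1.trans_le
    (h.le_u1 (h.mem_of_lt_u3 hs (hs.2.trans_eq hy.2.symm)))⟩) fun _ hz => hz.1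
/-- nested slices of equal area have a.e. equal heights, hence equal contacts -/
lemma Down.rho_eq_of_sa_eq (h : Down D) {s t : ℝ} (hs : s ∈ I) (ht : t ∈ I)
    (he : sa D s = sa D t) : rho D s = rho D t := by
  wlog hst : s ≤ t generalizing s t
  · exact (this ht hs he.symm (le_of_not_ge hst)).symm
  have hi : ∀ t, IntegrableOn (fun z => u2 D (t, z)) I := fun t =>
    cgeo_int (h.measurable_u2.comp measurable_prodMk_left) (fun _ => u2_nonneg _ _)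
      fun _ => h.u2_le _
  have h1 := cgeo_ae_eq (hi t) (hi s)
    (fun z hz => h.anti_u2 (q := (s, z)) ⟨hs, hz⟩ ⟨hst, le_rfl⟩)
    (by rw [← h.sa_eq_u2, ← h.sa_eq_u2, he])
  refine congrArg ENNReal.toReal (measure_congr ?_)
  filter_upwards [(ae_restrict_iff' measurableSet_Ioo).1 h1] with z hz
  exact propext (and_congr_right fun hz' => by rw [hz hz'])
lemma Down.sig_eq_of_sa_eq (h : Down D) {s t : ℝ} (hs : s ∈ I) (ht : t ∈ I)
    (he : sa D s = sa D t) : sig D s = sig D t := by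
  exact h.swp.rho_eq_of_sa_eq hs ht (by rw [sa_swp, he])

/-- For `y < y'` the functions `u1 D (y, ·) ≥ u1 D (y', ·)` have the same integral `sb D y = V`; so
for a.e. `z`, `u1 D (y, z) = u1 D (y₀, z)` for a.e. `y`, whence `V = sc D z = u1 D (y₀, z)`. -/
theorem Down.slab (h : Down D) {V : ℝ} (hb : ∀ t ∈ I, sb D t = V) (hc : ∀ t ∈ I, sc D t = V) :
    D =ᵐ[volume] CMod 1 0 0 V := by
  have hi1 : ∀ y, IntegrableOn (fun z => u1 D (y, z)) I := fun y =>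
    cgeo_int (h.measurable_u1.comp measurable_prodMk_left) (fun _ => u1_nonneg _ _)
      fun _ => h.u1_le _
  have hi2 : ∀ z, IntegrableOn (fun y => u1 D (y, z)) I := fun z =>
    cgeo_int (h.measurable_u1.comp measurable_prodMk_right) (fun _ => u1_nonneg _ _)
      fun _ => h.u1_le _
  have e1 : ∀ y ∈ I, ∫ z in I, u1 D (y, z) = V := fun y hy => by
    rw [← hb y hy, ← sa_cyc_cyc, h.cyc.cyc.sa_eq_u3]
    rfl
  have e2 : ∀ z ∈ I, ∫ y in I, u1 D (y, z) = V := fun z hz => by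
    rw [← hc z hz, ← sa_cyc, h.cyc.sa_eq_u2]
    rfl
  have a2 : ∀ z ∈ I, ∀ z' ∈ I,
      (fun y => u1 D (y, z)) =ᵐ[volume.restrict I] fun y => u1 D (y, z') := by
    intro z hz z' hz'
    wlog hle : z' ≤ z generalizing z z'
    · exact (this z' hz' z hz (le_of_not_ge hle)).symm
    exact cgeo_ae_eq (hi2 z) (hi2 z')
      (fun y hy => h.anti_u1 (q := (y, z')) ⟨hy, hz'⟩ ⟨le_rfl, hle⟩) (by rw [e2 z hz, e2 z' hz'])
  have key : ∀ q ∈ I ×ˢ I, ∀ q' ∈ I ×ˢ I, u1 D q ≤ u1 D q' := by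
    rintro ⟨y, z⟩ ⟨hy, hz⟩ ⟨y', z'⟩ ⟨hy', hz'⟩
    have h0 : y / 2 ∈ I := ⟨by linarith [hy.1], by linarith [hy.2]⟩
    have h1 : (y' + 1) / 2 ∈ I := ⟨by linarith [hy'.1], by linarith [hy'.2]⟩
    have h01 : y / 2 < (y' + 1) / 2 := by linarith [hy.2, hy'.1]
    have a1 := cgeo_ae_eq (hi1 ((y' + 1) / 2)) (hi1 (y / 2))
      (fun z hz => h.anti_u1 (q := (y / 2, z)) ⟨h0, hz⟩ ⟨h01.le, le_rfl⟩)
      (by rw [e1 _ h0, e1 _ h1])
    obtain ⟨z0, hz0, b0⟩ := cgeo_ex a1 le_rfl hz.1 hz.2.le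
    obtain ⟨z1, hz1, b1⟩ := cgeo_ex a1 hz'.1.le hz'.2 le_rfl
    have hz0' : z0 ∈ I := ⟨hz0.1, hz0.2.trans hz.2⟩
    have hz1' : z1 ∈ I := ⟨hz'.1.trans hz1.1, hz1.2⟩
    obtain ⟨w, hw, b2⟩ := cgeo_ex (a2 z0 hz0' z1 hz1') h0.1.le h01 h1.2.le
    calc u1 D (y, z) ≤ u1 D (y / 2, z0) :=
          h.anti_u1 ⟨h0, hz0'⟩ ⟨by linarith [hy.1], hz0.2.le⟩
      _ = u1 D ((y' + 1) / 2, z0) := b0.symm
      _ ≤ u1 D (w, z0) := h.anti_u1 ⟨⟨h0.1.trans hw.1, hw.2.trans h1.2⟩, hz0'⟩ ⟨hw.2.le, le_rfl⟩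
      _ = u1 D (w, z1) := b2
      _ ≤ u1 D (y / 2, z1) := h.anti_u1 ⟨h0, hz1'⟩ ⟨hw.1.le, le_rfl⟩
      _ = u1 D ((y' + 1) / 2, z1) := b1.symm
      _ ≤ u1 D (y', z') := h.anti_u1 ⟨hy', hz'⟩ ⟨by linarith [hy'.2], hz1.1.le⟩
  have hV : ∀ q ∈ I ×ˢ I, u1 D q = V := fun q hq => by
    rw [← e1 q.1 hq.1, setIntegral_congr_fun measurableSet_Ioo (f := fun z => u1 D (q.1, z))
      (g := fun _ => u1 D q) fun z hz => le_antisymm (key (q.1, z) ⟨hq.1, hz⟩ q hq)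
        (key q hq (q.1, z) ⟨hq.1, hz⟩)]
    simp
  refine h.ae_eq_u1.trans (EventuallyEq.of_eq (Set.ext fun p => and_congr_right fun hp => ?_))
  have h0 := u1_nonneg D p.2
  rw [hV p.2 hp.2] at h0 ⊢
  rw [one_mul, zero_mul, zero_mul, add_zero, add_zero, sq_lt_sq₀ hp.1.1.le h0]

end Crest.Agent.R214
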