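import Crest.Agent.R214.CBasic

/-! Row 214: graph measures, the divergence formula, the relative perimeter. -/

set_option autoImplicit false

namespace Crest.Agent.R214

open MeasureTheory Set Filter Topology Real
open scoped ENNReal

variable {D : Set X} {A : Measure X} {n1 n2 n3 : X → ℝ}

lemma cper_contDiff_cyc : ContDiff ℝ 1 cyc := by unfold cyc; fun_prop
lemma cper_measurable_cyc : Measurable cyc := by unfold cyc; fun_prop
lemma cper_measurable_cyi : Measurable cyi := by unfold cyi; fun_prop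
lemma cper_measurable_swp : Measurable swp := by unfold swp; fun_prop

lemma cper_finite (u : ℝ × ℝ → ℝ) : IsFiniteMeasure (volume.restrict (act u)) := by
  refine isFiniteMeasure_restrict.2 (ne_top_of_le_ne_top ?_
    (measure_mono (t := I ×ˢ I) fun q hq => hq.1))
  rw [volume_II]
  exact ENNReal.one_ne_top

lemma cper_meas1 (h : Down D) : Measurable fun q : ℝ × ℝ => ((u1 D q, q.1, q.2) : X) :=
  h.measurable_u1.prodMk (measurable_fst.prodMk measurable_snd)
lemma cper_meas2 (h : Down D) : Measurable fun q : ℝ × ℝ => ((q.1, u2 D q, q.2) : X) :=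
  measurable_fst.prodMk (h.measurable_u2.prodMk measurable_snd)
lemma cper_meas3 (h : Down D) : Measurable fun q : ℝ × ℝ => ((q.1, q.2, u3 D q) : X) :=
  measurable_fst.prodMk (measurable_snd.prodMk h.measurable_u3)

lemma cper_conc {s : Set (ℝ × ℝ)} (hs : MeasurableSet s) {g : ℝ × ℝ → X} (hg : Measurable g)
    (h : ∀ q ∈ s, g q ∈ Q) : (volume.restrict s).map g Qᶜ = 0 := by
  rw [Measure.map_apply hg measurableSet_Q.compl, Measure.restrict_apply' hs]
  have : g ⁻¹' Qᶜ ∩ s = ∅ := eq_empty_of_forall_notMem fun q hq => hq.1 (h q hq.2)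
  rw [this, measure_empty]

lemma cper_swap {u : ℝ × ℝ → ℝ} (hu : MeasurableSet (act u)) {g : ℝ × ℝ → X} (hg : Measurable g) :
    (volume.restrict (act fun q => u (q.2, q.1))).map (fun q => g (q.2, q.1)) =
      (volume.restrict (act u)).map g := by
  have h1 : (act fun q => u (q.2, q.1)) = Prod.swap ⁻¹' act u := by
    ext q
    exact ⟨fun h => ⟨⟨h.1.2, h.1.1⟩, h.2⟩, fun h => ⟨⟨h.1.2, h.1.1⟩, h.2⟩⟩
  have h2 : MeasurePreserving (Prod.swap : ℝ × ℝ → ℝ × ℝ) volume volume :=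
    Measure.measurePreserving_swap
  rw [h1, ← (h2.restrict_preimage hu).map_eq, Measure.map_map hg measurable_swap]
  rfl

lemma cper_wd (A : Measure X) {φ : X → X} (hφ : Measurable φ) {g : X → ℝ≥0∞} (hg : Measurable g) :
    (A.map φ).withDensity g = (A.withDensity fun p => g (φ p)).map φ := by
  ext s hs
  rw [withDensity_apply _ hs, Measure.map_apply hφ hs, withDensity_apply _ (hφ hs),
    setLIntegral_map hs hg hφ]

lemma cper_int {n : X → ℝ} (hn : Measurable n) (h0 : ∀ p, 0 ≤ n p) (f : X → ℝ) :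
    ∫ p, f p * n p ∂A = ∫ p, f p ∂(A.withDensity fun p => ENNReal.ofReal (n p)) := by
  rw [integral_withDensity_eq_integral_toReal_smul hn.ennreal_ofReal
    (Eventually.of_forall fun _ => ENNReal.ofReal_lt_top)]
  refine integral_congr_ae (Eventually.of_forall fun p => ?_)
  simp only [ENNReal.toReal_ofReal (h0 p), smul_eq_mul, mul_comm]

lemma cper_mu1_swp (h : Down D) : mu1 (swp ⁻¹' D) = (mu1 D).map swp := by
  unfold mu1
  rw [Measure.map_map cper_measurable_swp (cper_meas1 h),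
    ← cper_swap h.measurableSet_act1 (cper_measurable_swp.comp (cper_meas1 h))]
  rfl
lemma cper_mu2_swp (h : Down D) : mu2 (swp ⁻¹' D) = (mu3 D).map swp := by
  unfold mu2 mu3
  rw [Measure.map_map cper_measurable_swp (cper_meas3 h)]
  rfl
lemma cper_mu3_swp (h : Down D) : mu3 (swp ⁻¹' D) = (mu2 D).map swp := by
  unfold mu2 mu3
  rw [Measure.map_map cper_measurable_swp (cper_meas2 h)]
  rfl

lemma Down.finite_mu1 (h : Down D) : IsFiniteMeasure (mu1 D) := by
  have := cper_finite (u1 D)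
  unfold mu1
  infer_instance
lemma Down.finite_mu2 (h : Down D) : IsFiniteMeasure (mu2 D) := by
  have := cper_finite (u2 D)
  unfold mu2
  infer_instance
lemma Down.finite_mu3 (h : Down D) : IsFiniteMeasure (mu3 D) := by
  have := cper_finite (u3 D)
  unfold mu3
  infer_instance
lemma Down.mu1_conc (h : Down D) : mu1 D Qᶜ = 0 := by
  exact cper_conc h.measurableSet_act1 (cper_meas1 h) fun q hq => ⟨hq.2, hq.1.1, hq.1.2⟩
lemma Down.mu2_conc (h : Down D) : mu2 D Qᶜ = 0 := by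
  exact cper_conc h.measurableSet_act2 (cper_meas2 h) fun q hq => ⟨hq.1.1, hq.2, hq.1.2⟩
lemma Down.mu3_conc (h : Down D) : mu3 D Qᶜ = 0 := by
  exact cper_conc h.measurableSet_act3 (cper_meas3 h) fun q hq => ⟨hq.1.1, hq.1.2, hq.2⟩
lemma Down.mu1_cyc (h : Down D) : mu1 (cyc ⁻¹' D) = (mu3 D).map cyi := by
  unfold mu1 mu3
  rw [Measure.map_map cper_measurable_cyi (cper_meas3 h)]
  rfl
lemma Down.mu2_cyc (h : Down D) : mu2 (cyc ⁻¹' D) = (mu1 D).map cyi := by
  unfold mu1 mu2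
  rw [Measure.map_map cper_measurable_cyi (cper_meas1 h),
    ← cper_swap h.measurableSet_act1 (cper_measurable_cyi.comp (cper_meas1 h))]
  rfl
lemma Down.mu3_cyc (h : Down D) : mu3 (cyc ⁻¹' D) = (mu2 D).map cyi := by
  unfold mu2 mu3
  rw [Measure.map_map cper_measurable_cyi (cper_meas2 h),
    ← cper_swap h.measurableSet_act2 (cper_measurable_cyi.comp (cper_meas2 h))]
  rfl
lemma Down.integral_mu1 (h : Down D) {f : X → ℝ} (hf : Measurable f) :
    ∫ p, f p ∂mu1 D = ∫ q in act (u1 D), f (u1 D q, q.1, q.2) := by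
  exact integral_map (cper_meas1 h).aemeasurable hf.aestronglyMeasurable
lemma Down.integral_mu2 (h : Down D) {f : X → ℝ} (hf : Measurable f) :
    ∫ p, f p ∂mu2 D = ∫ q in act (u2 D), f (q.1, u2 D q, q.2) := by
  exact integral_map (cper_meas2 h).aemeasurable hf.aestronglyMeasurable
lemma Down.integral_mu3 (h : Down D) {f : X → ℝ} (hf : Measurable f) :
    ∫ p, f p ∂mu3 D = ∫ q in act (u3 D), f (q.1, q.2, u3 D q) := by
  exact integral_map (cper_meas3 h).aemeasurable hf.aestronglyMeasurable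

lemma Surf.le1 (h : Surf D A n1 n2 n3) (p : X) : n1 p ≤ 1 := by
  nlinarith [h.unit p, h.nn1 p, sq_nonneg (n1 p), sq_nonneg (n2 p), sq_nonneg (n3 p)]
lemma Surf.le2 (h : Surf D A n1 n2 n3) (p : X) : n2 p ≤ 1 := by
  nlinarith [h.unit p, h.nn2 p, sq_nonneg (n1 p), sq_nonneg (n2 p), sq_nonneg (n3 p)]
lemma Surf.le3 (h : Surf D A n1 n2 n3) (p : X) : n3 p ≤ 1 := by
  nlinarith [h.unit p, h.nn3 p, sq_nonneg (n1 p), sq_nonneg (n2 p), sq_nonneg (n3 p)]
lemma Surf.ae_mem (h : Surf D A n1 n2 n3) : ∀ᵐ p ∂A, p ∈ Q := by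
  exact h.conc
lemma Surf.int1 (h : Surf D A n1 n2 n3) {f : X → ℝ} (hf : Measurable f) :
    ∫ p, f p * n1 p ∂A = ∫ p, f p ∂mu1 D := by
  rw [cper_int h.m1 h.nn1, h.r1]
lemma Surf.int2 (h : Surf D A n1 n2 n3) {f : X → ℝ} (hf : Measurable f) :
    ∫ p, f p * n2 p ∂A = ∫ p, f p ∂mu2 D := by
  rw [cper_int h.m2 h.nn2, h.r2]
lemma Surf.int3 (h : Surf D A n1 n2 n3) {f : X → ℝ} (hf : Measurable f) :
    ∫ p, f p * n3 p ∂A = ∫ p, f p ∂mu3 D := by
  rw [cper_int h.m3 h.nn3, h.r3]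
protected lemma Surf.cyc (h : Surf D A n1 n2 n3) :
    Surf (cyc ⁻¹' D) (A.map cyi) (n3 ∘ cyc) (n1 ∘ cyc) (n2 ∘ cyc) := by
  have := h.fin
  refine ⟨h.down.cyc, inferInstance, ?_, h.m3.comp cper_measurable_cyc,
    h.m1.comp cper_measurable_cyc, h.m2.comp cper_measurable_cyc, fun p => h.nn3 _,
    fun p => h.nn1 _, fun p => h.nn2 _, fun p => ?_, ?_, ?_, ?_⟩
  · rw [Measure.map_apply cper_measurable_cyi measurableSet_Q.compl]
    exact measure_mono_null (t := Qᶜ) (fun p hp hq => hp ⟨hq.2.2, hq.1, hq.2.1⟩) h.conc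
  · have := h.unit (cyc p)
    simp only [Function.comp_apply]
    linarith
  · rw [cper_wd A cper_measurable_cyi (h.m3.comp cper_measurable_cyc).ennreal_ofReal,
      h.down.mu1_cyc, ← h.r3]
    rfl
  · rw [cper_wd A cper_measurable_cyi (h.m1.comp cper_measurable_cyc).ennreal_ofReal,
      h.down.mu2_cyc, ← h.r1]
    rfl
  · rw [cper_wd A cper_measurable_cyi (h.m2.comp cper_measurable_cyc).ennreal_ofReal,
      h.down.mu3_cyc, ← h.r2]
    rfl
protected lemma Surf.swp (h : Surf D A n1 n2 n3) :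
    Surf (swp ⁻¹' D) (A.map swp) (n1 ∘ swp) (n3 ∘ swp) (n2 ∘ swp) := by
  have := h.fin
  refine ⟨h.down.swp, inferInstance, ?_, h.m1.comp cper_measurable_swp,
    h.m3.comp cper_measurable_swp, h.m2.comp cper_measurable_swp, fun p => h.nn1 _,
    fun p => h.nn3 _, fun p => h.nn2 _, fun p => ?_, ?_, ?_, ?_⟩
  · rw [Measure.map_apply cper_measurable_swp measurableSet_Q.compl]
    exact measure_mono_null (t := Qᶜ) (fun p hp hq => hp ⟨hq.1, hq.2.2, hq.2.1⟩) h.conc
  · have := h.unit (swp p)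
    simp only [Function.comp_apply]
    linarith
  · rw [cper_wd A cper_measurable_swp (h.m1.comp cper_measurable_swp).ennreal_ofReal,
      cper_mu1_swp h.down, ← h.r1]
    rfl
  · rw [cper_wd A cper_measurable_swp (h.m3.comp cper_measurable_swp).ennreal_ofReal,
      cper_mu2_swp h.down, ← h.r3]
    rfl
  · rw [cper_wd A cper_measurable_swp (h.m2.comp cper_measurable_swp).ennreal_ofReal,
      cper_mu3_swp h.down, ← h.r2]
    rfl
lemma real_map_cyi (A : Measure X) : (A.map cyi).real univ = A.real univ := by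
  rw [Measure.real, Measure.map_apply cper_measurable_cyi MeasurableSet.univ, preimage_univ,
    Measure.real]
lemma lam_swp (A : Measure X) {n2 n3 : X → ℝ} (h2 : Measurable n2) (h3 : Measurable n3) :
    lam (A.map swp) (n3 ∘ swp) (n2 ∘ swp) = lam A n2 n3 := by
  funext t
  unfold lam
  have hm : Measurable fun p : X =>
      ENNReal.ofReal √((n3 ∘ swp) p ^ 2 + (n2 ∘ swp) p ^ 2) :=
    (((h3.comp cper_measurable_swp).pow_const 2).add
      ((h2.comp cper_measurable_swp).pow_const 2)).sqrt.ennreal_ofReal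
  rw [cper_wd A cper_measurable_swp hm, Measure.map_map measurable_fst cper_measurable_swp]
  have e : (fun p : X => ENNReal.ofReal √((n3 ∘ swp) (swp p) ^ 2 + (n2 ∘ swp) (swp p) ^ 2)) =
      fun p => ENNReal.ofReal √(n2 p ^ 2 + n3 p ^ 2) := by
    funext p
    rw [add_comm]
    rfl
  rw [e]
  rfl

lemma cper_intOn (h : Down D) {f : X → ℝ} (hf : Continuous f) : IntegrableOn f D :=
  (integrableOn_C0 hf).mono_set fun _ hp =>
    ⟨Ioo_subset_Ico_self (h.sub hp).1, Ioo_subset_Ico_self (h.sub hp).2.1,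
      Ioo_subset_Ico_self (h.sub hp).2.2⟩

lemma cper_int_pre {φ : X → X} (hφ : MeasurePreserving φ volume volume) {s : Set X}
    (hs : MeasurableSet s) {g : X → ℝ} (hg : Continuous g) :
    ∫ p in φ ⁻¹' s, g (φ p) = ∫ p in s, g p := by
  rw [← (hφ.restrict_preimage hs).map_eq,
    integral_map hφ.measurable.aemeasurable hg.aestronglyMeasurable]

lemma cper_d1_cyc {f : X → ℝ} (hf : ContDiff ℝ 1 f) (p : X) : d1 (f ∘ cyc) p = d3 f (cyc p) :=
  (hasDerivAt_d1 (hf.comp cper_contDiff_cyc) p.1 p.2).unique (hasDerivAt_d3 hf p.2.1 p.2.2 p.1)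
lemma cper_d2_cyc {f : X → ℝ} (hf : ContDiff ℝ 1 f) (p : X) : d2 (f ∘ cyc) p = d1 f (cyc p) :=
  (hasDerivAt_d2 (hf.comp cper_contDiff_cyc) p.1 p.2.1 p.2.2).unique
    (hasDerivAt_d1 hf p.2.1 (p.2.2, p.1))
lemma cper_d3_cyc {f : X → ℝ} (hf : ContDiff ℝ 1 f) (p : X) : d3 (f ∘ cyc) p = d2 f (cyc p) :=
  (hasDerivAt_d3 (hf.comp cper_contDiff_cyc) p.1 p.2.1 p.2.2).unique
    (hasDerivAt_d2 hf p.2.1 p.2.2 p.1)

lemma cper_d1 (h : Down D) {f : X → ℝ} (hf : ContDiff ℝ 1 f) (h0 : ∀ q, f (0, q) = 0)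
    (h1 : ∀ q, f (1, q) = 0) : ∫ p in D, d1 f p = ∫ p, f p ∂mu1 D := by
  have hi : Integrable (D.indicator (d1 f)) ((volume : Measure ℝ).prod volume) :=
    (integrable_indicator_iff h.meas).2 (cper_intOn h (continuous_d1 hf))
  rw [h.integral_mu1 hf.continuous.measurable, ← integral_indicator h.meas,
    ← integral_indicator h.measurableSet_act1, Measure.volume_eq_prod, integral_prod_symm _ hi]
  refine integral_congr_ae (Eventually.of_forall fun q => ?_)
  have hs : MeasurableSet {x : ℝ | (x, q.1, q.2) ∈ D} :=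
    (measurable_id.prodMk measurable_const) h.meas
  have hsub : {x : ℝ | (x, q.1, q.2) ∈ D} ⊆ I := fun x hx => (h.sub hx).1
  have e1 : (fun x : ℝ => D.indicator (d1 f) (x, q)) =
      {x : ℝ | (x, q.1, q.2) ∈ D}.indicator fun x => d1 f (x, q) := by
    funext x
    rfl
  have e2 := lower_ae hsub fun x hx y hy hyx =>
    h.low _ hx (y, q.1, q.2) ⟨hy, (h.sub hx).2⟩ ⟨hyx, le_rfl⟩
  have e3 : ∫ x in Ioo 0 (u1 D q), d1 f (x, q) = f (u1 D q, q) := by
    rw [← integral_Ioc_eq_integral_Ioo, ← intervalIntegral.integral_of_le (u1_nonneg D q),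
      intervalIntegral.integral_eq_sub_of_hasDerivAt (fun x _ => hasDerivAt_d1 hf x q)
        (((continuous_d1 hf).comp (by fun_prop)).intervalIntegrable _ _), h0, sub_zero]
  change ∫ x, D.indicator (d1 f) (x, q) = _
  rw [e1, integral_indicator hs, setIntegral_congr_set e2]
  refine e3.trans ?_
  by_cases hq : q ∈ act (u1 D)
  · rw [indicator_of_mem hq]
  · rw [indicator_of_notMem hq]
    by_cases hI : q ∈ I ×ˢ I
    · rcases (u1_nonneg D q).eq_or_lt with h2 | h2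
      · rw [← h2, h0]
      · rcases (h.u1_le q).eq_or_lt with h3 | h3
        · rw [h3, h1]
        · exact absurd ⟨hI, h2, h3⟩ hq
    · have : {x : ℝ | (x, q.1, q.2) ∈ D} = ∅ :=
        eq_empty_of_forall_notMem fun x hx => hI (h.sub hx).2
      rw [u1, this, measure_empty, ENNReal.toReal_zero, h0]

lemma cper_d3 (h : Down D) {f : X → ℝ} (hf : ContDiff ℝ 1 f) (h0 : ∀ x y, f (x, y, 0) = 0)
    (h1 : ∀ x y, f (x, y, 1) = 0) : ∫ p in D, d3 f p = ∫ p, f p ∂mu3 D := by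
  have := cper_d1 h.cyc (hf.comp cper_contDiff_cyc) (fun q => h0 _ _) (fun q => h1 _ _)
  simp_rw [cper_d1_cyc hf] at this
  rw [cper_int_pre measurePreserving_cyc h.meas (continuous_d3 hf), h.mu1_cyc,
    integral_map cper_measurable_cyi.aemeasurable
      (hf.comp cper_contDiff_cyc).continuous.aestronglyMeasurable] at this
  exact this

lemma cper_d2 (h : Down D) {f : X → ℝ} (hf : ContDiff ℝ 1 f) (h0 : ∀ x z, f (x, 0, z) = 0)
    (h1 : ∀ x z, f (x, 1, z) = 0) : ∫ p in D, d2 f p = ∫ p, f p ∂mu2 D := by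
  have := cper_d3 h.cyc (hf.comp cper_contDiff_cyc) (fun x y => h0 _ _) (fun x y => h1 _ _)
  simp_rw [cper_d3_cyc hf] at this
  rw [cper_int_pre measurePreserving_cyc h.meas (continuous_d2 hf), h.mu3_cyc,
    integral_map cper_measurable_cyi.aemeasurable
      (hf.comp cper_contDiff_cyc).continuous.aestronglyMeasurable] at this
  exact this

/-- Fubini and the fundamental theorem of calculus on the fibres `(0, u)`; `f i` vanishes for
`p i ∈ {0, 1}` -/
theorem Down.integral_dv (h : Down D) {f1 f2 f3 : X → ℝ} (hf : CField f1 f2 f3) :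
    ∫ p in D, dv f1 f2 f3 p = (∫ p, f1 p ∂mu1 D) + (∫ p, f2 p ∂mu2 D) + ∫ p, f3 p ∂mu3 D := by
  obtain ⟨δ, hδ, hs⟩ := hf.supp
  have n0 : (0 : ℝ) ∉ Icc δ (1 - δ) := fun h => by linarith [h.1]
  have n1 : (1 : ℝ) ∉ Icc δ (1 - δ) := fun h => by linarith [h.2]
  unfold dv
  rw [integral_add (f := fun p => d1 f1 p + d2 f2 p)
      ((cper_intOn h (continuous_d1 hf.c1)).add (cper_intOn h (continuous_d2 hf.c2)))
      (cper_intOn h (continuous_d3 hf.c3)),
    integral_add (cper_intOn h (continuous_d1 hf.c1)) (cper_intOn h (continuous_d2 hf.c2)),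
    cper_d1 h hf.c1 (fun q => (hs _ fun h => n0 h.1).1) (fun q => (hs _ fun h => n1 h.1).1),
    cper_d2 h hf.c2 (fun x z => (hs _ fun h => n0 h.2.1).2.1)
      (fun x z => (hs _ fun h => n1 h.2.1).2.1),
    cper_d3 h hf.c3 (fun x y => (hs _ fun h => n0 h.2.2).2.2)
      (fun x y => (hs _ fun h => n1 h.2.2).2.2)]

lemma cField_zero : CField 0 0 0 := by
  exact ⟨contDiff_const, contDiff_const, contDiff_const,
    ⟨1, one_pos, fun _ _ => ⟨rfl, rfl, rfl⟩⟩, fun p => by simp⟩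
lemma Down.bddAbove_per (h : Down D) :
    BddAbove {r | ∃ f1 f2 f3, CField f1 f2 f3 ∧ r = ∫ p in D, dv f1 f2 f3 p} := by
  have := h.finite_mu1
  have := h.finite_mu2
  have := h.finite_mu3
  have aux : ∀ (μ : Measure X) [IsFiniteMeasure μ] (f : X → ℝ), (∀ p, f p ^ 2 ≤ 1) →
      ∫ p, f p ∂μ ≤ μ.real univ := by
    intro μ _ f hf
    have := norm_integral_le_of_norm_le_const (μ := μ) (f := f) (C := 1)
      (Eventually.of_forall fun p => (sq_le_one_iff_abs_le_one _).1 (hf p))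
    rw [one_mul] at this
    exact (le_abs_self _).trans this
  refine ⟨(mu1 D).real univ + (mu2 D).real univ + (mu3 D).real univ, ?_⟩
  rintro _ ⟨f1, f2, f3, hf, rfl⟩
  rw [h.integral_dv hf]
  refine add_le_add (add_le_add (aux _ _ fun p => ?_) (aux _ _ fun p => ?_)) (aux _ _ fun p => ?_)
  all_goals nlinarith [hf.le p, sq_nonneg (f1 p), sq_nonneg (f2 p), sq_nonneg (f3 p)]
lemma Down.le_per (h : Down D) {f1 f2 f3 : X → ℝ} (hf : CField f1 f2 f3) :
    ∫ p in D, dv f1 f2 f3 p ≤ per D := by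
  exact le_csSup h.bddAbove_per ⟨f1, f2, f3, hf, rfl⟩
lemma per_le {b : ℝ} (h : ∀ f1 f2 f3, CField f1 f2 f3 → ∫ p in D, dv f1 f2 f3 p ≤ b) :
    per D ≤ b := by
  refine csSup_le ⟨_, 0, 0, 0, cField_zero, rfl⟩ ?_
  rintro _ ⟨f1, f2, f3, hf, rfl⟩
  exact h _ _ _ hf
lemma Down.per_nonneg (h : Down D) : 0 ≤ per D := by
  have := h.le_per cField_zero
  rw [h.integral_dv cField_zero] at this
  simpa using this
lemma per_empty : per ∅ = 0 := by
  exact le_antisymm (per_le fun _ _ _ _ => by simp) down_empty.per_nonneg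

lemma cper_le_cyc (h : Down D) : per D ≤ per (cyc ⁻¹' D) := by
  refine per_le fun f1 f2 f3 hf => ?_
  obtain ⟨δ, hδ, hs⟩ := hf.supp
  have hg : CField (f3 ∘ cyc) (f1 ∘ cyc) (f2 ∘ cyc) := by
    refine ⟨hf.c3.comp cper_contDiff_cyc, hf.c1.comp cper_contDiff_cyc,
      hf.c2.comp cper_contDiff_cyc, ⟨δ, hδ, fun p hp => ?_⟩, fun p => ?_⟩
    · have := hs (cyc p) fun h => hp ⟨h.2.2, h.1, h.2.1⟩
      exact ⟨this.2.2, this.1, this.2.1⟩
    · have := hf.le (cyc p)
      simp only [Function.comp_apply]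
      linarith
  refine le_trans (le_of_eq ?_) (h.cyc.le_per hg)
  rw [← cper_int_pre measurePreserving_cyc h.meas (continuous_dv hf.c1 hf.c2 hf.c3)]
  refine integral_congr_ae (Eventually.of_forall fun p => ?_)
  simp only [dv, cper_d1_cyc hf.c3, cper_d2_cyc hf.c1, cper_d3_cyc hf.c2]
  ring

/-- the point reflection of the cube -/
def cper_rf (p : X) : X := (1 - p.1, 1 - p.2.1, 1 - p.2.2)

lemma cper_contDiff_rf : ContDiff ℝ 1 cper_rf := by unfold cper_rf; fun_prop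

lemma cper_mp_rf : MeasurePreserving cper_rf (volume : Measure X) volume :=
  (Measure.measurePreserving_sub_left volume (1 : ℝ)).prod
    ((Measure.measurePreserving_sub_left volume (1 : ℝ)).prod
      (Measure.measurePreserving_sub_left volume (1 : ℝ)))

lemma cper_d1_rf {f : X → ℝ} (hf : ContDiff ℝ 1 f) (p : X) :
    d1 (f ∘ cper_rf) p = -d1 f (cper_rf p) :=
  (hasDerivAt_d1 (hf.comp cper_contDiff_rf) p.1 p.2).unique
    (hasDerivAt_d1 hf (1 - p.1) (1 - p.2.1, 1 - p.2.2)).comp_const_sub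
lemma cper_d2_rf {f : X → ℝ} (hf : ContDiff ℝ 1 f) (p : X) :
    d2 (f ∘ cper_rf) p = -d2 f (cper_rf p) :=
  (hasDerivAt_d2 (hf.comp cper_contDiff_rf) p.1 p.2.1 p.2.2).unique
    (hasDerivAt_d2 hf (1 - p.1) (1 - p.2.1) (1 - p.2.2)).comp_const_sub
lemma cper_d3_rf {f : X → ℝ} (hf : ContDiff ℝ 1 f) (p : X) :
    d3 (f ∘ cper_rf) p = -d3 f (cper_rf p) :=
  (hasDerivAt_d3 (hf.comp cper_contDiff_rf) p.1 p.2.1 p.2.2).unique
    (hasDerivAt_d3 hf (1 - p.1) (1 - p.2.1) (1 - p.2.2)).comp_const_sub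

lemma cper_I_sub {x : ℝ} : 1 - x ∈ I ↔ x ∈ I :=
  ⟨fun h => ⟨by linarith [h.2], by linarith [h.1]⟩, fun h => ⟨by linarith [h.2], by linarith [h.1]⟩⟩

lemma cper_rf_mem {p : X} : cper_rf p ∈ Q ↔ p ∈ Q :=
  ⟨fun h => ⟨cper_I_sub.1 h.1, cper_I_sub.1 h.2.1, cper_I_sub.1 h.2.2⟩,
    fun h => ⟨cper_I_sub.2 h.1, cper_I_sub.2 h.2.1, cper_I_sub.2 h.2.2⟩⟩

lemma cper_down_Q : Down Q := ⟨measurableSet_Q, subset_rfl, fun _ _ _ hq _ => hq⟩

lemma cper_act_empty {u : ℝ × ℝ → ℝ} (hu : ∀ q ∈ I ×ˢ I, u q = (volume I).toReal) : act u = ∅ := by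
  refine eq_empty_of_forall_notMem fun q hq => ?_
  have := hq.2.2
  rw [hu q hq.1] at this
  simp at this

lemma cper_int_Q {f1 f2 f3 : X → ℝ} (hf : CField f1 f2 f3) : ∫ p in Q, dv f1 f2 f3 p = 0 := by
  have h1 : act (u1 Q) = ∅ := cper_act_empty fun q hq => by
    unfold u1
    congr 2
    ext x
    exact ⟨fun h => h.1, fun h => ⟨h, hq⟩⟩
  have h2 : act (u2 Q) = ∅ := cper_act_empty fun q hq => by
    unfold u2
    congr 2
    ext x
    exact ⟨fun h => h.2.1, fun h => ⟨hq.1, h, hq.2⟩⟩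
  have h3 : act (u3 Q) = ∅ := cper_act_empty fun q hq => by
    unfold u3
    congr 2
    ext x
    exact ⟨fun h => h.2.2, fun h => ⟨hq.1, hq.2, h⟩⟩
  rw [cper_down_Q.integral_dv hf, mu1, mu2, mu3, h1, h2, h3]
  simp

lemma cper_le_cpl (h : Down D) : per D ≤ per (cpl D) := by
  refine per_le fun f1 f2 f3 hf => ?_
  obtain ⟨δ, hδ, hs⟩ := hf.supp
  have hI : ∀ {x : ℝ}, 1 - x ∈ Icc δ (1 - δ) → x ∈ Icc δ (1 - δ) := fun h =>
    ⟨by linarith [h.2], by linarith [h.1]⟩
  have hg : CField (f1 ∘ cper_rf) (f2 ∘ cper_rf) (f3 ∘ cper_rf) :=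
    ⟨hf.c1.comp cper_contDiff_rf, hf.c2.comp cper_contDiff_rf, hf.c3.comp cper_contDiff_rf,
      ⟨δ, hδ, fun p hp => hs (cper_rf p) fun h => hp ⟨hI h.1, hI h.2.1, hI h.2.2⟩⟩,
      fun p => hf.le (cper_rf p)⟩
  refine le_trans (le_of_eq ?_) (h.cpl.le_per hg)
  have hc := continuous_dv hf.c1 hf.c2 hf.c3
  have e : cpl D = cper_rf ⁻¹' (Q \ D) := by
    ext p
    exact ⟨fun hp => ⟨cper_rf_mem.2 hp.1, hp.2⟩, fun hp => ⟨cper_rf_mem.1 hp.1, hp.2⟩⟩
  have e2 : ∀ p, dv (f1 ∘ cper_rf) (f2 ∘ cper_rf) (f3 ∘ cper_rf) p =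
      -dv f1 f2 f3 (cper_rf p) := fun p => by
    simp only [dv, cper_d1_rf hf.c1, cper_d2_rf hf.c2, cper_d3_rf hf.c3]
    ring
  simp_rw [e2]
  rw [integral_neg, e, cper_int_pre cper_mp_rf (measurableSet_Q.diff h.meas) hc,
    setIntegral_sdiff h.meas (cper_intOn cper_down_Q hc) h.sub, cper_int_Q hf]
  ring

lemma Down.per_cyc (h : Down D) : per (cyc ⁻¹' D) = per D := by
  exact le_antisymm ((cper_le_cyc h.cyc).trans (cper_le_cyc h.cyc.cyc)) (cper_le_cyc h)
/-- the field `p ↦ f (1 - p)`, and `∫_Q dv = 0` (`integral_dv` for `Q`) -/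
lemma Down.per_cpl (h : Down D) : per (cpl D) = per D := by
  refine le_antisymm ((cper_le_cpl h.cpl).trans (le_of_eq ?_)) (cper_le_cpl h)
  congr 1
  ext p
  constructor
  · rintro ⟨hp, h1⟩
    by_contra h2
    refine h1 ⟨cper_rf_mem.2 hp, ?_⟩
    simpa using h2
  · intro hp
    refine ⟨h.sub hp, fun h1 => h1.2 ?_⟩
    simpa using hp
protected lemma Min.cyc (h : Min D) : Min (cyc ⁻¹' D) := by
  refine ⟨h.down.cyc, fun D' hD' => ?_⟩
  rw [h.down.per_cyc, vol_cyc]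
  exact h.min D' hD'

end Crest.Agent.R214
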