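import Crest.Agent.R214.Chk

/-! Row 214: running the checker. -/

set_option autoImplicit false

namespace Crest.Agent.R214.Chk

theorem run1a : chk sk1a false 0 (fun _ => 1000000) 30 300000 850000 0 1000000 1000000 1000000 =
    true := by decide +kernel
theorem run1b : chk sk1b false 0 (fun _ => 1000000) 30 850000 1430000 70000 1000000 1000000
    1000000 = true := by decide +kernel
theorem run1c : chk sk1c false 0 (fun _ => 1000000) 30 1430000 3000000 70000 1000000 1000000
    1000000 = true := by decide +kernel

end Crest.Agent.R214.Chk
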