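import Crest.Agent.R214.Chk

/-! Row 214: running the checker. -/

set_option autoImplicit false

namespace Crest.Agent.R214.Chk

theorem run2 : chk sk2 true 924500 (fun _ => 1000000) 30 850000 3000000 0 1000000 75500 75500 =
    true := by decide +kernel

end Crest.Agent.R214.Chk
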