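import Crest.Agent.R214.Chk

/-! Row 214: running the checker. -/

set_option autoImplicit false

namespace Crest.Agent.R214.Chk

theorem run3 : chk sk3 false 0 (fun S => 1000000 - S) 40 850000 1430000 0 70000 0 1000000 =
    true := by decide +kernel

end Crest.Agent.R214.Chk
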