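import Crest.Agent.R214.ChkSound
import Crest.Agent.R214.CertA
import Crest.Agent.R214.CertB
import Crest.Agent.R214.CertC

/-! Row 214: the five numerically excluded regions. -/

set_option autoImplicit false

namespace Crest.Agent.R214

open MeasureTheory Set Filter Topology Real Chk
open scoped ENNReal

variable {H F S : ℝ}

lemma cert_div {H0 : ℕ} (h : r H0 ≤ H) : r H0 ≤ 3.141593 * (H / π) :=
  h.trans (le_div_pi ((r_nonneg H0).trans h))

lemma cert_1a {H0 F0 S0 : ℕ} (h : r H0 ≤ H) (f : r F0 ≤ F) (ok : sk1a H0 F0 S0 = true) :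
    2 - 3 * H / π < 3 * F := by
  simp only [sk1a, Nat.ble_eq] at ok
  have g : (6283186000001 : ℝ) ≤ 9424779 * F0 + 3000000 * H0 := by exact_mod_cast ok
  rw [cast_eq H0, cast_eq F0] at g
  have := cert_div h
  rw [mul_div_assoc]
  linarith

theorem r1a (h0 : 0.3 ≤ H) (h1 : H ≤ 0.85) (f0 : 0 ≤ F) (hf : 3 * F ≤ 2 - 3 * H / π) :
    Ex false 1 0 1 H F := by
  have hp : 0 ≤ 3 * H / π := div_nonneg (by linarith) pi_pos.le
  refine chk_sound (fun H0 F0 S0 h f _ ok => ?_) ?_ (fun _ _ => ?_) _ _ _ _ _ _ _ run1a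
    ?_ ?_ ?_ ?_ ?_ ?_
  · linarith [cert_1a h f ok]
  all_goals (unfold r; push_cast; linarith)

theorem r1b (h0 : 0.85 ≤ H) (h1 : H ≤ 1.43) (f0 : 0.07 ≤ F) (f1 : F ≤ 1)
    (hf : 3 * F ≤ 2 - 3 * H / π ∨ F < 0.3) : Ex false 1 0 1 H F := by
  refine chk_sound (fun H0 F0 S0 h f _ ok => ?_) ?_ (fun _ _ => ?_) _ _ _ _ _ _ _ run1b
    ?_ ?_ ?_ ?_ ?_ ?_
  · simp only [sk1b, Bool.and_eq_true, Nat.ble_eq] at ok
    have := cert_1a h f ok.1
    have g := r_mono ok.2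
    have e : r 300000 = 0.3 := by unfold r; norm_num
    rcases hf with hf | hf <;> linarith
  all_goals (unfold r; push_cast; linarith)

theorem r1c (h0 : 1.43 ≤ H) (h1 : H ≤ 3) (f0 : 0.07 ≤ F) (f1 : F ≤ 1)
    (hf : 2 * F ≤ 2 - 3 * H / π ∨ 8 * F * H ≤ π) : Ex false 1 0 1 H F := by
  refine chk_sound (fun H0 F0 S0 h f _ ok => ?_) ?_ (fun _ _ => ?_) _ _ _ _ _ _ _ run1c
    ?_ ?_ ?_ ?_ ?_ ?_
  · simp only [sk1c, Bool.and_eq_true, Nat.ble_eq] at ok
    have g : (6283186000001 : ℝ) ≤ 6283186 * F0 + 3000000 * H0 := by exact_mod_cast ok.1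
    have g' : (3141593000001 : ℝ) ≤ 8 * F0 * H0 := by exact_mod_cast ok.2
    rw [cast_eq H0, cast_eq F0] at g g'
    have := cert_div h
    rcases hf with hf | hf
    · rw [mul_div_assoc] at hf
      linarith
    · have q : r F0 * r H0 ≤ F * H := mul_le_mul f h (r_nonneg _) (by linarith)
      nlinarith [ph]
  all_goals (unfold r; push_cast; linarith)

theorem r2 (h0 : 0.85 ≤ H) (h1 : H ≤ 3) (f0 : 0 ≤ F) (f1 : F ≤ 1)
    (hf : H * 0.42 + F < √(π * 0.42)) : Ex true 0.0755 0.9245 1 H F := by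
  refine chk_sound (fun H0 F0 S0 h f _ ok => ?_) ?_ (fun _ _ => ?_) _ _ _ _ _ _ _ run2
    ?_ ?_ ?_ ?_ ?_ ?_
  · simp only [sk2, frc_eq, Nat.ble_eq] at ok
    have g : (1319469060000000000000000 : ℝ) ≤ (H0 * 420000 + F0 * 1000000) *
        (H0 * 420000 + F0 * 1000000) := by exact_mod_cast ok
    rw [cast_eq H0, cast_eq F0] at g
    have p0 : 0 ≤ r H0 * 0.42 + r F0 := by
      have := r_nonneg H0
      have := r_nonneg F0
      positivity
    have q : r H0 * 0.42 + r F0 < √(π * 0.42) := by linarith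
    rw [Real.lt_sqrt p0] at q
    nlinarith [ph]
  all_goals (unfold r; push_cast; linarith)

theorem r3 (h0 : 0.85 ≤ H) (h1 : H ≤ 1.43) (f0 : 0 ≤ F) (f1 : F ≤ 0.07) (s0 : 0 ≤ S) (s1 : S ≤ 1)
    (hs : H < 1.25 ∨ S < 0.71 - 1.6 * (H - 1.25)) : Ex false S 0 (1 - S) H F := by
  refine chk_sound (fun H0 F0 S0 h f s ok => ?_) ?_ (fun S0 s => ?_) _ _ _ _ _ _ _ run3
    ?_ ?_ ?_ ?_ ?_ ?_
  · simp only [sk3, Bool.and_eq_true, Nat.ble_eq] at ok
    have g : (1250000 : ℝ) ≤ H0 := by exact_mod_cast ok.1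
    have g' : (27100000 : ℝ) ≤ 10 * S0 + 16 * H0 := by exact_mod_cast ok.2
    rw [cast_eq H0] at g
    rw [cast_eq H0, cast_eq S0] at g'
    rcases hs with hs | hs <;> linarith
  · unfold r; push_cast; linarith
  · have g : (1000000 : ℝ) ≤ (1000000 - S0 : ℕ) + S0 := by
      exact_mod_cast (le_tsub_add : 1000000 ≤ 1000000 - S0 + S0)
    rw [cast_eq (1000000 - S0), cast_eq S0] at g
    linarith
  all_goals (unfold r; push_cast; linarith)

end Crest.Agent.R214
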