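import Crest.Agent.R214.Defs2

/-! Row 214: the checker of calibrations (natural numbers, unit `10⁻⁶`). -/

set_option autoImplicit false

namespace Crest.Agent.R214.Chk

/-- evaluate `n`, then apply `f` -/
def frc {β : Type} (n : ℕ) (f : ℕ → β) : β := Nat.rec (f 0) (fun m _ => f (Nat.succ m)) n

@[simp] lemma frc_eq {β : Type} (n : ℕ) (f : ℕ → β) : frc n f = f n := by cases n <;> rfl

def mn (a b : ℕ) : ℕ := frc a fun a => frc b fun b => bif Nat.ble a b then a else b
def mx (a b : ℕ) : ℕ := frc a fun a => frc b fun b => bif Nat.ble a b then b else a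
def nw (n r : ℕ) : ℕ := (r + n / r) / 2
def isq (n : ℕ) : ℕ := frc n fun n => frc (2 ^ (Nat.log2 n / 2 + 1)) fun r => frc (nw n r) fun r =>
  frc (nw n r) fun r => frc (nw n r) fun r => frc (nw n r) fun r => frc (nw n r) fun r =>
  mn r (n / r)
def cdiv (a b : ℕ) : ℕ := (a + b - 1) / b

def mstrip (a S k : ℕ) : ℕ :=
  (30000000000000 * k * a + 30000000000000000000000000 -
    (30000000000000 * k * S + 5000000000000 * (k * k) + k * k * (k * k))) / 30000000000000000000
def mL (a wl wh : ℕ) : ℕ :=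
  bif Nat.ble (3141593 * wh * wh + 4000000000000 * a) 4000000000000000000 then
    (4000000000000000000 + 3141592 * wh * wh - 4000000000000 * a) / (4000000 * wh)
  else mx (isq (3141592 * (1000000 - a)))
    ((4000000000000000000 + 3141592 * wl * wh - 4000000000000 * a) / (4000000 * wh))
def mLow (a S wl wh k : ℕ) : ℕ := mn (isq (3141592 * a)) (mn (mstrip a S k) (mL a wl wh))

def okM (a S wl wh k m : ℕ) : Bool :=
  Nat.ble (m * m) (3141592 * a) &&
  Nat.ble (30000000000000000000 * m + 30000000000000 * k * S + 5000000000000 * (k * k) +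
    k * k * (k * k)) (30000000000000 * k * a + 30000000000000000000000000) &&
  (Nat.ble (m * m + 3141592 * a) 3141592000000 ||
    (Nat.ble (3141593 * wh * wh + 4000000000000 * a) 4000000000000000000 &&
      Nat.ble (4000000 * m * wh + 4000000000000 * a) (4000000000000000000 + 3141592 * wh * wh)) ||
    Nat.ble (4000000 * m * wh + 4000000000000 * a) (4000000000000000000 + 3141592 * wl * wh))

def okS (l0 l1 m0 m1 s0 s1 c0 c1 : ℕ) : Bool :=
  Nat.ble l0 (s0 * m0) && Nat.ble l1 (s1 * m1) &&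
  Nat.ble (4 * l0 + s0 * m0 + s1 * m1) (4 * (s0 * m0) + s0 * m1 + s1 * m0) &&
  Nat.ble (4 * l1 + s0 * m0 + s1 * m1) (4 * (s1 * m1) + s0 * m1 + s1 * m0) &&
  Nat.ble (c0 * c0 + s0 * s0) 1000000000000 && Nat.ble (c1 * c1 + s1 * s1) 1000000000000

def slack (t0 t1 m0 m1 : ℕ) : ℕ :=
  frc (t0 * m0 + t1 * m1 - (t0 * m1 + t1 * m0)) fun D =>
    bif Nat.ble D 0 then 0 else cdiv D (4 * mn m0 m1) + 1

def piece (H F S wl wh a0 a1 : ℕ) : ℕ :=
  frc (mn 666666 (3 * ((a0 + a1) / 2 - S))) fun k =>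
  frc (mLow a0 S wl wh k) fun m0 => frc (mLow a1 S wl wh k) fun m1 =>
  frc (H * a0 + F * 1000000) fun l0 => frc (H * a1 + F * 1000000) fun l1 =>
  frc (cdiv l0 m0) fun t0 => frc (cdiv l1 m1) fun t1 =>
  frc (slack t0 t1 m0 m1) fun d => frc (t0 + d) fun s0 => frc (t1 + d) fun s1 =>
  frc (isq (1000000000000 - s0 * s0)) fun c0 => frc (isq (1000000000000 - s1 * s1)) fun c1 =>
  bif Nat.ble k 666666 && okM a0 S wl wh k m0 && okM a1 S wl wh k m1 &&
    okS l0 l1 m0 m1 s0 s1 c0 c1 then (a1 - a0) * (c0 + c1) else 0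

def loop (H F S wl wh a0 aN : ℕ) : ℕ → ℕ → ℕ
  | 0, prev => piece H F S wl wh prev aN
  | j + 1, prev =>
    frc (mx prev (mn aN (aN - (aN - a0) * ((j + 1) * (j + 1) * (66 - 2 * (j + 1))) / 10648)))
      fun a => frc (piece H F S wl wh prev a) fun v => v + loop H F S wl wh a0 aN j a

def okLo (H F a : ℕ) : Bool :=
  Nat.ble 318310 a || frc (H * a + F * 1000000) fun l =>
    Nat.ble (l * l + 1) (3141592000000000000 * a)
def okHi (thin : Bool) (H F a : ℕ) : Bool := frc (H * a + F * 1000000) fun l =>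
  Nat.ble (l * l + 1) (3141592000000000000 * a) &&
    bif thin then Nat.ble (l + 1) (666666 * a + 869008000000) &&
      Nat.ble (l + 1000000 * a + 1) 1726100000000
    else Nat.ble (l + 1) 1000000000000 &&
      Nat.ble (l * l + 3141592000000000000 * a + 1) 3141592000000000000000000

/-- bisection: `p good` holds, `p bad` fails -/
def bis (p : ℕ → Bool) : ℕ → ℕ → ℕ → ℕ
  | 0, good, _ => good
  | j + 1, good, bad => frc ((good + bad) / 2) fun m =>
    bif p m then bis p j m bad else bis p j good m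

def findLo (H F : ℕ) : ℕ := frc (mn 318310 (3141592000000000000 / (4 * H * H))) fun am =>
  bif okLo H F am then bis (okLo H F) 20 am 0 else 318310
def findHi (thin : Bool) (H F : ℕ) : ℕ := frc (3141592000000000000 / (4 * H * H)) fun am =>
  bif okHi thin H F (mn 318310 am) then bis (okHi thin H F) 20 (mn 318310 am) 1000000
  else bis (okHi thin H F) 20 (mn 420000 am) 1000000

def crit (H K : ℕ) : Bool :=
  Nat.ble 6283186000000000001 (4 * H * K) ||
  (Nat.ble (2 * H) 3141592 && Nat.ble 6283186000000000001 (K * 3141593 + 2000000000000 * H)) ||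
  (Nat.ble 9000000 (4 * H) && Nat.ble 113097348000001 (81 * K + 25132744 * H))

def leaf (thin : Bool) (wl wh H0 H1 F0 F1 S1 : ℕ) : Bool :=
  crit H0 (2000000 * F0) || frc (findLo H1 F1) fun a0 => frc (findHi thin H1 F1) fun aN =>
    Nat.ble a0 aN && Nat.ble aN 1000000 && okLo H1 F1 a0 && okHi thin H1 F1 aN &&
      frc (2000000 * F0 + loop H0 F0 S1 wl wh a0 aN 21 a0) fun K => crit H0 K

def chk (skip : ℕ → ℕ → ℕ → Bool) (thin : Bool) (wl : ℕ) (wh : ℕ → ℕ) :
    ℕ → ℕ → ℕ → ℕ → ℕ → ℕ → ℕ → Bool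
  | 0, _, _, _, _, _, _ => false
  | j + 1, H0, H1, F0, F1, S0, S1 =>
    skip H0 F0 S0 || frc (wh S0) (fun w => leaf thin wl w H0 H1 F0 F1 S1) ||
      frc ((H1 - H0) * 3 / 4) fun dH => frc (F1 - F0) fun dF => frc ((S1 - S0) / 4) fun dS =>
      bif Nat.ble dF dH && Nat.ble dS dH then frc ((H0 + H1) / 2) fun m =>
        chk skip thin wl wh j H0 m F0 F1 S0 S1 && chk skip thin wl wh j m H1 F0 F1 S0 S1
      else bif Nat.ble dS dF then frc ((F0 + F1) / 2) fun m =>
        chk skip thin wl wh j H0 H1 F0 m S0 S1 && chk skip thin wl wh j H0 H1 m F1 S0 S1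
      else frc ((S0 + S1) / 2) fun m =>
        chk skip thin wl wh j H0 H1 F0 F1 S0 m && chk skip thin wl wh j H0 H1 F0 F1 m S1

def sk1a (H F _S : ℕ) : Bool := Nat.ble 6283186000001 (9424779 * F + 3000000 * H)
def sk1b (H F S : ℕ) : Bool := sk1a H F S && Nat.ble 300000 F
def sk1c (H F _S : ℕ) : Bool :=
  Nat.ble 6283186000001 (6283186 * F + 3000000 * H) && Nat.ble 3141593000001 (8 * F * H)
def sk2 (H F _S : ℕ) : Bool := frc (H * 420000 + F * 1000000) fun l =>
  Nat.ble 1319469060000000000000000 (l * l)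
def sk3 (H _F S : ℕ) : Bool := Nat.ble 1250000 H && Nat.ble 27100000 (10 * S + 16 * H)

end Crest.Agent.R214.Chk
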