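import Crest.Agent.R214.Defs2

/-! Row 214: piecewise linear calibrations. -/

set_option autoImplicit false

namespace Crest.Agent.R214

open MeasureTheory Set Filter Topology Real

variable {S wl wh H F x y z K K' : ℝ}

lemma chk_ii {c : ℝ → ℝ} (hm : Measurable c) (h0 : ∀ a, 0 ≤ c a) (h1 : ∀ a, c a ≤ 1) (x y : ℝ) :
    IntervalIntegrable c volume x y := by
  refine (intervalIntegrable_const (c := (1 : ℝ))).mono_fun' hm.aestronglyMeasurable ?_
  filter_upwards with a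
  rw [Real.norm_eq_abs, abs_of_nonneg (h0 a)]
  exact h1 a

lemma Val.zero (S wl wh H F x y : ℝ) : Val S wl wh H F x y 0 := by
  refine ⟨fun _ => 0, measurable_const, fun _ => le_rfl, fun _ => zero_le_one, ?_, by simp⟩
  intro a _ l hl _
  simpa using hl

lemma Val.concat (h1 : Val S wl wh H F x y K) (h2 : Val S wl wh H F y z K') (hxy : x ≤ y)
    (hyz : y ≤ z) : Val S wl wh H F x z (K + K') := by
  obtain ⟨c, cm, c0, c1, cv, ci⟩ := h1
  obtain ⟨e, em, e0, e1, ev, ei⟩ := h2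
  set g : ℝ → ℝ := fun a => if a ≤ y then c a else e a with hg
  have gm : Measurable g := Measurable.ite measurableSet_Iic cm em
  have g0 : ∀ a, 0 ≤ g a := fun a => by simp only [hg]; split_ifs; exacts [c0 a, e0 a]
  have g1 : ∀ a, g a ≤ 1 := fun a => by simp only [hg]; split_ifs; exacts [c1 a, e1 a]
  refine ⟨g, gm, g0, g1, ?_, ?_⟩
  · intro a ha l hl hA
    simp only [hg]
    split_ifs with h
    · exact cv a ⟨ha.1, h⟩ l hl hA
    · exact ev a ⟨(not_le.1 h).le, ha.2⟩ l hl hA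
  · rw [← intervalIntegral.integral_add_adjacent_intervals (chk_ii gm g0 g1 x y)
      (chk_ii gm g0 g1 y z)]
    have a1 : ∫ a in x..y, g a = ∫ a in x..y, c a := by
      refine intervalIntegral.integral_congr fun a ha => ?_
      rw [uIcc_of_le hxy] at ha
      simp only [hg, if_pos ha.2]
    have a2 : ∫ a in y..z, g a = ∫ a in y..z, e a := by
      refine intervalIntegral.integral_congr_ae (Eventually.of_forall fun a ha => ?_)
      rw [uIoc_of_le hyz] at ha
      simp only [hg, if_neg (not_le.2 ha.1)]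
    linarith

lemma chk_adm_mono {S' wl' wh' b m : ℝ} (h : Adm S wl wh b m) (hS : S ≤ S') (hl : wl' ≤ wl)
    (hh : wh ≤ wh') : Adm S' wl' wh' b m := by
  rcases h with h | h | ⟨w, h0, h1, h2, h3⟩
  · exact Or.inl h
  · refine Or.inr (Or.inl fun k hk => le_trans ?_ (h k hk))
    unfold strip
    have : (0 : ℝ) ≤ (k : ℝ) / 1000000 := by positivity
    nlinarith
  · exact Or.inr (Or.inr ⟨w, h0, hl.trans h1, h2.trans hh, h3⟩)

lemma Val.mono {S' wl' wh' : ℝ} (h : Val S' wl' wh' H F x y K') (hS : S ≤ S') (hl : wl' ≤ wl)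
    (hh : wh ≤ wh') (hK : K ≤ K') : Val S wl wh H F x y K := by
  obtain ⟨c, cm, c0, c1, cv, ci⟩ := h
  exact ⟨c, cm, c0, c1, fun a ha l hl' hA => cv a ha l hl' (chk_adm_mono hA hS hl hh), hK.trans ci⟩

/-- `m` is a lower bound for the admissible lengths at `a` -/
structure Low (S wl wh : ℝ) (k : ℕ) (a m : ℝ) : Prop where
  cor : m ≤ √(π * a)
  str : m ≤ strip (k / 1000000) S a
  el : ∀ w, 0 < w → wl ≤ w → w ≤ wh → m ≤ ell w a

lemma chk_sqrt_conc {u v t : ℝ} (hu : 0 ≤ u) (hv : 0 ≤ v) (t0 : 0 ≤ t) (t1 : t ≤ 1) :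
    (1 - t) * √u + t * √v ≤ √((1 - t) * u + t * v) := by
  refine Real.le_sqrt_of_sq_le ?_
  have h1 := Real.sq_sqrt hu
  have h2 := Real.sq_sqrt hv
  have h3 : 0 ≤ t * (1 - t) * (√u - √v) ^ 2 := by
    have : 0 ≤ 1 - t := by linarith
    positivity
  nlinarith

lemma Low.comb {k : ℕ} (hk : k ≤ 666666) {m0 m1 t l : ℝ} (h0 : Low S wl wh k x m0)
    (h1 : Low S wl wh k y m1) (hx : 0 ≤ x) (hy : 0 ≤ y) (t0 : 0 ≤ t) (t1 : t ≤ 1)
    (hA : Adm S wl wh ((1 - t) * x + t * y) l) : (1 - t) * m0 + t * m1 ≤ l := by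
  have t2 : 0 ≤ 1 - t := by linarith
  rcases hA with h | h | ⟨w, w0, w1, w2, h⟩
  · have := chk_sqrt_conc (mul_nonneg pi_pos.le hx) (mul_nonneg pi_pos.le hy) t0 t1
    have e : (1 - t) * (π * x) + t * (π * y) = π * ((1 - t) * x + t * y) := by ring
    rw [e] at this
    have a := mul_le_mul_of_nonneg_left h0.cor t2
    have b := mul_le_mul_of_nonneg_left h1.cor t0
    linarith
  · have := h k hk
    have a := mul_le_mul_of_nonneg_left h0.str t2
    have b := mul_le_mul_of_nonneg_left h1.str t0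
    unfold strip at *
    nlinarith
  · have a := mul_le_mul_of_nonneg_left (h0.el w w0 w1 w2) t2
    have b := mul_le_mul_of_nonneg_left (h1.el w w0 w1 w2) t0
    unfold ell at *
    have e : (1 - ((1 - t) * x + t * y)) / w + π * w / 4 =
        (1 - t) * ((1 - x) / w + π * w / 4) + t * ((1 - y) / w + π * w / 4) := by ring
    linarith

lemma chk_disc {c0 c1 s0 s1 t : ℝ} (h0 : c0 ^ 2 + s0 ^ 2 ≤ 1) (h1 : c1 ^ 2 + s1 ^ 2 ≤ 1)
    (t0 : 0 ≤ t) (t1 : t ≤ 1) :
    ((1 - t) * c0 + t * c1) ^ 2 + ((1 - t) * s0 + t * s1) ^ 2 ≤ 1 := by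
  have t2 : 0 ≤ 1 - t := by linarith
  have a := mul_le_mul_of_nonneg_left h0 t2
  have b := mul_le_mul_of_nonneg_left h1 t0
  have e : 0 ≤ t * (1 - t) * ((c0 - c1) ^ 2 + (s0 - s1) ^ 2) := by positivity
  nlinarith

lemma chk_slack {E0 E1 D t : ℝ} (h0 : 0 ≤ E0) (h1 : 0 ≤ E1) (f0 : D ≤ 4 * E0) (f1 : D ≤ 4 * E1)
    (t0 : 0 ≤ t) (t1 : t ≤ 1) : 0 ≤ (1 - t) * E0 + t * E1 - t * (1 - t) * D := by
  have t2 : 0 ≤ 1 - t := by linarith
  rcases le_total D 0 with h | h
  · have a : 0 ≤ t * (1 - t) * (-D) := by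
      have : 0 ≤ -D := by linarith
      positivity
    have b : 0 ≤ (1 - t) * E0 + t * E1 := by positivity
    linarith
  · have a := mul_le_mul_of_nonneg_left f0 t2
    have b := mul_le_mul_of_nonneg_left f1 t0
    have c := mul_nonneg (sq_nonneg (2 * t - 1)) h
    nlinarith

lemma piece_val {k : ℕ} (hk : k ≤ 666666) {m0 m1 s0 s1 c0 c1 : ℝ} (hx : 0 ≤ x) (hxy : x ≤ y)
    (h0 : Low S wl wh k x m0) (h1 : Low S wl wh k y m1) (pm0 : 0 ≤ m0) (pm1 : 0 ≤ m1)
    (ps0 : 0 ≤ s0) (ps1 : 0 ≤ s1) (pc0 : 0 ≤ c0) (pc1 : 0 ≤ c1)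
    (d0 : c0 ^ 2 + s0 ^ 2 ≤ 1) (d1 : c1 ^ 2 + s1 ^ 2 ≤ 1)
    (e0 : H * x + F ≤ s0 * m0) (e1 : H * y + F ≤ s1 * m1)
    (f0 : (s1 - s0) * (m1 - m0) ≤ 4 * (s0 * m0 - (H * x + F)))
    (f1 : (s1 - s0) * (m1 - m0) ≤ 4 * (s1 * m1 - (H * y + F))) :
    Val S wl wh H F x y ((y - x) * (c0 + c1) / 2) := by
  rcases hxy.eq_or_lt with rfl | hlt
  · simpa using Val.zero S wl wh H F x x
  have hd : 0 < y - x := by linarith
  set g : ℝ → ℝ := fun a => (1 - (a - x) / (y - x)) * c0 + (a - x) / (y - x) * c1 with hg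
  have key : ∀ a ∈ Icc x y, 0 ≤ (a - x) / (y - x) ∧ (a - x) / (y - x) ≤ 1 ∧
      a = (1 - (a - x) / (y - x)) * x + (a - x) / (y - x) * y := by
    intro a ha
    refine ⟨div_nonneg (by linarith [ha.1]) hd.le, (div_le_one hd).2 (by linarith [ha.2]), ?_⟩
    field_simp
    ring
  have hgc : ∀ a ∈ Icc x y, max 0 (min (g a) 1) = g a := by
    intro a ha
    obtain ⟨t0, t1, -⟩ := key a ha
    have hD := chk_disc d0 d1 t0 t1
    have g0 : 0 ≤ g a := by
      simp only [hg]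
      have : 0 ≤ 1 - (a - x) / (y - x) := by linarith
      positivity
    have g1 : g a ≤ 1 := by
      simp only [hg]
      nlinarith [sq_nonneg ((1 - (a - x) / (y - x)) * s0 + (a - x) / (y - x) * s1),
        sq_nonneg ((1 - (a - x) / (y - x)) * c0 + (a - x) / (y - x) * c1 - 1)]
    rw [min_eq_left g1, max_eq_right g0]
  refine ⟨fun a => max 0 (min (g a) 1), by fun_prop, fun a => le_max_left _ _,
    fun a => max_le zero_le_one (min_le_right _ _), ?_, ?_⟩
  · intro a ha l _ hA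
    obtain ⟨t0, t1, ea⟩ := key a ha
    simp only [hgc a ha]
    simp only [hg]
    generalize (a - x) / (y - x) = t at t0 t1 ea
    subst ea
    have t2 : 0 ≤ 1 - t := by linarith
    have hm := Low.comb hk h0 h1 hx (hx.trans hxy) t0 t1 hA
    have hD := chk_disc d0 d1 t0 t1
    have hs : (1 - t) * s0 + t * s1 ≤ √(1 - ((1 - t) * c0 + t * c1) ^ 2) :=
      Real.le_sqrt_of_sq_le (by linarith)
    have p1 : 0 ≤ (1 - t) * s0 + t * s1 := by positivity
    have p2 : 0 ≤ (1 - t) * m0 + t * m1 := by positivity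
    refine le_trans ?_ (mul_le_mul hs hm p2 (Real.sqrt_nonneg _))
    have e : ((1 - t) * s0 + t * s1) * ((1 - t) * m0 + t * m1) -
        (H * ((1 - t) * x + t * y) + F) = (1 - t) * (s0 * m0 - (H * x + F)) +
          t * (s1 * m1 - (H * y + F)) - t * (1 - t) * ((s1 - s0) * (m1 - m0)) := by ring
    have := chk_slack (sub_nonneg.2 e0) (sub_nonneg.2 e1) f0 f1 t0 t1
    linarith
  · have : ∫ a in x..y, max 0 (min (g a) 1) = ∫ a in x..y, g a := by
      refine intervalIntegral.integral_congr fun a ha => ?_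
      rw [uIcc_of_le hxy] at ha
      exact hgc a ha
    rw [this]
    have hF : ∀ a ∈ uIcc x y, HasDerivAt
        (fun a => (a - (a - x) ^ 2 / (2 * (y - x))) * c0 + (a - x) ^ 2 / (2 * (y - x)) * c1)
        (g a) a := by
      intro a _
      have h := ((hasDerivAt_id a).sub_const x).pow 2
      have h' := h.div_const (2 * (y - x))
      refine ((((hasDerivAt_id a).sub h').mul_const c0).add (h'.mul_const c1)).congr_deriv ?_
      simp only [hg, id]
      field_simp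
      ring
    rw [intervalIntegral.integral_eq_sub_of_hasDerivAt hF
      (by apply Continuous.intervalIntegrable; fun_prop)]
    apply le_of_eq
    field_simp
    ring

end Crest.Agent.R214
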