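import Crest.Agent.R214.Chk
import Crest.Agent.R214.ChkReal

/-! Row 214: soundness of the checker. -/

set_option autoImplicit false

namespace Crest.Agent.R214.Chk

open Set Real

/-- the real number represented by `n` -/
noncomputable def r (n : ℕ) : ℝ := (n : ℝ) / 1000000

lemma r_nonneg (n : ℕ) : 0 ≤ r n := by unfold r; positivity
lemma r_mono {a b : ℕ} (h : a ≤ b) : r a ≤ r b := by
  unfold r
  have : (a : ℝ) ≤ b := by exact_mod_cast h
  linarith
lemma cast_eq (n : ℕ) : (n : ℝ) = 1000000 * r n := by unfold r; ring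
lemma pl : (3.141592 : ℝ) < π := pi_gt_d6
lemma ph : π < (3.141593 : ℝ) := pi_lt_d6

lemma le_div_pi {x : ℝ} (h : 0 ≤ x) : x ≤ 3.141593 * (x / π) := by
  have := mul_le_mul_of_nonneg_right ph.le (div_nonneg h pi_pos.le)
  rwa [mul_div_cancel₀ _ pi_pos.ne'] at this

lemma mn_eq (a b : ℕ) : mn a b = min a b := by
  simp only [mn, frc_eq, Bool.cond_eq_ite, Nat.ble_eq]
  split_ifs with h
  · exact (min_eq_left h).symm
  · exact (min_eq_right (not_le.1 h).le).symm
lemma mx_eq (a b : ℕ) : mx a b = max a b := by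
  simp only [mx, frc_eq, Bool.cond_eq_ite, Nat.ble_eq]
  split_ifs with h
  · exact (max_eq_right h).symm
  · exact (max_eq_left (not_le.1 h).le).symm

lemma ell_ge {w b : ℝ} (hw : 0 < w) (hb : b ≤ 1) : √(π * (1 - b)) ≤ ell w b := by
  unfold ell
  have h1 : 0 ≤ 1 - b := by linarith
  refine Real.sqrt_le_iff.2 ⟨by positivity, ?_⟩
  have e : ((1 - b) / w + π * w / 4) ^ 2 = ((1 - b) / w - π * w / 4) ^ 2 + π * (1 - b) := by
    field_simp
    ring
  nlinarith [sq_nonneg ((1 - b) / w - π * w / 4)]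

lemma low_of_okM {a S wl wh k m : ℕ} (h : okM a S wl wh k m = true) (ha : a ≤ 1000000) :
    Low (r S) (r wl) (r wh) k (r a) (r m) := by
  simp only [okM, Bool.and_eq_true, Bool.or_eq_true, Nat.ble_eq] at h
  obtain ⟨⟨h1, h2⟩, h3⟩ := h
  have ha1 : r a ≤ 1 := by
    have := r_mono ha
    simpa [r] using this
  have a0 := r_nonneg a
  have m0 := r_nonneg m
  have wl0 := r_nonneg wl
  have wh0 := r_nonneg wh
  refine ⟨?_, ?_, ?_⟩
  · refine Real.le_sqrt_of_sq_le ?_
    have h1' : (m : ℝ) * m ≤ 3141592 * a := by exact_mod_cast h1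
    rw [cast_eq m, cast_eq a] at h1'
    linarith [mul_le_mul_of_nonneg_right pl.le a0]
  · have h2' : 30000000000000000000 * (m : ℝ) + 30000000000000 * k * S + 5000000000000 * (k * k) +
        k * k * (k * k) ≤ 30000000000000 * k * a + 30000000000000000000000000 := by
      exact_mod_cast h2
    change r m ≤ strip (r k) (r S) (r a)
    rw [cast_eq m, cast_eq a, cast_eq k, cast_eq S] at h2'
    unfold strip
    linarith
  · intro w w0 w1 w2
    have hb : 0 ≤ 1 - r a := by linarith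
    have whp : 0 < r wh := w0.trans_le w2
    rcases h3 with (h | ⟨h, h'⟩) | h
    · refine le_trans (Real.le_sqrt_of_sq_le ?_) (ell_ge w0 ha1)
      have h1' : (m : ℝ) * m + 3141592 * a ≤ 3141592000000 := by exact_mod_cast h
      rw [cast_eq m, cast_eq a] at h1'
      linarith [mul_le_mul_of_nonneg_right pl.le hb]
    · have g : 3141593 * (wh : ℝ) * wh + 4000000000000 * a ≤ 4000000000000000000 := by
        exact_mod_cast h
      have g' : 4000000 * (m : ℝ) * wh + 4000000000000 * a ≤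
          4000000000000000000 + 3141592 * wh * wh := by exact_mod_cast h'
      rw [cast_eq wh, cast_eq a] at g
      rw [cast_eq m, cast_eq wh, cast_eq a] at g'
      have q1 : π * r wh ^ 2 ≤ 4 * (1 - r a) := by
        linarith [mul_le_mul_of_nonneg_right ph.le (sq_nonneg (r wh))]
      have q2 : 4 * r m * r wh ≤ 4 * (1 - r a) + π * r wh ^ 2 := by
        linarith [mul_le_mul_of_nonneg_right pl.le (sq_nonneg (r wh))]
      have q3 : π * (w * r wh) ≤ 4 * (1 - r a) := by
        have : w * r wh ≤ r wh * r wh := mul_le_mul_of_nonneg_right w2 wh0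
        linarith [mul_le_mul_of_nonneg_left this pi_pos.le]
      have q4 : r m ≤ (1 - r a) / r wh + π * r wh / 4 := by
        rw [div_add' _ _ _ whp.ne', le_div_iff₀ whp]
        linarith
      refine q4.trans ?_
      unfold ell
      have e : (1 - r a) / w + π * w / 4 - ((1 - r a) / r wh + π * r wh / 4) =
          (r wh - w) * (4 * (1 - r a) - π * (w * r wh)) / (4 * w * r wh) := by
        field_simp
        ring
      have : 0 ≤ (r wh - w) * (4 * (1 - r a) - π * (w * r wh)) / (4 * w * r wh) :=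
        div_nonneg (mul_nonneg (by linarith) (by linarith)) (by positivity)
      linarith
    · have g' : 4000000 * (m : ℝ) * wh + 4000000000000 * a ≤
          4000000000000000000 + 3141592 * wl * wh := by exact_mod_cast h
      rw [cast_eq m, cast_eq wh, cast_eq a, cast_eq wl] at g'
      have q2 : 4 * r m * r wh ≤ 4 * (1 - r a) + π * (r wl * r wh) := by
        linarith [mul_le_mul_of_nonneg_right pl.le (mul_nonneg wl0 wh0)]
      have q4 : r m ≤ (1 - r a) / r wh + π * r wl / 4 := by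
        rw [div_add' _ _ _ whp.ne', le_div_iff₀ whp]
        linarith
      unfold ell
      have q5 : (1 - r a) / r wh ≤ (1 - r a) / w := div_le_div_of_nonneg_left hb w0 w2
      linarith [mul_le_mul_of_nonneg_left w1 pi_pos.le]

lemma okS_val {H F S wl wh k a0 a1 m0 m1 s0 s1 c0 c1 : ℕ} (hk : k ≤ 666666) (h01 : a0 ≤ a1)
    (h1 : a1 ≤ 1000000) (o0 : okM a0 S wl wh k m0 = true) (o1 : okM a1 S wl wh k m1 = true)
    (h : okS (H * a0 + F * 1000000) (H * a1 + F * 1000000) m0 m1 s0 s1 c0 c1 = true) :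
    Val (r S) (r wl) (r wh) (r H) (r F) (r a0) (r a1)
      ((((a1 - a0) * (c0 + c1) : ℕ) : ℝ) / 2000000000000) := by
  simp only [okS, Bool.and_eq_true, Nat.ble_eq] at h
  obtain ⟨⟨⟨⟨⟨e0, e1⟩, f0⟩, f1⟩, d0⟩, d1⟩ := h
  have e0' : (H : ℝ) * a0 + F * 1000000 ≤ s0 * m0 := by exact_mod_cast e0
  have e1' : (H : ℝ) * a1 + F * 1000000 ≤ s1 * m1 := by exact_mod_cast e1
  have f0' : 4 * ((H : ℝ) * a0 + F * 1000000) + s0 * m0 + s1 * m1 ≤
      4 * (s0 * m0) + s0 * m1 + s1 * m0 := by exact_mod_cast f0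
  have f1' : 4 * ((H : ℝ) * a1 + F * 1000000) + s0 * m0 + s1 * m1 ≤
      4 * (s1 * m1) + s0 * m1 + s1 * m0 := by exact_mod_cast f1
  have d0' : (c0 : ℝ) * c0 + s0 * s0 ≤ 1000000000000 := by exact_mod_cast d0
  have d1' : (c1 : ℝ) * c1 + s1 * s1 ≤ 1000000000000 := by exact_mod_cast d1
  have e : (((a1 - a0) * (c0 + c1) : ℕ) : ℝ) / 2000000000000 =
      (r a1 - r a0) * (r c0 + r c1) / 2 := by
    push_cast [Nat.cast_sub h01]
    unfold r
    ring
  rw [e]
  rw [cast_eq H, cast_eq F, cast_eq a0, cast_eq s0, cast_eq m0] at e0'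
  rw [cast_eq H, cast_eq F, cast_eq a1, cast_eq s1, cast_eq m1] at e1'
  rw [cast_eq H, cast_eq F, cast_eq a0, cast_eq s0, cast_eq m0, cast_eq s1, cast_eq m1] at f0'
  rw [cast_eq H, cast_eq F, cast_eq a1, cast_eq s0, cast_eq m0, cast_eq s1, cast_eq m1] at f1'
  rw [cast_eq c0, cast_eq s0] at d0'
  rw [cast_eq c1, cast_eq s1] at d1'
  refine piece_val hk (r_nonneg _) (r_mono h01) (low_of_okM o0 (h01.trans h1)) (low_of_okM o1 h1)
    (r_nonneg m0) (r_nonneg m1) (r_nonneg s0) (r_nonneg s1) (r_nonneg c0) (r_nonneg c1)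
    ?_ ?_ ?_ ?_ ?_ ?_ <;> linarith

lemma piece_sound (H F S wl wh : ℕ) {a0 a1 : ℕ} (h01 : a0 ≤ a1) (h1 : a1 ≤ 1000000) :
    Val (r S) (r wl) (r wh) (r H) (r F) (r a0) (r a1)
      ((piece H F S wl wh a0 a1 : ℝ) / 2000000000000) := by
  simp only [piece, frc_eq, Bool.cond_eq_ite]
  split_ifs with h
  · simp only [Bool.and_eq_true, Nat.ble_eq] at h
    exact okS_val h.1.1.1 h01 h1 h.1.1.2 h.1.2 h.2
  · simpa using Val.zero _ _ _ _ _ _ _

lemma loop_sound (H F S wl wh a0 : ℕ) {aN : ℕ} (h1 : aN ≤ 1000000) (j : ℕ) :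
    ∀ prev, prev ≤ aN → Val (r S) (r wl) (r wh) (r H) (r F) (r prev) (r aN)
      ((loop H F S wl wh a0 aN j prev : ℝ) / 2000000000000) := by
  induction j with
  | zero => exact fun prev hp => piece_sound H F S wl wh hp h1
  | succ j ih =>
    intro prev hp
    simp only [loop, frc_eq, mx_eq, mn_eq]
    generalize aN - (aN - a0) * ((j + 1) * (j + 1) * (66 - 2 * (j + 1))) / 10648 = b
    have p1 : prev ≤ max prev (min aN b) := le_max_left _ _
    have p2 : max prev (min aN b) ≤ aN := max_le hp (min_le_left _ _)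
    have := (piece_sound H F S wl wh p1 (p2.trans h1)).concat (ih _ p2) (r_mono p1) (r_mono p2)
    push_cast
    rwa [← add_div] at this

lemma line_sq {H F a : ℕ} {h f : ℝ} (h0 : 0 ≤ h) (h1 : h ≤ r H) (f0 : 0 ≤ f) (f1 : f ≤ r F) :
    0 ≤ h * r a + f ∧ h * r a + f ≤ ((H * a + F * 1000000 : ℕ) : ℝ) / 1000000000000 := by
  have := r_nonneg a
  refine ⟨by positivity, ?_⟩
  have e : ((H * a + F * 1000000 : ℕ) : ℝ) / 1000000000000 = r H * r a + r F := by
    push_cast
    unfold r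
    ring
  rw [e]
  linarith [mul_le_mul_of_nonneg_right h1 this]

lemma sq_lt_of {l a : ℕ} {u : ℝ} (u0 : 0 ≤ u) (u1 : u ≤ (l : ℝ) / 1000000000000)
    (h : l * l + 1 ≤ 3141592000000000000 * a) : u ^ 2 < π * r a := by
  have h' : (l : ℝ) * l + 1 ≤ 3141592000000000000 * a := by exact_mod_cast h
  rw [cast_eq a] at h'
  have := r_nonneg a
  have q : u ^ 2 ≤ ((l : ℝ) / 1000000000000) ^ 2 := pow_le_pow_left₀ u0 u1 2
  linarith [mul_le_mul_of_nonneg_right pl.le this]

lemma okLo_sound {H F a : ℕ} {h f : ℝ} (h0 : 0 ≤ h) (h1 : h ≤ r H) (f0 : 0 ≤ f) (f1 : f ≤ r F)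
    (ok : okLo H F a = true) : 1 / π ≤ r a ∨ (h * r a + f) ^ 2 < π * r a := by
  simp only [okLo, frc_eq, Bool.or_eq_true, Nat.ble_eq] at ok
  obtain ⟨u0, u1⟩ := line_sq (a := a) h0 h1 f0 f1
  rcases ok with ok | ok
  · left
    have := r_mono ok
    have e : r 318310 = 0.31831 := by unfold r; norm_num
    rw [div_le_iff₀ pi_pos]
    rw [e] at this
    linarith [mul_le_mul_of_nonneg_right this pi_pos.le, pl]
  · exact Or.inr (sq_lt_of u0 u1 ok)

lemma cond_f (a b : Bool) : (bif false then a else b) = b := by cases a <;> cases b <;> rfl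
lemma cond_t (a b : Bool) : (bif true then a else b) = a := by cases a <;> cases b <;> rfl

lemma okHi_sound {thin : Bool} {H F a : ℕ} {h f : ℝ} (h0 : 0 ≤ h) (h1 : h ≤ r H) (f0 : 0 ≤ f)
    (f1 : f ≤ r F) (ok : okHi thin H F a = true) : Hi thin h f (r a) := by
  simp only [okHi, frc_eq, Bool.and_eq_true, Nat.ble_eq] at ok
  obtain ⟨u0, u1⟩ := line_sq (a := a) h0 h1 f0 f1
  generalize H * a + F * 1000000 = l at ok u1
  refine ⟨sq_lt_of u0 u1 ok.1, ?_⟩
  have ok2 := ok.2
  cases thin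
  · rw [cond_f, Bool.and_eq_true, Nat.ble_eq, Nat.ble_eq] at ok2
    have g1 : (l : ℝ) + 1 ≤ 1000000000000 := by exact_mod_cast ok2.1
    have g2 : (l : ℝ) * l + 3141592000000000000 * a + 1 ≤ 3141592000000000000000000 := by
      exact_mod_cast ok2.2
    rw [cast_eq a] at g2
    have q : (h * r a + f) ^ 2 ≤ ((l : ℝ) / 1000000000000) ^ 2 := pow_le_pow_left₀ u0 u1 2
    have a1 : 0 ≤ 1 - r a := by linarith [mul_self_nonneg (l : ℝ)]
    simp only [Bool.false_eq_true, if_false]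
    exact ⟨by linarith, by linarith [mul_le_mul_of_nonneg_right pl.le a1]⟩
  · rw [cond_t, Bool.and_eq_true, Nat.ble_eq, Nat.ble_eq] at ok2
    have g1 : (l : ℝ) + 1 ≤ 666666 * a + 869008000000 := by exact_mod_cast ok2.1
    have g2 : (l : ℝ) + 1000000 * a + 1 ≤ 1726100000000 := by exact_mod_cast ok2.2
    rw [cast_eq a] at g1 g2
    simp only [if_true]
    refine ⟨?_, by linarith [pl]⟩
    unfold strip
    norm_num
    linarith

lemma crit_sound {H K : ℕ} (h : crit H K = true) : Crt (r H) ((K : ℝ) / 2000000000000) := by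
  simp only [crit, Bool.and_eq_true, Bool.or_eq_true, Nat.ble_eq] at h
  have H0 := r_nonneg H
  have K0 : (0 : ℝ) ≤ K := Nat.cast_nonneg K
  rcases h with (h | ⟨h, h'⟩) | ⟨h, h'⟩
  · left
    have g : (6283186000000000001 : ℝ) ≤ 4 * H * K := by exact_mod_cast h
    rw [cast_eq H] at g
    linarith [ph]
  · right; left
    have g : 2 * (H : ℝ) ≤ 3141592 := by exact_mod_cast h
    have g' : (6283186000000000001 : ℝ) ≤ K * 3141593 + 2000000000000 * H := by exact_mod_cast h'
    rw [cast_eq H] at g g'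
    refine ⟨by linarith [pl], ?_⟩
    linarith [le_div_pi H0]
  · right; right
    have g : (9000000 : ℝ) ≤ 4 * H := by exact_mod_cast h
    have g' : (113097348000001 : ℝ) ≤ 81 * K + 25132744 * H := by exact_mod_cast h'
    rw [cast_eq H] at g g'
    refine ⟨by linarith, ?_⟩
    rcases le_total 0 (18 - 4 * r H) with q | q
    · linarith [mul_le_mul_of_nonneg_right ph.le q]
    · have := mul_nonneg pi_pos.le (neg_nonneg.2 q)
      rcases (show (0 : ℝ) ≤ K from K0).eq_or_lt with k | k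
      · rw [← k] at g' ⊢
        have q' : 0 < -(18 - 4 * r H) := by linarith
        linarith [mul_pos pi_pos q']
      · linarith

lemma leaf_sound {thin : Bool} {wl wh H0 H1 F0 F1 S1 : ℕ}
    (ok : leaf thin wl wh H0 H1 F0 F1 S1 = true) {h f s w w' : ℝ} (h0 : r H0 ≤ h) (h1 : h ≤ r H1)
    (f0 : r F0 ≤ f) (f1 : f ≤ r F1) (s1 : s ≤ r S1) (w0 : r wl ≤ w) (w1 : w' ≤ r wh) :
    Ex thin s w w' h f := by
  simp only [leaf, frc_eq, Bool.and_eq_true, Bool.or_eq_true, Nat.ble_eq] at ok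
  have hh := (r_nonneg H0).trans h0
  have ff := (r_nonneg F0).trans f0
  refine ⟨r H0, r F0, r_nonneg _, h0, r_nonneg _, f0, ?_⟩
  rcases ok with ok | ⟨⟨⟨⟨o1, o2⟩, o3⟩, o4⟩, o5⟩
  · left
    have := crit_sound ok
    have e : ((2000000 * F0 : ℕ) : ℝ) / 2000000000000 = r F0 := by
      push_cast
      unfold r
      ring
    rwa [e] at this
  · right
    refine ⟨_, _, _, r_nonneg _, r_mono o1, ?_, okLo_sound hh h1 ff f1 o3,
      okHi_sound hh h1 ff f1 o4,
      (loop_sound H0 F0 S1 wl wh (findLo H1 F1) o2 21 _ o1).mono s1 w0 w1 le_rfl, ?_⟩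
    · simpa [r] using r_mono o2
    · have := crit_sound o5
      have e : ∀ v : ℕ, ((2000000 * F0 + v : ℕ) : ℝ) / 2000000000000 =
          r F0 + (v : ℝ) / 2000000000000 := by
        intro v
        push_cast
        unfold r
        ring
      rwa [e] at this

theorem chk_sound {skip : ℕ → ℕ → ℕ → Bool} {thin : Bool} {wl : ℕ} {wh : ℕ → ℕ} {h f s w w' : ℝ}
    (hskip : ∀ H0 F0 S0, r H0 ≤ h → r F0 ≤ f → r S0 ≤ s → skip H0 F0 S0 = true → False)
    (w0 : r wl ≤ w) (w1 : ∀ S0, r S0 ≤ s → w' ≤ r (wh S0)) (j : ℕ) :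
    ∀ H0 H1 F0 F1 S0 S1, chk skip thin wl wh j H0 H1 F0 F1 S0 S1 = true → r H0 ≤ h → h ≤ r H1 →
      r F0 ≤ f → f ≤ r F1 → r S0 ≤ s → s ≤ r S1 → Ex thin s w w' h f := by
  induction j with
  | zero => intro _ _ _ _ _ _ ok; simp [chk] at ok
  | succ j ih =>
    intro H0 H1 F0 F1 S0 S1 ok h0 h1 f0 f1 s0 s1
    simp only [chk, frc_eq, Bool.or_eq_true, Bool.cond_eq_ite] at ok
    rcases ok with (ok | ok) | ok
    · exact (hskip _ _ _ h0 f0 s0 ok).elim
    · exact leaf_sound ok h0 h1 f0 f1 s1 w0 (w1 _ s0)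
    · split_ifs at ok
      · rw [Bool.and_eq_true] at ok
        rcases le_total h (r ((H0 + H1) / 2)) with q | q
        · exact ih _ _ _ _ _ _ ok.1 h0 q f0 f1 s0 s1
        · exact ih _ _ _ _ _ _ ok.2 q h1 f0 f1 s0 s1
      · rw [Bool.and_eq_true] at ok
        rcases le_total f (r ((F0 + F1) / 2)) with q | q
        · exact ih _ _ _ _ _ _ ok.1 h0 h1 f0 q s0 s1
        · exact ih _ _ _ _ _ _ ok.2 h0 h1 q f1 s0 s1
      · rw [Bool.and_eq_true] at ok
        rcases le_total s (r ((S0 + S1) / 2)) with q | q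
        · exact ih _ _ _ _ _ _ ok.1 h0 h1 f0 f1 s0 q
        · exact ih _ _ _ _ _ _ ok.2 h0 h1 f0 f1 q s1

end Crest.Agent.R214.Chk
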