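import Crest.Agent.R214.Defs

/-! Row 214: a graph whose slices in two directions are circular arcs is a sphere. -/

set_option autoImplicit false

namespace Crest.Agent.R214

open MeasureTheory Set Filter Topology Real
open scoped ENNReal

lemma combine_ex {P : ℝ → Prop} (h : ∀ᵐ y, P y) {d : ℝ} (hd : 0 < d) : ∃ y ∈ Ioo 0 d, P y :=
  Measure.exists_mem_of_measure_ne_zero_of_ae (μ := volume) (by simpa using hd) (ae_restrict_of_ae h)

lemma combine_ex2 {P : ℝ → Prop} (h : ∀ᵐ y, P y) {a b : ℝ} (ha : 0 < a) (hb : 0 < b) :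
    ∃ y ∈ I, y ^ 2 < a ∧ y ^ 2 < b ∧ P y := by
  obtain ⟨y, ⟨h0, h1⟩, hy⟩ := combine_ex h (d := min 1 (min √a √b)) (by positivity)
  simp only [lt_min_iff] at h1
  exact ⟨y, ⟨h0, h1.1⟩, (lt_sqrt h0.le).1 h1.2.1, (lt_sqrt h0.le).1 h1.2.2, hy⟩

lemma combine_sqrt {a b : ℝ} (ha : 0 < a) (h : √a = √b) : a = b :=
  (sqrt_inj ha.le (sqrt_pos.1 (h ▸ sqrt_pos.2 ha)).le).1 h

/-- `B i = {t ∈ I | 0 < r i t}` are initial intervals of `I`.  For a.e. `(x, y)`: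
`(r1 x - y²)₊ = (r2 y - x²)₊`.  For typical `x, x' ∈ B 1` there is a typical small `y` with
`r1 x + x² = r2 y + y² = r1 x' + x'²`; so `r1 x + x² = R²` a.e. on `B 1`.  For typical `x ∉ B 1`:
fix a typical `x₀ ∈ B 1`; for a.e. `y < √(r1 x₀)` we have `r2 y = R² - y²` and `r2 y ≤ x²`, whence
`R² ≤ x²`. -/
theorem combine {u : ℝ × ℝ → ℝ} {r1 r2 : ℝ → ℝ} (hu : Measurable u) (m1 : Measurable r1)
    (m2 : Measurable r2) (a1 : AntitoneOn r1 I) (n1 : ∀ t, 0 ≤ r1 t) (hpos : ∃ t ∈ I, 0 < r1 t)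
    (h1 : ∀ᵐ x, x ∈ I → ∀ᵐ y, y ∈ I → u (x, y) = √(r1 x - y ^ 2))
    (h2 : ∀ᵐ y, y ∈ I → ∀ᵐ x, x ∈ I → u (x, y) = √(r2 y - x ^ 2)) :
    ∃ R, 0 < R ∧ ∀ᵐ x, x ∈ I → r1 x = max (R ^ 2 - x ^ 2) 0 := by
  have h3 : ∀ᵐ y, ∀ᵐ x, y ∈ I → x ∈ I → u (x, y) = √(r2 y - x ^ 2) := by
    filter_upwards [h2] with y hy
    by_cases h : y ∈ I
    · filter_upwards [hy h] with x hx _ using hx
    · exact Eventually.of_forall fun x h' => absurd h' h
  have hm : MeasurableSet {p : ℝ × ℝ | p.1 ∈ I → p.2 ∈ I → u (p.2, p.1) = √(r2 p.1 - p.2 ^ 2)} :=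
    (measurable_fst measurableSet_Ioo).imp ((measurable_snd measurableSet_Ioo).imp
      (measurableSet_eq_fun (by fun_prop) (by fun_prop)))
  have h4 := (Measure.ae_ae_comm hm).1 h3
  have H : ∀ᵐ x, x ∈ I → ∀ᵐ y, y ∈ I → √(r1 x - y ^ 2) = √(r2 y - x ^ 2) := by
    filter_upwards [h1, h4] with x hx hx' hI
    filter_upwards [hx hI, hx'] with y hy hy' hJ
    rw [← hy hJ, hy' hJ hI]
  obtain ⟨t, ht, htp⟩ := hpos
  obtain ⟨x₀, hx₀, H₀⟩ := combine_ex H ht.1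
  have hI₀ : x₀ ∈ I := ⟨hx₀.1, hx₀.2.trans ht.2⟩
  have hp₀ : 0 < r1 x₀ := htp.trans_le (a1 hI₀ ht hx₀.2.le)
  have hR : 0 < r1 x₀ + x₀ ^ 2 := by positivity
  refine ⟨√(r1 x₀ + x₀ ^ 2), sqrt_pos.2 hR, ?_⟩
  rw [sq_sqrt hR.le]
  filter_upwards [H] with x Hx hI
  rcases (n1 x).eq_or_lt with h0 | h0
  · rw [← h0, eq_comm, max_eq_right_iff]
    refine le_of_not_gt fun hlt => ?_
    obtain ⟨y, hy, ha, hb, e, e₀⟩ := combine_ex2 ((Hx hI).and (H₀ hI₀)) hlt hp₀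
    have e1 := combine_sqrt (sub_pos.2 hb) (e₀ hy)
    have e2 := combine_sqrt (by linarith) (e hy).symm
    nlinarith [sq_nonneg y]
  · obtain ⟨y, hy, ha, hb, e, e₀⟩ := combine_ex2 ((Hx hI).and (H₀ hI₀)) h0 hp₀
    have e1 := combine_sqrt (sub_pos.2 hb) (e₀ hy)
    have e2 := combine_sqrt (sub_pos.2 ha) (e hy)
    rw [max_eq_left (by linarith)]
    linarith

lemma integral_cap {R : ℝ} (h0 : 0 < R) (h1 : R ≤ 1) :
    ∫ x in I, max (R ^ 2 - x ^ 2) 0 = 2 * R ^ 3 / 3 := by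
  have hc : Continuous fun x : ℝ => max (R ^ 2 - x ^ 2) 0 := by fun_prop
  rw [← integral_Ioc_eq_integral_Ioo, ← intervalIntegral.integral_of_le zero_le_one,
    ← intervalIntegral.integral_add_adjacent_intervals (b := R) (hc.intervalIntegrable _ _)
      (hc.intervalIntegrable _ _),
    intervalIntegral.integral_congr (g := fun x => R ^ 2 - x ^ 2) fun x hx => ?_,
    intervalIntegral.integral_congr (a := R) (g := fun _ => 0) fun x hx => ?_,
    intervalIntegral.integral_sub (by simp) (by simp)]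
  · simp
    ring
  · rw [uIcc_of_le h1] at hx
    exact max_eq_right (by nlinarith [hx.1])
  · rw [uIcc_of_le h0.le] at hx
    exact max_eq_left (by nlinarith [hx.1, hx.2])
lemma integral_sqrt_lin {β : ℝ} (h0 : 0 < β) : ∫ b in (0 : ℝ)..β, √(1 - b / β) = 2 * β / 3 := by
  rw [intervalIntegral.integral_comp_sub_div (fun x => √x) h0.ne' 1]
  simp only [sqrt_eq_rpow]
  rw [integral_rpow (Or.inl (by norm_num)), div_self h0.ne', sub_self, zero_div, sub_zero,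
    one_rpow, zero_rpow (by norm_num), smul_eq_mul]
  ring

end Crest.Agent.R214
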