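import Crest.Agent.R214.Defs

/-! Row 214: calculus of the profile. -/

set_option autoImplicit false

namespace Crest.Agent.R214

open MeasureTheory Set Filter Topology Real
open scoped ENNReal

lemma conj_sph_nonneg {V : ℝ} (h : 0 ≤ V) : 0 ≤ sph V := by
  unfold sph; positivity

lemma conj_sph_cube {V : ℝ} (h : 0 ≤ V) : sph V ^ 3 = 9 * π / 2 * V ^ 2 := by
  unfold sph
  rw [mul_pow, ← rpow_natCast, ← rpow_natCast (V ^ _), ← rpow_mul (by positivity), ← rpow_mul h]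
  norm_num

lemma conj_sph_six {V : ℝ} (h : 0 ≤ V) : sph V ^ 6 = 81 / 4 * V * (π ^ 2 * V ^ 3) := by
  rw [show 6 = 3 * 2 from rfl, pow_mul, conj_sph_cube h]; ring

lemma conj_sqrt_six {V : ℝ} (h : 0 ≤ V) : √(π * V) ^ 6 = π * (π ^ 2 * V ^ 3) := by
  rw [show 6 = 2 * 3 from rfl, pow_mul, sq_sqrt (by positivity)]; ring

lemma conj_half {V : ℝ} (h : V ≤ 1 / 2) : conj V = min (min (sph V) √(π * V)) 1 := by
  unfold conj; rw [min_eq_left (by linarith : V ≤ 1 - V)]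

lemma conj_deriv_sph {V : ℝ} (h : 0 < V) : HasDerivAt sph (2 / 3 * sph V / V) V := by
  have h1 := (hasDerivAt_rpow_const (x := V) (p := (2 : ℝ) / 3) (Or.inl h.ne')).const_mul
    ((9 * π / 2) ^ ((1 : ℝ) / 3))
  refine h1.congr_deriv ?_
  rw [rpow_sub_one h.ne', sph]
  ring

lemma conj_deriv_sqrt {V : ℝ} (h : 0 < V) :
    HasDerivAt (fun W => √(π * W)) (π / (2 * √(π * V))) V := by
  simpa using ((hasDerivAt_id V).const_mul π).sqrt (mul_pos pi_pos h).ne'

lemma conj_sqrt_le_one {V : ℝ} : √(π * V) ≤ 1 ↔ V ≤ 1 / π := by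
  rw [sqrt_le_left zero_le_one, one_pow, le_div_iff₀ pi_pos, mul_comm]

lemma conj_one_le_sqrt {V : ℝ} : 1 ≤ √(π * V) ↔ 1 / π ≤ V := by
  rw [one_le_sqrt, div_le_iff₀ pi_pos, mul_comm]

open Asymptotics in
lemma conj_bigO_min {f g k : ℝ → ℝ} {V : ℝ} (hf : (fun W => f W - f V) =O[𝓝 V] k)
    (hg : (fun W => g W - g V) =O[𝓝 V] k) :
    (fun W => min (f W) (g W) - min (f V) (g V)) =O[𝓝 V] k := by
  refine IsBigO.trans (isBigO_of_le _ fun W => ?_) (hf.abs_left.add hg.abs_left)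
  rw [Real.norm_eq_abs, Real.norm_eq_abs]
  exact (abs_min_sub_min_le_max _ _ _ _).trans ((max_le_add_of_nonneg (abs_nonneg _)
    (abs_nonneg _)).trans (le_abs_self _))

lemma v0_pos : 0 < v0 := by
  unfold v0; positivity
lemma v0_lt : v0 < 1 / π := by
  unfold v0
  rw [div_lt_div_iff₀ (by norm_num) pi_pos]
  nlinarith [pi_le_four, pi_pos]
lemma inv_pi_lt : 1 / π < 1 / 2 := by
  exact one_div_lt_one_div_of_lt (by norm_num) (by linarith [pi_gt_three])
lemma continuous_conj : Continuous conj := by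
  have h : Continuous sph :=
    continuous_const.mul (continuous_rpow_const (by norm_num))
  unfold conj
  fun_prop
lemma conj_symm (V : ℝ) : conj (1 - V) = conj V := by
  unfold conj
  rw [sub_sub_cancel, min_comm (1 - V) V]
lemma conj_zero : conj 0 = 0 := by
  simp [conj, sph]
lemma conj_one : conj 1 = 0 := by
  simp [conj, sph]
lemma conj_le_one (V : ℝ) : conj V ≤ 1 := min_le_right _ _
lemma conj_le_sph {V : ℝ} (h : V ≤ 1 / 2) : conj V ≤ sph V := by
  rw [conj_half h]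
  exact (min_le_left _ _).trans (min_le_left _ _)
lemma conj_le_sqrt {V : ℝ} (h : V ≤ 1 / 2) : conj V ≤ √(π * V) := by
  rw [conj_half h]
  exact (min_le_left _ _).trans (min_le_right _ _)
/-- compare sixth powers: `sph V ^ 6 = (9π/2)² V⁴`, `√(π V) ^ 6 = π³ V³` -/
lemma sph_le_sqrt_iff {V : ℝ} (h : 0 < V) : sph V ≤ √(π * V) ↔ V ≤ v0 := by
  rw [← pow_le_pow_iff_left₀ (conj_sph_nonneg h.le) (sqrt_nonneg _) (by norm_num : 6 ≠ 0),
    conj_sph_six h.le, conj_sqrt_six h.le, mul_le_mul_iff_left₀ (by positivity), v0]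
  constructor <;> intro <;> linarith
lemma sqrt_le_sph_iff {V : ℝ} (h : 0 < V) : √(π * V) ≤ sph V ↔ v0 ≤ V := by
  rw [← pow_le_pow_iff_left₀ (sqrt_nonneg _) (conj_sph_nonneg h.le) (by norm_num : 6 ≠ 0),
    conj_sph_six h.le, conj_sqrt_six h.le, mul_le_mul_iff_left₀ (by positivity), v0]
  constructor <;> intro <;> linarith
lemma conj_of_le {V : ℝ} (h0 : 0 ≤ V) (h : V ≤ v0) : conj V = sph V := by
  rcases h0.eq_or_lt with rfl | h0
  · simp [conj, sph]
  have h1 := (sph_le_sqrt_iff h0).2 h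
  rw [conj_half (by linarith [v0_lt, inv_pi_lt]), min_eq_left h1,
    min_eq_left (h1.trans (conj_sqrt_le_one.2 (h.trans v0_lt.le)))]
lemma conj_of_mid {V : ℝ} (h0 : v0 ≤ V) (h : V ≤ 1 / π) : conj V = √(π * V) := by
  rw [conj_half (by linarith [inv_pi_lt]),
    min_eq_right ((sqrt_le_sph_iff (v0_pos.trans_le h0)).2 h0), min_eq_left (conj_sqrt_le_one.2 h)]
lemma conj_of_ge {V : ℝ} (h0 : 1 / π ≤ V) (h : V ≤ 1 - 1 / π) : conj V = 1 := by
  have h1 : 1 / π ≤ min V (1 - V) := le_min h0 (by linarith)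
  have h2 := v0_lt.le.trans h1
  unfold conj
  rw [min_eq_right ((sqrt_le_sph_iff (v0_pos.trans_le h2)).2 h2),
    min_eq_right (conj_one_le_sqrt.2 h1)]
lemma le_v0_of_sph_le {V : ℝ} (h0 : 0 < V) (h : V ≤ 1 / 2) (hs : sph V ≤ conj V) : V ≤ v0 := by
  exact (sph_le_sqrt_iff h0).1 (hs.trans (conj_le_sqrt h))
lemma mid_of_sqrt_le {V : ℝ} (h0 : 0 < V) (h : V ≤ 1 / 2) (hs : √(π * V) ≤ conj V) :
    v0 ≤ V ∧ V ≤ 1 / π := by
  exact ⟨(sqrt_le_sph_iff h0).1 (hs.trans (conj_le_sph h)),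
    conj_sqrt_le_one.1 (hs.trans (conj_le_one V))⟩
lemma ge_of_one_le {V : ℝ} (h0 : 0 < V) (h : V ≤ 1 / 2) (hs : 1 ≤ conj V) : 1 / π ≤ V := by
  have _ := h0
  exact conj_one_le_sqrt.1 (hs.trans (conj_le_sqrt h))
/-- locally Lipschitz (a minimum of functions that are `C¹` near `V`) -/
lemma conj_lip {V : ℝ} (h0 : 0 < V) (h1 : V < 1) :
    ∃ C, ∀ᶠ W in 𝓝 V, |conj W - conj V| ≤ C * |W - V| := by
  have hm : 0 < min V (1 - V) := lt_min h0 (by linarith)
  have h2 : (fun W : ℝ => min W (1 - W) - min V (1 - V)) =O[𝓝 V] fun W => W - V :=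
    conj_bigO_min (f := id) (Asymptotics.isBigO_refl _ _)
      ((hasDerivAt_id V).const_sub 1).isBigO_sub
  have h3 : Tendsto (fun W : ℝ => min W (1 - W)) (𝓝 V) (𝓝 (min V (1 - V))) :=
    Continuous.tendsto (by fun_prop) V
  have h4 := ((conj_bigO_min (conj_bigO_min (conj_deriv_sph hm).isBigO_sub
    (conj_deriv_sqrt hm).isBigO_sub) (hasDerivAt_const _ (1 : ℝ)).isBigO_sub).comp_tendsto
      h3).trans h2
  exact h4.bound
/-- AM-GM: the minimum over `b` is attained at `b ^ (3/2) = 3 √π V / 4` -/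
lemma sph_le {V b : ℝ} (hV : 0 < V) (hb : 0 < b) : sph V ≤ √(π / b) * V + 2 * b / 3 := by
  have h1 : 0 ≤ √(π / b) * V := by positivity
  refine le_of_pow_le_pow_left₀ (n := 3) (by norm_num) (by positivity) ?_
  have h2 : 9 * π / 2 * V ^ 2 = 27 * (√(π / b) * V / 2) ^ 2 * (2 * b / 3) := by
    rw [div_pow, mul_pow, sq_sqrt (by positivity)]
    field_simp
    ring
  rw [conj_sph_cube hV.le, h2]
  nlinarith [mul_nonneg (sq_nonneg (√(π / b) * V / 2 - 2 * b / 3))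
    (by positivity : 0 ≤ 8 * (√(π / b) * V / 2) + 2 * b / 3)]
lemma sph_ball {R : ℝ} (hR : 0 ≤ R) : sph (π * R ^ 3 / 6) = π * R ^ 2 / 2 := by
  rw [← pow_left_inj₀ (conj_sph_nonneg (by positivity)) (by positivity) (by norm_num : 3 ≠ 0),
    conj_sph_cube (by positivity)]
  ring
lemma two_conj (V : ℝ) (h0 : 0 < V) (h1 : V < 1) : 2 * conj V =
    min (min ((36 * π) ^ ((1 : ℝ) / 3) * (min V (1 - V)) ^ ((2 : ℝ) / 3))
      (2 * √(π * min V (1 - V)))) 2 := by
  have _ := h0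
  have _ := h1
  have h2 : (36 * π) ^ ((1 : ℝ) / 3) = 2 * (9 * π / 2) ^ ((1 : ℝ) / 3) := by
    rw [show 36 * π = 2 ^ (3 : ℝ) * (9 * π / 2) by norm_num; ring,
      mul_rpow (by positivity) (by positivity), ← rpow_mul (by norm_num)]
    norm_num
  unfold conj sph
  rw [mul_min_of_nonneg _ _ (by norm_num : (0 : ℝ) ≤ 2), mul_min_of_nonneg _ _
    (by norm_num : (0 : ℝ) ≤ 2), h2, mul_one, mul_assoc]
lemma Std.r_le {V s r : ℝ} (h : Std V s r) : r ≤ 1 / 3 := by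
  obtain ⟨hr, hV, ⟨rfl, h⟩ | ⟨rfl, -, h⟩ | ⟨rfl, -, h⟩⟩ := h
  · refine le_of_pow_le_pow_left₀ (n := 3) (by norm_num) (by norm_num) ?_
    rw [hV, mvol, if_pos rfl, v0] at h
    nlinarith [pi_pos]
  · rw [hV, mvol, if_neg (by norm_num), if_pos rfl, le_div_iff₀ pi_pos] at h
    have h1 : π * r ≤ 1 := by nlinarith [mul_pos pi_pos hr]
    nlinarith [pi_gt_three]
  · rw [hV, mvol, if_neg (by norm_num), if_neg (by norm_num)] at h
    linarith
lemma Std.mper_eq {V s r : ℝ} (h : Std V s r) : mper s r = 2 * conj V := by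
  obtain ⟨hr, hV, ⟨rfl, h⟩ | ⟨rfl, h', h⟩ | ⟨rfl, h', h⟩⟩ := h
  · rw [mvol, if_pos rfl] at hV
    rw [mper, if_pos rfl, conj_of_le (by rw [hV]; positivity) h,
      show V = π * (2 * r) ^ 3 / 6 by rw [hV]; ring, sph_ball (by positivity)]
    ring
  · rw [mvol, if_neg (by norm_num), if_pos rfl] at hV
    rw [mper, if_neg (by norm_num), if_pos rfl, conj_of_mid h' h,
      show π * V = (π * r) ^ 2 by rw [hV]; ring, sqrt_sq (by positivity)]
    ring
  · rw [mper, if_neg (by norm_num), if_neg (by norm_num),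
      conj_of_ge h' (by linarith [inv_pi_lt]), mul_one]
lemma exists_std {V : ℝ} (h0 : 0 < V) (h1 : V ≤ 1 / 2) :
    ∃ e1 e2 e3 r, Bits e1 e2 e3 ∧ Std V (e1 + e2 + e3) r := by
  rcases le_total V v0 with h2 | h2
  · refine ⟨1, 1, 1, (3 * V / (4 * π)) ^ ((3 : ℕ) : ℝ)⁻¹, ⟨Or.inr rfl, Or.inr rfl, Or.inr rfl,
      by norm_num⟩, by positivity, ?_, Or.inl ⟨by norm_num, h2⟩⟩
    rw [mvol, if_pos (by norm_num), rpow_inv_natCast_pow (by positivity) (by norm_num)]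
    field_simp
  rcases le_total V (1 / π) with h3 | h3
  · refine ⟨1, 1, 0, √(V / π), ⟨Or.inr rfl, Or.inr rfl, Or.inl rfl, by norm_num⟩, by positivity, ?_,
      Or.inr (Or.inl ⟨by norm_num, h2, h3⟩)⟩
    rw [mvol, if_neg (by norm_num), if_pos (by norm_num), sq_sqrt (by positivity)]
    field_simp
  · refine ⟨1, 0, 0, V / 2, ⟨Or.inr rfl, Or.inl rfl, Or.inl rfl, by norm_num⟩, by positivity, ?_,
      Or.inr (Or.inr ⟨by norm_num, h3, h1⟩)⟩
    rw [mvol, if_neg (by norm_num), if_neg (by norm_num)]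
    ring

lemma conj_right {V H D : ℝ} (h : Super V H) {g : ℝ → ℝ} (hg : HasDerivAt g D V)
    (h1 : ∀ᶠ W in 𝓝[>] V, conj W = g W) (h2 : conj V = g V) : D ≤ H := by
  by_contra hc
  push Not at hc
  have h3 : ∀ᶠ W in 𝓝[>] V, (H + D) / 2 < slope g V W :=
    ((hasDerivAt_iff_tendsto_slope.1 hg).mono_left (nhdsGT_le_nhdsNE V)).eventually
      (lt_mem_nhds (by linarith))
  obtain ⟨u, hu, h4⟩ := mem_nhdsGT_iff_exists_Ioo_subset.1 (h1.and h3)
  obtain ⟨W, a1, a2, a3⟩ := h.right (min (u - V) ((D - H) / 2))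
    (lt_min (sub_pos.2 hu) (by linarith))
  obtain ⟨b1, b2⟩ := h4 ⟨a1, by linarith [min_le_left (u - V) ((D - H) / 2)]⟩
  rw [slope_def_field, lt_div_iff₀ (sub_pos.2 a1)] at b2
  rw [b1, h2] at a3
  nlinarith [min_le_right (u - V) ((D - H) / 2)]

lemma conj_left {V H D : ℝ} (h : Super V H) {g : ℝ → ℝ} (hg : HasDerivAt g D V)
    (h1 : ∀ᶠ W in 𝓝[<] V, conj W = g W) (h2 : conj V = g V) : H ≤ D := by
  by_contra hc
  push Not at hc
  have h3 : ∀ᶠ W in 𝓝[<] V, slope g V W < (H + D) / 2 :=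
    ((hasDerivAt_iff_tendsto_slope.1 hg).mono_left (nhdsLT_le_nhdsNE V)).eventually
      (gt_mem_nhds (by linarith))
  obtain ⟨u, hu, h4⟩ := mem_nhdsLT_iff_exists_Ioo_subset.1 (h1.and h3)
  obtain ⟨W, a1, a2, a3⟩ := h.left (min (V - u) ((H - D) / 2))
    (lt_min (sub_pos.2 hu) (by linarith))
  obtain ⟨b1, b2⟩ := h4 ⟨by linarith [min_le_left (V - u) ((H - D) / 2)], a1⟩
  rw [slope_def_field, div_lt_iff_of_neg (sub_neg.2 a1)] at b2
  rw [b1, h2] at a3
  nlinarith [min_le_right (V - u) ((H - D) / 2)]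

/-- `right` bounds `H` below by the right derivative, `left` bounds it above by the left
derivative of `conj` at `V`. -/
theorem Super.cases {V H : ℝ} (h : Super V H) (h0 : 0 < V) (h1 : V ≤ 1 / 2) :
    0 ≤ H ∧ ((V < v0 ∧ 2 * conj V ≤ 3 * H * V) ∨
      (v0 ≤ V ∧ V < 1 / π ∧ π ≤ 4 * H ^ 2 * V ∧ H ≤ 3) ∨ (V = 1 / π ∧ H ≤ π / 2) ∨
      (1 / π < V ∧ H = 0)) := by
  have hR : ∀ {u : ℝ} {g : ℝ → ℝ}, V < u → (∀ W, V ≤ W → W ≤ u → conj W = g W) →
      ∀ᶠ W in 𝓝[>] V, conj W = g W := fun {u g} hu hg => by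
    filter_upwards [Ioo_mem_nhdsGT hu] with W hW using hg W hW.1.le hW.2.le
  have hL : ∀ {u : ℝ} {g : ℝ → ℝ}, u < V → (∀ W, u ≤ W → W ≤ V → conj W = g W) →
      ∀ᶠ W in 𝓝[<] V, conj W = g W := fun {u g} hu hg => by
    filter_upwards [Ioo_mem_nhdsLT hu] with W hW using hg W hW.1.le hW.2.le
  have hπ := inv_pi_lt
  rcases lt_or_ge V v0 with h2 | h2
  · have h3 := conj_right h (conj_deriv_sph h0)
      (hR h2 fun W a b => conj_of_le (h0.le.trans a) b) (conj_of_le h0.le h2.le)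
    have h4 := conj_sph_nonneg h0.le
    refine ⟨le_trans (by positivity) h3, Or.inl ⟨h2, ?_⟩⟩
    rw [div_le_iff₀ h0] at h3
    rw [conj_of_le h0.le h2.le]
    linarith
  have hs : 0 < √(π * V) := sqrt_pos.2 (mul_pos pi_pos h0)
  have hs2 : √(π * V) ^ 2 = π * V := sq_sqrt (mul_pos pi_pos h0).le
  rcases lt_trichotomy V (1 / π) with h3 | h3 | h3
  · have h4 := conj_right h (conj_deriv_sqrt h0)
      (hR h3 fun W a b => conj_of_mid (h2.trans a) b) (conj_of_mid h2 h3.le)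
    have h5 : 0 ≤ H := le_trans (by positivity) h4
    refine ⟨h5, Or.inr (Or.inl ⟨h2, h3, ?_, ?_⟩)⟩
    · rw [div_le_iff₀ (by positivity)] at h4
      have h6 := pow_le_pow_left₀ pi_pos.le h4 2
      rw [mul_pow, mul_pow, hs2] at h6
      nlinarith [pi_pos]
    · have h6 : √(π * v0) = 2 * π / 9 := by
        rw [show π * v0 = (2 * π / 9) ^ 2 by unfold v0; ring, sqrt_sq (by positivity)]
      rcases h2.eq_or_lt with rfl | h2'
      · have h7 := conj_left h (conj_deriv_sph h0)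
          (hL h0 fun W a b => conj_of_le a b) (conj_of_le h0.le le_rfl)
        rw [← conj_of_le h0.le le_rfl, conj_of_mid le_rfl h3.le, h6, le_div_iff₀ h0, v0] at h7
        nlinarith [pi_pos]
      · have h7 := conj_left h (conj_deriv_sqrt h0)
          (hL h2' fun W a b => conj_of_mid a (b.trans h3.le)) (conj_of_mid h2 h3.le)
        have h8 : 2 * π / 9 ≤ √(π * V) := h6 ▸ sqrt_le_sqrt (by gcongr)
        rw [le_div_iff₀ (by positivity)] at h7
        nlinarith [pi_pos]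
  · have h4 := conj_right h (hasDerivAt_const V (1 : ℝ))
      (hR (u := 1 - 1 / π) (by linarith) fun W a b => conj_of_ge (h3 ▸ a) b)
      (conj_of_ge h3.ge (by linarith))
    have h5 := conj_left h (conj_deriv_sqrt h0)
      (hL (h3 ▸ v0_lt) fun W a b => conj_of_mid a (h3 ▸ b)) (conj_of_mid h2 h3.le)
    refine ⟨h4, Or.inr (Or.inr (Or.inl ⟨h3, ?_⟩))⟩
    rwa [show π * V = 1 by rw [h3]; field_simp, sqrt_one, mul_one] at h5
  · have h4 := conj_right h (hasDerivAt_const V (1 : ℝ))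
      (hR (u := 1 - 1 / π) (by linarith) fun W a b => conj_of_ge (h3.le.trans a) b)
      (conj_of_ge h3.le (by linarith))
    have h5 := conj_left h (hasDerivAt_const V (1 : ℝ))
      (hL h3 fun W a b => conj_of_ge a (by linarith)) (conj_of_ge h3.le (by linarith))
    exact ⟨h4, Or.inr (Or.inr (Or.inr ⟨h3, le_antisymm h5 h4⟩))⟩

end Crest.Agent.R214
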