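import Crest.Agent.R214.CPer
import Crest.Agent.R214.Conj

/-! Row 214: existence of a minimiser. -/

set_option autoImplicit false

namespace Crest.Agent.R214

open MeasureTheory Set Filter Topology Real
open scoped ENNReal

lemma compact_mp : MeasurePreserving (fun p : X => (![p.1, p.2.1, p.2.2] : Fin 3 → ℝ)) volume volume := by
  have h1 := (volume_preserving_piFinSuccAbove (fun _ : Fin 3 => ℝ) 0).symm
  have h2 := (MeasurePreserving.id (volume : Measure ℝ)).prod (volume_preserving_finTwoArrow ℝ).symm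
  have h3 := h1.comp h2
  have e : (fun p : X => (![p.1, p.2.1, p.2.2] : Fin 3 → ℝ)) =
      ⇑(MeasurableEquiv.piFinSuccAbove (fun _ : Fin 3 => ℝ) 0).symm ∘
        Prod.map id ⇑MeasurableEquiv.finTwoArrow.symm := by
    funext p
    ext i
    fin_cases i <;> rfl
  rw [e]
  exact h3

lemma compact_null_frontier {L : Set X} (hL : IsLowerSet L) : volume (frontier L) = 0 := by
  let g : X → (Fin 3 → ℝ) := fun p => ![p.1, p.2.1, p.2.2]
  have hg : Continuous g := by
    refine continuous_pi fun i => ?_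
    fin_cases i
    · exact continuous_fst
    · exact continuous_fst.comp continuous_snd
    · exact continuous_snd.comp continuous_snd
  let M : Set (Fin 3 → ℝ) := {x | ((x 0, x 1, x 2) : X) ∈ L}
  have hM : IsLowerSet M := by
    intro x y hxy hx
    exact hL (show ((y 0, y 1, y 2) : X) ≤ (x 0, x 1, x 2) from ⟨hxy 0, hxy 1, hxy 2⟩) hx
  have e : L = g ⁻¹' M := by
    ext p
    rfl
  refine measure_mono_null ?_ (compact_mp.quasiMeasurePreserving.preimage_null hM.null_frontier)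
  rw [e]
  exact hg.frontier_preimage_subset M

/-- the real point of a rational point -/
def compactPt (q : ℚ × ℚ × ℚ) : X := ((q.1 : ℝ), (q.2.1 : ℝ), (q.2.2 : ℝ))

lemma compact_subseq (D : ℕ → Set X) : ∃ φ : ℕ → ℕ, StrictMono φ ∧
    ∀ q, (∀ᶠ n in atTop, compactPt q ∈ D (φ n)) ∨ ∀ᶠ n in atTop, compactPt q ∉ D (φ n) := by
  classical
  let u : ℕ → (ℚ × ℚ × ℚ → Bool) := fun n q => decide (compactPt q ∈ D n)
  obtain ⟨a, φ, hφ, hlim⟩ := CompactSpace.tendsto_subseq u
  refine ⟨φ, hφ, fun q => ?_⟩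
  have h1 : Tendsto (fun n => u (φ n) q) atTop (𝓝 (a q)) := (tendsto_pi_nhds.1 hlim) q
  rw [nhds_discrete, tendsto_pure] at h1
  cases ha : a q
  · right
    filter_upwards [h1] with n hn
    rw [ha] at hn
    simpa [u] using hn
  · left
    filter_upwards [h1] with n hn
    rw [ha] at hn
    simpa [u] using hn

/-- Choose a subsequence along which `q ∈ D n` is eventually constant for every rational point `q`
(sequential compactness of `ℚ × ℚ × ℚ → Bool`).  Let `L` be the set of `p` strictly below (in every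
coordinate) a rational point of `Q` that is eventually in `D n`; `L` is an open lower set, and
`D = L ∩ Q`.  For `p ∈ Q` off the frontier of `L` (null: transport `IsLowerSet.null_frontier` from
`Fin 3 → ℝ`) membership in `D n` is eventually that in `D`. -/
theorem exists_subseq (D : ℕ → Set X) (h : ∀ n, Down (D n)) :
    ∃ (φ : ℕ → ℕ) (L : Set X), StrictMono φ ∧ Down L ∧
      ∀ᵐ p : X, ∀ᶠ n in atTop, (p ∈ D (φ n) ↔ p ∈ L) := by
  obtain ⟨φ, hφ, hq⟩ := compact_subseq D
  let L' : Set X := ⋃ q ∈ {q | ∀ᶠ n in atTop, compactPt q ∈ D (φ n)},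
    Iio (q.1 : ℝ) ×ˢ Iio (q.2.1 : ℝ) ×ˢ Iio (q.2.2 : ℝ)
  have hmem : ∀ p : X, p ∈ L' ↔ ∃ q : ℚ × ℚ × ℚ, (∀ᶠ n in atTop, compactPt q ∈ D (φ n)) ∧
      p.1 < q.1 ∧ p.2.1 < q.2.1 ∧ p.2.2 < q.2.2 := by
    intro p
    simp only [L', mem_iUnion, mem_ofPred_eq, mem_prod, mem_Iio, exists_prop]
  have hopen : IsOpen L' :=
    isOpen_biUnion fun q _ => isOpen_Iio.prod (isOpen_Iio.prod isOpen_Iio)
  have hlow : IsLowerSet L' := by
    intro p p' hpp' hp
    obtain ⟨q, h0, h1, h2, h3⟩ := (hmem p).1 hp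
    exact (hmem p').2 ⟨q, h0, hpp'.1.trans_lt h1, hpp'.2.1.trans_lt h2, hpp'.2.2.trans_lt h3⟩
  refine ⟨φ, L' ∩ Q, hφ, ⟨hopen.measurableSet.inter measurableSet_Q, inter_subset_right,
    fun p hp q hq hle => ⟨hlow hle hp.1, hq⟩⟩, ?_⟩
  have hnull : ∀ᵐ p : X, p ∉ frontier L' := compl_mem_ae_iff.2 (compact_null_frontier hlow)
  filter_upwards [hnull] with p hp
  by_cases hQ : p ∈ Q
  swap
  · exact Eventually.of_forall fun n => ⟨fun h1 => absurd ((h _).sub h1) hQ, fun h1 => absurd h1.2 hQ⟩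
  by_cases hL : p ∈ L'
  · obtain ⟨q, h0, h1, h2, h3⟩ := (hmem p).1 hL
    filter_upwards [h0] with n hn
    exact ⟨fun _ => ⟨hL, hQ⟩, fun _ => (h _).low _ hn p hQ ⟨h1.le, h2.le, h3.le⟩⟩
  · have hcl : p ∉ closure L' := by
      intro hc
      apply hp
      rw [hopen.frontier_eq]
      exact ⟨hc, hL⟩
    obtain ⟨ε, hε, hball⟩ := Metric.isOpen_iff.1 isClosed_closure.isOpen_compl p hcl
    obtain ⟨⟨hx0, hx1⟩, ⟨hy0, hy1⟩, ⟨hz0, hz1⟩⟩ := id hQ
    obtain ⟨a, ha0, ha1⟩ := exists_rat_btwn (max_lt hx0 (show p.1 - ε / 2 < p.1 by linarith))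
    obtain ⟨b, hb0, hb1⟩ := exists_rat_btwn (max_lt hy0 (show p.2.1 - ε / 2 < p.2.1 by linarith))
    obtain ⟨c, hc0, hc1⟩ := exists_rat_btwn (max_lt hz0 (show p.2.2 - ε / 2 < p.2.2 by linarith))
    rw [max_lt_iff] at ha0 hb0 hc0
    have hqQ : compactPt (a, b, c) ∈ Q :=
      ⟨⟨ha0.1, ha1.trans hx1⟩, ⟨hb0.1, hb1.trans hy1⟩, ⟨hc0.1, hc1.trans hz1⟩⟩
    rcases hq (a, b, c) with h0 | h0
    · exfalso
      have hin : ((p.1 - ε / 2, p.2.1 - ε / 2, p.2.2 - ε / 2) : X) ∈ L' :=
        (hmem _).2 ⟨(a, b, c), h0, ha0.2, hb0.2, hc0.2⟩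
      refine hball (a := (p.1 - ε / 2, p.2.1 - ε / 2, p.2.2 - ε / 2)) ?_ (subset_closure hin)
      rw [Metric.mem_ball, Prod.dist_eq, Prod.dist_eq]
      simp only [Real.dist_eq, sub_sub_cancel_left, abs_neg, max_self]
      rw [abs_of_pos (by linarith)]
      linarith
    · filter_upwards [h0] with n hn
      exact ⟨fun h1 => absurd ((h _).low _ h1 _ hqQ ⟨ha1.le, hb1.le, hc1.le⟩) hn, fun h1 => absurd h1.1 hL⟩

lemma compact_tendsto {D : ℕ → Set X} {L : Set X} (h : ∀ n, Down (D n)) (hL : Down L)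
    (hae : ∀ᵐ p : X, ∀ᶠ n in atTop, (p ∈ D n ↔ p ∈ L)) {g : X → ℝ} (hg : Continuous g) :
    Tendsto (fun n => ∫ p in D n, g p) atTop (𝓝 (∫ p in L, g p)) := by
  have hQ : IntegrableOn g Q := by
    have hK : IsCompact ((Icc 0 1 ×ˢ Icc 0 1 ×ˢ Icc 0 1 : Set X)) :=
      isCompact_Icc.prod (isCompact_Icc.prod isCompact_Icc)
    exact (hg.continuousOn.integrableOn_compact hK).mono_set
      (prod_mono Ioo_subset_Icc_self (prod_mono Ioo_subset_Icc_self Ioo_subset_Icc_self))
  simp_rw [← integral_indicator (h _).meas, ← integral_indicator hL.meas]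
  refine tendsto_integral_of_dominated_convergence (Q.indicator fun p => ‖g p‖) (fun n => ?_) ?_
    (fun n => Eventually.of_forall fun p => ?_) ?_
  · exact (hg.measurable.indicator (h n).meas).aestronglyMeasurable
  · exact (integrable_indicator_iff measurableSet_Q).2 hQ.norm
  · rw [norm_indicator_eq_indicator_norm]
    exact indicator_le_indicator_of_subset (h n).sub (fun _ => norm_nonneg _) p
  · filter_upwards [hae] with p hp
    refine tendsto_const_nhds.congr' ?_
    filter_upwards [hp] with n hn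
    by_cases hp' : p ∈ L
    · rw [indicator_of_mem hp', indicator_of_mem (hn.2 hp')]
    · rw [indicator_of_notMem hp', indicator_of_notMem (fun h1 => hp' (hn.1 h1))]

lemma compact_vol (D : Set X) : vol D = ∫ _p in D, (1 : ℝ) := by
  simp [vol, Measure.real]

/-- direct method: `vol` and `∫_D dv f` converge by dominated convergence -/
theorem exists_min : ∃ D, Min D := by
  let S : Set ℝ := {r | ∃ D, Down D ∧ r = per D - conj (vol D)}
  have hne : S.Nonempty := ⟨_, ∅, down_empty, rfl⟩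
  have hbd : BddBelow S := by
    refine ⟨-1, ?_⟩
    rintro r ⟨D, hD, rfl⟩
    have h1 := hD.per_nonneg
    have h2 := conj_le_one (vol D)
    linarith
  obtain ⟨u, -, hu, huS⟩ := exists_seq_tendsto_sInf hne hbd
  choose D hD hDu using huS
  obtain ⟨φ, L, hφ, hL, hae⟩ := exists_subseq D hD
  have hv : Tendsto (fun n => vol (D (φ n))) atTop (𝓝 (vol L)) := by
    simp_rw [compact_vol]
    exact compact_tendsto (fun n => hD (φ n)) hL hae continuous_const
  have hp : Tendsto (fun n => per (D (φ n))) atTop (𝓝 (sInf S + conj (vol L))) := by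
    have h1 := (hu.comp hφ.tendsto_atTop).add ((continuous_conj.tendsto _).comp hv)
    refine h1.congr fun n => ?_
    simp only [Function.comp, hDu]
    ring
  have hle : per L ≤ sInf S + conj (vol L) := by
    refine per_le fun f1 f2 f3 hf => ?_
    exact le_of_tendsto_of_tendsto' (compact_tendsto (fun n => hD (φ n)) hL hae (continuous_dv hf.c1 hf.c2 hf.c3))
      hp fun n => (hD _).le_per hf
  refine ⟨L, hL, fun D' hD' => ?_⟩
  have h2 : sInf S ≤ per D' - conj (vol D') := csInf_le hbd ⟨D', hD', rfl⟩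
  linarith

protected lemma Min.cpl {D : Set X} (h : Min D) : Min (cpl D) := by
  refine ⟨h.down.cpl, fun D' hD' => ?_⟩
  rw [h.down.per_cpl, h.down.vol_cpl, conj_symm]
  exact h.min D' hD'

end Crest.Agent.R214
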