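import Crest.Agent.R214.Defs

/-! Row 214: functions with vanishing weak gradient are constant. -/

set_option autoImplicit false

namespace Crest.Agent.R214

open MeasureTheory Set Filter Topology Real
open scoped ENNReal

theorem const_seg {Ω L : Set (ℝ × ℝ)} (ho : IsOpen Ω) (hL : L ⊆ Ω) (hc : Convex ℝ L)
    {f : ℝ × ℝ → ℂ} (hf : ContDiffOn ℝ 1 f Ω) {q h : ℝ × ℝ} (hq : q ∈ L) (hh : q + h ∈ L) :
    ‖f (q + h) - f q‖ₑ ≤
      ∫⁻ s in Icc (0 : ℝ) 1, ‖h‖ₑ * L.indicator (fun p => ‖fderiv ℝ f p‖ₑ) (q + s • h) := by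
  have hm : ∀ s ∈ Icc (0 : ℝ) 1, q + s • h ∈ L := fun s hs => hc.add_smul_mem hq hh hs
  have h1 : ContDiffOn ℝ 1 (fun s : ℝ => f (q + s • h)) (Icc 0 1) :=
    hf.comp (f := fun s : ℝ => q + s • h) (by fun_prop) fun s hs => hL (hm s hs)
  have h2 := enorm_sub_le_lintegral_deriv_of_contDiffOn_Icc h1 zero_le_one
  simp only [one_smul, zero_smul, add_zero] at h2
  refine h2.trans (setLIntegral_mono' measurableSet_Icc fun s hs => ?_)
  have h3 : DifferentiableAt ℝ f (q + s • h) :=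
    (hf.contDiffAt (ho.mem_nhds (hL (hm s hs)))).differentiableAt (by simp)
  have h4 : HasDerivAt (fun s : ℝ => q + s • h) h s := by
    simpa using ((hasDerivAt_id s).smul_const h).const_add q
  have h5 : HasDerivAt (fun s : ℝ => f (q + s • h)) (fderiv ℝ f (q + s • h) h) s :=
    h3.hasFDerivAt.comp_hasDerivAt s h4
  rw [h5.deriv, indicator_of_mem (hm s hs), mul_comm]
  exact (fderiv ℝ f (q + s • h)).le_opENorm h

theorem const_int {Ω L : Set (ℝ × ℝ)} (ho : IsOpen Ω) (hL : L ⊆ Ω) (hm : MeasurableSet L)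
    (hc : Convex ℝ L) {f : ℝ × ℝ → ℂ} (hf : ContDiffOn ℝ 1 f Ω) (h : ℝ × ℝ) :
    ∫⁻ q, {q | q ∈ L ∧ q + h ∈ L}.indicator (fun q => ‖f (q + h) - f q‖ₑ) q ≤
      ‖h‖ₑ * ∫⁻ q in L, ‖fderiv ℝ f q‖ₑ := by
  obtain ⟨F, hF⟩ : ∃ F : ℝ × ℝ → ℝ≥0∞, F = L.indicator fun p => ‖fderiv ℝ f p‖ₑ := ⟨_, rfl⟩
  have hFm : Measurable F := by
    rw [hF]
    exact (measurable_fderiv ℝ f).enorm.indicator hm
  have h1 : ∫⁻ q, {q | q ∈ L ∧ q + h ∈ L}.indicator (fun q => ‖f (q + h) - f q‖ₑ) q ≤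
      ∫⁻ q : ℝ × ℝ, ∫⁻ s in Icc (0 : ℝ) 1, ‖h‖ₑ * F (q + s • h) := by
    refine lintegral_mono fun q => ?_
    by_cases hq : q ∈ {q | q ∈ L ∧ q + h ∈ L}
    · rw [indicator_of_mem hq, hF]
      exact const_seg ho hL hc hf hq.1 hq.2
    · rw [indicator_of_notMem hq]
      exact zero_le
  refine h1.trans (le_of_eq ?_)
  have h2 : Measurable fun z : (ℝ × ℝ) × ℝ => ‖h‖ₑ * F (z.1 + z.2 • h) :=
    (hFm.comp (by fun_prop)).const_mul _
  rw [lintegral_lintegral_swap h2.aemeasurable]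
  have h3 : ∀ s : ℝ, ∫⁻ q : ℝ × ℝ, ‖h‖ₑ * F (q + s • h) = ‖h‖ₑ * ∫⁻ q in L, ‖fderiv ℝ f q‖ₑ := by
    intro s
    rw [lintegral_add_right_eq_self (fun q => ‖h‖ₑ * F q) (s • h), lintegral_const_mul _ hFm, hF,
      lintegral_indicator hm]
  simp only [h3]
  simp

theorem const_shift {Ω L : Set (ℝ × ℝ)} (ho : IsOpen Ω) (hL : L ⊆ Ω) (hk : IsCompact L)
    (hc : Convex ℝ L) {K : ℕ → ℝ × ℝ → ℂ} {G : ℝ × ℝ → ℂ}
    (hK : ∀ n, ContDiffOn ℝ 1 (K n) Ω) (hG : Measurable G)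
    (h1 : Tendsto (fun n => ∫⁻ q in L, ‖fderiv ℝ (K n) q‖ₑ) atTop (𝓝 0))
    (h2 : Tendsto (fun n => ∫⁻ q in L, ‖K n q - G q‖ₑ) atTop (𝓝 0)) (h : ℝ × ℝ) :
    ∫⁻ q, {q | q ∈ L ∧ q + h ∈ L}.indicator (fun q => ‖G (q + h) - G q‖ₑ) q = 0 := by
  have hm := hk.measurableSet
  have key : ∀ n, ∫⁻ q, {q | q ∈ L ∧ q + h ∈ L}.indicator (fun q => ‖G (q + h) - G q‖ₑ) q ≤
      (∫⁻ q in L, ‖K n q - G q‖ₑ) + ‖h‖ₑ * (∫⁻ q in L, ‖fderiv ℝ (K n) q‖ₑ)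
        + ∫⁻ q in L, ‖K n q - G q‖ₑ := by
    intro n
    obtain ⟨D, hD⟩ : ∃ D : ℝ × ℝ → ℝ≥0∞, D = L.indicator fun q => ‖K n q - G q‖ₑ := ⟨_, rfl⟩
    have hDm : AEMeasurable D volume := by
      rw [hD, aemeasurable_indicator_iff hm]
      exact ((((hK n).continuousOn.mono hL).aemeasurable hm).sub hG.aemeasurable).enorm
    have hDh : AEMeasurable (fun q => D (q + h)) volume :=
      hDm.comp_quasiMeasurePreserving (measurePreserving_add_right volume h).quasiMeasurePreserving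
    have hDi : ∫⁻ q, D q = ∫⁻ q in L, ‖K n q - G q‖ₑ := by rw [hD, lintegral_indicator hm]
    have h3 : ∫⁻ q, {q | q ∈ L ∧ q + h ∈ L}.indicator (fun q => ‖G (q + h) - G q‖ₑ) q ≤
        ∫⁻ q, (D (q + h) + {q | q ∈ L ∧ q + h ∈ L}.indicator
          (fun q => ‖K n (q + h) - K n q‖ₑ) q + D q) := by
      refine lintegral_mono fun q => ?_
      by_cases hq : q ∈ {q | q ∈ L ∧ q + h ∈ L}
      · simp only [hD]
        rw [indicator_of_mem hq, indicator_of_mem hq, indicator_of_mem hq.1, indicator_of_mem hq.2]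
        have h4 : G (q + h) - G q
            = -(K n (q + h) - G (q + h)) + (K n (q + h) - K n q) + (K n q - G q) := by ring
        rw [h4]
        refine (enorm_add_le _ _).trans (add_le_add ((enorm_add_le _ _).trans ?_) le_rfl)
        rw [enorm_neg]
      · rw [indicator_of_notMem hq]
        exact zero_le
    refine h3.trans ?_
    rw [lintegral_add_right' _ hDm, lintegral_add_left' hDh, lintegral_add_right_eq_self D h, hDi]
    exact add_le_add (add_le_add le_rfl (const_int ho hL hm hc (hK n) h)) le_rfl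
  have h5 := (h2.add (ENNReal.Tendsto.const_mul h1 (Or.inr (enorm_ne_top (x := h))))).add h2
  simp only [mul_zero, add_zero] at h5
  exact nonpos_iff_eq_zero.1 (ge_of_tendsto' h5 key)

theorem const_pair {L : Set (ℝ × ℝ)} (hm : MeasurableSet L) {G : ℝ × ℝ → ℂ} (hG : Measurable G)
    (h1 : ∀ h : ℝ × ℝ,
      ∫⁻ q, {q | q ∈ L ∧ q + h ∈ L}.indicator (fun q => ‖G (q + h) - G q‖ₑ) q = 0) :
    ∀ᵐ q : ℝ × ℝ, ∀ᵐ q' : ℝ × ℝ, q ∈ L → q' ∈ L → G q' = G q := by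
  obtain ⟨Φ, hΦ⟩ : ∃ Φ : (ℝ × ℝ) × ℝ × ℝ → ℝ≥0∞,
      Φ = (L ×ˢ L).indicator fun z => ‖G z.2 - G z.1‖ₑ := ⟨_, rfl⟩
  have hΦm : Measurable Φ := by
    rw [hΦ]
    exact ((hG.comp measurable_snd).sub (hG.comp measurable_fst)).enorm.indicator (hm.prod hm)
  have h2 : ∀ h : ℝ × ℝ, ∫⁻ q : ℝ × ℝ, Φ (q, q + h) = 0 := fun h => by
    refine Eq.trans (lintegral_congr fun q => ?_) (h1 h)
    rw [hΦ]
    by_cases hq : q ∈ {q | q ∈ L ∧ q + h ∈ L}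
    · rw [indicator_of_mem hq, indicator_of_mem (show (q, q + h) ∈ L ×ˢ L from hq)]
    · rw [indicator_of_notMem hq, indicator_of_notMem (show (q, q + h) ∉ L ×ˢ L from hq)]
  have h3 : Measurable fun z : (ℝ × ℝ) × ℝ × ℝ => Φ (z.1, z.1 + z.2) := hΦm.comp (by fun_prop)
  have h4 : ∫⁻ q : ℝ × ℝ, ∫⁻ h : ℝ × ℝ, Φ (q, q + h) = 0 := by
    rw [lintegral_lintegral_swap h3.aemeasurable]
    simp [h2]
  have h5 : ∫⁻ q : ℝ × ℝ, ∫⁻ q' : ℝ × ℝ, Φ (q, q') = 0 := by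
    refine Eq.trans (lintegral_congr fun q => ?_) h4
    exact (lintegral_add_left_eq_self (fun q' => Φ (q, q')) q).symm
  have h6 := (lintegral_eq_zero_iff hΦm.lintegral_prod_right').1 h5
  filter_upwards [h6] with q hq
  have h7 := (lintegral_eq_zero_iff (hΦm.comp measurable_prodMk_left)).1 hq
  filter_upwards [h7] with q' hq' h8 h9
  have h10 : Φ (q, q') = 0 := hq'
  rw [hΦ, indicator_of_mem (show (q, q') ∈ L ×ˢ L from ⟨h8, h9⟩)] at h10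
  exact sub_eq_zero.1 (enorm_eq_zero.1 h10)

/-- Exhaust `Ω` by the compact convex sets `L j = closure ((1 - 1/(j+2)) • Ω)` (or any compact convex
exhaustion).  For `h` and `q ∈ L ∩ (L - h)`: `‖K n (q + h) - K n q‖ ≤ ‖h‖ ∫₀¹ ‖fderiv (K n) (q + s h)‖`;
integrate over `q` (Fubini, translation invariance) and let `n → ∞`: `G (q + h) = G q` for a.e. such
`q`, for every `h`.  By Fubini `G q = G q'` for a.e. `(q, q') ∈ L × L`. -/
theorem const_of_grad {Ω : Set (ℝ × ℝ)} (ho : IsOpen Ω) (hc : Convex ℝ Ω)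
    (hb : Bornology.IsBounded Ω) (h0 : (0 : ℝ × ℝ) ∈ Ω) {K : ℕ → ℝ × ℝ → ℂ} {G : ℝ × ℝ → ℂ}
    (hK : ∀ n, ContDiffOn ℝ 1 (K n) Ω) (hG : AEStronglyMeasurable G (volume.restrict Ω))
    (h1 : ∀ L ⊆ Ω, IsCompact L →
      Tendsto (fun n => ∫⁻ q in L, ‖fderiv ℝ (K n) q‖ₑ) atTop (𝓝 0))
    (h2 : ∀ L ⊆ Ω, IsCompact L → Tendsto (fun n => ∫⁻ q in L, ‖K n q - G q‖ₑ) atTop (𝓝 0)) :
    ∃ κ : ℂ, ∀ᵐ q : ℝ × ℝ, q ∈ Ω → G q = κ := by
  obtain ⟨G', hG', hGG⟩ := hG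
  have hGG' : ∀ᵐ q : ℝ × ℝ, q ∈ Ω → G q = G' q := (ae_restrict_iff' ho.measurableSet).1 hGG
  obtain ⟨L, hL1, hL2, hL3, hL4⟩ : ∃ L : ℕ → Set (ℝ × ℝ), (∀ j, L j ⊆ Ω) ∧ (∀ j, IsCompact (L j)) ∧
      (∀ j, Convex ℝ (L j)) ∧ ∀ q ∈ Ω, ∀ᶠ j in atTop, q ∈ L j := by
    refine ⟨fun j => (fun x => (1 + 1 / ((j : ℝ) + 1))⁻¹ • x) '' closure Ω, fun j => ?_,
      fun j => hb.isCompact_closure.image (continuous_const_smul _),
      fun j => hc.closure.smul _, fun q hq => ?_⟩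
    · rintro _ ⟨x, hx, rfl⟩
      have ht : (1 + 1 / ((j : ℝ) + 1))⁻¹ < 1 :=
        inv_lt_one_of_one_lt₀ (lt_add_of_pos_right _ (by positivity))
      have h3 := hc.combo_closure_interior_mem_interior hx (ho.interior_eq.symm ▸ h0)
        (a := (1 + 1 / ((j : ℝ) + 1))⁻¹) (b := 1 - (1 + 1 / ((j : ℝ) + 1))⁻¹) (by positivity)
        (sub_pos.2 ht) (by ring)
      rw [smul_zero, add_zero, ho.interior_eq] at h3
      exact h3
    · have h3 : Tendsto (fun j : ℕ => (1 + 1 / ((j : ℝ) + 1)) • q) atTop (𝓝 ((1 + 0 : ℝ) • q)) :=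
        (tendsto_const_nhds.add tendsto_one_div_add_atTop_nhds_zero_nat).smul_const q
      rw [add_zero, one_smul] at h3
      filter_upwards [h3.eventually (ho.mem_nhds hq)] with j hj
      exact ⟨_, subset_closure hj, inv_smul_smul₀ (by positivity) q⟩
  have h3 : ∀ j, ∀ᵐ q : ℝ × ℝ, ∀ᵐ q' : ℝ × ℝ, q ∈ L j → q' ∈ L j → G' q' = G' q := fun j => by
    refine const_pair (hL2 j).measurableSet hG'.measurable fun h => ?_
    refine const_shift ho (hL1 j) (hL2 j) (hL3 j) hK hG'.measurable (h1 _ (hL1 j) (hL2 j)) ?_ h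
    refine (h2 _ (hL1 j) (hL2 j)).congr fun n => lintegral_congr_ae ?_
    refine (ae_restrict_iff' (hL2 j).measurableSet).2 ?_
    filter_upwards [hGG'] with q hq hq'
    rw [hq (hL1 j hq')]
  have h4 : volume Ω ≠ 0 := (ho.measure_pos volume ⟨0, h0⟩).ne'
  obtain ⟨q₀, hq₀, h5⟩ := Measure.exists_mem_of_measure_ne_zero_of_ae h4
    (ae_restrict_of_ae (ae_all_iff.2 h3))
  refine ⟨G' q₀, ?_⟩
  filter_upwards [ae_all_iff.2 h5, hGG'] with q h6 h7 hq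
  obtain ⟨j, hj1, hj2⟩ := ((hL4 q₀ hq₀).and (hL4 q hq)).exists
  rw [h7 hq, h6 j hj1 hj2]

end Crest.Agent.R214
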