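import Crest.Agent.R214.Defs2
import Crest.Agent.R214.Conj

/-! Row 214: consequences of the one-dimensional data. -/

set_option autoImplicit false

namespace Crest.Agent.R214

open MeasureTheory Set Filter Topology Real
open scoped ENNReal

variable {a l ρ σ : ℝ → ℝ} {A V H F α β : ℝ}

lemma dira_const (c : ℝ) : ∫ _ in I, c = c := by simp [I]

lemma dira_iconst (c : ℝ) : IntegrableOn (fun _ : ℝ => c) I := integrableOn_const (by simp [I])

lemma dira_ia (h : Dir a l A V H F α β) : IntegrableOn a I :=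
  Measure.integrableOn_of_bounded (M := 1) (by simp [I]) h.ma.aestronglyMeasurable
    ((ae_restrict_iff' measurableSet_Ioo).2 (Eventually.of_forall fun t ht => by
      rw [Real.norm_eq_abs, abs_of_nonneg (h.α0.trans (h.lo t ht))]
      exact (h.hi t ht).trans h.β1))

lemma dira_line (h : Dir a l A V H F α β) (H' F' : ℝ) :
    ∫ t in I, (H' * a t + F') = H' * V + F' := by
  rw [integral_add ((dira_ia h).const_mul H') (dira_iconst F'), integral_const_mul, h.vol,
    dira_const]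

lemma dira_sq {x : ℝ} (hx : 0 ≤ x) : x = √(π * x) ^ 2 / π := by
  rw [Real.sq_sqrt (by positivity)]; field_simp

lemma dira_symm (h : Sl a l ρ σ) : Sl a l σ ρ where
  aρ := h.aσ
  aσ := h.aρ
  ρ0 := h.σ0
  σ0 := h.ρ0
  ρa := h.σa
  σa := h.ρa
  cor := h.cor.mono fun _ h ht h1 h2 => h ht h2 h1
  sρ k h0 h1 := (h.sσ k h0 h1).mono fun _ h ht h1 h2 => h ht h2 h1
  sσ k h0 h1 := (h.sρ k h0 h1).mono fun _ h ht h1 h2 => h ht h2 h1
  lρ := h.lσ.mono fun _ h ht h1 h2 => h ht h2 h1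
  lσ := h.lρ.mono fun _ h ht h1 h2 => h ht h2 h1

lemma dira_strip (h : Sl a l ρ σ) : ∀ᵐ t, ∀ k : ℕ, k ≤ 666666 → t ∈ I → ρ t = 0 → 0 < σ t →
    strip (k / 1000000) (σ t) (a t) ≤ l t := by
  refine ae_all_iff.2 fun k => ?_
  by_cases hk : k ≤ 666666
  · have hk' : (k : ℝ) ≤ 666666 := by exact_mod_cast hk
    exact (h.sσ (k / 1000000) (by positivity) (by linarith)).mono fun _ h _ => h
  · exact Eventually.of_forall fun _ h => absurd h hk

lemma Dir.α_le (h : Dir a l A V H F α β) : α ≤ V := by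
  rw [← h.vol, ← dira_const α]
  exact setIntegral_mono_on (dira_iconst _) (dira_ia h) measurableSet_Ioo h.lo
lemma Dir.le_β (h : Dir a l A V H F α β) : V ≤ β := by
  rw [← h.vol, ← dira_const β]
  exact setIntegral_mono_on (dira_ia h) (dira_iconst _) measurableSet_Ioo h.hi
/-- `slab` with `c = 0` -/
lemma Dir.int_le (h : Dir a l A V H F α β) : ∫ t in I, l t ≤ A := by
  simpa using h.slab (fun _ => 0) measurable_const (fun _ => le_rfl) fun _ => zero_le_one
lemma Dir.A_nonneg (h : Dir a l A V H F α β) : 0 ≤ A := by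
  exact (integral_nonneg h.nn).trans h.int_le
lemma Dir.le_A (h : Dir a l A V H F α β) : H * V + F ≤ A := by
  rw [← dira_line h]
  exact (integral_mono_ae (((dira_ia h).const_mul H).add (dira_iconst F)) h.il
    ((ae_restrict_iff' measurableSet_Ioo).2 h.flux)).trans h.int_le
/-- `cs` -/
lemma Dir.eq_of_le (h : Dir a l A V H F α β) (hA : A ≤ H * V + F) : α = β := by
  have h1 := h.cs
  have h2 : A * (A - H * V - F) ≤ 0 := mul_nonpos_of_nonneg_of_nonpos h.A_nonneg (by linarith)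
  have h3 : (β - α) ^ 2 = 0 := le_antisymm (h1.trans h2) (sq_nonneg _)
  have := pow_eq_zero_iff (two_ne_zero) |>.1 h3
  linarith
lemma Dir.a_eq (h : Dir a l A V H F α β) (he : α = β) : ∀ t ∈ I, a t = V := by
  intro t ht
  linarith [h.lo t ht, h.hi t ht, h.α_le, h.le_β]
/-- apply `bot` with `L = j β - ε` -/
lemma Dir.bot' (h : Dir a l A V H F α β) {j : ℝ → ℝ} (hj : ContinuousAt j β)
    (hl : ∀ᵐ t, t ∈ I → j (a t) ≤ l t) : j β ≤ H * β + F := by
  refine le_of_forall_pos_le_add fun ε hε => ?_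
  have h1 : ∀ᶠ t in 𝓝[>] (0 : ℝ), j β - ε < j (a t) :=
    (hj.tendsto.comp h.tβ).eventually (lt_mem_nhds (by linarith))
  have h2 : ∀ᶠ t in 𝓝[>] (0 : ℝ), t ∈ I := Ioo_mem_nhdsGT one_pos
  have := h.bot (j β - ε) (by
    filter_upwards [h1.filter_mono inf_le_left, h2.filter_mono inf_le_left,
      hl.filter_mono inf_le_right] with t h1 h2 h3 using h1.le.trans (h3 h2))
  linarith
/-- `slab` with `(Icc x y).indicator c` -/
lemma Dir.calib (h : Dir a l A V H F α β) {c : ℝ → ℝ} (hm : Measurable c) (h0 : ∀ b, 0 ≤ c b)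
    (h1 : ∀ b, c b ≤ 1) {x y H' F' : ℝ} (hx : α ≤ x) (hxy : x ≤ y) (hy : y ≤ β) (hH : H' ≤ H)
    (hF : F' ≤ F)
    (hc : ∀ᵐ t, t ∈ I → a t ∈ Icc x y → H' * a t + F' ≤ √(1 - c (a t) ^ 2) * l t) :
    H' * V + F' + ∫ b in x..y, c b ≤ A := by
  have hm' : Measurable ((Ioc x y).indicator c) := hm.indicator measurableSet_Ioc
  have h0' : ∀ b, 0 ≤ (Ioc x y).indicator c b := fun b => indicator_nonneg (fun b _ => h0 b) b
  have h1' : ∀ b, (Ioc x y).indicator c b ≤ 1 := fun b =>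
    (indicator_le_self' (fun b _ => h0 b) b).trans (h1 b)
  have hs := h.slab _ hm' h0' h1'
  rw [intervalIntegral.integral_of_le (hx.trans (hxy.trans hy)),
    setIntegral_indicator measurableSet_Ioc, inter_eq_right.2 (Ioc_subset_Ioc hx hy),
    ← intervalIntegral.integral_of_le hxy] at hs
  refine le_trans (add_le_add_left ?_ _) hs
  rw [← dira_line h]
  refine integral_mono_ae (((dira_ia h).const_mul H').add (dira_iconst F')) ?_
    ((ae_restrict_iff' measurableSet_Ioo).2 ?_)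
  · refine Integrable.bdd_mul (c := 1) h.il
      (Measurable.aestronglyMeasurable (measurable_const.sub ((hm'.comp h.ma).pow_const 2)).sqrt)
      (Eventually.of_forall fun t => ?_)
    rw [Real.norm_eq_abs, abs_of_nonneg (Real.sqrt_nonneg _), Real.sqrt_le_one]
    linarith [sq_nonneg ((Ioc x y).indicator c (a t))]
  · filter_upwards [hc, h.flux] with t h2 h3 ht
    by_cases hb : a t ∈ Ioc x y
    · rw [indicator_of_mem hb]; exact h2 ht (Ioc_subset_Icc_self hb)
    · rw [indicator_of_notMem hb]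
      have h4 := mul_le_mul_of_nonneg_right hH (h.α0.trans (h.lo t ht))
      have h5 := h3 ht
      norm_num; linarith

/-- concavity of the square root -/
lemma sqrt_gt_line {x y z : ℝ} (h0 : 0 ≤ x) (hxz : x ≤ z) (hzy : z ≤ y)
    (hx : H * x + F < √(π * x)) (hy : H * y + F < √(π * y)) : H * z + F < √(π * z) := by
  have hπ := pi_pos
  have e1 := dira_sq h0
  have e2 := dira_sq (h0.trans hxz)
  have e3 := dira_sq (h0.trans (hxz.trans hzy))
  have hpq : √(π * x) ≤ √(π * z) := Real.sqrt_le_sqrt (by gcongr)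
  have hqr : √(π * z) ≤ √(π * y) := Real.sqrt_le_sqrt (by gcongr)
  have hp := Real.sqrt_nonneg (π * x)
  rcases le_total H 0 with hH | hH
  · nlinarith
  generalize √(π * x) = p at *
  generalize √(π * z) = q at *
  generalize √(π * y) = r at *
  have f1 : H * x = H / π * p ^ 2 := by rw [e1]; ring
  have f2 : H * z = H / π * q ^ 2 := by rw [e2]; ring
  have f3 : H * y = H / π * r ^ 2 := by rw [e3]; ring
  rw [f1] at hx; rw [f3] at hy; rw [f2]
  have hh : 0 ≤ H / π := by positivity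
  generalize H / π = g at *
  rcases hpq.eq_or_lt with rfl | hlt
  · exact hx
  by_contra hc
  push Not at hc
  have g1 := mul_nonneg (sub_nonneg.2 hqr) (sub_pos.2 hx).le
  have g2 := mul_pos (sub_pos.2 hlt) (sub_pos.2 hy)
  have g3 := mul_nonneg (sub_nonneg.2 (hpq.trans hqr)) (sub_nonneg.2 hc)
  have g4 := mul_nonneg (mul_nonneg (mul_nonneg hh (sub_nonneg.2 hpq)) (sub_nonneg.2 hqr))
    (sub_nonneg.2 (hpq.trans hqr))
  nlinarith
lemma le_of_top (top : √(π * α) ≤ H * α + F) (hα : α ≤ V) (hno : H * V + F < √(π * V)) {x : ℝ}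
    (h0 : 0 ≤ x) (hx : H * x + F < √(π * x)) : α ≤ x := by
  by_contra hc
  exact absurd (sqrt_gt_line h0 (not_le.1 hc).le hα hx hno) (not_lt.2 top)
lemma nonneg_of_top (top : √(π * α) ≤ H * α + F) (h0 : 0 ≤ α) (hα : α ≤ V)
    (hno : H * V + F < √(π * V)) : 0 ≤ F := by
  by_contra hc
  have h1 : α ≤ 0 := le_of_top top hα hno le_rfl (by simpa using hc)
  rw [le_antisymm h1 h0] at top
  exact hc (by simpa using top)
lemma eq_zero_of_top (top : √(π * α) ≤ H * α + F) (h0 : 0 ≤ α) (hα : α ≤ V)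
    (hno : H * V + F < √(π * V)) (hF : F ≤ 0) : α = 0 := by
  have hπ := pi_pos
  have hF0 : F = 0 := le_antisymm hF (nonneg_of_top top h0 hα hno)
  by_contra hc
  have hp : 0 < √(π * α) := Real.sqrt_pos.2 (mul_pos hπ (lt_of_le_of_ne h0 (Ne.symm hc)))
  have e1 := dira_sq h0
  have e2 := dira_sq (h0.trans hα)
  have hpq : √(π * α) ≤ √(π * V) := Real.sqrt_le_sqrt (by gcongr)
  generalize √(π * α) = p at *
  generalize √(π * V) = r at *
  have f1 : H * α = H / π * p * p := by rw [e1]; ring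
  have f2 : H * V = H / π * r * r := by rw [e2]; ring
  rw [f1, hF0, add_zero] at top; rw [f2, hF0, add_zero] at hno
  generalize H / π = g at *
  have g1 : 1 ≤ g * p := by by_contra h; nlinarith
  have g2 : g * r < 1 := by by_contra h; nlinarith
  have g3 : 0 < g := by by_contra h; nlinarith
  nlinarith
/-- `le_of_top` with `x = 0.00182` -/
lemma nbound_thin (top : √(π * α) ≤ H * α + F) (hα : α ≤ V) (hno : H * V + F < √(π * V))
    (h0 : 0 ≤ H) (h3 : H ≤ 3) (hF0 : 0 ≤ F) (hF : F ≤ 0.07) : H * α + F ≤ 0.0755 := by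
  have h1 : α ≤ 0.00182 := le_of_top top hα hno (by norm_num) (by
    refine lt_of_le_of_lt (b := 0.07546) (by linarith) (Real.lt_sqrt_of_sq_lt ?_)
    linarith [pi_gt_d2])
  nlinarith
/-- `le_of_top` with `x = n² / π`, `n = 0.71 - 1.6 (H - 1.25)`; one needs
`H n² / π + 1.7 - 3 H / π < n` (margin `0.003` at `H = 1.25`) -/
lemma nbound_nest (top : √(π * α) ≤ H * α + F) (hα : α ≤ V) (hno : H * V + F < √(π * V))
    (h0 : 1.25 ≤ H) (h1 : H ≤ 1.43) (hF : F ≤ 1.7 - 3 * H / π) :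
    H * α + F < 0.71 - 1.6 * (H - 1.25) := by
  have hπ := pi_pos
  set n := 0.71 - 1.6 * (H - 1.25) with hn
  have hn0 : 0 ≤ n := by rw [hn]; linarith
  have e : √(π * (n ^ 2 / π)) = n := by rw [mul_div_cancel₀ _ hπ.ne', Real.sqrt_sq hn0]
  have key : H * (n ^ 2 / π) + F < n := by
    refine lt_of_le_of_lt (add_le_add_right hF _) ?_
    have e2 : H * (n ^ 2 / π) + (1.7 - 3 * H / π) = 1.7 - H * (3 - n ^ 2) / π := by ring
    rw [e2, sub_lt_comm, lt_div_iff₀ hπ, hn]
    obtain ⟨u, rfl⟩ : ∃ u, H = 1.25 + u := ⟨H - 1.25, by ring⟩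
    have u0 : 0 ≤ u := by linarith
    have u1 : u ≤ 0.18 := by linarith
    have h2 : (0.99 + 1.6 * u) * π ≤ (0.99 + 1.6 * u) * 3.1416 :=
      mul_le_mul_of_nonneg_left pi_lt_d4.le (by positivity)
    have h3 : 0 ≤ u * (0.309 - 0.928 * u - 2.56 * u ^ 2) := mul_nonneg u0 (by nlinarith)
    nlinarith
  have h2 : α ≤ n ^ 2 / π := le_of_top top hα hno (by positivity) (by rwa [e])
  exact lt_of_le_of_lt (add_le_add_left (mul_le_mul_of_nonneg_left h2 (by linarith)) _) key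

/-- (1) AM-GM; (2) `√(π V) - H V` increases on `(0, 1/π]` if `H ≤ π/2`; (3) it decreases on
`[v0, ∞)` if `9/4 ≤ H`, and `√(π v0) = 2π/9`.  Put `s = √(π V) ∈ [2π/9, 1]`, `V = s² / π`. -/
lemma Crt.lt {K : ℝ} (h : Crt H K) (h0 : 0 ≤ H) (hv : v0 ≤ V) (hV : V ≤ 1 / π) :
    √(π * V) < H * V + K := by
  have hπ := pi_pos
  have hV0 : 0 ≤ V := v0_pos.le.trans hv
  have e := dira_sq hV0
  have s1 : √(π * V) ≤ 1 := Real.sqrt_le_one.2 (by rwa [le_div_iff₀' hπ] at hV)
  have s0 : 2 * π / 9 ≤ √(π * V) := Real.le_sqrt_of_sq_le (by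
    unfold v0 at hv
    have := mul_le_mul_of_nonneg_left hv hπ.le
    linarith)
  generalize √(π * V) = s at *
  have f : H * V + K = (H * s ^ 2 + π * K) / π := by rw [e]; field_simp
  rw [f, lt_div_iff₀ hπ]
  rcases h with h | ⟨h1, h2⟩ | ⟨h1, h2⟩
  · have hH : 0 < H := by
      rcases h0.eq_or_lt with rfl | h'
      · linarith
      · exact h'
    refine lt_of_mul_lt_mul_left ?_ (by positivity : 0 ≤ 4 * H)
    nlinarith [sq_nonneg (2 * H * s - π), mul_pos hπ (sub_pos.2 h)]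
  · have h3 : π < π * K + H := by
      have := mul_lt_mul_of_pos_left h2 hπ
      rwa [mul_add, mul_div_cancel₀ _ hπ.ne', mul_one] at this
    have h4 : 0 ≤ π - H * (1 + s) := by nlinarith
    nlinarith [mul_nonneg (sub_nonneg.2 s1) h4]
  · have h3 := mul_lt_mul_of_pos_left h2 hπ
    have h4 : 0 ≤ H * (s + 2 * π / 9) - π := by nlinarith
    nlinarith [mul_nonneg (sub_nonneg.2 s0) h4]

lemma strip_mono {k S S' b : ℝ} (hk : 0 ≤ k) (hS : S ≤ S') : strip k S' b ≤ strip k S b := by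
  unfold strip
  nlinarith
/-- AM-GM -/
lemma sqrt_le_ell {w b : ℝ} (hw : 0 < w) : √(π * (1 - b)) ≤ max (ell w b) 0 := by
  have hπ := pi_pos
  rcases le_total 1 b with hb | hb
  · rw [Real.sqrt_eq_zero_of_nonpos (by nlinarith)]
    exact le_max_right _ _
  · refine le_trans (Real.sqrt_le_iff.2 ⟨?_, ?_⟩) (le_max_left _ _)
    · have := sub_nonneg.2 hb
      unfold ell; positivity
    · have e : ell w b ^ 2 = π * (1 - b) + ((1 - b) / w - π * w / 4) ^ 2 := by
        unfold ell; field_simp; ring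
      rw [e]
      exact le_add_of_nonneg_right (sq_nonneg _)
lemma Adm.mono {S S' wl wl' wh wh' b m : ℝ} (h : Adm S wl wh b m) (hS : S ≤ S') (hl : wl' ≤ wl)
    (hh : wh ≤ wh') : Adm S' wl' wh' b m := by
  rcases h with h | h | ⟨w, h0, h1, h2, h3⟩
  · exact Or.inl h
  · exact Or.inr (Or.inl fun k hk => (strip_mono (by positivity) hS).trans (h k hk))
  · exact Or.inr (Or.inr ⟨w, h0, hl.trans h1, h2.trans hh, h3⟩)
lemma Adm.min_le {S wl wh b m : ℝ} (h : Adm S wl wh b m) (hb : b ≤ 1) :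
    min (min √(π * b) 1) √(π * (1 - b)) ≤ m := by
  rcases h with h | h | ⟨w, h0, -, -, h3⟩
  · exact (min_le_left _ _).trans ((min_le_left _ _).trans h)
  · refine (min_le_left _ _).trans ((min_le_right _ _).trans ?_)
    simpa [strip] using h 0 (by norm_num)
  · refine (min_le_right _ _).trans ((sqrt_le_ell h0).trans (max_le h3 (le_trans ?_ h3)))
    have := sub_nonneg.2 hb
    have := pi_pos
    unfold ell; positivity
/-- the difference `strip k S b - √(π b)` decreases on `[0, 0.42]`; margin `3e-4` at `0.42` -/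
lemma Adm.thin_sqrt {b m : ℝ} (h : Adm 0.0755 0.9245 1 b m) (h0 : 0 ≤ b) (hb : b ≤ 0.42) :
    √(π * b) ≤ m := by
  have hπ := pi_pos
  rcases h with h | h | ⟨w, hw, -, -, h3⟩
  · exact h
  · refine le_trans ?_ (h 666666 le_rfl)
    refine le_trans (b := 0.666666 * b + 0.869008) (Real.sqrt_le_iff.2 ⟨by positivity, ?_⟩) ?_
    · have h1 : π * b ≤ 3.1416 * b := mul_le_mul_of_nonneg_right pi_lt_d4.le h0
      nlinarith [mul_nonneg (sub_nonneg.2 hb) (sub_nonneg.2 hb)]
    · unfold strip; norm_num; linarith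
  · refine (Real.sqrt_le_sqrt (y := π * (1 - b)) (by gcongr; linarith)).trans
      ((sqrt_le_ell hw).trans (max_le h3 (le_trans ?_ h3)))
    have : 0 ≤ 1 - b := by linarith
    unfold ell; positivity

/-- countably many `k` (`ae_all_iff`) -/
lemma Sl.adm (h : Sl a l ρ σ) {N : ℝ} (hlt : ∀ t ∈ I, a t < 1)
    (hN : ∀ t ∈ I, ρ t ≤ N ∧ σ t ≤ N) : ∀ᵐ t, t ∈ I → Adm N (1 - N) 1 (a t) (l t) := by
  filter_upwards [h.cor, dira_strip h, dira_strip (dira_symm h), h.lρ] with t h1 h2 h3 h4 ht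
  rcases (h.ρ0 t).eq_or_lt with e1 | e1 <;> rcases (h.σ0 t).eq_or_lt with e2 | e2
  · exact Or.inl (h1 ht e1.symm e2.symm)
  · exact Or.inr (Or.inl fun k hk =>
      (strip_mono (by positivity) (hN t ht).2).trans (h2 k hk ht e1.symm e2))
  · exact Or.inr (Or.inl fun k hk =>
      (strip_mono (by positivity) (hN t ht).1).trans (h3 k hk ht e2.symm e1))
  · have e3 := (h.ρa t ht).trans_lt (hlt t ht)
    exact Or.inr (Or.inr ⟨1 - ρ t, by linarith, by linarith [(hN t ht).1], by linarith,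
      h4 ht e1 e2 e3⟩)
lemma Sl.adm_plain (h : Sl a l ρ σ) (hlt : ∀ t ∈ I, a t < 1) :
    ∀ᵐ t, t ∈ I → Adm 1 0 1 (a t) (l t) := by
  simpa using h.adm (N := 1) hlt fun t ht =>
    ⟨(h.ρa t ht).trans (hlt t ht).le, (h.σa t ht).trans (hlt t ht).le⟩
lemma dira_nest (h : Sl a l ρ σ) {N : ℝ} (hlt : ∀ t ∈ I, a t < 1) (hN : ∀ t ∈ I, σ t ≤ N)
    (hc : ∀ t ∈ I, ρ t = 0 ∨ σ t = 0 → ρ t = 0) :
    ∃ S, 0 ≤ S ∧ S ≤ N ∧ S ≤ 1 ∧ ∀ᵐ t, t ∈ I → Adm S 0 (1 - S) (a t) (l t) := by
  have hN0 : 0 ≤ N := (h.σ0 _).trans (hN (1 / 2) ⟨by norm_num, by norm_num⟩)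
  set T := {t | t ∈ I ∧ ρ t = 0} with hT
  have hb : BddAbove (σ '' T) := ⟨N, by rintro _ ⟨t, ht, rfl⟩; exact hN t ht.1⟩
  refine ⟨sSup (σ '' T), Real.sSup_nonneg (by rintro _ ⟨t, -, rfl⟩; exact h.σ0 t),
    Real.sSup_le (by rintro _ ⟨t, ht, rfl⟩; exact hN t ht.1) hN0,
    Real.sSup_le (by rintro _ ⟨t, ht, rfl⟩; exact (h.σa t ht.1).trans (hlt t ht.1).le) zero_le_one,
    ?_⟩
  filter_upwards [h.cor, dira_strip h, h.lσ] with t h1 h2 h4 ht
  rcases (h.ρ0 t).eq_or_lt with e1 | e1 <;> rcases (h.σ0 t).eq_or_lt with e2 | e2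
  · exact Or.inl (h1 ht e1.symm e2.symm)
  · exact Or.inr (Or.inl fun k hk => (strip_mono (by positivity)
      (le_csSup hb ⟨t, ⟨ht, e1.symm⟩, rfl⟩)).trans (h2 k hk ht e1.symm e2))
  · exact absurd (hc t ht (Or.inr e2.symm)) e1.ne'
  · have e3 := (h.σa t ht).trans_lt (hlt t ht)
    have e4 : sSup (σ '' T) ≤ σ t := by
      refine Real.sSup_le ?_ e2.le
      rintro _ ⟨t', ht', rfl⟩
      rcases le_total t t' with e | e
      · exact h.aσ ht ht'.1 e
      · exact absurd (ht'.2 ▸ h.aρ ht'.1 ht e) (not_le.2 e1)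
    exact Or.inr (Or.inr ⟨1 - σ t, by linarith, by linarith, by linarith, h4 ht e1 e2 e3⟩)

/-- Let `T = {t ∈ I | ρ t = 0 ∨ σ t = 0}`.  By monotonicity `ρ = 0` on `T` or `σ = 0` on `T`; say
`ρ = 0`, and let `S = sSup (σ '' T)` (`0` if `T` is empty).  If `t ∈ I \ T` then `t < t'` for all
`t' ∈ T`, so `S ≤ σ t`; use `lσ`. -/
lemma Sl.adm_nest (h : Sl a l ρ σ) {N : ℝ} (hlt : ∀ t ∈ I, a t < 1)
    (hN : ∀ t ∈ I, ρ t ≤ N ∧ σ t ≤ N) :
    ∃ S, 0 ≤ S ∧ S ≤ N ∧ S ≤ 1 ∧ ∀ᵐ t, t ∈ I → Adm S 0 (1 - S) (a t) (l t) := by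
  by_cases hc : ∀ t ∈ I, ρ t = 0 ∨ σ t = 0 → ρ t = 0
  · exact dira_nest h hlt (fun t ht => (hN t ht).2) hc
  · refine dira_nest (dira_symm h) hlt (fun t ht => (hN t ht).1) fun t ht h1 => ?_
    push Not at hc
    obtain ⟨t', ht', h2, h3⟩ := hc
    have h4 := h2.resolve_left h3
    rcases le_total t t' with e | e
    · refine h1.resolve_right fun h5 => h3 (le_antisymm ?_ (h.ρ0 _))
      exact h5 ▸ h.aρ ht ht' e
    · exact le_antisymm (h4 ▸ h.aσ ht' ht e) (h.σ0 _)

/-- `α ≤ x` by `le_of_top`.  If `β < y`, then `bot'` for `j b = min (min √(π b) 1) √(π (1 - b))`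
(resp. `min (min √(π b) (strip k 0.0755 b)) (1 - b + π 0.9245 / 4)`, `k = 666666 / 1000000`)
contradicts `Hi` (`sqrt_gt_line` on `[V, y]`; the other two differences are antitone).  Then
`calib` and `Crt.lt`. -/
theorem Dir.excl (h : Dir a l A V H F α β) {thin : Bool} {S wl wh : ℝ}
    (top : √(π * α) ≤ H * α + F) (hno : H * V + F < √(π * V)) (hv : v0 ≤ V) (hV : V ≤ 1 / π)
    (hA : A ≤ √(π * V)) (hadm : ∀ᵐ t, t ∈ I → Adm S wl wh (a t) (l t))
    (hthin : thin = true → S ≤ 0.0755 ∧ 0.9245 ≤ wl ∧ wh ≤ 1 ∧ 2 / 3 ≤ H)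
    (hex : Ex thin S wl wh H F) : False := by
  have hπ := pi_pos
  have hV0 : 0 ≤ V := v0_pos.le.trans hv
  obtain ⟨H', F', hH0, hH, -, hF, hC | ⟨x, y, K, hx0, hxy, -, hx, hHi, ⟨c, cm, c0, c1, cv, cK⟩, hC⟩⟩ :=
    hex
  · have h1 := hC.lt hH0 hv hV
    have h2 := mul_le_mul_of_nonneg_right hH hV0
    linarith
  have hH1 : 0 ≤ H := hH0.trans hH
  have hαx : α ≤ x := by
    rcases hx with hx | hx
    · exact h.α_le.trans (hV.trans hx)
    · exact le_of_top top h.α_le hno hx0 (Real.lt_sqrt_of_sq_lt hx)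
  have hyβ : y ≤ β := by
    by_contra hc
    have hc := (not_le.1 hc).le
    have h1 : H * β + F < √(π * β) :=
      sqrt_gt_line hV0 h.le_β hc hno (Real.lt_sqrt_of_sq_lt hHi.1)
    have h2 : H * β ≤ H * y := mul_le_mul_of_nonneg_left hc hH1
    have h3 := hHi.2
    cases thin with
    | false =>
      simp only [Bool.false_eq_true, if_false] at h3
      have h4 := h.bot' (j := fun b => min (min √(π * b) 1) √(π * (1 - b))) (by fun_prop)
        (hadm.mono fun t h5 ht => (h5 ht).min_le ((h.hi t ht).trans h.β1))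
      refine absurd h4 (not_le.2 (lt_min (lt_min h1 (by linarith [h3.1])) ?_))
      have h5 := Real.lt_sqrt_of_sq_lt h3.2
      have h6 : √(π * (1 - y)) ≤ √(π * (1 - β)) := Real.sqrt_le_sqrt (by gcongr)
      linarith
    | true =>
      simp only [if_true] at h3
      obtain ⟨t1, t2, t3, t4⟩ := hthin rfl
      have h4 := h.bot' (j := fun b => min (min √(π * b) (strip (666666 / 1000000) 0.0755 b))
          (1 - b + π * 0.9245 / 4)) (by unfold strip; fun_prop)
        (hadm.mono fun t h5 ht => by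
          rcases h5 ht with h6 | h6 | ⟨w, w0, w1, w2, h6⟩
          · exact (min_le_left _ _).trans ((min_le_left _ _).trans h6)
          · refine (min_le_left _ _).trans ((min_le_right _ _).trans
              ((strip_mono (by norm_num) t1).trans ?_))
            simpa using h6 666666 le_rfl
          · refine (min_le_right _ _).trans (le_trans ?_ h6)
            have e1 : 1 - a t ≤ (1 - a t) / w :=
              le_div_self (sub_nonneg.2 ((h.hi t ht).trans h.β1)) w0 (w2.trans t3)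
            have e2 : π * 0.9245 ≤ π * w := mul_le_mul_of_nonneg_left (t2.trans w1) hπ.le
            unfold ell; linarith)
      refine absurd h4 (not_le.2 (lt_min (lt_min h1 ?_) (by linarith [h3.2])))
      have h5 := h3.1
      have h6 := mul_le_mul_of_nonneg_right t4 (sub_nonneg.2 hc)
      unfold strip at h5 ⊢
      nlinarith
  have h1 := h.calib cm c0 c1 hαx hxy hyβ hH hF (by
    filter_upwards [hadm, h.flux] with t h1 h2 ht hb
    refine cv _ hb _ (le_trans ?_ (h2 ht)) (h1 ht)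
    have := mul_le_mul_of_nonneg_right hH (h.α0.trans (h.lo t ht))
    linarith)
  have h2 := hC.lt hH0 hv hV
  linarith

end Crest.Agent.R214
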