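import Crest.Agent.R214.CPer

/-! Row 214: existence of the area measure; the perimeter is the total area. -/

set_option autoImplicit false

namespace Crest.Agent.R214

open MeasureTheory Set Filter Topology Real
open scoped ENNReal

variable {D : Set X} {A : Measure X} {n1 n2 n3 : X → ℝ}

lemma surf_density {τ μ : Measure X} [IsFiniteMeasure τ] [IsFiniteMeasure μ] (hμ : μ ≪ τ)
    {N n : X → ℝ} (hN : Measurable N) (hn : Measurable n) (hN0 : ∀ p, 0 ≤ N p)
    (h : ∀ p, N p * n p = (μ.rnDeriv τ p).toReal) :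
    (τ.withDensity fun p => ENNReal.ofReal (N p)).withDensity (fun p => ENNReal.ofReal (n p)) = μ := by
  haveI := Measure.haveLebesgueDecomposition_of_sigmaFinite μ τ
  rw [← withDensity_mul _ hN.ennreal_ofReal hn.ennreal_ofReal]
  conv_rhs => rw [← Measure.withDensity_rnDeriv_eq μ τ hμ]
  refine withDensity_congr_ae ?_
  filter_upwards [Measure.rnDeriv_lt_top μ τ] with p hp
  rw [Pi.mul_apply, ← ENNReal.ofReal_mul (hN0 p), h, ENNReal.ofReal_toReal hp.ne]

lemma surf_point0 {P e η s : ℝ} (hη : 0 < η) (hs : 0 < s) (he0 : 0 ≤ e) (hP1 : 1 - e ≤ P)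
    (hsle : s ≤ 1 + e + η) (hPs : -s ≤ P) : 1 - 2 * e - η ≤ P / s := by
  rw [le_div_iff₀ hs]
  rcases le_total 0 (1 - 2 * e - η) with h | h
  · calc (1 - 2 * e - η) * s ≤ (1 - 2 * e - η) * (1 + e + η) := by gcongr
      _ ≤ 1 - e := by nlinarith [mul_nonneg he0 hη.le, sq_nonneg e, sq_nonneg η]
      _ ≤ P := hP1
  · rcases le_total 0 P with h' | h'
    · exact (mul_nonpos_of_nonpos_of_nonneg h hs.le).trans h'
    · have h2 : 1 - 2 * e - η ≤ -1 := by linarith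
      calc (1 - 2 * e - η) * s ≤ -1 * s := mul_le_mul_of_nonneg_right h2 hs.le
        _ = -s := by ring
        _ ≤ P := hPs

lemma surf_point {g1 g2 g3 a1 a2 a3 η s : ℝ} (hη : 0 < η) (hs : 0 < s)
    (hs2 : s ^ 2 = η ^ 2 + (g1 ^ 2 + g2 ^ 2 + g3 ^ 2)) (ha : a1 ^ 2 + a2 ^ 2 + a3 ^ 2 = 1) :
    1 - 2 * (|a1 - g1| + |a2 - g2| + |a3 - g3|) - η ≤ g1 / s * a1 + g2 / s * a2 + g3 / s * a3 := by
  have b1 : |a1| ≤ 1 := (sq_le_one_iff_abs_le_one _).1 (by linarith [sq_nonneg a2, sq_nonneg a3])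
  have b2 : |a2| ≤ 1 := (sq_le_one_iff_abs_le_one _).1 (by linarith [sq_nonneg a1, sq_nonneg a3])
  have b3 : |a3| ≤ 1 := (sq_le_one_iff_abs_le_one _).1 (by linarith [sq_nonneg a1, sq_nonneg a2])
  have c : ∀ a g : ℝ, |a| ≤ 1 → |(a - g) * a| ≤ |a - g| := fun a g h => by
    rw [abs_mul]; exact mul_le_of_le_one_right (abs_nonneg _) h
  have c1 := abs_le.1 (c a1 g1 b1)
  have c2 := abs_le.1 (c a2 g2 b2)
  have c3 := abs_le.1 (c a3 g3 b3)
  have q1 := sq_abs (a1 - g1)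
  have q2 := sq_abs (a2 - g2)
  have q3 := sq_abs (a3 - g3)
  have p1 := abs_nonneg (a1 - g1)
  have p2 := abs_nonneg (a2 - g2)
  have p3 := abs_nonneg (a3 - g3)
  generalize |a1 - g1| = e1 at *
  generalize |a2 - g2| = e2 at *
  generalize |a3 - g3| = e3 at *
  have hP0 : g1 * a1 + g2 * a2 + g3 * a3 = 1 - ((a1 - g1) * a1 + (a2 - g2) * a2 + (a3 - g3) * a3) := by
    linear_combination ha
  have hg : g1 ^ 2 + g2 ^ 2 + g3 ^ 2 =
      e1 ^ 2 + e2 ^ 2 + e3 ^ 2 + 2 * (g1 * a1 + g2 * a2 + g3 * a3) - 1 := by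
    rw [q1, q2, q3]; linear_combination (-1 : ℝ) * ha
  have hCS : (g1 * a1 + g2 * a2 + g3 * a3) ^ 2 ≤ s ^ 2 := by
    have : (g1 * a1 + g2 * a2 + g3 * a3) ^ 2 + ((g1 * a2 - g2 * a1) ^ 2 + (g1 * a3 - g3 * a1) ^ 2 +
        (g2 * a3 - g3 * a2) ^ 2) = g1 ^ 2 + g2 ^ 2 + g3 ^ 2 := by
      linear_combination (g1 ^ 2 + g2 ^ 2 + g3 ^ 2) * ha
    linarith [sq_nonneg (g1 * a2 - g2 * a1), sq_nonneg (g1 * a3 - g3 * a1),
      sq_nonneg (g2 * a3 - g3 * a2), sq_nonneg η]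
  have e0 : g1 / s * a1 + g2 / s * a2 + g3 / s * a3 = (g1 * a1 + g2 * a2 + g3 * a3) / s := by ring
  rw [e0]
  have hP1 : 1 - (e1 + e2 + e3) ≤ g1 * a1 + g2 * a2 + g3 * a3 := by linarith [c1.2, c2.2, c3.2]
  have hP2 : g1 * a1 + g2 * a2 + g3 * a3 ≤ 1 + (e1 + e2 + e3) := by linarith [c1.1, c2.1, c3.1]
  have he0 : 0 ≤ e1 + e2 + e3 := by positivity
  refine surf_point0 hη hs he0 hP1 ((sq_le_sq₀ hs.le (by positivity)).1 ?_)
    (abs_le_of_sq_le_sq' hCS hs.le).1
  have : (1 + (e1 + e2 + e3) + η) ^ 2 = η ^ 2 + (e1 ^ 2 + e2 ^ 2 + e3 ^ 2) + 1 + 2 * (e1 + e2 + e3) +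
      2 * (e1 * e2 + e1 * e3 + e2 * e3) + 2 * η + 2 * ((e1 + e2 + e3) * η) := by ring
  linarith [mul_nonneg p1 p2, mul_nonneg p1 p3, mul_nonneg p2 p3, mul_nonneg he0 hη.le]

lemma surf_approx [IsFiniteMeasure A] {n : X → ℝ} (hm : Measurable n) (h0 : ∀ p, 0 ≤ n p)
    (h1 : ∀ p, n p ≤ 1) {ε : ℝ} (hε : 0 < ε) :
    ∃ g : X → ℝ, ContDiff ℝ 1 g ∧ Integrable (fun p => |n p - g p|) A ∧ ∫ p, |n p - g p| ∂A ≤ ε := by
  have hn : Integrable n A := Integrable.of_bound hm.aestronglyMeasurable 1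
    (Eventually.of_forall fun p => by rw [Real.norm_of_nonneg (h0 p)]; exact h1 p)
  obtain ⟨g, hg1, hg2, hg3⟩ := (memLp_one_iff_integrable.2 hn).exist_eLpNorm_sub_le
    (by simp) le_rfl hε
  have hg : Integrable g A := hg2.continuous.integrable_of_hasCompactSupport hg1
  refine ⟨g, hg2.of_le (by exact_mod_cast le_top), (hn.sub hg).abs, ?_⟩
  rw [eLpNorm_one_eq_lintegral_enorm, ← ofReal_integral_norm_eq_lintegral_enorm (hn.sub hg),
    ENNReal.ofReal_le_ofReal_iff hε.le] at hg3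
  exact hg3

lemma surf_Q_eq : Q = Metric.ball ((1 / 2, 1 / 2, 1 / 2) : X) (1 / 2) := by
  rw [← ball_prod_same, ← ball_prod_same, Real.ball_eq_Ioo]
  norm_num [Q]

lemma surf_cut [IsFiniteMeasure A] (hA : A Qᶜ = 0) {ε : ℝ} (hε : 0 < ε) :
    ∃ χ : X → ℝ, ContDiff ℝ 1 χ ∧ (∀ p, 0 ≤ χ p) ∧ (∀ p, χ p ≤ 1) ∧
      (∃ δ > (0 : ℝ), ∀ p : X, p ∉ Icc δ (1 - δ) ×ˢ Icc δ (1 - δ) ×ˢ Icc δ (1 - δ) → χ p = 0) ∧
      ∫ p, (1 - χ p) ∂A ≤ ε := by
  obtain ⟨K, hKQ, hK, hKε⟩ := measurableSet_Q.exists_isCompact_sdiff_lt (μ := A) (measure_ne_top _ _)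
    (ε := ENNReal.ofReal ε) (by simpa using hε)
  obtain ⟨r, ⟨hr0, hr⟩, hKr⟩ := exists_pos_lt_subset_ball (by norm_num) hK.isClosed (surf_Q_eq ▸ hKQ)
  let χ : ContDiffBump ((1 / 2, 1 / 2, 1 / 2) : X) := ⟨r, (r + 1 / 2) / 2, hr0, by linarith⟩
  refine ⟨χ, χ.contDiff, fun p => χ.nonneg, fun p => χ.le_one, ⟨(1 / 2 - r) / 2, by linarith, ?_⟩, ?_⟩
  · intro p hp
    refine χ.zero_of_le_dist (le_of_not_gt fun hlt => hp ?_)
    have : p ∈ Metric.closedBall ((1 / 2, 1 / 2, 1 / 2) : X) ((r + 1 / 2) / 2) := hlt.le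
    rw [← closedBall_prod_same, ← closedBall_prod_same, Real.closedBall_eq_Icc] at this
    convert this using 3 <;> ring_nf
  · have h1 : ∫ p, (1 - χ p) ∂A ≤ ∫ p, Kᶜ.indicator (1 : X → ℝ) p ∂A := by
      refine integral_mono_of_nonneg (Eventually.of_forall fun p => sub_nonneg.2 χ.le_one)
        ((integrable_const (1 : ℝ)).indicator hK.measurableSet.compl)
        (Eventually.of_forall fun p => ?_)
      by_cases hp : p ∈ K
      · have : χ p = 1 := χ.one_of_mem_closedBall (Metric.ball_subset_closedBall (hKr hp))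
        simp [this, hp]
      · simpa [hp] using χ.nonneg
    rw [integral_indicator_one hK.measurableSet.compl] at h1
    refine h1.trans (ENNReal.toReal_le_of_le_ofReal hε.le ?_)
    calc A Kᶜ ≤ A (Q \ K ∪ Qᶜ) := measure_mono fun p hp => by
          by_cases hq : p ∈ Q
          · exact Or.inl ⟨hq, hp⟩
          · exact Or.inr hq
      _ ≤ A (Q \ K) + A Qᶜ := measure_union_le _ _
      _ ≤ _ := by rw [hA, add_zero]; exact hKε.le

lemma surf_cs {f1 f2 f3 a1 a2 a3 : ℝ} (hf : f1 ^ 2 + f2 ^ 2 + f3 ^ 2 ≤ 1)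
    (ha : a1 ^ 2 + a2 ^ 2 + a3 ^ 2 = 1) : |f1 * a1 + f2 * a2 + f3 * a3| ≤ 1 := by
  rw [abs_le]
  constructor
  · nlinarith [sq_nonneg (f1 + a1), sq_nonneg (f2 + a2), sq_nonneg (f3 + a3)]
  · nlinarith [sq_nonneg (f1 - a1), sq_nonneg (f2 - a2), sq_nonneg (f3 - a3)]

/-- `τ = mu1 + mu2 + mu3`, `g i = (rnDeriv (mu i) τ).toReal`, `N = √(∑ g i²)`, `A = τ.withDensity N`,
`n i = g i / N` where `N > 0` and `(1, 0, 0)` elsewhere. -/
theorem Down.exists_surf (h : Down D) : ∃ A n1 n2 n3, Surf D A n1 n2 n3 := by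
  haveI := h.finite_mu1
  haveI := h.finite_mu2
  haveI := h.finite_mu3
  set τ := mu1 D + mu2 D + mu3 D with hτ
  have a1 : mu1 D ≪ τ := Measure.absolutelyContinuous_of_le
    (Measure.le_add_right (Measure.le_add_right le_rfl))
  have a2 : mu2 D ≪ τ := Measure.absolutelyContinuous_of_le
    (Measure.le_add_right (Measure.le_add_left le_rfl))
  have a3 : mu3 D ≪ τ := Measure.absolutelyContinuous_of_le (Measure.le_add_left le_rfl)
  set g1 : X → ℝ := fun p => ((mu1 D).rnDeriv τ p).toReal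
  set g2 : X → ℝ := fun p => ((mu2 D).rnDeriv τ p).toReal
  set g3 : X → ℝ := fun p => ((mu3 D).rnDeriv τ p).toReal
  have m1 : Measurable g1 := (Measure.measurable_rnDeriv _ _).ennreal_toReal
  have m2 : Measurable g2 := (Measure.measurable_rnDeriv _ _).ennreal_toReal
  have m3 : Measurable g3 := (Measure.measurable_rnDeriv _ _).ennreal_toReal
  have p1 : ∀ p, 0 ≤ g1 p := fun p => ENNReal.toReal_nonneg
  have p2 : ∀ p, 0 ≤ g2 p := fun p => ENNReal.toReal_nonneg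
  have p3 : ∀ p, 0 ≤ g3 p := fun p => ENNReal.toReal_nonneg
  set N : X → ℝ := fun p => √(g1 p ^ 2 + g2 p ^ 2 + g3 p ^ 2) with hN
  have mN : Measurable N := by fun_prop
  have N0 : ∀ p, 0 ≤ N p := fun p => Real.sqrt_nonneg _
  have N2 : ∀ p, N p ^ 2 = g1 p ^ 2 + g2 p ^ 2 + g3 p ^ 2 := fun p => Real.sq_sqrt (by positivity)
  have hS : MeasurableSet {p | N p = 0} := mN (measurableSet_singleton 0)
  have iN : Integrable N τ := by
    refine (((Measure.integrable_toReal_rnDeriv (μ := mu1 D) (ν := τ)).add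
      (Measure.integrable_toReal_rnDeriv (μ := mu2 D) (ν := τ))).add
      (Measure.integrable_toReal_rnDeriv (μ := mu3 D) (ν := τ))).mono' mN.aestronglyMeasurable
      (Eventually.of_forall fun p => ?_)
    rw [Real.norm_of_nonneg (N0 p)]
    change N p ≤ g1 p + g2 p + g3 p
    refine (sq_le_sq₀ (N0 p) (by linarith [p1 p, p2 p, p3 p])).1 ?_
    rw [N2]
    nlinarith [mul_nonneg (p1 p) (p2 p), mul_nonneg (p1 p) (p3 p), mul_nonneg (p2 p) (p3 p)]
  have z : ∀ p, N p = 0 → g1 p = 0 ∧ g2 p = 0 ∧ g3 p = 0 := fun p hp => by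
    have := N2 p
    rw [hp] at this
    refine ⟨?_, ?_, ?_⟩ <;> nlinarith [sq_nonneg (g1 p), sq_nonneg (g2 p), sq_nonneg (g3 p)]
  have mm1 : Measurable fun p => if N p = 0 then 1 else g1 p / N p :=
    Measurable.ite hS measurable_const (m1.div mN)
  refine ⟨τ.withDensity fun p => ENNReal.ofReal (N p), fun p => if N p = 0 then 1 else g1 p / N p,
    fun p => g2 p / N p, fun p => g3 p / N p, h, isFiniteMeasure_withDensity_ofReal iN.2, ?_,
    mm1, m2.div mN, m3.div mN, fun p => ?_, fun p => div_nonneg (p2 p) (N0 p),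
    fun p => div_nonneg (p3 p) (N0 p), fun p => ?_,
    surf_density a1 mN mm1 N0 fun p => ?_, surf_density a2 mN (m2.div mN) N0 fun p => ?_,
    surf_density a3 mN (m3.div mN) N0 fun p => ?_⟩
  · refine withDensity_absolutelyContinuous _ _ ?_
    simp [hτ, h.mu1_conc, h.mu2_conc, h.mu3_conc]
  · split_ifs
    · exact zero_le_one
    · exact div_nonneg (p1 p) (N0 p)
  · split_ifs with hp
    · simp [hp]
    · field_simp
      exact (N2 p).symm
  · change _ = g1 p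
    split_ifs with hp
    · rw [hp, (z p hp).1, zero_mul]
    · field_simp
  · change _ = g2 p
    by_cases hp : N p = 0
    · rw [hp, (z p hp).2.1, zero_mul]
    · field_simp
  · change _ = g3 p
    by_cases hp : N p = 0
    · rw [hp, (z p hp).2.2, zero_mul]
    · field_simp

/-- Smooth compactly supported approximations `g i` of `n i` in `L¹(A)`
(`MemLp.exist_eLpNorm_sub_le`), cut off near the faces (`χ (x) χ (y) χ (z)` with a smooth
`χ = 1` on `[2δ, 1 - 2δ]`, `0` off `[δ, 1 - δ]`; `A` of the complement of the small cube tends to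
`0`), and normalised: `f i = g i / √(η² + ∑ g j²)`; pointwise
`∑ f i n i ≥ 1 - 2 ∑ |g i - n i| - η`. -/
theorem Surf.exists_field (h : Surf D A n1 n2 n3) {ε : ℝ} (hε : 0 < ε) :
    ∃ f1 f2 f3, CField f1 f2 f3 ∧
      A.real univ - ε ≤ ∫ p, (f1 p * n1 p + f2 p * n2 p + f3 p * n3 p) ∂A := by
  haveI := h.fin
  have hM : 0 ≤ A.real univ := measureReal_nonneg
  set η := ε / (A.real univ + 7) with hη
  have hη0 : 0 < η := by positivity
  have hηε : η * (A.real univ + 7) = ε := by rw [hη]; field_simp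
  obtain ⟨g1, c1, i1, e1⟩ := surf_approx (A := A) h.m1 h.nn1 h.le1 hη0
  obtain ⟨g2, c2, i2, e2⟩ := surf_approx (A := A) h.m2 h.nn2 h.le2 hη0
  obtain ⟨g3, c3, i3, e3⟩ := surf_approx (A := A) h.m3 h.nn3 h.le3 hη0
  obtain ⟨χ, cχ, χ0, χ1, ⟨δ, hδ, hsupp⟩, eχ⟩ := surf_cut h.conc hη0
  set s : X → ℝ := fun p => √(η ^ 2 + (g1 p ^ 2 + g2 p ^ 2 + g3 p ^ 2)) with hs
  have spos : ∀ p, 0 < s p := fun p => Real.sqrt_pos.2 (by positivity)
  have s2 : ∀ p, s p ^ 2 = η ^ 2 + (g1 p ^ 2 + g2 p ^ 2 + g3 p ^ 2) := fun p =>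
    Real.sq_sqrt (by positivity)
  have cs : ContDiff ℝ 1 s :=
    (contDiff_const.add (((c1.pow 2).add (c2.pow 2)).add (c3.pow 2))).sqrt fun p => by positivity
  have hle : ∀ p, (g1 p / s p) ^ 2 + (g2 p / s p) ^ 2 + (g3 p / s p) ^ 2 ≤ 1 := fun p => by
    rw [div_pow, div_pow, div_pow, ← add_div, ← add_div, div_le_one (pow_pos (spos p) 2), s2]
    nlinarith [sq_nonneg η]
  have d1 := cχ.mul (c1.div cs fun p => (spos p).ne')
  have d2 := cχ.mul (c2.div cs fun p => (spos p).ne')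
  have d3 := cχ.mul (c3.div cs fun p => (spos p).ne')
  have hle' : ∀ p, (χ p * (g1 p / s p)) ^ 2 + (χ p * (g2 p / s p)) ^ 2 +
      (χ p * (g3 p / s p)) ^ 2 ≤ 1 := fun p => by
    have h1 : χ p ^ 2 ≤ 1 := pow_le_one₀ (χ0 p) (χ1 p)
    calc _ = χ p ^ 2 * ((g1 p / s p) ^ 2 + (g2 p / s p) ^ 2 + (g3 p / s p) ^ 2) := by ring
      _ ≤ 1 := mul_le_one₀ h1 (by positivity) (hle p)
  refine ⟨fun p => χ p * (g1 p / s p), fun p => χ p * (g2 p / s p), fun p => χ p * (g3 p / s p),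
    ⟨d1, d2, d3, ⟨δ, hδ, fun p hp => by simp [hsupp p hp]⟩, hle'⟩, ?_⟩
  have iχ : Integrable (fun p => 1 - χ p) A :=
    Integrable.of_bound (continuous_const.sub cχ.continuous).aestronglyMeasurable 1
      (Eventually.of_forall fun p => by
        rw [Real.norm_of_nonneg (sub_nonneg.2 (χ1 p))]; linarith [χ0 p])
  have i12 : Integrable (fun p => |n1 p - g1 p| + |n2 p - g2 p|) A := i1.add i2
  have i123 : Integrable (fun p => |n1 p - g1 p| + |n2 p - g2 p| + |n3 p - g3 p|) A := i12.add i3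
  have i4 : Integrable (fun p => 2 * (|n1 p - g1 p| + |n2 p - g2 p| + |n3 p - g3 p|)) A :=
    i123.const_mul 2
  have i5 : Integrable (fun p => (1 - η) - 2 * (|n1 p - g1 p| + |n2 p - g2 p| + |n3 p - g3 p|)) A :=
    (integrable_const _).sub i4
  have key : ∫ p, ((1 - η) - 2 * (|n1 p - g1 p| + |n2 p - g2 p| + |n3 p - g3 p|) - (1 - χ p)) ∂A ≤
      ∫ p, (χ p * (g1 p / s p) * n1 p + χ p * (g2 p / s p) * n2 p + χ p * (g3 p / s p) * n3 p) ∂A := by
    refine integral_mono (i5.sub iχ) (Integrable.of_bound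
      (((d1.continuous.measurable.mul h.m1).add (d2.continuous.measurable.mul h.m2)).add
        (d3.continuous.measurable.mul h.m3)).aestronglyMeasurable 1
      (Eventually.of_forall fun p => surf_cs (hle' p) (h.unit p))) fun p => ?_
    have k1 := surf_point hη0 (spos p) (s2 p) (h.unit p)
    have k2 := (abs_le.1 (surf_cs (hle p) (h.unit p))).2
    have k3 := mul_le_mul_of_nonneg_left k2 (sub_nonneg.2 (χ1 p))
    simp only
    nlinarith
  rw [integral_sub i5 iχ, integral_sub (integrable_const _) i4, integral_const_mul,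
    integral_add i12 i3, integral_add i1 i2, integral_const, smul_eq_mul] at key
  refine le_trans ?_ key
  nlinarith

theorem Surf.per_eq (h : Surf D A n1 n2 n3) : per D = A.real univ := by
  haveI := h.fin
  have key : ∀ f1 f2 f3, CField f1 f2 f3 → ∫ p in D, dv f1 f2 f3 p =
      ∫ p, (f1 p * n1 p + f2 p * n2 p + f3 p * n3 p) ∂A := by
    intro f1 f2 f3 hf
    have b : ∀ {f n : X → ℝ}, ContDiff ℝ 1 f → Measurable n → (∀ p, f p ^ 2 ≤ 1) → (∀ p, 0 ≤ n p) →
        (∀ p, n p ≤ 1) → Integrable (fun p => f p * n p) A := fun hc hm h1 h2 h3 =>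
      Integrable.of_bound (hc.continuous.measurable.mul hm).aestronglyMeasurable 1
        (Eventually.of_forall fun p => by
          rw [Real.norm_eq_abs, abs_mul, abs_of_nonneg (h2 p)]
          exact mul_le_one₀ ((sq_le_one_iff_abs_le_one _).1 (h1 p)) (h2 p) (h3 p))
    have j1 := b hf.c1 h.m1 (fun p => by nlinarith [hf.le p, sq_nonneg (f2 p), sq_nonneg (f3 p)])
      h.nn1 h.le1
    have j2 := b hf.c2 h.m2 (fun p => by nlinarith [hf.le p, sq_nonneg (f1 p), sq_nonneg (f3 p)])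
      h.nn2 h.le2
    have j3 := b hf.c3 h.m3 (fun p => by nlinarith [hf.le p, sq_nonneg (f1 p), sq_nonneg (f2 p)])
      h.nn3 h.le3
    have j12 : Integrable (fun p => f1 p * n1 p + f2 p * n2 p) A := j1.add j2
    rw [h.down.integral_dv hf, integral_add j12 j3, integral_add j1 j2,
      h.int1 hf.c1.continuous.measurable, h.int2 hf.c2.continuous.measurable,
      h.int3 hf.c3.continuous.measurable]
  refine le_antisymm (per_le fun f1 f2 f3 hf => ?_) (le_of_forall_pos_le_add fun ε hε => ?_)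
  · rw [key _ _ _ hf]
    refine (le_abs_self _).trans ?_
    have := norm_integral_le_of_norm_le_const (μ := A) (C := 1)
      (f := fun p => f1 p * n1 p + f2 p * n2 p + f3 p * n3 p)
      (Eventually.of_forall fun p => surf_cs (hf.le p) (h.unit p))
    rwa [one_mul] at this
  · obtain ⟨f1, f2, f3, hf, hle⟩ := h.exists_field hε
    have := h.down.le_per hf
    rw [key _ _ _ hf] at this
    linarith

end Crest.Agent.R214
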