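import Crest.Agent.R214.Var
import Crest.Agent.R214.Surf
import Crest.Agent.R214.Conj
import Crest.Agent.R214.CGeo

/-! Row 214: stationarity of a minimiser. -/

set_option autoImplicit false

namespace Crest.Agent.R214

open MeasureTheory Set Filter Topology Real
open scoped ENNReal

variable {D : Set X} {A : Measure X} {n1 n2 n3 : X → ℝ} {H F1 F2 F3 : ℝ}

lemma flux_int {α : Type*} [MeasurableSpace α] {μ : Measure α} [IsFiniteMeasure μ] {f w : α → ℝ}
    (hf : Measurable f) (hI : ∀ᵐ p ∂μ, f p ∈ I) (hw : Measurable w) (hb : ∀ p, |w p| ≤ 1)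
    {g : ℝ → ℝ} (hg : Continuous g) : Integrable (fun p => g (f p) * w p) μ := by
  obtain ⟨M, hM⟩ := (isCompact_Icc (a := (0 : ℝ)) (b := 1)).exists_bound_of_continuousOn
    hg.continuousOn
  refine Integrable.of_bound ((hg.measurable.comp hf).mul hw).aestronglyMeasurable M ?_
  filter_upwards [hI] with p hp
  have h1 := hM _ (Ioo_subset_Icc_self hp)
  rw [norm_mul]
  have h2 : ‖w p‖ ≤ 1 := hb p
  calc ‖g (f p)‖ * ‖w p‖ ≤ ‖g (f p)‖ * 1 := mul_le_mul_of_nonneg_left h2 (norm_nonneg _)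
    _ ≤ M := by rw [mul_one]; exact h1

lemma flux_lin {α : Type*} [MeasurableSpace α] {μ : Measure α} {f w : α → ℝ}
    (hi : ∀ g : ℝ → ℝ, Continuous g → Integrable (fun p => g (f p) * w p) μ)
    {g g' : ℝ → ℝ} (hg : Continuous g) (hg' : Continuous g') (b a κ : ℝ) :
    ∫ p, (b * g (f p) + a + κ * g' (f p)) * w p ∂μ =
      b * (∫ p, g (f p) * w p ∂μ) + a * (∫ p, w p ∂μ) + κ * ∫ p, g' (f p) * w p ∂μ := by
  have h1 : Integrable w μ := by simpa using hi (fun _ => 1) continuous_const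
  have e : (fun p => (b * g (f p) + a + κ * g' (f p)) * w p) =
      fun p => (b * (g (f p) * w p) + a * w p) + κ * (g' (f p) * w p) := by
    funext p; ring
  rw [e, integral_add, integral_add, integral_const_mul, integral_const_mul, integral_const_mul]
  · exact (hi g hg).const_mul b
  · exact h1.const_mul a
  · exact ((hi g hg).const_mul b).add (h1.const_mul a)
  · exact (hi g' hg').const_mul κ

lemma flux_intI {a : ℝ → ℝ} (ha : Measurable a) (hb : ∀ t, |a t| ≤ 1) (g : ℝ → ℝ)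
    (hg : Continuous g) : Integrable (fun t => g t * a t) (volume.restrict I) :=
  flux_int (f := fun t => t) measurable_id (ae_restrict_mem measurableSet_Ioo) ha hb hg

lemma flux_int_sa (h : Down D) (g : ℝ → ℝ) (hg : Continuous g) :
    Integrable (fun t => g t * sa D t) (volume.restrict I) :=
  flux_intI h.measurable_sa (fun t => by rw [abs_of_nonneg (sa_nonneg D t)]; exact h.sa_le_one t)
    g hg

lemma flux_int_sc (h : Down D) (g : ℝ → ℝ) (hg : Continuous g) :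
    Integrable (fun t => g t * sc D t) (volume.restrict I) := flux_int_sa h.cyc g hg

lemma flux_int_sb (h : Down D) (g : ℝ → ℝ) (hg : Continuous g) :
    Integrable (fun t => g t * sb D t) (volume.restrict I) := by
  rw [← sa_cyc_cyc]; exact flux_int_sa h.cyc.cyc g hg

lemma flux_integral_sc (h : Down D) : ∫ t in I, sc D t = vol D := by
  rw [← sa_cyc, h.cyc.integral_sa, vol_cyc]

lemma flux_integral_sb (h : Down D) : ∫ t in I, sb D t = vol D := by
  rw [← sa_cyc_cyc, h.cyc.cyc.integral_sa, vol_cyc, vol_cyc]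

lemma flux_abs_le {m : ℝ} (h0 : 0 ≤ m) (h1 : m ≤ 1) : |1 - m ^ 2| ≤ 1 := by
  rw [abs_le]; constructor <;> nlinarith

lemma flux_int1 (h : Surf D A n1 n2 n3) (g : ℝ → ℝ) (hg : Continuous g) :
    Integrable (fun p : X => g p.1 * (1 - n1 p ^ 2)) A := by
  have := h.fin
  exact flux_int (f := fun p : X => p.1) measurable_fst (h.ae_mem.mono fun p hp => hp.1)
    (measurable_const.sub (h.m1.pow_const 2)) (fun p => flux_abs_le (h.nn1 p) (h.le1 p)) hg

lemma flux_int2 (h : Surf D A n1 n2 n3) (g : ℝ → ℝ) (hg : Continuous g) :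
    Integrable (fun p : X => g p.2.1 * (1 - n2 p ^ 2)) A := by
  have := h.fin
  exact flux_int (f := fun p : X => p.2.1) measurable_snd.fst (h.ae_mem.mono fun p hp => hp.2.1)
    (measurable_const.sub (h.m2.pow_const 2)) (fun p => flux_abs_le (h.nn2 p) (h.le2 p)) hg

lemma flux_int3 (h : Surf D A n1 n2 n3) (g : ℝ → ℝ) (hg : Continuous g) :
    Integrable (fun p : X => g p.2.2 * (1 - n3 p ^ 2)) A := by
  have := h.fin
  exact flux_int (f := fun p : X => p.2.2) measurable_snd.snd (h.ae_mem.mono fun p hp => hp.2.2)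
    (measurable_const.sub (h.m3.pow_const 2)) (fun p => flux_abs_le (h.nn3 p) (h.le3 p)) hg

lemma flux_split (h : Surf D A n1 n2 n3) {g1 g2 g3 : ℝ → ℝ} (c1 : Continuous g1)
    (c2 : Continuous g2) (c3 : Continuous g3) :
    ∫ p, (g1 p.1 * (1 - n1 p ^ 2) + g2 p.2.1 * (1 - n2 p ^ 2) + g3 p.2.2 * (1 - n3 p ^ 2)) ∂A =
      (∫ p, g1 p.1 * (1 - n1 p ^ 2) ∂A) + (∫ p, g2 p.2.1 * (1 - n2 p ^ 2) ∂A) +
        ∫ p, g3 p.2.2 * (1 - n3 p ^ 2) ∂A := by
  rw [integral_add, integral_add (flux_int1 h g1 c1) (flux_int2 h g2 c2)]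
  · exact (flux_int1 h g1 c1).add (flux_int2 h g2 c2)
  · exact flux_int3 h g3 c3

lemma flux_volI : (volume.restrict I : Measure ℝ).real univ = 1 := by
  simp [Measure.real, I]

lemma flux_g0 : ∫ t in I, (1 / 2 - t : ℝ) = 0 := by
  rw [← integral_Ioc_eq_integral_Ioo, ← intervalIntegral.integral_of_le zero_le_one,
    intervalIntegral.integral_sub (by simp) (by simp)]
  simp

lemma flux_c0 : Continuous fun t : ℝ => 1 / 2 - t := by fun_prop

lemma flux_mean {g : ℝ → ℝ} (hg : Continuous g) (b a κ : ℝ) :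
    ∫ t in I, (b * g t + a + κ * (1 / 2 - t)) = b * (∫ t in I, g t) + a := by
  have := flux_lin (μ := volume.restrict I) (f := fun t => t) (w := fun _ => 1)
    (flux_intI measurable_const (by simp)) hg flux_c0 b a κ
  simp only [mul_one] at this
  rw [this, flux_g0, integral_const, flux_volI]
  simp

/-- `∫ g (H a + F)` -/
lemma flux_rhs {a g : ℝ → ℝ} (hi : Integrable (fun t => g t * a t) (volume.restrict I))
    (hg : Continuous g) (H F : ℝ) :
    ∫ t in I, g t * (H * a t + F) = H * (∫ t in I, g t * a t) + F * ∫ t in I, g t := by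
  have h1 : Integrable g (volume.restrict I) := by
    simpa using flux_intI (a := fun _ => 1) measurable_const (by simp) g hg
  have e : (fun t => g t * (H * a t + F)) = fun t => H * (g t * a t) + F * g t := by
    funext t; ring
  rw [e, integral_add (hi.const_mul H) (h1.const_mul F), integral_const_mul, integral_const_mul]

/-- volume preserving variations do not decrease the area to first order (`Surf.var`, `per_eq`,
`conj_lip`) -/
lemma Min.stat (hm : Min D) (h : Surf D A n1 n2 n3) (h0 : 0 < vol D) (h1 : vol D < 1)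
    {g1 g2 g3 : ℝ → ℝ} (c1 : Continuous g1) (c2 : Continuous g2) (c3 : Continuous g3) {σ τ : ℝ}
    (hσ : 0 ≤ σ) (hτ : 0 ≤ τ) (i1 : ∫ t in I, g1 t = σ + τ) (i2 : ∫ t in I, g2 t = 0)
    (i3 : ∫ t in I, g3 t = 0)
    (hv : (∫ t in I, g1 t * sa D t) + (∫ t in I, g2 t * sb D t) + (∫ t in I, g3 t * sc D t) -
      σ * be D - τ * al D = 0) {η : ℝ} (hη : 0 < η) : ∀ᶠ ε in 𝓝[>] (0 : ℝ),
      (1 - η) * A.real {p | p.1 ≤ ε * (σ - η) ∨ 1 - ε * (τ - η) ≤ p.1} ≤
        ε * ((∫ p, (g1 p.1 * (1 - n1 p ^ 2) + g2 p.2.1 * (1 - n2 p ^ 2) +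
          g3 p.2.2 * (1 - n3 p ^ 2)) ∂A) + η) := by
  have := h.fin
  obtain ⟨C, hC⟩ := conj_lip h0 h1
  obtain ⟨δ, hδ, hC⟩ := Metric.eventually_nhds_iff.1 hC
  have hC0 : 0 < 1 + |C| := by positivity
  obtain ⟨η', p', l1, l2⟩ : ∃ η' : ℝ, 0 < η' ∧ η' ≤ 1 ∧ η' * (1 + |C|) ≤ η :=
    ⟨_, lt_min one_pos (div_pos hη hC0), min_le_left _ _, (le_div_iff₀ hC0).1 (min_le_right _ _)⟩
  have l3 : η' ≤ η := by nlinarith [abs_nonneg C]
  have hs : ∀ᶠ ε in 𝓝[>] (0 : ℝ), ε ∈ Ioo 0 δ := Ioo_mem_nhdsGT hδ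
  filter_upwards [h.var c1 c2 c3 hσ hτ i1 i2 i3 p', hs] with ε ⟨D', hD', hp, hw⟩ hε
  rw [hv, mul_zero, sub_zero] at hw
  have e0 := hε.1
  have hd : dist (vol D') (vol D) < δ := by
    rw [Real.dist_eq]
    calc _ ≤ η' * ε := hw
      _ ≤ 1 * ε := mul_le_mul_of_nonneg_right l1 e0.le
      _ < δ := by rw [one_mul]; exact hε.2
  have h2 := hC hd
  have h3 : |conj (vol D') - conj (vol D)| ≤ |C| * (η' * ε) :=
    h2.trans (mul_le_mul (le_abs_self C) hw (abs_nonneg _) (abs_nonneg _))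
  have h4 := hm.min D' hD'
  rw [h.per_eq] at h4
  have h5 : A.real {p : X | p.1 ≤ ε * (σ - η) ∨ 1 - ε * (τ - η) ≤ p.1} ≤
      A.real {p : X | p.1 ≤ ε * (σ - η') ∨ 1 - ε * (τ - η') ≤ p.1} := by
    refine measureReal_mono ?_
    rintro p (hp | hp)
    · left; nlinarith
    · right; nlinarith
  have h6 : 0 ≤ A.real {p : X | p.1 ≤ ε * (σ - η) ∨ 1 - ε * (τ - η) ≤ p.1} := measureReal_nonneg
  have h7 := (abs_le.1 h3).1
  have h8 : η' * (1 + |C|) * ε ≤ η * ε := mul_le_mul_of_nonneg_right l2 e0.le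
  calc _ ≤ (1 - η') * A.real {p : X | p.1 ≤ ε * (σ - η) ∨ 1 - ε * (τ - η) ≤ p.1} :=
        mul_le_mul_of_nonneg_right (by linarith) h6
    _ ≤ (1 - η') * A.real {p : X | p.1 ≤ ε * (σ - η') ∨ 1 - ε * (τ - η') ≤ p.1} :=
        mul_le_mul_of_nonneg_left h5 (by linarith)
    _ ≤ _ := by nlinarith

lemma flux_shift (h : Down D) :
    ∫ t in I, (1 / 2 - t) * sa D t = ∫ t in I, (1 / 2 - t) * (sa D t - sa D (1 / 2)) := by
  have := flux_rhs (flux_int_sa h _ flux_c0) flux_c0 1 (-sa D (1 / 2))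
  rw [flux_g0, one_mul, mul_zero, add_zero] at this
  rw [← this]
  congr 1; funext t; ring

lemma flux_half : (1 / 2 : ℝ) ∈ I := by constructor <;> norm_num

lemma flux_nn_pt (h : Down D) {t : ℝ} (ht : t ∈ I) :
    0 ≤ (1 / 2 - t) * (sa D t - sa D (1 / 2)) := by
  rcases le_total t (1 / 2) with h1 | h1
  · exact mul_nonneg (by linarith) (sub_nonneg.2 (h.anti_sa ht flux_half h1))
  · exact mul_nonneg_of_nonpos_of_nonpos (by linarith) (sub_nonpos.2 (h.anti_sa flux_half ht h1))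

lemma flux_nn (h : Down D) : 0 ≤ ∫ t in I, (1 / 2 - t) * sa D t := by
  rw [flux_shift h]
  exact setIntegral_nonneg measurableSet_Ioo fun t ht => flux_nn_pt h ht

lemma flux_const (h : Down D) (hz : ∫ t in I, (1 / 2 - t) * sa D t = 0) :
    ∀ t ∈ I, sa D t = vol D := by
  rw [flux_shift h] at hz
  have hi : Integrable (fun t => (1 / 2 - t) * (sa D t - sa D (1 / 2))) (volume.restrict I) := by
    refine flux_intI (a := fun t => sa D t - sa D (1 / 2))
      (h.measurable_sa.sub measurable_const) (fun t => ?_) _ flux_c0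
    have := sa_nonneg D t
    have := sa_nonneg D (1 / 2)
    have := h.sa_le_one t
    have := h.sa_le_one (1 / 2)
    rw [abs_le]; constructor <;> linarith
  have h1 := (setIntegral_eq_zero_iff_of_nonneg_ae
    ((ae_restrict_mem measurableSet_Ioo).mono fun t ht => flux_nn_pt h ht) hi).1 hz
  have h2 : ∀ᵐ t : ℝ, t ∈ I → sa D t = sa D (1 / 2) := by
    have h3 := (ae_restrict_iff' measurableSet_Ioo).1 h1
    filter_upwards [h3, compl_mem_ae_iff.2 (measure_singleton (1 / 2 : ℝ))] with t ht hne hI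
    have h4 := ht hI
    simp only [Pi.zero_apply] at h4
    rcases mul_eq_zero.1 h4 with h5 | h5
    · exact absurd (by simp only [mem_singleton_iff]; linarith) hne
    · linarith
  have h3 : ∀ a b : ℝ, 0 ≤ a → a < b → b ≤ 1 → ∃ s ∈ Ioo a b, sa D s = sa D (1 / 2) := by
    intro a b ha hab hb
    have hpos : volume (Ioo a b) ≠ 0 := by
      rw [Real.volume_Ioo]; simpa using hab
    obtain ⟨s, hs, hs'⟩ := Measure.exists_mem_of_measure_ne_zero_of_ae hpos (ae_restrict_of_ae h2)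
    exact ⟨s, hs, hs' ⟨ha.trans_lt hs.1, hs.2.trans_le hb⟩⟩
  have h4 : ∀ t ∈ I, sa D t = sa D (1 / 2) := by
    intro t ht
    obtain ⟨s, hs, e⟩ := h3 0 t le_rfl ht.1 ht.2.le
    obtain ⟨s', hs', e'⟩ := h3 t 1 ht.1.le ht.2 le_rfl
    have a1 := h.anti_sa ⟨hs.1, hs.2.trans ht.2⟩ ht hs.2.le
    have a2 := h.anti_sa ht ⟨ht.1.trans hs'.1, hs'.2⟩ hs'.1.le
    linarith
  have h5 : vol D = sa D (1 / 2) := by
    rw [← h.integral_sa, setIntegral_congr_fun measurableSet_Ioo h4, integral_const, flux_volI]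
    simp
  intro t ht
  rw [h5, h4 t ht]

/-- If not, each of `sa`, `sb`, `sc` is a.e. constant on `I` (an antitone `a` with
`∫ (1/2 - t) a t = 0` is constant on `I`), so `al = be` in the three directions, the heights take
a.e. only the values `0`, `1`; then `vol D = be D`, and … simplest: `u1 ∈ {0,1}` a.e. and `Down.slab`
style arguments; or directly: with `V = vol D ∈ (0,1)`, `sa = sb = sc = V` on `I` means that the
slices `x = t` are a.e. equal, likewise in `y` and `z`, so the indicator of `D` is a.e. constant. -/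
lemma Down.exists_var (h : Down D) (h0 : 0 < vol D) (h1 : vol D < 1) :
    (∫ t in I, (1 / 2 - t) * sa D t) + (∫ t in I, (1 / 2 - t) * sb D t) +
      (∫ t in I, (1 / 2 - t) * sc D t) ≠ 0 := by
  intro hz
  have na := flux_nn h
  have nc := flux_nn h.cyc
  have nb := flux_nn h.cyc.cyc
  rw [sa_cyc] at nc
  rw [sa_cyc_cyc] at nb
  have ea := flux_const h (by linarith)
  have ec := flux_const h.cyc (by rw [sa_cyc]; linarith)
  have eb := flux_const h.cyc.cyc (by rw [sa_cyc_cyc]; linarith)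
  rw [sa_cyc, vol_cyc] at ec
  rw [sa_cyc_cyc, vol_cyc, vol_cyc] at eb
  have s1 := h.slab eb ec
  have s2 := h.cyc.slab (V := vol D) (by rw [sb_cyc]; exact ea) (by rw [sc_cyc]; exact eb)
  have s3 : cyc ⁻¹' D =ᵐ[volume] cyc ⁻¹' CMod 1 0 0 (vol D) :=
    measurePreserving_cyc.quasiMeasurePreserving.preimage_ae_eq s1
  rw [cyc_cmod] at s3
  have s4 := s2.symm.trans s3
  have hn := (ae_eq_set.1 s4).1
  have hsub : (Ioo 0 (vol D) ×ˢ Ioo (vol D) 1 ×ˢ I : Set X) ⊆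
      CMod 1 0 0 (vol D) \ CMod 0 1 0 (vol D) := by
    rintro ⟨x, y, z⟩ ⟨hx, hy, hz⟩
    simp only [mem_Ioo] at hx hy hz
    refine ⟨⟨⟨⟨hx.1, hx.2.trans h1⟩, ⟨h0.trans hy.1, hy.2⟩, hz⟩, ?_⟩, ?_⟩
    · simp only; nlinarith
    · rintro ⟨-, h5⟩
      simp only at h5; nlinarith
  have hpos : 0 < volume (Ioo 0 (vol D) ×ˢ Ioo (vol D) 1 ×ˢ I : Set X) :=
    (isOpen_Ioo.prod (isOpen_Ioo.prod isOpen_Ioo)).measure_pos _
      ((nonempty_Ioo.2 h0).prod ((nonempty_Ioo.2 h1).prod (nonempty_Ioo.2 one_pos)))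
  exact hpos.ne' (measure_mono_null hsub hn)

/-- the first variation is nonnegative on volume preserving mean-zero triples -/
lemma flux_ker_nn (hm : Min D) (h : Surf D A n1 n2 n3) (h0 : 0 < vol D) (h1 : vol D < 1)
    {g1 g2 g3 : ℝ → ℝ} (c1 : Continuous g1) (c2 : Continuous g2) (c3 : Continuous g3)
    (i1 : ∫ t in I, g1 t = 0) (i2 : ∫ t in I, g2 t = 0) (i3 : ∫ t in I, g3 t = 0)
    (hv : (∫ t in I, g1 t * sa D t) + (∫ t in I, g2 t * sb D t) + (∫ t in I, g3 t * sc D t) = 0) :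
    0 ≤ (∫ p, g1 p.1 * (1 - n1 p ^ 2) ∂A) + (∫ p, g2 p.2.1 * (1 - n2 p ^ 2) ∂A) +
        ∫ p, g3 p.2.2 * (1 - n3 p ^ 2) ∂A := by
  rw [← flux_split h c1 c2 c3]
  refine le_of_forall_pos_lt_add fun η hη => ?_
  obtain ⟨η', p', l1, l2⟩ : ∃ η' : ℝ, 0 < η' ∧ η' ≤ 1 ∧ η' ≤ η / 2 :=
    ⟨_, lt_min one_pos (half_pos hη), min_le_left _ _, min_le_right _ _⟩
  have hs := hm.stat h h0 h1 c1 c2 c3 le_rfl le_rfl (by rw [i1, add_zero]) i2 i3
    (by rw [hv]; ring) p'
  obtain ⟨ε, hε, e0⟩ := (hs.and self_mem_nhdsWithin).exists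
  have e1 : 0 < ε := e0
  have h2 := (mul_nonneg (sub_nonneg.2 l1) measureReal_nonneg).trans hε
  have h3 := nonneg_of_mul_nonneg_right h2 e1
  linarith

/-- the key relation, for the three directions at once -/
lemma flux_rel (hm : Min D) (h : Surf D A n1 n2 n3) (h0 : 0 < vol D) (h1 : vol D < 1)
    {g : ℝ → ℝ} (hg : Continuous g) (b1 b2 b3 κ : ℝ)
    (hκ : b1 * ((∫ t in I, g t * sa D t) - (∫ t in I, g t) * vol D) +
      b2 * ((∫ t in I, g t * sb D t) - (∫ t in I, g t) * vol D) +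
      b3 * ((∫ t in I, g t * sc D t) - (∫ t in I, g t) * vol D) +
      κ * ((∫ t in I, (1 / 2 - t) * sa D t) + (∫ t in I, (1 / 2 - t) * sb D t) +
        (∫ t in I, (1 / 2 - t) * sc D t)) = 0) :
    0 ≤ b1 * ((∫ p, g p.1 * (1 - n1 p ^ 2) ∂A) - (∫ t in I, g t) * ∫ p, (1 - n1 p ^ 2) ∂A) +
      b2 * ((∫ p, g p.2.1 * (1 - n2 p ^ 2) ∂A) - (∫ t in I, g t) * ∫ p, (1 - n2 p ^ 2) ∂A) +
      b3 * ((∫ p, g p.2.2 * (1 - n3 p ^ 2) ∂A) - (∫ t in I, g t) * ∫ p, (1 - n3 p ^ 2) ∂A) +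
      κ * ((∫ p, (1 / 2 - p.1) * (1 - n1 p ^ 2) ∂A) + (∫ p, (1 / 2 - p.2.1) * (1 - n2 p ^ 2) ∂A) +
        ∫ p, (1 / 2 - p.2.2) * (1 - n3 p ^ 2) ∂A) := by
  have hD := h.down
  have cc : ∀ b : ℝ, Continuous fun t => b * g t + -(b * ∫ t in I, g t) + κ * (1 / 2 - t) :=
    fun b => by fun_prop
  have mm : ∀ b : ℝ, ∫ t in I, (b * g t + -(b * ∫ t in I, g t) + κ * (1 / 2 - t)) = 0 :=
    fun b => by rw [flux_mean hg]; ring
  have key := flux_ker_nn hm h h0 h1 (cc b1) (cc b2) (cc b3) (mm b1) (mm b2) (mm b3) (by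
    rw [flux_lin (f := fun t => t) (flux_int_sa hD) hg flux_c0,
      flux_lin (f := fun t => t) (flux_int_sb hD) hg flux_c0,
      flux_lin (f := fun t => t) (flux_int_sc hD) hg flux_c0,
      hD.integral_sa, flux_integral_sb hD, flux_integral_sc hD]
    linear_combination hκ)
  rw [flux_lin (f := fun p : X => p.1) (flux_int1 h) hg flux_c0,
    flux_lin (f := fun p : X => p.2.1) (flux_int2 h) hg flux_c0,
    flux_lin (f := fun p : X => p.2.2) (flux_int3 h) hg flux_c0] at key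
  linarith

lemma flux_super (hm : Min D) (h : Surf D A n1 n2 n3) {V0 s : ℝ} (hs : s = 1 ∨ s = -1)
    (hV : (∫ t in I, (1 / 2 - t) * sa D t) + (∫ t in I, (1 / 2 - t) * sb D t) +
        (∫ t in I, (1 / 2 - t) * sc D t) = V0) (hV0 : V0 ≠ 0)
    (hH : (∫ p, (1 / 2 - p.1) * (1 - n1 p ^ 2) ∂A) + (∫ p, (1 / 2 - p.2.1) * (1 - n2 p ^ 2) ∂A) +
        (∫ p, (1 / 2 - p.2.2) * (1 - n3 p ^ 2) ∂A) = H * V0) {η : ℝ} (hη : 0 < η) :
    ∃ W, 0 < s * (W - vol D) ∧ s * (W - vol D) < η ∧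
      conj W ≤ conj (vol D) + H * (W - vol D) + η * (s * (W - vol D)) := by
  have cc : Continuous fun t : ℝ => s / V0 * (1 / 2 - t) := by fun_prop
  have mm : ∫ t in I, s / V0 * (1 / 2 - t) = 0 := by rw [integral_const_mul, flux_g0, mul_zero]
  have hp : 0 < 1 + |H| + η := by positivity
  obtain ⟨η', p', l1, l2⟩ : ∃ η' : ℝ, 0 < η' ∧ η' < 1 ∧ η' * (1 + |H| + η) = η :=
    ⟨η / (1 + |H| + η), div_pos hη hp, (div_lt_one hp).2 (by linarith [abs_nonneg H]),
      div_mul_cancel₀ _ hp.ne'⟩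
  have hv := h.var cc cc cc le_rfl le_rfl (by rw [mm, add_zero]) mm mm p'
  have hs' : ∀ᶠ ε in 𝓝[>] (0 : ℝ), ε ∈ Ioo 0 (η / 2) := Ioo_mem_nhdsGT (half_pos hη)
  obtain ⟨ε, ⟨D', hD', hper, hw⟩, e0, e1⟩ := (hv.and hs').exists
  rw [flux_split h cc cc cc] at hper
  simp only [mul_assoc, integral_const_mul] at hper hw
  have a1 : s / V0 * (∫ t in I, (1 / 2 - t) * sa D t) + s / V0 * (∫ t in I, (1 / 2 - t) * sb D t) +
      s / V0 * (∫ t in I, (1 / 2 - t) * sc D t) - 0 * be D - 0 * al D = s := by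
    rw [← mul_add, ← mul_add, hV]; field_simp; ring
  have a2 : s / V0 * (∫ p, (1 / 2 - p.1) * (1 - n1 p ^ 2) ∂A) +
      s / V0 * (∫ p, (1 / 2 - p.2.1) * (1 - n2 p ^ 2) ∂A) +
      s / V0 * (∫ p, (1 / 2 - p.2.2) * (1 - n3 p ^ 2) ∂A) = s * H := by
    rw [← mul_add, ← mul_add, hH]; field_simp
  rw [a1] at hw
  rw [a2] at hper
  have h4 := hm.min D' hD'
  rw [h.per_eq] at h4
  have h5 := mul_nonneg (sub_nonneg.2 l1.le)
    (measureReal_nonneg (μ := A) (s := {p : X | p.1 ≤ ε * (0 - η') ∨ 1 - ε * (0 - η') ≤ p.1}))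
  have h6 : conj (vol D') ≤ conj (vol D) + ε * (s * H) + η' * ε := by linarith
  set r := vol D' - vol D - ε * s with hr
  have h7 : |H * r| ≤ |H| * (η' * ε) := by
    rw [abs_mul]; exact mul_le_mul_of_nonneg_left hw (abs_nonneg _)
  have h8 := (abs_le.1 h7).1
  have h9 := abs_le.1 hw
  have h10 : ε * (1 - η') ≤ s * (vol D' - vol D) ∧ s * (vol D' - vol D) ≤ ε * (1 + η') := by
    rcases hs with rfl | rfl <;> constructor <;> nlinarith [h9.1, h9.2]
  refine ⟨vol D', lt_of_lt_of_le (mul_pos e0 (by linarith)) h10.1, ?_, ?_⟩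
  · nlinarith [h10.2]
  · have h11 : η * (ε * (1 - η')) ≤ η * (s * (vol D' - vol D)) :=
      mul_le_mul_of_nonneg_left h10.1 hη.le
    have h12 : η * (ε * (1 - η')) = η' * ε + |H| * (η' * ε) := by
      linear_combination (-ε) * l2
    have h13 : H * (vol D' - vol D) = H * r + ε * (s * H) := by rw [hr]; ring
    linarith

/-- Linear algebra: on triples of continuous mean-zero functions `p` vanishes on the kernel of `v`
(apply `stat` to `± g`), so `p = H v` with `H = p g⁰ / v g⁰`, `g⁰ = (1/2 - t, 1/2 - t, 1/2 - t)`.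
`F i` is determined by `g = 1`.  `Super` comes from `Surf.var` for `± g⁰`. -/
theorem Min.exists_flux (hm : Min D) (h : Surf D A n1 n2 n3) (h0 : 0 < vol D) (h1 : vol D < 1) :
    ∃ H F1 F2 F3, Flux3 D A n1 n2 n3 H F1 F2 F3 ∧ Super (vol D) H := by
  have hD := h.down
  obtain ⟨V0, hV⟩ : ∃ V0, (∫ t in I, (1 / 2 - t) * sa D t) + (∫ t in I, (1 / 2 - t) * sb D t) +
    (∫ t in I, (1 / 2 - t) * sc D t) = V0 := ⟨_, rfl⟩
  have hV0 : V0 ≠ 0 := hV ▸ hD.exists_var h0 h1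
  obtain ⟨H, hH⟩ : ∃ H, (∫ p, (1 / 2 - p.1) * (1 - n1 p ^ 2) ∂A) +
      (∫ p, (1 / 2 - p.2.1) * (1 - n2 p ^ 2) ∂A) +
      (∫ p, (1 / 2 - p.2.2) * (1 - n3 p ^ 2) ∂A) = H * V0 := ⟨_, (div_mul_cancel₀ _ hV0).symm⟩
  have key : ∀ g : ℝ → ℝ, Continuous g → ∀ b1 b2 b3 : ℝ,
      H * (b1 * ((∫ t in I, g t * sa D t) - (∫ t in I, g t) * vol D) +
        b2 * ((∫ t in I, g t * sb D t) - (∫ t in I, g t) * vol D) +
        b3 * ((∫ t in I, g t * sc D t) - (∫ t in I, g t) * vol D)) ≤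
      b1 * ((∫ p, g p.1 * (1 - n1 p ^ 2) ∂A) - (∫ t in I, g t) * ∫ p, (1 - n1 p ^ 2) ∂A) +
      b2 * ((∫ p, g p.2.1 * (1 - n2 p ^ 2) ∂A) - (∫ t in I, g t) * ∫ p, (1 - n2 p ^ 2) ∂A) +
      b3 * ((∫ p, g p.2.2 * (1 - n3 p ^ 2) ∂A) - (∫ t in I, g t) * ∫ p, (1 - n3 p ^ 2) ∂A) := by
    intro g hg b1 b2 b3
    set v := b1 * ((∫ t in I, g t * sa D t) - (∫ t in I, g t) * vol D) +
        b2 * ((∫ t in I, g t * sb D t) - (∫ t in I, g t) * vol D) +
        b3 * ((∫ t in I, g t * sc D t) - (∫ t in I, g t) * vol D) with hv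
    have e : -v / V0 * V0 = -v := div_mul_cancel₀ _ hV0
    have := flux_rel hm h h0 h1 hg b1 b2 b3 (-v / V0) (by rw [hV, e, ← hv]; ring)
    rw [hH] at this
    have e2 : -v / V0 * (H * V0) = -(H * v) := by linear_combination H * e
    linarith
  refine ⟨H, (∫ p, (1 - n1 p ^ 2) ∂A) - H * vol D, (∫ p, (1 - n2 p ^ 2) ∂A) - H * vol D,
    (∫ p, (1 - n3 p ^ 2) ∂A) - H * vol D, ⟨fun g hg => ?_, fun g hg => ?_, fun g hg => ?_⟩,
    ⟨fun η hη => ?_, fun η hη => ?_⟩⟩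
  · rw [flux_rhs (flux_int_sa hD g hg) hg]
    have a := key g hg 1 0 0
    have b := key g hg (-1) 0 0
    linarith
  · rw [flux_rhs (flux_int_sb hD g hg) hg]
    have a := key g hg 0 1 0
    have b := key g hg 0 (-1) 0
    linarith
  · rw [flux_rhs (flux_int_sc hD g hg) hg]
    have a := key g hg 0 0 1
    have b := key g hg 0 0 (-1)
    linarith
  · obtain ⟨W, a, b, c⟩ := flux_super hm h (Or.inl rfl) hV hV0 hH hη
    exact ⟨W, by linarith, by linarith, by linarith⟩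
  · obtain ⟨W, a, b, c⟩ := flux_super hm h (Or.inr rfl) hV hV0 hH hη
    exact ⟨W, by linarith, by linarith, by linarith⟩

lemma flux_resc {m : ℝ → ℝ} {K : ℝ} (h : ∀ η, 0 < η → η < 1 → ∀ᶠ ε in 𝓝[>] (0 : ℝ),
    (1 - η) * m (ε * (1 - η)) ≤ ε * (K + η)) :
    ∀ η > 0, ∀ᶠ δ in 𝓝[>] (0 : ℝ), m δ ≤ δ * (K + η) := by
  intro η hη
  have hc : Continuous fun x : ℝ => (K + η) * (1 - x) ^ 2 - (K + x) := by fun_prop
  have h1 : ∀ᶠ x in 𝓝 (0 : ℝ), 0 < (K + η) * (1 - x) ^ 2 - (K + x) :=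
    (hc.tendsto 0).eventually (lt_mem_nhds (by simpa using hη))
  have h2 : ∀ᶠ x in 𝓝[>] (0 : ℝ), x ∈ Ioo (0 : ℝ) 1 := Ioo_mem_nhdsGT one_pos
  obtain ⟨x, hx, x0, x1⟩ := ((h1.filter_mono nhdsWithin_le_nhds).and h2).exists
  have hy : 0 < 1 - x := by linarith
  have ht : Tendsto (fun δ : ℝ => δ / (1 - x)) (𝓝[>] 0) (𝓝[>] 0) := by
    refine tendsto_nhdsWithin_iff.2 ⟨?_, ?_⟩
    · have : Continuous fun δ : ℝ => δ / (1 - x) := by fun_prop
      simpa using (this.tendsto 0).mono_left nhdsWithin_le_nhds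
    · filter_upwards [self_mem_nhdsWithin] with δ hδ
      exact div_pos hδ hy
  filter_upwards [ht.eventually (h x x0 x1), self_mem_nhdsWithin] with δ hδ d0
  have d1 : 0 < δ := d0
  rw [div_mul_cancel₀ _ hy.ne', div_mul_eq_mul_div, le_div_iff₀ hy] at hδ
  have h3 : (1 - x) ^ 2 * m δ ≤ (1 - x) ^ 2 * (δ * (K + η)) := by nlinarith
  exact le_of_mul_le_mul_left h3 (by positivity)

lemma flux_bdry_aux (hm : Min D) (h : Surf D A n1 n2 n3) (h0 : 0 < vol D) (h1 : vol D < 1)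
    (hf : Flux3 D A n1 n2 n3 H F1 F2 F3) {σ τ : ℝ} (hσ : 0 ≤ σ) (hτ : 0 ≤ τ) (hs : σ + τ = 1)
    {η : ℝ} (hη : 0 < η) : ∀ᶠ ε in 𝓝[>] (0 : ℝ),
      (1 - η) * A.real {p | p.1 ≤ ε * (σ - η) ∨ 1 - ε * (τ - η) ≤ p.1} ≤
        ε * (H * (σ * be D + τ * al D) + F1 + η) := by
  have hD := h.down
  have hV0 := hD.exists_var h0 h1
  obtain ⟨κ, hκ⟩ : ∃ κ, κ * ((∫ t in I, (1 / 2 - t) * sa D t) + (∫ t in I, (1 / 2 - t) * sb D t) +
    (∫ t in I, (1 / 2 - t) * sc D t)) = σ * be D + τ * al D - vol D :=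
    ⟨_, div_mul_cancel₀ _ hV0⟩
  have cc : ∀ a : ℝ, Continuous fun t : ℝ => 0 * (1 / 2 - t) + a + κ * (1 / 2 - t) :=
    fun a => by fun_prop
  have mm : ∀ a : ℝ, ∫ t in I, (0 * (1 / 2 - t) + a + κ * (1 / 2 - t)) = a :=
    fun a => by rw [flux_mean flux_c0]; ring
  have hv : (∫ t in I, (0 * (1 / 2 - t) + 1 + κ * (1 / 2 - t)) * sa D t) +
      (∫ t in I, (0 * (1 / 2 - t) + 0 + κ * (1 / 2 - t)) * sb D t) +
      (∫ t in I, (0 * (1 / 2 - t) + 0 + κ * (1 / 2 - t)) * sc D t) = σ * be D + τ * al D := by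
    rw [flux_lin (f := fun t => t) (flux_int_sa hD) flux_c0 flux_c0,
      flux_lin (f := fun t => t) (flux_int_sb hD) flux_c0 flux_c0,
      flux_lin (f := fun t => t) (flux_int_sc hD) flux_c0 flux_c0, hD.integral_sa]
    linear_combination hκ
  have := hm.stat h h0 h1 (cc 1) (cc 0) (cc 0) hσ hτ (by rw [mm, hs]) (mm 0) (mm 0)
    (by rw [hv]; ring) hη
  rw [flux_split h (cc 1) (cc 0) (cc 0), hf.f1 _ (cc 1), hf.f2 _ (cc 0), hf.f3 _ (cc 0),
    flux_rhs (flux_int_sa hD _ (cc 1)) (cc 1), flux_rhs (flux_int_sb hD _ (cc 0)) (cc 0),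
    flux_rhs (flux_int_sc hD _ (cc 0)) (cc 0), mm, mm] at this
  convert this using 4
  rw [← hv]; ring

/-- `stat` for `g1 = 1 + κ g⁰`, `g2 = g3 = κ g⁰` with `(σ, τ) = (0, 1)` resp. `(1, 0)` -/
theorem Min.bdry (hm : Min D) (h : Surf D A n1 n2 n3) (h0 : 0 < vol D) (h1 : vol D < 1)
    (hf : Flux3 D A n1 n2 n3 H F1 F2 F3) : Bdry D A H F1 := by
  have := h.fin
  constructor
  · refine flux_resc (m := fun δ => A.real {p | 1 - δ ≤ p.1}) fun η e0 e1 => ?_
    filter_upwards [flux_bdry_aux hm h h0 h1 hf le_rfl zero_le_one (zero_add 1) e0] with ε hε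
    simp only [zero_mul, one_mul, zero_add] at hε
    refine le_trans (mul_le_mul_of_nonneg_left (measureReal_mono ?_) (by linarith)) hε
    exact fun p hp => Or.inr hp
  · refine flux_resc (m := fun δ => A.real {p | p.1 ≤ δ}) fun η e0 e1 => ?_
    filter_upwards [flux_bdry_aux hm h h0 h1 hf zero_le_one le_rfl (add_zero 1) e0] with ε hε
    simp only [zero_mul, one_mul, add_zero] at hε
    refine le_trans (mul_le_mul_of_nonneg_left (measureReal_mono ?_) (by linarith)) hε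
    exact fun p hp => Or.inl hp

protected lemma Flux3.cyc (h : Surf D A n1 n2 n3) (hf : Flux3 D A n1 n2 n3 H F1 F2 F3) :
    Flux3 (cyc ⁻¹' D) (A.map cyi) (n3 ∘ cyc) (n1 ∘ cyc) (n2 ∘ cyc) H F3 F1 F2 := by
  have mc : Measurable R214.cyc := measurePreserving_cyc.measurable
  have mi : Measurable cyi := measurePreserving_cyi.measurable
  refine ⟨fun g hg => ?_, fun g hg => ?_, fun g hg => ?_⟩
  · rw [integral_map mi.aemeasurable, sa_cyc, ← hf.f3 g hg]
    · rfl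
    · exact ((hg.measurable.comp measurable_fst).mul
        (measurable_const.sub ((h.m3.comp mc).pow_const 2))).aestronglyMeasurable
  · rw [integral_map mi.aemeasurable, sb_cyc, ← hf.f1 g hg]
    · rfl
    · exact ((hg.measurable.comp measurable_snd.fst).mul
        (measurable_const.sub ((h.m1.comp mc).pow_const 2))).aestronglyMeasurable
  · rw [integral_map mi.aemeasurable, sc_cyc, ← hf.f2 g hg]
    · rfl
    · exact ((hg.measurable.comp measurable_snd.snd).mul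
        (measurable_const.sub ((h.m2.comp mc).pow_const 2))).aestronglyMeasurable

lemma Flux3.sum (h : Surf D A n1 n2 n3) (hf : Flux3 D A n1 n2 n3 H F1 F2 F3) :
    F1 + F2 + F3 = 2 * A.real univ - 3 * H * vol D := by
  have hD := h.down
  have c : Continuous fun _ : ℝ => (1 : ℝ) := continuous_const
  have e := flux_split h c c c
  rw [hf.f1 _ c, hf.f2 _ c, hf.f3 _ c, flux_rhs (flux_int_sa hD _ c) c,
    flux_rhs (flux_int_sb hD _ c) c, flux_rhs (flux_int_sc hD _ c) c] at e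
  have e2 : (fun p => 1 * (1 - n1 p ^ 2) + 1 * (1 - n2 p ^ 2) + 1 * (1 - n3 p ^ 2)) =
      fun _ => (2 : ℝ) := by
    funext p; linarith [h.unit p]
  simp only [one_mul] at e e2
  rw [e2, hD.integral_sa, flux_integral_sb hD, flux_integral_sc hD, integral_const, integral_const,
    flux_volI] at e
  simp only [smul_eq_mul] at e
  linarith

end Crest.Agent.R214
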