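import Crest.Agent.R214.Lam

/-! Row 214: the slab inequality and the one-dimensional data. -/

set_option autoImplicit false

namespace Crest.Agent.R214

open MeasureTheory Set Filter Topology Real
open scoped ENNReal

variable {D : Set X} {A : Measure X} {n1 n2 n3 : X → ℝ} {H F1 F2 F3 : ℝ}

lemma slab_le {Ω Ω' : Type*} [MeasurableSpace Ω] [MeasurableSpace Ω'] {μ : Measure Ω}
    {ν : Measure Ω'} (e : μ univ = ν univ) {f : Ω → ℝ} {g : Ω' → ℝ} (f1 : ∀ x, f x ≤ 1)
    (g0 : ∀ x, 0 ≤ g x) (h : ∀ t ∈ I, μ (f ⁻¹' Ioi t) ≤ ν (g ⁻¹' Ici t)) (t : ℝ) :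
    μ (f ⁻¹' Ioi t) ≤ ν (g ⁻¹' Ioi t) := by
  have h' : ∀ t, μ (f ⁻¹' Ioi t) ≤ ν (g ⁻¹' Ici t) := fun t => by
    rcases le_or_gt t 0 with h0 | h0
    · rw [eq_univ_of_forall (s := g ⁻¹' Ici t) fun x => h0.trans (g0 x), ← e]
      exact measure_mono (subset_univ _)
    rcases le_or_gt 1 t with h1 | h1
    · rw [eq_empty_of_forall_notMem (s := f ⁻¹' Ioi t) fun x hx => ((f1 x).trans h1).not_gt hx,
        measure_empty]
      exact bot_le
    exact h t ⟨h0, h1⟩
  have e1 : f ⁻¹' Ioi t = ⋃ n : ℕ, f ⁻¹' Ioi (t + 1 / ((n : ℝ) + 1)) := by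
    ext x
    simp only [mem_preimage, mem_Ioi, mem_iUnion]
    refine ⟨fun hx => ?_, fun ⟨n, hn⟩ => lt_trans (lt_add_of_pos_right _ (by positivity)) hn⟩
    obtain ⟨n, hn⟩ := exists_nat_one_div_lt (sub_pos.2 hx)
    exact ⟨n, by linarith⟩
  rw [e1, Monotone.measure_iUnion fun m n hmn => preimage_mono <| Ioi_subset_Ioi <|
    add_le_add_right (Nat.one_div_le_one_div hmn) _]
  exact iSup_le fun n => (h' _).trans <| measure_mono <| preimage_mono <|
    Ici_subset_Ioi.2 (lt_add_of_pos_right _ (by positivity))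

/-- generalised inverse of the slice area -/
noncomputable def slab_tau (D : Set X) (b : ℝ) : ℝ := (volume {t | t ∈ I ∧ b < sa D t}).toReal

lemma slab_tau_spec (h : Down D) (b : ℝ) : (∀ x ∈ I, x < slab_tau D b → b < sa D x) ∧
    (∀ x ∈ I, b < sa D x → x ≤ slab_tau D b) ∧ slab_tau D b ≤ 1 := by
  obtain ⟨h1, h2, h3⟩ := lower_iff (s := {t | t ∈ I ∧ b < sa D t}) (fun _ h => h.1)
    fun x hx y hy hyx => ⟨hy, hx.2.trans_le (h.anti_sa hy hx.1 hyx)⟩
  exact ⟨fun x hx hl => (h1 x hx hl).2, fun x hx hl => h2 x ⟨hx, hl⟩, h3⟩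

lemma slab_tau_meas (D : Set X) : Measurable (slab_tau D) :=
  Antitone.measurable fun b b' hb => ENNReal.toReal_mono
    (ne_top_of_le_ne_top (b := volume I) (by simp) (measure_mono fun _ h => h.1))
    (measure_mono fun _ h => ⟨h.1, hb.trans_lt h.2⟩)

lemma slab_law (h : Down D) :
    (volume.restrict I).map (slab_tau D) = (volume.restrict (I ×ˢ I)).map (u1 D) := by
  have hII : MeasurableSet (I ×ˢ I : Set (ℝ × ℝ)) := measurableSet_Ioo.prod measurableSet_Ioo
  have e1 : (volume.restrict I) univ = 1 := by simp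
  have e2 : (volume.restrict (I ×ˢ I : Set (ℝ × ℝ))) univ = 1 := by
    rw [Measure.restrict_apply_univ, volume_II]
  have hs : ∀ t, {q : ℝ × ℝ | (t, q.1, q.2) ∈ D} ⊆ I ×ˢ I := fun t q hq => (h.sub hq).2
  have e3 : ∀ t, volume {q : ℝ × ℝ | (t, q.1, q.2) ∈ D} = volume (Ioo 0 (sa D t)) := fun t => by
    rw [Real.volume_Ioo, sub_zero, sa, ENNReal.ofReal_toReal]
    exact ne_top_of_le_ne_top (by rw [volume_II]; simp) (measure_mono (hs t))
  have l1 := slab_le (e1.trans e2.symm) (fun b => (slab_tau_spec h b).2.2) (u1_nonneg D)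
    fun t ht => by
      rw [Measure.restrict_apply' measurableSet_Ioo, Measure.restrict_apply' hII]
      refine (measure_mono fun b hb => ?_).trans ((e3 t).ge.trans (measure_mono fun q hq => ?_))
      · exact ⟨hb.2.1, (slab_tau_spec h b).1 t ht hb.1⟩
      · exact ⟨h.le_u1 hq, hs t hq⟩
  have l2 := slab_le (g := slab_tau D) (e2.trans e1.symm) h.u1_le (fun _ => ENNReal.toReal_nonneg)
    fun t ht => by
      rw [Measure.restrict_apply' measurableSet_Ioo, Measure.restrict_apply' hII]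
      refine (measure_mono fun q hq => ?_).trans ((e3 t).le.trans (measure_mono fun b hb => ?_))
      · exact h.mem_of_lt_u1 ht hq.1
      · exact ⟨(slab_tau_spec h b).2.1 t ht hb.2, hb.1, hb.2.trans_le (h.sa_le_one t)⟩
  haveI : IsProbabilityMeasure (volume.restrict I) := ⟨e1⟩
  haveI : IsProbabilityMeasure (volume.restrict (I ×ˢ I : Set (ℝ × ℝ))) := ⟨e2⟩
  haveI := Measure.isProbabilityMeasure_map (μ := volume.restrict I) (slab_tau_meas D).aemeasurable
  haveI := Measure.isProbabilityMeasure_map (μ := volume.restrict (I ×ˢ I))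
    h.measurable_u1.aemeasurable
  refine Measure.ext_of_Iic _ _ fun t => ?_
  rw [← compl_Ioi, prob_compl_eq_one_sub measurableSet_Ioi, prob_compl_eq_one_sub measurableSet_Ioi,
    Measure.map_apply (slab_tau_meas D) measurableSet_Ioi,
    Measure.map_apply h.measurable_u1 measurableSet_Ioi, le_antisymm (l1 t) (l2 t)]

lemma slab_tau_mem (h : Down D) {b : ℝ} (hb : b ∈ Ioo (al D) (be D)) : slab_tau D b ∈ I := by
  obtain ⟨h1, h2, -⟩ := slab_tau_spec h b
  obtain ⟨x, hx, hx'⟩ := ((h.tendsto_be.eventually (lt_mem_nhds hb.2)).and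
    (Ioo_mem_nhdsGT one_pos)).exists
  obtain ⟨y, hy, hy'⟩ := ((h.tendsto_al.eventually (gt_mem_nhds hb.1)).and
    (Ioo_mem_nhdsLT one_pos)).exists
  exact ⟨hx'.1.trans_le (h2 x hx' hx), (not_lt.1 fun hl => (h1 y hy' hl).not_gt hy).trans_lt hy'.2⟩

lemma slab_tau_inv (h : Down D) {b : ℝ} (hb : slab_tau D b ∈ I)
    (hc : ContinuousWithinAt (sa D) I (slab_tau D b)) : sa D (slab_tau D b) = b := by
  obtain ⟨h1, h2, -⟩ := slab_tau_spec h b
  have hc' := hc.continuousAt (Ioo_mem_nhds hb.1 hb.2)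
  refine le_antisymm
    (le_of_tendsto (hc'.tendsto.mono_left (nhdsWithin_le_nhds (s := Ioi (slab_tau D b)))) ?_)
    (ge_of_tendsto (hc'.tendsto.mono_left (nhdsWithin_le_nhds (s := Iio (slab_tau D b)))) ?_)
  · filter_upwards [Ioo_mem_nhdsGT hb.2] with x hx
    exact not_lt.1 fun hl => (h2 x ⟨hb.1.trans hx.1, hx.2⟩ hl).not_gt hx.1
  · filter_upwards [Ioo_mem_nhdsLT hb.1] with x hx
    exact (h1 x ⟨hx.1, hx.2.trans hb.2⟩ hx.2).le

lemma slab_int {α : Type*} [MeasurableSpace α] {μ : Measure α} [IsFiniteMeasure μ] {f : α → ℝ}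
    (hf : Measurable f) (h0 : ∀ x, 0 ≤ f x) (h1 : ∀ x, f x ≤ 1) : Integrable f μ :=
  Integrable.of_bound hf.aestronglyMeasurable 1
    (ae_of_all _ fun x => by rw [Real.norm_of_nonneg (h0 x)]; exact h1 x)

/-- Let `τ b = sSup {t ∈ I | b < a t}` (`0` if empty), `a = sa D`.  The laws of `τ` on `I` and of
`u1 D` on `I × I` agree (`{b ∈ I | t < τ b}` and `{q | t < u1 D q}` both have measure
`sup_{t' > t} a t'`).  For `b ∈ (al, be)` we have `τ b ∈ I`, and `a (τ b) = b` unless `τ b` is one of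
the countably many discontinuities `J` of `a` in `I`. -/
theorem Down.exists_jumps (h : Down D) : ∃ J : Set ℝ, J.Countable ∧ ∀ c c' : ℝ → ℝ, Measurable c →
    Measurable c' → (∀ b, 0 ≤ c b) → (∀ b, c b ≤ 1) → (∀ t ∈ J, c' t = 1) →
    (∀ t ∉ J, c' t = c (sa D t)) →
    ∫ b in (al D)..(be D), c b ≤ ∫ q in act (u1 D), c' (u1 D q) := by
  refine ⟨_, h.anti_sa.countable_not_continuousWithinAt, fun c c' hc hc' h0 h1 hJ hJ' => ?_⟩
  have b0 : ∀ t, 0 ≤ c' t ∧ c' t ≤ 1 := fun t => by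
    by_cases ht : t ∈ {x ∈ I | ¬ContinuousWithinAt (sa D) I x}
    · rw [hJ t ht]
      exact ⟨zero_le_one, le_rfl⟩
    · rw [hJ' t ht]
      exact ⟨h0 _, h1 _⟩
  have hτ := slab_tau_meas D
  have e : ∫ q in act (u1 D), c' (u1 D q) = ∫ b in slab_tau D ⁻¹' I ∩ I, c' (slab_tau D b) := by
    rw [← Measure.restrict_restrict (hτ measurableSet_Ioo),
      ← setIntegral_map measurableSet_Ioo hc'.aestronglyMeasurable hτ.aemeasurable, slab_law h,
      setIntegral_map measurableSet_Ioo hc'.aestronglyMeasurable h.measurable_u1.aemeasurable,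
      Measure.restrict_restrict (h.measurable_u1 measurableSet_Ioo), inter_comm]
    rfl
  have hh : (1 / 2 : ℝ) ∈ I := ⟨by norm_num, by norm_num⟩
  have i1 : IntegrableOn (fun b => c' (slab_tau D b)) (slab_tau D ⁻¹' I ∩ I) :=
    IntegrableOn.mono_set (slab_int (hc'.comp hτ) (fun _ => (b0 _).1) fun _ => (b0 _).2)
      inter_subset_right
  have hsub : Ioo (al D) (be D) ⊆ slab_tau D ⁻¹' I ∩ I := fun b hb =>
    ⟨slab_tau_mem h hb, (al_nonneg D).trans_lt hb.1, hb.2.trans_le (be_le_one D)⟩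
  rw [e, intervalIntegral.integral_of_le ((h.al_le_sa hh).trans (h.sa_le_be hh)),
    integral_Ioc_eq_integral_Ioo]
  refine le_trans (setIntegral_mono_on (slab_int hc h0 h1) (i1.mono_set hsub) measurableSet_Ioo
    fun b hb => ?_) (setIntegral_mono_set i1 (ae_of_all _ fun _ => (b0 _).1) hsub.eventuallyLE)
  by_cases ht : slab_tau D b ∈ {x ∈ I | ¬ContinuousWithinAt (sa D) I x}
  · rw [hJ _ ht]
    exact h1 b
  · rw [hJ' _ ht, slab_tau_inv h (slab_tau_mem h hb) (not_not.1 fun hn => ht ⟨slab_tau_mem h hb, hn⟩)]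

lemma Surf.slab_sqrt (h : Surf D A n1 n2 n3) (p : X) :
    √(n2 p ^ 2 + n3 p ^ 2) ^ 2 + n1 p ^ 2 = 1 := by
  rw [sq_sqrt (by positivity), ← h.unit p]
  ring

lemma Surf.slab_sqrt_le (h : Surf D A n1 n2 n3) (p : X) : √(n2 p ^ 2 + n3 p ^ 2) ≤ 1 :=
  sqrt_le_one.2 (by nlinarith [h.unit p])

lemma Surf.slab_meas (h : Surf D A n1 n2 n3) : Measurable fun p => √(n2 p ^ 2 + n3 p ^ 2) :=
  ((h.m2.pow_const 2).add (h.m3.pow_const 2)).sqrt

/-- pointwise `s (x) √(n2² + n3²) + c' (x) n1 ≤ 1` with `s = √(1 - c'²)` -/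
theorem Surf.slab (h : Surf D A n1 n2 n3) (c : ℝ → ℝ) (hc : Measurable c) (h0 : ∀ b, 0 ≤ c b)
    (h1 : ∀ b, c b ≤ 1) :
    (∫ t in I, √(1 - c (sa D t) ^ 2) * lam A n2 n3 t) + ∫ b in (al D)..(be D), c b ≤
      A.real univ := by
  classical
  haveI := h.fin
  obtain ⟨J, hJ, hj⟩ := h.down.exists_jumps
  set c' : ℝ → ℝ := fun t => if t ∈ J then 1 else c (sa D t) with hc'
  have m1 : Measurable c' :=
    Measurable.ite hJ.measurableSet measurable_const (hc.comp h.down.measurable_sa)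
  have b0 : ∀ t, 0 ≤ c' t ∧ c' t ≤ 1 := fun t => by
    simp only [hc']
    split_ifs
    exacts [⟨zero_le_one, le_rfl⟩, ⟨h0 _, h1 _⟩]
  have m2 : Measurable fun t => √(1 - c' t ^ 2) := (measurable_const.sub (m1.pow_const 2)).sqrt
  have b1 : ∀ t, √(1 - c' t ^ 2) ≤ 1 := fun t => sqrt_le_one.2 (by nlinarith)
  have e1 : ∫ t in I, √(1 - c (sa D t) ^ 2) * lam A n2 n3 t =
      ∫ p, √(1 - c' p.1 ^ 2) * √(n2 p ^ 2 + n3 p ^ 2) ∂A := by
    rw [h.integral_lam m2 (C := 1) fun t => by rw [abs_of_nonneg (sqrt_nonneg _)]; exact b1 t]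
    refine integral_congr_ae (ae_restrict_of_ae ?_)
    filter_upwards [hJ.ae_notMem volume] with t ht
    simp only [hc', if_neg ht]
  have e2 := hj c c' hc m1 h0 h1 (fun t ht => if_pos ht) fun t ht => if_neg ht
  rw [← h.down.integral_mu1 (f := fun p => c' p.1) (m1.comp measurable_fst),
    ← h.int1 (f := fun p => c' p.1) (m1.comp measurable_fst)] at e2
  have i1 : Integrable (fun p : X => √(1 - c' p.1 ^ 2) * √(n2 p ^ 2 + n3 p ^ 2)) A :=
    slab_int ((m2.comp measurable_fst).mul h.slab_meas) (fun p => by positivity)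
      fun p => mul_le_one₀ (b1 _) (sqrt_nonneg _) (h.slab_sqrt_le p)
  have i2 : Integrable (fun p : X => c' p.1 * n1 p) A :=
    slab_int ((m1.comp measurable_fst).mul h.m1) (fun p => mul_nonneg (b0 _).1 (h.nn1 p))
      fun p => mul_le_one₀ (b0 _).2 (h.nn1 p) (h.le1 p)
  rw [e1]
  refine (add_le_add le_rfl e2).trans ?_
  rw [← integral_add i1 i2, ← mul_one (A.real univ), ← smul_eq_mul, ← integral_const]
  refine integral_mono (i1.add i2) (integrable_const _) fun p => ?_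
  have e3 : √(1 - c' p.1 ^ 2) ^ 2 = 1 - c' p.1 ^ 2 := sq_sqrt (by nlinarith [b0 p.1])
  have e4 := h.slab_sqrt p
  dsimp only
  nlinarith [sq_nonneg (√(1 - c' p.1 ^ 2) - √(n2 p ^ 2 + n3 p ^ 2)), sq_nonneg (c' p.1 - n1 p)]

/-- Cauchy-Schwarz: `be - al = ∫ n1 dA` and `∫ n1² dA = A - H V - F1` -/
theorem Surf.cs (h : Surf D A n1 n2 n3) (hf : Flux3 D A n1 n2 n3 H F1 F2 F3) :
    (be D - al D) ^ 2 ≤ A.real univ * (A.real univ - H * vol D - F1) := by
  haveI := h.fin
  have e1 : ∫ p, n1 p ∂A = be D - al D := by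
    have := h.int1 (f := fun _ => 1) measurable_const
    rw [h.down.integral_mu1 measurable_const] at this
    simpa [Measure.real, h.down.real_act1] using this
  have i1 : Integrable n1 A := slab_int h.m1 h.nn1 h.le1
  have i2 : Integrable (fun p => n1 p ^ 2) A :=
    slab_int (h.m1.pow_const 2) (fun p => sq_nonneg _) fun p => pow_le_one₀ (h.nn1 p) (h.le1 p)
  have i3 : IntegrableOn (sa D) I := slab_int h.down.measurable_sa (sa_nonneg D) h.down.sa_le_one
  have e2 := hf.f1 (fun _ => 1) continuous_const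
  simp only [one_mul] at e2
  rw [integral_sub (integrable_const _) i2, integral_add (i3.const_mul H) (integrable_const _),
    integral_const_mul, h.down.integral_sa] at e2
  simp only [integral_const, smul_eq_mul, mul_one, measureReal_restrict_apply_univ,
    Real.volume_real_Ioo_of_le zero_le_one, sub_zero, one_mul] at e2
  have := discrim_le_zero (a := A.real univ) (b := -(2 * (be D - al D)))
    (c := A.real univ - H * vol D - F1) fun x => by
      have h1 : 0 ≤ ∫ p, (n1 p ^ 2 - 2 * x * n1 p + x * x) ∂A :=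
        integral_nonneg fun p => by dsimp only [Pi.zero_apply]; nlinarith [sq_nonneg (n1 p - x)]
      rw [integral_add (by exact i2.sub (i1.const_mul _)) (integrable_const _),
        integral_sub i2 (i1.const_mul _), integral_const_mul, e1, integral_const, smul_eq_mul] at h1
      linarith
  rw [discrim] at this
  linarith

lemma Surf.slab_strip (h : Surf D A n1 n2 n3) {L a b : ℝ} (h0 : 0 ≤ a) (hab : a ≤ b) (h1 : b ≤ 1)
    (hL : ∀ᵐ t, t ∈ Ioo a b → L ≤ lam A n2 n3 t) :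
    (b - a) * L ≤ A.real (Prod.fst ⁻¹' Ioo a b) := by
  haveI := h.fin
  have m1 : Measurable ((Ioo a b).indicator (1 : ℝ → ℝ)) := measurable_one.indicator measurableSet_Ioo
  have b0 : ∀ t, 0 ≤ (Ioo a b).indicator (1 : ℝ → ℝ) t := indicator_nonneg fun _ _ => zero_le_one
  have b1 : ∀ t, (Ioo a b).indicator (1 : ℝ → ℝ) t ≤ 1 := indicator_le_self' fun _ _ => zero_le_one
  have e := h.integral_lam m1 (C := 1) fun t => by rw [abs_of_nonneg (b0 t)]; exact b1 t
  simp only [← indicator_mul_left, Pi.one_apply, one_mul] at e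
  rw [setIntegral_indicator measurableSet_Ioo, inter_eq_right.2 (Ioo_subset_Ioo h0 h1)] at e
  calc (b - a) * L = ∫ _ in Ioo a b, L := by
        rw [setIntegral_const, Real.volume_real_Ioo_of_le hab, smul_eq_mul]
    _ ≤ ∫ t in Ioo a b, lam A n2 n3 t :=
        setIntegral_mono_on_ae (integrable_const _) h.integrable_lam.integrableOn
          measurableSet_Ioo hL
    _ ≤ _ := by
        rw [← e, ← integral_indicator_one (measurable_fst measurableSet_Ioo)]
        refine integral_mono (slab_int ((m1.comp measurable_fst).mul h.slab_meas)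
          (fun p => mul_nonneg (b0 _) (sqrt_nonneg _))
          fun p => mul_le_one₀ (b1 _) (sqrt_nonneg _) (h.slab_sqrt_le p))
          (slab_int (m1.comp measurable_fst) (fun p => b0 _) fun p => b1 _)
          fun p => mul_le_of_le_one_right (b0 _) (h.slab_sqrt_le p)

/-- `L δ ≤ ∫_{(1-δ, 1)} lam ≤ A {1 - δ ≤ x}` -/
theorem Surf.dir (h : Surf D A n1 n2 n3) (hf : Flux3 D A n1 n2 n3 H F1 F2 F3)
    (hb : Bdry D A H F1) :
    Dir (sa D) (lam A n2 n3) (A.real univ) (vol D) H F1 (al D) (be D) := by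
  haveI := h.fin
  have d := h.down
  refine ⟨d.measurable_sa, d.anti_sa, al_nonneg D, be_le_one D, fun _ => d.al_le_sa,
    fun _ => d.sa_le_be, d.tendsto_al, d.tendsto_be, d.integral_sa, measurable_lam _ _ _,
    h.integrable_lam.integrableOn, lam_nonneg _ _ _, h.slab, h.flux_le hf, fun L hL => ?_,
    fun L hL => ?_, h.cs hf⟩
  · obtain ⟨s, hs, t, ht, hst⟩ := eventually_inf.1 hL
    obtain ⟨a, ha, has⟩ := mem_nhdsLT_iff_exists_Ioo_subset.1 hs
    refine le_of_forall_pos_le_add fun η hη => ?_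
    obtain ⟨δ, h1, h2, h3⟩ := ((hb.top η hη).and (inter_mem (Ioo_mem_nhdsGT one_pos)
      (Ioo_mem_nhdsGT (sub_pos.2 (mem_Iio.1 ha))))).exists
    have := h.slab_strip (L := L) (sub_nonneg.2 h2.2.le) (sub_le_self 1 h2.1.le) le_rfl <| by
      filter_upwards [ht] with x hx hx'
      exact hst x ⟨has ⟨by linarith [hx'.1, h3.2], hx'.2⟩, hx⟩
    rw [sub_sub_cancel] at this
    exact le_of_mul_le_mul_left
      ((this.trans (measureReal_mono fun p hp => hp.1.le)).trans h1) h2.1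
  · obtain ⟨s, hs, t, ht, hst⟩ := eventually_inf.1 hL
    obtain ⟨a, ha, has⟩ := mem_nhdsGT_iff_exists_Ioo_subset.1 hs
    refine le_of_forall_pos_le_add fun η hη => ?_
    obtain ⟨δ, h1, h2, h3⟩ := ((hb.bot η hη).and (inter_mem (Ioo_mem_nhdsGT one_pos)
      (Ioo_mem_nhdsGT (mem_Ioi.1 ha)))).exists
    have := h.slab_strip (L := L) le_rfl h2.1.le h2.2.le <| by
      filter_upwards [ht] with x hx hx'
      exact hst x ⟨has ⟨hx'.1, hx'.2.trans h3.2⟩, hx⟩
    rw [sub_zero] at this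
    exact le_of_mul_le_mul_left
      ((this.trans (measureReal_mono fun p hp => hp.2.le)).trans h1) h2.1

end Crest.Agent.R214
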