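import Crest.Agent.R214.Lam
import Crest.Agent.R214.CGeo

/-! Row 214: calibrations of the slices. -/

set_option autoImplicit false

namespace Crest.Agent.R214

open MeasureTheory Set Filter Topology Real
open scoped ENNReal

variable {D : Set X} {A : Measure X} {n1 n2 n3 : X → ℝ}

lemma integral_quarter {p : ℝ} (hp : 0 < p) :
    ∫ y in Ioo 0 p, √(1 - (y / p) ^ 2) = π * p / 4 := by
  have h1 : ∫ x in (0 : ℝ)..1, √(1 - x ^ 2) = π / 4 := by
    have hc : Continuous fun x : ℝ => √(1 - x ^ 2) := by fun_prop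
    have h2 := intervalIntegral.integral_add_adjacent_intervals
      (hc.intervalIntegrable (μ := volume) (-1) 0) (hc.intervalIntegrable 0 1)
    have h3 := intervalIntegral.integral_comp_neg (a := 0) (b := 1) (fun x : ℝ => √(1 - x ^ 2))
    simp only [neg_sq, neg_zero] at h3
    rw [integral_sqrt_one_sub_sq, ← h3] at h2
    linarith
  rw [← integral_Ioc_eq_integral_Ioo, ← intervalIntegral.integral_of_le hp.le,
    intervalIntegral.integral_comp_div (fun x : ℝ => √(1 - x ^ 2)) hp.ne', zero_div, div_self hp.ne',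
    h1, smul_eq_mul]
  ring
/-- `√(1 - u) ≥ 1 - u / 2 - u² / 6` for `0 ≤ u ≤ 4 / 9` -/
lemma integral_strip {k : ℝ} (h0 : 0 ≤ k) (h1 : k ≤ 2 / 3) :
    1 - k ^ 2 / 6 - k ^ 4 / 30 ≤ ∫ y in I, √(1 - (k * y) ^ 2) := by
  have h2 : ∫ y in (0 : ℝ)..1, (1 - k ^ 2 / 2 * y ^ 2 - k ^ 4 / 6 * y ^ 4) =
      1 - k ^ 2 / 6 - k ^ 4 / 30 := by
    rw [intervalIntegral.integral_sub (by apply Continuous.intervalIntegrable; fun_prop)
      (by apply Continuous.intervalIntegrable; fun_prop),
      intervalIntegral.integral_sub (by apply Continuous.intervalIntegrable; fun_prop)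
      (by apply Continuous.intervalIntegrable; fun_prop),
      intervalIntegral.integral_const_mul, intervalIntegral.integral_const_mul, integral_pow,
      integral_pow]
    simp
    ring
  rw [← integral_Ioc_eq_integral_Ioo, ← intervalIntegral.integral_of_le zero_le_one, ← h2]
  refine intervalIntegral.integral_mono_on zero_le_one
    (by apply Continuous.intervalIntegrable; fun_prop)
    (by apply Continuous.intervalIntegrable; fun_prop) fun y hy => ?_
  have h3 : 0 ≤ k * y := mul_nonneg h0 hy.1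
  have h4 : k * y ≤ 2 / 3 := (mul_le_of_le_one_right h0 hy.2).trans h1
  have e : 1 - k ^ 2 / 2 * y ^ 2 - k ^ 4 / 6 * y ^ 4 =
      1 - (k * y) ^ 2 / 2 - ((k * y) ^ 2) ^ 2 / 6 := by ring
  rw [e]
  have h5 : (k * y) ^ 2 ≤ 4 / 9 := by nlinarith
  have h6 : 0 ≤ (k * y) ^ 2 := sq_nonneg _
  generalize (k * y) ^ 2 = u at h5 h6
  refine Real.le_sqrt_of_sq_le ?_
  have h7 : 0 ≤ 3 - 6 * u - u ^ 2 := by nlinarith
  nlinarith [mul_nonneg (sq_nonneg u) h7]

lemma slice_int {u : ℝ → ℝ} (hu : Measurable u) (h0 : ∀ z, 0 ≤ u z) (h1 : ∀ z, u z ≤ 1) (a b : ℝ) :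
    ∫ z in {z | z ∈ I ∧ 0 < u z ∧ u z < 1}, (a * u z + b) =
      a * ((∫ z in I, u z) - (volume {z | z ∈ I ∧ u z = 1}).toReal) +
        b * ((volume {z | z ∈ I ∧ 0 < u z}).toReal - (volume {z | z ∈ I ∧ u z = 1}).toReal) := by
  have mI : MeasurableSet I := measurableSet_Ioo
  have mS : MeasurableSet {z | z ∈ I ∧ 0 < u z ∧ u z < 1} :=
    mI.inter ((measurableSet_lt measurable_const hu).inter (measurableSet_lt hu measurable_const))
  have m1 : MeasurableSet {z | z ∈ I ∧ u z = 1} := mI.inter (hu (measurableSet_singleton 1))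
  have mP : MeasurableSet {z | z ∈ I ∧ 0 < u z} := mI.inter (measurableSet_lt measurable_const hu)
  have fI : volume I ≠ ⊤ := by simp [I]
  have iu : IntegrableOn u I := by
    refine Measure.integrableOn_of_bounded (M := 1) fI hu.aestronglyMeasurable ?_
    exact Eventually.of_forall fun z => by rw [Real.norm_of_nonneg (h0 z)]; exact h1 z
  have hP : {z | z ∈ I ∧ 0 < u z} = {z | z ∈ I ∧ 0 < u z ∧ u z < 1} ∪ {z | z ∈ I ∧ u z = 1} := by
    ext z
    simp only [mem_ofPred_eq, mem_union]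
    constructor
    · rintro ⟨hz, hp⟩
      rcases (h1 z).lt_or_eq with h | h
      · exact Or.inl ⟨hz, hp, h⟩
      · exact Or.inr ⟨hz, h⟩
    · rintro (⟨hz, hp, -⟩ | ⟨hz, h⟩)
      · exact ⟨hz, hp⟩
      · exact ⟨hz, by rw [h]; exact one_pos⟩
  have hd : Disjoint {z | z ∈ I ∧ 0 < u z ∧ u z < 1} {z | z ∈ I ∧ u z = 1} :=
    Set.disjoint_left.2 fun z hz hz' => hz.2.2.ne hz'.2
  have sS : {z | z ∈ I ∧ 0 < u z ∧ u z < 1} ⊆ I := fun z hz => hz.1
  have s1 : {z | z ∈ I ∧ u z = 1} ⊆ I := fun z hz => hz.1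
  have fS := measure_ne_top_of_subset sS fI
  have f1 := measure_ne_top_of_subset s1 fI
  have e1 : ∫ z in I, u z = ∫ z in {z | z ∈ I ∧ 0 < u z}, u z := by
    refine setIntegral_eq_of_subset_of_forall_sdiff_eq_zero mI (fun z hz => hz.1) fun z hz => ?_
    exact le_antisymm (not_lt.1 fun h => hz.2 ⟨hz.1, h⟩) (h0 z)
  have e2 : ∫ z in {z | z ∈ I ∧ u z = 1}, u z = (volume {z | z ∈ I ∧ u z = 1}).toReal := by
    rw [setIntegral_congr_fun m1 (g := fun _ => (1 : ℝ)) (fun z hz => hz.2)]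
    simp [Measure.real]
  rw [e1, hP, setIntegral_union hd m1 (iu.mono_set sS) (iu.mono_set s1), e2, measure_union hd m1,
    ENNReal.toReal_add fS f1, integral_add ((iu.mono_set sS).const_mul a) (integrableOn_const fS),
    integral_const_mul]
  simp [Measure.real]
  ring

lemma slice_int2 (h : Down D) (t a b : ℝ) :
    ∫ z in {z | z ∈ I ∧ 0 < u2 D (t, z) ∧ u2 D (t, z) < 1}, (a * u2 D (t, z) + b) =
      a * (sa D t - rho D t) + b * (ext3 D t - rho D t) := by
  rw [h.sa_eq_u2]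
  exact slice_int (u := fun z => u2 D (t, z)) (h.measurable_u2.comp measurable_prodMk_left)
    (fun z => u2_nonneg D _) (fun z => h.u2_le _) a b

lemma slice_meas2 (h : Down D) (t : ℝ) :
    MeasurableSet {z | z ∈ I ∧ 0 < u2 D (t, z) ∧ u2 D (t, z) < 1} := by
  have hu : Measurable fun z => u2 D (t, z) := h.measurable_u2.comp measurable_prodMk_left
  exact (measurableSet_Ioo (a := (0 : ℝ)) (b := 1)).inter
    ((measurableSet_lt measurable_const hu).inter (measurableSet_lt hu measurable_const))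

lemma slice_ae3 (h : Down D) (t : ℝ) :
    {y | y ∈ I ∧ 0 < u3 D (t, y) ∧ u3 D (t, y) < 1} =ᵐ[volume] Ioo (sig D t) (ext2 D t) := by
  filter_upwards [(h.ext2_ae t).mem_iff, (h.sig_ae t).mem_iff, Measure.ae_ne volume (sig D t)]
    with y h1 h2 h3
  simp only [mem_ofPred_eq, mem_Ioo] at h1 h2
  apply propext
  change (y ∈ I ∧ 0 < u3 D (t, y) ∧ u3 D (t, y) < 1) ↔ (sig D t < y ∧ y < ext2 D t)
  have h4 := sig_nonneg D t
  simp only [mem_Ioo]
  constructor
  · rintro ⟨hy, hp, hl⟩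
    have h5 := h1.1 ⟨hy, hp⟩
    refine ⟨lt_of_le_of_ne (not_lt.1 fun hh => hl.ne (h2.2 ⟨h5.1, hh⟩).2) h3.symm, h5.2⟩
  · rintro ⟨ha, hb⟩
    have h5 := h1.2 ⟨h4.trans_lt ha, hb⟩
    exact ⟨h5.1, h5.2, lt_of_le_of_ne (h.u3_le _) fun hh => ha.not_gt (h2.1 ⟨h5.1, hh⟩).2⟩

/-- value of a field which depends on `t` and `y` only and whose first component is affine -/
lemma slice_slv (h : Down D) {Y2 Y3 : X → ℝ} {t a b : ℝ} {g : ℝ → ℝ}
    (h2 : ∀ z ∈ I, Y2 (t, u2 D (t, z), z) = a * u2 D (t, z) + b)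
    (h3 : ∀ y ∈ Ioo (sig D t) (ext2 D t), Y3 (t, y, u3 D (t, y)) = g y) :
    slv D Y2 Y3 t = a * (sa D t - rho D t) + b * (ext3 D t - rho D t) +
      ∫ y in Ioo (sig D t) (ext2 D t), g y := by
  rw [slv, setIntegral_congr_set (slice_ae3 h t), setIntegral_congr_fun measurableSet_Ioo h3,
    setIntegral_congr_fun (slice_meas2 h t) (fun z hz => h2 z hz.1), slice_int2 h]

lemma slice_clamp {x : ℝ} (h0 : 0 ≤ x) (h1 : x ≤ 1) : max 0 (min x 1) = x := by
  rw [min_eq_left h1, max_eq_right h0]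

lemma slice_sq {x : ℝ} (h0 : 0 ≤ x) (h1 : x ≤ 1) : x ^ 2 + √(1 - x ^ 2) ^ 2 = 1 := by
  rw [Real.sq_sqrt (by nlinarith)]
  ring

/-- the calibration of a corner slice -/
noncomputable def cY2 (D : Set X) (p : X) : ℝ := max 0 (min (p.2.1 / ext2 D p.1) 1)
noncomputable def cY3 (D : Set X) (p : X) : ℝ := √(1 - cY2 D p ^ 2)

lemma Down.measurable_cY2 (h : Down D) : Measurable (cY2 D) := by
  exact measurable_const.max
    ((measurable_snd.fst.div (h.measurable_ext2.comp measurable_fst)).min measurable_const)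
lemma Down.measurable_cY3 (h : Down D) : Measurable (cY3 D) := by
  exact (measurable_const.sub (h.measurable_cY2.pow_const 2)).sqrt
lemma cY_sq (D : Set X) (p : X) : cY2 D p ^ 2 + cY3 D p ^ 2 = 1 := by
  exact slice_sq (le_max_left _ _) (max_le zero_le_one (min_le_right _ _))
lemma Down.slv_corner (h : Down D) {t : ℝ} (hr : rho D t = 0) (hs : sig D t = 0)
    (he : 0 < ext2 D t) : slv D (cY2 D) (cY3 D) t = sa D t / ext2 D t + π * ext2 D t / 4 := by
  rw [slice_slv h (a := 1 / ext2 D t) (b := 0) (g := fun y => √(1 - (y / ext2 D t) ^ 2)), hr, hs,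
    integral_quarter he]
  · ring
  · intro z _
    simp only [cY2]
    rw [slice_clamp (div_nonneg (u2_nonneg D _) he.le) ((div_le_one he).2 (h.u2_le_ext2 t z))]
    ring
  · intro y hy
    rw [hs] at hy
    simp only [cY3, cY2]
    rw [slice_clamp (div_nonneg hy.1.le he.le) ((div_le_one he).2 hy.2.le)]
lemma Down.sa_eq_zero (h : Down D) {t : ℝ} (he : ext2 D t = 0) : sa D t = 0 := by
  rw [h.sa_eq_u2]
  have : ∀ z, u2 D (t, z) = 0 := fun z => le_antisymm (he ▸ h.u2_le_ext2 t z) (u2_nonneg D _)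
  simp [this]

theorem Surf.sl_corner (h : Surf D A n1 n2 n3) :
    ∀ᵐ t, t ∈ I → rho D t = 0 → sig D t = 0 → √(π * sa D t) ≤ lam A n2 n3 t := by
  filter_upwards [h.slv_le h.down.measurable_cY2 h.down.measurable_cY3 fun p => (cY_sq D p).le]
    with t ht hI hr hs
  have he : 0 ≤ ext2 D t := ENNReal.toReal_nonneg
  rcases he.eq_or_lt with he | he
  · rw [h.down.sa_eq_zero he.symm, mul_zero, Real.sqrt_zero]
    exact lam_nonneg _ _ _ _
  refine le_trans ?_ (ht hI)
  rw [h.down.slv_corner hr hs he]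
  have ha := sa_nonneg D t
  refine Real.sqrt_le_iff.2 ⟨by positivity, ?_⟩
  have e : π * sa D t = 4 * (sa D t / ext2 D t) * (π * ext2 D t / 4) := by field_simp
  rw [e]
  nlinarith [sq_nonneg (sa D t / ext2 D t - π * ext2 D t / 4)]
/-- `Y2 = k y`, `Y3 = √(1 - (k y)²)` (clamp `y` to `[0, 1]`); `0 < u3 < 1` a.e. on `I`, and
`∫_{0 < u2 < 1} u2 = sa - rho` -/
theorem Surf.sl_strip (h : Surf D A n1 n2 n3) {k : ℝ} (h0 : 0 ≤ k) (h1 : k ≤ 2 / 3) :
    ∀ᵐ t, t ∈ I → 0 < rho D t → sig D t = 0 → strip k (rho D t) (sa D t) ≤ lam A n2 n3 t := by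
  have m2 : Measurable fun p : X => k * max 0 (min p.2.1 1) := by fun_prop
  have m3 : Measurable fun p : X => √(1 - (k * max 0 (min p.2.1 1)) ^ 2) := by fun_prop
  filter_upwards [h.slv_le m2 m3 fun p => (slice_sq (mul_nonneg h0 (le_max_left _ _))
    (mul_le_one₀ (by linarith) (le_max_left _ _) (max_le zero_le_one (min_le_right _ _)))).le]
    with t ht hI hr hs
  refine le_trans ?_ (ht hI)
  have he := h.down.ext2_of_rho hr
  rw [slice_slv h.down (a := k) (b := 0) (g := fun y => √(1 - (k * y) ^ 2)), hs, he]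
  · have := integral_strip h0 h1
    unfold strip
    linarith
  · intro z _
    simp only
    rw [slice_clamp (u2_nonneg D _) (h.down.u2_le _), add_zero]
  · intro y hy
    rw [hs, he] at hy
    simp only
    rw [slice_clamp hy.1.le hy.2.le]
/-- `Y2 = (1 - y) / (1 - sig)` clamped to `[0, 1]`, `Y3 = √(1 - Y2²)`; `sig ≤ u2` on `I`
(`rho_le_u3` for `swp ⁻¹' D`) -/
theorem Surf.sl_ell (h : Surf D A n1 n2 n3) :
    ∀ᵐ t, t ∈ I → ext2 D t = 1 → ext3 D t = 1 → sig D t < 1 →
      ell (1 - sig D t) (sa D t) ≤ lam A n2 n3 t := by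
  have m2 : Measurable fun p : X => max 0 (min ((1 - p.2.1) / (1 - sig D p.1)) 1) :=
    measurable_const.max (((measurable_const.sub measurable_snd.fst).div
      (measurable_const.sub (h.down.measurable_sig.comp measurable_fst))).min measurable_const)
  have m3 : Measurable fun p : X => √(1 - (max 0 (min ((1 - p.2.1) / (1 - sig D p.1)) 1)) ^ 2) :=
    (measurable_const.sub (m2.pow_const 2)).sqrt
  filter_upwards [h.slv_le m2 m3 fun p =>
    (slice_sq (le_max_left _ _) (max_le zero_le_one (min_le_right _ _))).le] with t ht hI he2 he3 hs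
  refine le_trans ?_ (ht hI)
  have hw : 0 < 1 - sig D t := sub_pos.2 hs
  rw [slice_slv h.down (a := -(1 / (1 - sig D t))) (b := 1 / (1 - sig D t))
    (g := fun y => √(1 - ((1 - y) / (1 - sig D t)) ^ 2)), he2, he3]
  · have e := intervalIntegral.integral_comp_sub_left
      (fun y => √(1 - (y / (1 - sig D t)) ^ 2)) (a := sig D t) (b := 1) 1
    rw [sub_self, intervalIntegral.integral_of_le hw.le, integral_Ioc_eq_integral_Ioo,
      integral_quarter hw, intervalIntegral.integral_of_le hs.le, integral_Ioc_eq_integral_Ioo] at e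
    rw [e, ell]
    apply le_of_eq
    ring
  · intro z hz
    have h1 : sig D t ≤ u2 D (t, z) := h.down.swp.rho_le_u3 t hz
    simp only
    rw [slice_clamp (div_nonneg (sub_nonneg.2 (h.down.u2_le _)) hw.le)
      ((div_le_one hw).2 (by linarith))]
    ring
  · intro y hy
    rw [he2] at hy
    simp only
    rw [slice_clamp (div_nonneg (sub_nonneg.2 hy.2.le) hw.le) ((div_le_one hw).2 (by linarith [hy.1]))]
/-- `Y2 = 0`, `Y3 = 1` -/
theorem Surf.sl_ext2 (h : Surf D A n1 n2 n3) :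
    ∀ᵐ t, t ∈ I → sig D t = 0 → ext2 D t ≤ lam A n2 n3 t := by
  filter_upwards [h.slv_le (Y2 := fun _ => 0) (Y3 := fun _ => 1) measurable_const measurable_const
    fun p => by norm_num] with t ht hI hs
  refine le_trans ?_ (ht hI)
  have he : 0 ≤ ext2 D t := ENNReal.toReal_nonneg
  rw [slice_slv h.down (a := 0) (b := 0) (g := fun _ => 1) (fun _ _ => by simp) (fun _ _ => rfl), hs]
  simp [he]
/-- the symmetric statements follow with `Surf.swp`, `lam_swp`, `sa_swp` -/
theorem Surf.sl_ext3 (h : Surf D A n1 n2 n3) :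
    ∀ᵐ t, t ∈ I → rho D t = 0 → ext3 D t ≤ lam A n2 n3 t := by
  have := h.swp.sl_ext2
  rwa [lam_swp A h.m2 h.m3, sig_swp, ext2_swp] at this
theorem Surf.sl (h : Surf D A n1 n2 n3) : Sl (sa D) (lam A n2 n3) (rho D) (sig D) := by
  refine ⟨h.down.anti_rho, h.down.anti_sig, rho_nonneg D, sig_nonneg D,
    fun t _ => h.down.rho_le_sa t, fun t _ => h.down.sig_le_sa t, h.sl_corner,
    fun k h0 h1 => h.sl_strip h0 h1, fun k h0 h1 => ?_, ?_, ?_⟩
  · have := h.swp.sl_strip h0 h1
    rw [lam_swp A h.m2 h.m3, sig_swp, rho_swp, sa_swp] at this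
    filter_upwards [this] with t ht hI hr hs using ht hI hs hr
  · have := h.swp.sl_ell
    rw [lam_swp A h.m2 h.m3, sig_swp, ext2_swp, ext3_swp, sa_swp] at this
    filter_upwards [this] with t ht hI hr hs hl using
      ht hI (h.down.ext3_of_sig hs) (h.down.ext2_of_rho hr) hl
  · filter_upwards [h.sl_ell] with t ht hI hr hs hl using
      ht hI (h.down.ext2_of_rho hr) (h.down.ext3_of_sig hs) hl

end Crest.Agent.R214
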