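import Crest.Agent.R214.Defs2
import Crest.Agent.R214.DirA
import Crest.Agent.R214.Flux
import Crest.Agent.R214.Slab
import Crest.Agent.R214.Slice
import Crest.Agent.R214.Compact

/-! Row 214: the top slices and the contacts of a minimiser. -/

set_option autoImplicit false

namespace Crest.Agent.R214

open MeasureTheory Set Filter Topology Real
open scoped ENNReal

variable {D : Set X} {A : Measure X} {n1 n2 n3 : X → ℝ} {H F1 F2 F3 : ℝ}

lemma contact_evI : ∀ᶠ t in 𝓝[<] (1 : ℝ), t ∈ I := Ioo_mem_nhdsLT zero_lt_one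

lemma contact_cyc3 (D : Set X) : cyc ⁻¹' (cyc ⁻¹' (cyc ⁻¹' D)) = D := rfl

lemma contact_one_le {w b l : ℝ} (hw : 0 < w) (hb : b < 1 - 1 / π) (hl : ell w b ≤ l)
    (h0 : 0 ≤ l) : 1 ≤ l := by
  have h1 := sqrt_le_ell (b := b) hw
  have h2 : max (ell w b) 0 ≤ l := max_le hl h0
  have h3 : 1 ≤ √(π * (1 - b)) := by
    apply Real.le_sqrt_of_sq_le
    have h4 : 1 / π < 1 - b := by linarith
    rw [div_lt_iff₀ Real.pi_pos] at h4
    linarith
  linarith

theorem Min.exists_geo (hm : Min D) (h0 : 0 < vol D) (h1 : vol D ≤ 1 / 2) :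
    ∃ A n1 n2 n3 H F1 F2 F3, Geo D A n1 n2 n3 H F1 F2 F3 := by
  obtain ⟨A, n1, n2, n3, hs⟩ := hm.down.exists_surf
  obtain ⟨H, F1, F2, F3, hf, hsup⟩ := hm.exists_flux hs h0 (by linarith)
  exact ⟨A, n1, n2, n3, H, F1, F2, F3, hm, hs, hf, h0, h1, hsup⟩
protected lemma Geo.cyc (h : Geo D A n1 n2 n3 H F1 F2 F3) :
    Geo (cyc ⁻¹' D) (A.map cyi) (n3 ∘ cyc) (n1 ∘ cyc) (n2 ∘ cyc) H F3 F1 F2 := by
  refine ⟨h.min.cyc, h.surf.cyc, Flux3.cyc h.surf h.flux, ?_, ?_, ?_⟩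
  · rw [vol_cyc]; exact h.pos
  · rw [vol_cyc]; exact h.half
  · rw [vol_cyc]; exact h.sup
lemma Geo.dir (h : Geo D A n1 n2 n3 H F1 F2 F3) :
    Dir (sa D) (lam A n2 n3) (A.real univ) (vol D) H F1 (al D) (be D) := by
  have h1 : vol D < 1 := by linarith [h.half]
  exact h.surf.dir h.flux (h.min.bdry h.surf h.pos h1 h.flux)
/-- compare with the empty set -/
lemma Geo.A_le (h : Geo D A n1 n2 n3 H F1 F2 F3) : A.real univ ≤ conj (vol D) := by
  have h1 := h.min.min ∅ down_empty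
  have h2 : vol (∅ : Set X) = 0 := by simp [vol]
  rw [per_empty, h2, conj_zero, h.surf.per_eq] at h1
  linarith
lemma Geo.H_nonneg (h : Geo D A n1 n2 n3 H F1 F2 F3) : 0 ≤ H := (h.sup.cases h.pos h.half).1

/-- `rho_eventually`, `sig_eventually`, `sl_corner`, `Dir.top` -/
lemma Geo.top_corner (h : Geo D A n1 n2 n3 H F1 F2 F3) (h3 : be (cyc ⁻¹' D) < 1)
    (h2 : be (cyc ⁻¹' (cyc ⁻¹' D)) < 1) : √(π * al D) ≤ H * al D + F1 := by
  refine h.dir.top _ ?_
  have hd := h.min.down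
  filter_upwards [mem_inf_of_left contact_evI, mem_inf_of_left (hd.rho_eventually h3),
    mem_inf_of_left (hd.sig_eventually h2), mem_inf_of_right h.surf.sl_corner] with t ht hr hs hc
  refine le_trans (Real.sqrt_le_sqrt ?_) (hc ht hr hs)
  exact mul_le_mul_of_nonneg_left (hd.al_le_sa ht) Real.pi_pos.le
lemma Geo.top_ext2 (h : Geo D A n1 n2 n3 H F1 F2 F3) (h2 : be (cyc ⁻¹' (cyc ⁻¹' D)) < 1) {L : ℝ}
    (hL : ∀ s ∈ I, L ≤ ext2 D s) : L ≤ H * al D + F1 := by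
  refine h.dir.top _ ?_
  have hd := h.min.down
  filter_upwards [mem_inf_of_left contact_evI,
    mem_inf_of_left (hd.sig_eventually h2), mem_inf_of_right h.surf.sl_ext2] with t ht hs hc
  exact (hL t ht).trans (hc ht hs)
lemma Geo.top_ext3 (h : Geo D A n1 n2 n3 H F1 F2 F3) (h3 : be (cyc ⁻¹' D) < 1) {L : ℝ}
    (hL : ∀ s ∈ I, L ≤ ext3 D s) : L ≤ H * al D + F1 := by
  refine h.dir.top _ ?_
  have hd := h.min.down
  filter_upwards [mem_inf_of_left contact_evI,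
    mem_inf_of_left (hd.rho_eventually h3), mem_inf_of_right h.surf.sl_ext3] with t ht hs hc
  exact (hL t ht).trans (hc ht hs)
/-- Near `t = 1` we have `sa D t ≤ 1 - 1/π` (as `al D ≤ vol D ≤ 1/2`).  If `sig D t = 0` use
`sl_ext2`; otherwise `ext3 D t = 1` and `sl_ell`, `sqrt_le_ell` give `1 ≤ √(π (1 - sa)) ≤ lam`. -/
lemma Geo.top_one2 (h : Geo D A n1 n2 n3 H F1 F2 F3) (he : ∀ t ∈ I, ext2 D t = 1) :
    1 ≤ H * al D + F1 := by
  refine h.dir.top _ ?_
  have hd := h.min.down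
  have hα : al D < 1 - 1 / π := by linarith [h.dir.α_le, h.half, inv_pi_lt]
  have hev : ∀ᶠ t in 𝓝[<] (1 : ℝ), sa D t < 1 - 1 / π := hd.tendsto_al.eventually (gt_mem_nhds hα)
  filter_upwards [mem_inf_of_left contact_evI, mem_inf_of_left hev,
    mem_inf_of_right h.surf.sl_ext2, mem_inf_of_right h.surf.sl_ell] with t ht hs hc hl
  rcases (sig_nonneg D t).eq_or_lt with h0 | h0
  · rw [← he t ht]; exact hc ht h0.symm
  · have h1 : sig D t < 1 := by
      have := hd.sig_le_sa t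
      have : 0 < 1 / π := by positivity
      linarith
    exact contact_one_le (by linarith) hs (hl ht (he t ht) (hd.ext3_of_sig h0) h1)
      (lam_nonneg _ _ _ _)
/-- the same with `sl_ext3` and `sl_ell` for `swp ⁻¹' D` (`Surf.swp`, `lam_swp`, `sa_swp`) -/
lemma Geo.top_one3 (h : Geo D A n1 n2 n3 H F1 F2 F3) (he : ∀ t ∈ I, ext3 D t = 1) :
    1 ≤ H * al D + F1 := by
  refine h.dir.top _ ?_
  have hd := h.min.down
  have hα : al D < 1 - 1 / π := by linarith [h.dir.α_le, h.half, inv_pi_lt]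
  have hev : ∀ᶠ t in 𝓝[<] (1 : ℝ), sa D t < 1 - 1 / π := hd.tendsto_al.eventually (gt_mem_nhds hα)
  have hell := h.surf.swp.sl_ell
  rw [lam_swp A h.surf.m2 h.surf.m3, sa_swp, ext2_swp, ext3_swp, sig_swp] at hell
  filter_upwards [mem_inf_of_left contact_evI, mem_inf_of_left hev,
    mem_inf_of_right h.surf.sl_ext3, mem_inf_of_right hell] with t ht hs hc hl
  rcases (rho_nonneg D t).eq_or_lt with h0 | h0
  · rw [← he t ht]; exact hc ht h0.symm
  · have h1 : rho D t < 1 := by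
      have := hd.rho_le_sa t
      have : 0 < 1 / π := by positivity
      linarith
    exact contact_one_le (by linarith) hs (hl ht (he t ht) (hd.ext2_of_rho h0) h1)
      (lam_nonneg _ _ _ _)

/-- `rho_le_ext2` with `top_ext2` for `h.cyc.cyc`, `sig_le_ext3` with `top_ext3` for `h.cyc` -/
theorem Geo.dr (h : Geo D A n1 n2 n3 H F1 F2 F3) (h1 : be D < 1) (h3 : be (cyc ⁻¹' D) < 1)
    (h2 : be (cyc ⁻¹' (cyc ⁻¹' D)) < 1) : Dr (A.real univ) (vol D) H F1 (al D)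
      (max (H * al (cyc ⁻¹' (cyc ⁻¹' D)) + F2) (H * al (cyc ⁻¹' D) + F3)) := by
  have hd := h.min.down
  refine ⟨sa D, lam A n2 n3, rho D, sig D, be D, h.dir, h.surf.sl, h1, h.top_corner h3 h2, ?_⟩
  intro t ht
  refine ⟨le_max_of_le_left ?_, le_max_of_le_right ?_⟩
  · exact h.cyc.cyc.top_ext2 (by rw [contact_cyc3]; exact h3) fun s hs => hd.rho_le_ext2 hs ht
  · exact h.cyc.top_ext3 h2 fun s hs => hd.sig_le_ext3 hs ht

/-- In the directions `cyc ⁻¹' D` (`ext3_of_be`, `top_one3`) and `cyc ⁻¹' (cyc ⁻¹' D)`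
(`ext2_of_be`, `top_one2`): `1 ≤ H α + F ≤ H V + F ≤ A ≤ conj V ≤ 1`, so `α = β`; `Down.slab`. -/
theorem Geo.slab (h : Geo D A n1 n2 n3 H F1 F2 F3) (hb : be D = 1) :
    1 ≤ A.real univ ∧ D =ᵐ[volume] CMod 1 0 0 (vol D) := by
  have hd := h.min.down
  have hH := h.H_nonneg
  have hA : A.real univ ≤ 1 := h.A_le.trans (conj_le_one _)
  have t3 := h.cyc.top_one3 fun t ht => hd.cyc.ext3_of_be (by rw [contact_cyc3]; exact hb) ht
  have t2 := h.cyc.cyc.top_one2 fun t ht =>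
    hd.cyc.cyc.ext2_of_be (by rw [contact_cyc3]; exact hb) ht
  have d3 := h.cyc.dir
  have d2 := h.cyc.cyc.dir
  rw [real_map_cyi, vol_cyc] at d3
  rw [real_map_cyi, real_map_cyi, vol_cyc, vol_cyc] at d2
  have e3 := mul_le_mul_of_nonneg_left d3.α_le hH
  have e2 := mul_le_mul_of_nonneg_left d2.α_le hH
  have l3 := d3.le_A
  have a3 := d3.a_eq (d3.eq_of_le (by linarith))
  have a2 := d2.a_eq (d2.eq_of_le (by linarith))
  rw [sa_cyc] at a3
  rw [sa_cyc_cyc] at a2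
  exact ⟨by linarith, hd.slab a2 a3⟩

end Crest.Agent.R214
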