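import Crest.Agent.R214.Blem
import Crest.Agent.R214.Cert

/-! Row 214: the real-variable core of the classification. -/

set_option autoImplicit false

namespace Crest.Agent.R214

open MeasureTheory Set Filter Topology Real
open scoped ENNReal

variable {A V H : ℝ}

lemma Dr.mono {F α N N' : ℝ} (h : Dr A V H F α N) (hN : N ≤ N') : Dr A V H F α N' := by
  obtain ⟨a, l, ρ, σ, β, h1, h2, h3, h4, h5⟩ := h
  exact ⟨a, l, ρ, σ, β, h1, h2, h3, h4, fun t ht => ⟨(h5 t ht).1.trans hN, (h5 t ht).2.trans hN⟩⟩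

lemma core_tube {G : ℝ} (h0 : 0 < V) (hV : V < 1 / π) (hH : 0 ≤ H) (h : π ≤ 4 * H ^ 2 * V)
    (hG : G ≤ 2 * √(π * V) - 3 * H * V) : π / 2 < H ∧ 4 * H * G ≤ π := by
  have hπ := pi_pos
  have hs : √(π * V) ^ 2 = π * V := sq_sqrt (by positivity)
  have hs0 : 0 ≤ √(π * V) := sqrt_nonneg _
  set s := √(π * V)
  have hV' : π * V < 1 := by rwa [lt_div_iff₀' hπ] at hV
  have h1 : π ^ 2 ≤ (2 * H * s) ^ 2 := by
    calc π ^ 2 = π * π := sq π
      _ ≤ π * (4 * H ^ 2 * V) := mul_le_mul_of_nonneg_left h hπ.le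
      _ = 4 * H ^ 2 * s ^ 2 := by rw [hs]; ring
      _ = _ := by ring
  have h2 : π ≤ 2 * H * s := (pow_le_pow_iff_left₀ hπ.le (by positivity) two_ne_zero).1 h1
  have hs1 : s < 1 := by nlinarith
  have hH0 : 0 < H := by
    by_contra hc
    have : H = 0 := le_antisymm (not_lt.1 hc) hH
    rw [this] at h2
    linarith
  refine ⟨by nlinarith, ?_⟩
  have h3 : 0 ≤ (2 * H * s - π) * (6 * H * s - π) := mul_nonneg (by linarith) (by linarith)
  have h4 : π * (4 * H * G) ≤ π * π := by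
    calc π * (4 * H * G) ≤ π * (4 * H * (2 * s - 3 * H * V)) :=
          mul_le_mul_of_nonneg_left (mul_le_mul_of_nonneg_left hG (by positivity)) hπ.le
      _ = 8 * π * H * s - 12 * H ^ 2 * s ^ 2 := by rw [hs]; ring
      _ ≤ _ := by nlinarith
  exact le_of_mul_le_mul_left h4 hπ

/-- All `F ≥ 0` (`nonneg_of_top`; `H V + F < √(π V)` holds for the three directions).  Use
`Super.cases`, `G = Fs + Fm + Fb = 2 A - 3 H V`.
* `V < v0`: `G ≤ 0`.
* `1/π ≤ V` and (`H = 0` or `V = 1/π ∧ H ≤ 0.3`): `Dir.smallH` for the direction `s`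
  (`A ≤ conj V ≤ 1`, `3 (H V + Fs) ≤ 2 A`).
* Otherwise `v0 ≤ V ≤ 1/π`, `A ≤ √(π V) ≤ 1`, `0.3 ≤ H ≤ 3`, all `F ≤ 1`, and either
  (a) `V = 1/π`, `G ≤ 2 - 3 H / π`, or (b) `V < 1/π`, `π ≤ 4 H² V`, so `π/2 < H` and `4 H G ≤ π`
  (with `s = √(π V)`, `H V = H s² / π`, `π ≤ 2 H s`:
  `π / (4 H) - 2 s + 3 H s² / π = 3 H / π * (s - π / (2 H)) * (s - π / (6 H)) ≥ 0`).
  - `H ≤ 0.85` (so (a)): `r1a` + `Dir.excl` + `adm_plain` for `s`.
  - `0.85 ≤ H`, `Fm ≤ 0.07`: `nbound_thin` for `s` and `m`, so `Sl.adm` gives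
    `Adm 0.0755 0.9245 1` for `b`.  If `√(π 0.42) ≤ H 0.42 + Fb` use `Dir.blem` (with
    `Adm.thin_sqrt`), otherwise `r2` + `excl`.
  - `0.07 < Fm`, `1.43 ≤ H`: `r1c` for `m` (`2 Fm ≤ G`).
  - `0.07 < Fm`, `0.85 ≤ H ≤ 1.43` (so (a)): `r1b` for `m` gives `0.3 ≤ Fm`, `r1b` for `s`
    (`3 Fs ≤ G`) gives `Fs < 0.07`; then `adm_nest` and `r3` for `s`: if `1.25 ≤ H` then
    `Fm ≤ Fb ≤ G - 0.3`, and `nbound_nest` for `m` and `b` bounds `S`. -/
theorem core_ord {Fs Fm Fb αs αm αb : ℝ}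
    (hs : Dr A V H Fs αs (max (H * αm + Fm) (H * αb + Fb)))
    (hm : Dr A V H Fm αm (max (H * αs + Fs) (H * αb + Fb)))
    (hb : Dr A V H Fb αb (max (H * αs + Fs) (H * αm + Fm)))
    (h1 : Fs ≤ Fm) (h2 : Fm ≤ Fb) (hsum : Fs + Fm + Fb = 2 * A - 3 * H * V) (hA : A ≤ conj V)
    (hsup : Super V H) (h0 : 0 < V) (hV : V ≤ 1 / 2) (hno : H * V + Fb < √(π * V)) : Fb ≤ 0 := by
  obtain ⟨as, ls, ρs, σs, βs, Ds, Ss, hβs, ts, Ns⟩ := hs
  obtain ⟨am, lm, ρm, σm, βm, Dm, Sm, hβm, tm, -⟩ := hm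
  obtain ⟨ab, lb, ρb, σb, βb, Db, Sb, hβb, tb, Nb⟩ := hb
  have lts : ∀ t ∈ I, as t < 1 := fun t ht => (Ds.hi t ht).trans_lt hβs
  have ltm : ∀ t ∈ I, am t < 1 := fun t ht => (Dm.hi t ht).trans_lt hβm
  have ltb : ∀ t ∈ I, ab t < 1 := fun t ht => (Db.hi t ht).trans_lt hβb
  have nom : H * V + Fm < √(π * V) := by linarith
  have nos : H * V + Fs < √(π * V) := by linarith
  have f0 : 0 ≤ Fs := nonneg_of_top ts Ds.α0 Ds.α_le nos
  have hπ := pi_pos
  have hπ1 := pi_gt_three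
  have hπ2 := pi_lt_d4
  have hA1 : A ≤ 1 := hA.trans (conj_le_one V)
  have hAs : A ≤ √(π * V) := hA.trans (conj_le_sqrt hV)
  obtain ⟨hH, hc⟩ := hsup.cases h0 hV
  have small : 1 / π ≤ V → H * (1 - V) ≤ 0.2046 → False := fun h3 h4 =>
    Ds.smallH ts hβs (Ss.adm_plain lts) hH f0 h3 hA1 h4 (by linarith)
  -- the main case
  have main : v0 ≤ V → V ≤ 1 / π → 0.3 ≤ H → H ≤ 3 →
      (Fs + Fm + Fb ≤ 2 - 3 * H / π ∨ (π / 2 < H ∧ 4 * H * (Fs + Fm + Fb) ≤ π)) → Fb ≤ 0 := by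
    intro hv hV' hH0 hH3 hG
    have hs1 : √(π * V) ≤ 1 := by
      rw [sqrt_le_one]
      rwa [le_div_iff₀' hπ] at hV'
    have hHV : 0 ≤ H * V := by positivity
    have fb1 : Fb ≤ 1 := by linarith
    have exs : Ex false 1 0 1 H Fs → False := fun h =>
      Ds.excl ts nos hv hV' hAs (Ss.adm_plain lts) (by simp) h
    have exm : Ex false 1 0 1 H Fm → False := fun h =>
      Dm.excl tm nom hv hV' hAs (Sm.adm_plain ltm) (by simp) h
    have hG' : H ≤ 1.43 → Fs + Fm + Fb ≤ 2 - 3 * H / π := fun h =>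
      hG.resolve_right fun h' => by linarith [h'.1]
    rcases le_total H 0.85 with c1 | c1
    · exact (exs (r1a hH0 c1 f0 (by linarith [hG' (by linarith)]))).elim
    rcases le_or_gt Fm 0.07 with c2 | c2
    · have b1 := nbound_thin ts Ds.α_le nos hH hH3 f0 (by linarith)
      have b2 := nbound_thin tm Dm.α_le nom hH hH3 (by linarith) c2
      have b3 := max_le b1 b2
      have hadm := Sb.adm (N := 0.0755) ltb fun t ht => ⟨(Nb t ht).1.trans b3, (Nb t ht).2.trans b3⟩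
      rw [show (1 : ℝ) - 0.0755 = 0.9245 by norm_num] at hadm
      rcases le_or_gt √(π * 0.42) (H * 0.42 + Fb) with c3 | c3
      · refine Db.blem tb hno hv hV' hAs (by linarith) ?_ c3
        filter_upwards [hadm] with t ht hI h42
        exact (ht hI).thin_sqrt (Db.α0.trans (Db.lo t hI)) h42
      · exact (Db.excl tb hno hv hV' hAs hadm (fun _ => ⟨le_rfl, le_rfl, le_rfl, by linarith⟩)
          (r2 c1 hH3 (by linarith) fb1 c3)).elim
    exfalso
    rcases le_total 1.43 H with c3 | c3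
    · refine exm (r1c c3 hH3 c2.le (by linarith) (hG.imp (fun h => by linarith) fun h => ?_))
      nlinarith [h.2]
    have hG1 := hG' c3
    rcases lt_or_ge Fm 0.3 with c4 | c4
    · exact exm (r1b c1 c3 c2.le (by linarith) (Or.inr c4))
    rcases le_total 0.07 Fs with c5 | c5
    · exact exs (r1b c1 c3 c5 (by linarith) (Or.inl (by linarith)))
    obtain ⟨S, s0, sN, s1, hadm⟩ := Ss.adm_nest lts Ns
    refine Ds.excl ts nos hv hV' hAs hadm (by simp) (r3 c1 c3 f0 c5 s0 s1 ?_)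
    rcases lt_or_ge H 1.25 with c6 | c6
    · exact Or.inl c6
    · exact Or.inr (sN.trans_lt (max_lt (nbound_nest tm Dm.α_le nom c6 c3 (by linarith))
        (nbound_nest tb Db.α_le hno c6 c3 (by linarith))))
  rcases hc with ⟨-, c⟩ | ⟨c1, c2, c3, c4⟩ | ⟨c1, c2⟩ | ⟨c1, c2⟩
  · linarith
  · have h3 := core_tube (G := Fs + Fm + Fb) h0 c2 hH c3 (by linarith)
    exact main c1 c2.le (by linarith [h3.1]) c4 (Or.inr h3)
  · rcases le_total H 0.3 with c3 | c3
    · refine (small c1.ge ?_).elim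
      have h3 : 0.318 ≤ V := by
        rw [c1, le_div_iff₀ hπ]
        linarith
      nlinarith
    · refine main (c1 ▸ v0_lt.le) c1.le c3 (by linarith) (Or.inl ?_)
      have : H * V = H / π := by rw [c1]; ring
      rw [mul_div_assoc]
      linarith
  · exact (small c1.le (by rw [c2]; norm_num)).elim

/-- order the three `F i`, `core_ord`, `eq_zero_of_top` -/
theorem core {F1 F2 F3 α1 α2 α3 : ℝ}
    (d1 : Dr A V H F1 α1 (max (H * α2 + F2) (H * α3 + F3)))
    (d2 : Dr A V H F2 α2 (max (H * α3 + F3) (H * α1 + F1)))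
    (d3 : Dr A V H F3 α3 (max (H * α1 + F1) (H * α2 + F2)))
    (hsum : F1 + F2 + F3 = 2 * A - 3 * H * V) (hA : A ≤ conj V) (hsup : Super V H) (h0 : 0 < V)
    (hV : V ≤ 1 / 2) (n1 : H * V + F1 < √(π * V)) (n2 : H * V + F2 < √(π * V))
    (n3 : H * V + F3 < √(π * V)) : α1 = 0 ∧ α2 = 0 ∧ α3 = 0 := by
  have d1' := d1.mono (max_comm _ _).le
  have d2' := d2.mono (max_comm _ _).le
  have d3' := d3.mono (max_comm _ _).le
  have key : F1 ≤ 0 ∧ F2 ≤ 0 ∧ F3 ≤ 0 := by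
    rcases le_total F1 F2 with h12 | h12 <;> rcases le_total F2 F3 with h23 | h23 <;>
      rcases le_total F1 F3 with h13 | h13
    · have := core_ord d1 d2' d3 h12 h23 hsum hA hsup h0 hV n3
      exact ⟨by linarith, by linarith, by linarith⟩
    · have := core_ord d1 d2' d3 h12 h23 hsum hA hsup h0 hV n3
      exact ⟨by linarith, by linarith, by linarith⟩
    · have := core_ord d1' d3 d2' h13 h23 (by linarith) hA hsup h0 hV n2
      exact ⟨by linarith, by linarith, by linarith⟩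
    · have := core_ord d3 d1' d2 h13 h12 (by linarith) hA hsup h0 hV n2
      exact ⟨by linarith, by linarith, by linarith⟩
    · have := core_ord d2' d1 d3' h12 h13 (by linarith) hA hsup h0 hV n3
      exact ⟨by linarith, by linarith, by linarith⟩
    · have := core_ord d2 d3' d1 h23 h13 (by linarith) hA hsup h0 hV n1
      exact ⟨by linarith, by linarith, by linarith⟩
    · have := core_ord d3' d2 d1' h23 h12 (by linarith) hA hsup h0 hV n1
      exact ⟨by linarith, by linarith, by linarith⟩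
    · have := core_ord d3' d2 d1' h23 h12 (by linarith) hA hsup h0 hV n1
      exact ⟨by linarith, by linarith, by linarith⟩
  have z : ∀ {F α N : ℝ}, Dr A V H F α N → H * V + F < √(π * V) → F ≤ 0 → α = 0 := by
    rintro F α N ⟨a, l, ρ, σ, β, D, -, -, t, -⟩ hn hF
    exact eq_zero_of_top t D.α0 D.α_le hn hF
  exact ⟨z d1 n1 key.1, z d2 n2 key.2.1, z d3 n3 key.2.2⟩

end Crest.Agent.R214
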