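import Crest.Agent.R214.Slice

/-! Row 214: the equality case for corner slices. -/

set_option autoImplicit false

namespace Crest.Agent.R214

open MeasureTheory Set Filter Topology Real
open scoped ENNReal

variable {D : Set X} {A : Measure X} {n1 n2 n3 : X → ℝ}

lemma disc_fin {s : Set ℝ} (hs : s ⊆ I) : volume s ≠ ∞ :=
  ne_top_of_le_ne_top (by simp) (measure_mono hs)

lemma disc_intOn {s : Set ℝ} (hs : s ⊆ I) {f : ℝ → ℝ} (hf : Measurable f) {C : ℝ}
    (hb : ∀ x, |f x| ≤ C) : IntegrableOn f s :=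
  Measure.integrableOn_of_bounded (M := C) (disc_fin hs) hf.aestronglyMeasurable
    (Eventually.of_forall hb)

lemma disc_slv_add (h : Down D) {Y2 Y3 Z2 Z3 : X → ℝ} (m2 : Measurable Y2) (m3 : Measurable Y3)
    (k2 : Measurable Z2) (k3 : Measurable Z3) {C C' : ℝ} (b2 : ∀ p, |Y2 p| ≤ C)
    (b3 : ∀ p, |Y3 p| ≤ C) (c2 : ∀ p, |Z2 p| ≤ C') (c3 : ∀ p, |Z3 p| ≤ C') (e t : ℝ) :
    slv D (fun p => Y2 p + e * Z2 p) (fun p => Y3 p + e * Z3 p) t =
      slv D Y2 Y3 t + e * slv D Z2 Z3 t := by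
  have g2 : Measurable fun z : ℝ => ((t, u2 D (t, z), z) : X) :=
    measurable_const.prodMk ((h.measurable_u2.comp (measurable_const.prodMk measurable_id)).prodMk
      measurable_id)
  have g3 : Measurable fun y : ℝ => ((t, y, u3 D (t, y)) : X) :=
    measurable_const.prodMk (measurable_id.prodMk
      (h.measurable_u3.comp (measurable_const.prodMk measurable_id)))
  have i2 : ∀ {f : X → ℝ} {c : ℝ}, Measurable f → (∀ p, |f p| ≤ c) →
      IntegrableOn (fun z => f (t, u2 D (t, z), z))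
        {z | z ∈ I ∧ 0 < u2 D (t, z) ∧ u2 D (t, z) < 1} := fun hf hb =>
    disc_intOn (fun _ hz => hz.1) (hf.comp g2) fun _ => hb _
  have i3 : ∀ {f : X → ℝ} {c : ℝ}, Measurable f → (∀ p, |f p| ≤ c) →
      IntegrableOn (fun y => f (t, y, u3 D (t, y)))
        {y | y ∈ I ∧ 0 < u3 D (t, y) ∧ u3 D (t, y) < 1} := fun hf hb =>
    disc_intOn (fun _ hz => hz.1) (hf.comp g3) fun _ => hb _
  unfold slv
  beta_reduce
  rw [integral_add (i2 m2 b2) ((i2 k2 c2).const_mul e),
    integral_add (i3 m3 b3) ((i3 k3 c3).const_mul e), integral_const_mul, integral_const_mul]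
  ring

lemma disc_cY2_le (D : Set X) (p : X) : |cY2 D p| ≤ 1 := by
  have := cY_sq D p
  exact abs_le_one_iff_mul_self_le_one.mpr (by nlinarith [sq_nonneg (cY3 D p)])

lemma disc_cY3_le (D : Set X) (p : X) : |cY3 D p| ≤ 1 := by
  have := cY_sq D p
  exact abs_le_one_iff_mul_self_le_one.mpr (by nlinarith [sq_nonneg (cY2 D p)])

lemma disc_lim {L M C : ℝ} (hC : 0 < C)
    (h : ∀ q : ℚ, |(q : ℝ)| * C ≤ 1 → (q : ℝ) * L ≤ (q : ℝ) ^ 2 * M) : L = 0 := by
  by_contra hL
  have hL' : 0 < |L| := abs_pos.mpr hL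
  have hM : 0 < |M| + 1 := by positivity
  obtain ⟨q, hq0, hq⟩ := exists_rat_btwn (lt_min (one_div_pos.mpr hC) (div_pos hL' hM))
  have hq1 : (q : ℝ) * C ≤ 1 := by
    have := (lt_min_iff.mp hq).1
    rw [lt_div_iff₀ hC] at this
    exact this.le
  have hq2 : (q : ℝ) * (|M| + 1) < |L| := by
    have := (lt_min_iff.mp hq).2
    rwa [lt_div_iff₀ hM] at this
  have h1 := h q (by rwa [abs_of_pos hq0])
  have h2 := h (-q) (by push_cast; rwa [abs_neg, abs_of_pos hq0])
  push_cast at h2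
  have h3 : L ≤ q * M := by
    have : (q : ℝ) * L ≤ q * (q * M) := by linarith
    exact le_of_mul_le_mul_left this hq0
  have h4 : -L ≤ q * M := by
    have : (q : ℝ) * -L ≤ q * (q * M) := by linarith
    exact le_of_mul_le_mul_left this hq0
  have h5 : |L| ≤ q * M := abs_le.mpr ⟨by linarith, h3⟩
  have h6 : (q : ℝ) * M ≤ q * |M| := mul_le_mul_of_nonneg_left (le_abs_self M) hq0.le
  linarith

/-- first variation of the calibration inequality -/
lemma disc_perp (h : Surf D A n1 n2 n3) {φ : X → ℝ} (hφ : Measurable φ) {C : ℝ} (hC : 0 < C)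
    (hb : ∀ p, |φ p| ≤ C) :
    ∀ᵐ t, t ∈ I → lam A n2 n3 t ≤ slv D (cY2 D) (cY3 D) t →
      slv D (fun p => φ p * cY3 D p) (fun p => -(φ p * cY2 D p)) t = 0 := by
  have m2 := h.down.measurable_cY2
  have m3 := h.down.measurable_cY3
  have hb1 : ∀ (p : X) (x : ℝ), |x| ≤ 1 → |φ p * x| ≤ C := fun p x hx => by
    rw [abs_mul]
    calc |φ p| * |x| ≤ C * 1 := mul_le_mul (hb p) hx (abs_nonneg _) hC.le
      _ = C := mul_one C
  have hb2 : ∀ (p : X) (x : ℝ), |x| ≤ 1 → |φ p * (φ p * x)| ≤ C * C := fun p x hx => by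
    rw [abs_mul]
    exact mul_le_mul (hb p) (hb1 p x hx) (abs_nonneg _) hC.le
  have hb3 : ∀ (q x y : ℝ), |x| ≤ 1 → |y| ≤ C → |x + q * y| ≤ 1 + |q| * C := fun q x y hx hy => by
    refine (abs_add_le _ _).trans (add_le_add hx ?_)
    rw [abs_mul]
    exact mul_le_mul_of_nonneg_left hy (abs_nonneg _)
  have key : ∀ q : ℚ, ∀ᵐ t, |(q : ℝ)| * C ≤ 1 → t ∈ I →
      slv D (cY2 D) (cY3 D) t + q * slv D (fun p => φ p * cY3 D p) (fun p => -(φ p * cY2 D p)) t +
        -(q : ℝ) ^ 2 * slv D (fun p => φ p * (φ p * cY2 D p)) (fun p => φ p * (φ p * cY3 D p)) t ≤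
          lam A n2 n3 t := by
    intro q
    by_cases hq : |(q : ℝ)| * C ≤ 1
    swap
    · exact Eventually.of_forall fun t h => absurd h hq
    have h1 := h.slv_le
      (Y2 := fun p => (cY2 D p + q * (φ p * cY3 D p)) + -(q : ℝ) ^ 2 * (φ p * (φ p * cY2 D p)))
      (Y3 := fun p => (cY3 D p + q * -(φ p * cY2 D p)) + -(q : ℝ) ^ 2 * (φ p * (φ p * cY3 D p)))
      (by fun_prop) (by fun_prop) (by
        intro p
        have h1 := cY_sq D p
        have h2 : |(q : ℝ) * φ p| ≤ 1 := by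
          rw [abs_mul]
          exact (mul_le_mul_of_nonneg_left (hb p) (abs_nonneg _)).trans hq
        have h3 : ((q : ℝ) * φ p) ^ 2 ≤ 1 := by
          rw [← sq_abs]; exact pow_le_one₀ (abs_nonneg _) h2
        have h4 : (cY2 D p + q * (φ p * cY3 D p) + -(q : ℝ) ^ 2 * (φ p * (φ p * cY2 D p))) ^ 2 +
            (cY3 D p + q * -(φ p * cY2 D p) + -(q : ℝ) ^ 2 * (φ p * (φ p * cY3 D p))) ^ 2 =
            ((1 - ((q : ℝ) * φ p) ^ 2) ^ 2 + ((q : ℝ) * φ p) ^ 2) * (cY2 D p ^ 2 + cY3 D p ^ 2) := by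
          ring
        rw [h4, h1]
        have h5 := sq_nonneg ((q : ℝ) * φ p)
        generalize ((q : ℝ) * φ p) ^ 2 = x at h3 h5 ⊢
        nlinarith)
    filter_upwards [h1] with t ht _ htI
    have h2 := ht htI
    rw [disc_slv_add h.down (by fun_prop) (by fun_prop) (by fun_prop) (by fun_prop)
      (fun p => hb3 q _ _ (disc_cY2_le D p) (hb1 p _ (disc_cY3_le D p)))
      (fun p => hb3 q _ _ (disc_cY3_le D p) (by rw [abs_neg]; exact hb1 p _ (disc_cY2_le D p)))
      (fun p => hb2 p _ (disc_cY2_le D p)) (fun p => hb2 p _ (disc_cY3_le D p)),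
      disc_slv_add h.down m2 m3 (by fun_prop) (by fun_prop) (disc_cY2_le D) (disc_cY3_le D)
      (fun p => hb1 p _ (disc_cY3_le D p))
      (fun p => by rw [abs_neg]; exact hb1 p _ (disc_cY2_le D p))] at h2
    exact h2
  filter_upwards [ae_all_iff.mpr key] with t ht htI hl
  refine disc_lim (M := slv D (fun p => φ p * (φ p * cY2 D p)) (fun p => φ p * (φ p * cY3 D p)) t)
    hC fun q hq => ?_
  have := ht q hq htI
  linarith

lemma disc_ext2_le (D : Set X) (t : ℝ) : ext2 D t ≤ 1 := by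
  unfold ext2
  refine ENNReal.toReal_le_of_le_ofReal zero_le_one ?_
  calc volume {y : ℝ | y ∈ I ∧ 0 < u3 D (t, y)} ≤ volume I := measure_mono fun _ hy => hy.1
    _ = ENNReal.ofReal 1 := by simp

/-- the test function -/
noncomputable def disc_phi (D : Set X) (s : ℝ) (p : X) : ℝ :=
  if p.2.1 < s * ext2 D p.1 then 1 / cY3 D p else 0

lemma disc_phi_meas (h : Down D) (s : ℝ) : Measurable (disc_phi D s) := by
  have m := h.measurable_ext2
  have m3 := h.measurable_cY3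
  exact Measurable.ite (measurableSet_lt (by fun_prop) (by fun_prop)) (by fun_prop) measurable_const

lemma disc_cY3_ge (D : Set X) {s : ℝ} (h0 : 0 < s) {p : X} (hp : p.2.1 < s * ext2 D p.1) :
    √(1 - s ^ 2) ≤ cY3 D p := by
  unfold cY3
  refine Real.sqrt_le_sqrt ?_
  have h1 : 0 ≤ cY2 D p := le_max_left _ _
  have h2 : cY2 D p ≤ s := by
    refine max_le h0.le ((min_le_left _ _).trans ?_)
    have h3 : 0 ≤ ext2 D p.1 := ENNReal.toReal_nonneg
    rcases h3.lt_or_eq with h4 | h4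
    · rw [div_le_iff₀ h4]; exact hp.le
    · rw [← h4]; simpa using h0.le
  have := pow_le_pow_left₀ h1 h2 2
  linarith

lemma disc_phi_le (D : Set X) {s : ℝ} (h0 : 0 < s) (h1 : s < 1) (p : X) :
    |disc_phi D s p| ≤ 1 / √(1 - s ^ 2) := by
  have h2 : 0 < √(1 - s ^ 2) := Real.sqrt_pos.mpr (by nlinarith)
  unfold disc_phi
  split_ifs with hp
  · have h3 := disc_cY3_ge D h0 hp
    rw [abs_of_pos (one_div_pos.mpr (h2.trans_le h3))]
    exact one_div_le_one_div_of_le h2 h3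
  · simp

lemma disc_integral {p s : ℝ} (hp : 0 < p) (h0 : 0 < s) (h1 : s < 1) :
    ∫ y in Ioo 0 (s * p), (y / p) / √(1 - (y / p) ^ 2) = p - p * √(1 - s ^ 2) := by
  have hsp : 0 ≤ s * p := by positivity
  have hpos : ∀ y ∈ uIcc 0 (s * p), 0 < 1 - (y / p) ^ 2 := by
    intro y hy
    rw [uIcc_of_le hsp] at hy
    have h2 : 0 ≤ y / p := div_nonneg hy.1 hp.le
    have h3 : y / p ≤ s := by rw [div_le_iff₀ hp]; exact hy.2
    nlinarith
  rw [← integral_Ioc_eq_integral_Ioo, ← intervalIntegral.integral_of_le hsp,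
    intervalIntegral.integral_eq_sub_of_hasDerivAt (f := fun y => -(p * √(1 - (y / p) ^ 2)))]
  · have : s * p / p = s := by field_simp
    simp [this]
    ring
  · intro y hy
    have h2 := hpos y hy
    have h3 : HasDerivAt (fun y : ℝ => 1 - (y / p) ^ 2) (-(2 * (y / p) * (1 / p))) y := by
      have := (((hasDerivAt_id y).div_const p).pow 2).const_sub 1
      refine HasDerivAt.congr_deriv this ?_
      simp
    refine HasDerivAt.congr_deriv ((h3.sqrt h2.ne').const_mul p).neg ?_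
    have : 0 < √(1 - (y / p) ^ 2) := Real.sqrt_pos.mpr h2
    field_simp
  · refine ContinuousOn.intervalIntegrable ?_
    refine ContinuousOn.div (by fun_prop) (by fun_prop) fun y hy => ?_
    exact (Real.sqrt_pos.mpr (hpos y hy)).ne'

lemma disc_act_ae (h : Down D) {t : ℝ} (hs : sig D t = 0) :
    {y : ℝ | y ∈ I ∧ 0 < u3 D (t, y) ∧ u3 D (t, y) < 1} =ᵐ[volume] Ioo 0 (ext2 D t) := by
  have h1 := h.ext2_ae t
  have h2 := h.sig_ae t
  rw [hs] at h2
  rw [eventuallyEq_set] at h1 h2 ⊢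
  filter_upwards [h1, h2] with y h1 h2
  rw [← h1]
  simp only [mem_ofPred_eq, Ioo_self, mem_empty_iff_false, iff_false, not_and] at h2 ⊢
  exact ⟨fun h => ⟨h.1, h.2.1⟩, fun h' => ⟨h'.1, h'.2, lt_of_le_of_ne (h.u3_le _) (h2 h'.1)⟩⟩

lemma disc_slv_phi (h : Down D) {t s : ℝ} (hs : sig D t = 0) (hp : 0 < ext2 D t) (h0 : 0 < s)
    (h1 : s < 1) :
    slv D (fun p => disc_phi D s p * cY3 D p) (fun p => -(disc_phi D s p * cY2 D p)) t =
      volume.real {z : ℝ | z ∈ I ∧ 0 < u2 D (t, z) ∧ u2 D (t, z) < s * ext2 D t} -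
        (ext2 D t - ext2 D t * √(1 - s ^ 2)) := by
  have h2 : 0 < √(1 - s ^ 2) := Real.sqrt_pos.mpr (by nlinarith)
  have hsp : s * ext2 D t < ext2 D t := by nlinarith
  have hv : Measurable fun z : ℝ => u2 D (t, z) :=
    h.measurable_u2.comp (measurable_const.prodMk measurable_id)
  have hm : MeasurableSet {z : ℝ | u2 D (t, z) < s * ext2 D t} :=
    measurableSet_lt hv measurable_const
  unfold slv
  rw [sub_eq_add_neg]
  congr 1
  · have : ∀ z : ℝ, disc_phi D s (t, u2 D (t, z), z) * cY3 D (t, u2 D (t, z), z) =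
        {z : ℝ | u2 D (t, z) < s * ext2 D t}.indicator 1 z := by
      intro z
      unfold disc_phi
      by_cases hz : u2 D (t, z) < s * ext2 D t
      · have h3 := disc_cY3_ge D h0 (p := (t, u2 D (t, z), z)) hz
        rw [if_pos hz, indicator_of_mem (by exact hz), one_div, inv_mul_cancel₀ (h2.trans_le h3).ne']
        rfl
      · rw [if_neg hz, indicator_of_notMem (by exact hz), zero_mul]
    simp only [this]
    rw [integral_indicator_one hm, measureReal_restrict_apply hm]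
    congr 1
    ext z
    simp only [mem_inter_iff, mem_ofPred_eq]
    exact ⟨fun h => ⟨h.2.1, h.2.2.1, h.1⟩,
      fun h => ⟨h.2.2, h.1, h.2.1, by linarith [h.2.2, disc_ext2_le D t]⟩⟩
  · rw [setIntegral_congr_set (disc_act_ae h hs), integral_neg, ← disc_integral hp h0 h1]
    congr 1
    have : ∀ y ∈ Ioo 0 (ext2 D t), disc_phi D s (t, y, u3 D (t, y)) * cY2 D (t, y, u3 D (t, y)) =
        (Iio (s * ext2 D t)).indicator (fun y => (y / ext2 D t) / √(1 - (y / ext2 D t) ^ 2)) y := by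
      intro y hy
      have h3 : cY2 D (t, y, u3 D (t, y)) = y / ext2 D t := by
        unfold cY2
        rw [min_eq_left ((div_le_one hp).mpr hy.2.le), max_eq_right (div_nonneg hy.1.le hp.le)]
      unfold disc_phi cY3
      by_cases hz : y < s * ext2 D t
      · rw [if_pos hz, indicator_of_mem (by exact hz), h3]
        ring
      · rw [if_neg hz, indicator_of_notMem (by exact hz), zero_mul]
    rw [setIntegral_congr_fun measurableSet_Ioo this, setIntegral_indicator measurableSet_Iio,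
      Ioo_inter_Iio, min_eq_right hsp.le]

lemma disc_le_of_rat {g : ℝ → ℝ} (hg : Continuous g) {a x c : ℝ} (hx : a < x)
    (h : ∀ q : ℚ, a < q → q < x → c ≤ g q) : c ≤ g x := by
  by_contra hc
  have h1 := (hg.continuousAt (x := x)).eventually_lt continuousAt_const (not_le.mp hc)
  obtain ⟨δ, hδ, h2⟩ := Metric.eventually_nhds_iff.mp h1
  obtain ⟨q, hq1, hq2⟩ := exists_rat_btwn (max_lt hx (sub_lt_self x hδ))
  have h3 := h2 (y := q) (by
    rw [Real.dist_eq, abs_lt]
    constructor <;> linarith [(max_lt_iff.mp hq1).2])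
  exact absurd (h q (max_lt_iff.mp hq1).1 hq2) (not_le.mpr h3)

lemma disc_ge_of_rat {g : ℝ → ℝ} (hg : Continuous g) {b x c : ℝ} (hx : x < b)
    (h : ∀ q : ℚ, x < q → q < b → g q ≤ c) : g x ≤ c := by
  by_contra hc
  have h1 := continuousAt_const.eventually_lt (hg.continuousAt (x := x)) (not_le.mp hc)
  obtain ⟨δ, hδ, h2⟩ := Metric.eventually_nhds_iff.mp h1
  obtain ⟨q, hq1, hq2⟩ := exists_rat_btwn (lt_min hx (lt_add_of_pos_right x hδ))
  have h3 := h2 (y := q) (by
    rw [Real.dist_eq, abs_lt]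
    constructor <;> linarith [(lt_min_iff.mp hq2).2])
  exact absurd (h q hq1 (lt_min_iff.mp hq2).1) (not_le.mpr h3)

/-- the planar argument -/
lemma disc_planar (h : Down D) {t : ℝ} (hp : 0 < ext2 D t)
    (ha : sa D t = π * ext2 D t ^ 2 / 4)
    (hq : ∀ s : ℚ, 0 < (s : ℝ) → (s : ℝ) < 1 →
      volume.real {z : ℝ | z ∈ I ∧ 0 < u2 D (t, z) ∧ u2 D (t, z) < s * ext2 D t} =
        ext2 D t - ext2 D t * √(1 - (s : ℝ) ^ 2)) :
    ∀ᵐ y, y ∈ I → u3 D (t, y) = √(ext2 D t ^ 2 - y ^ 2) := by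
  set p := ext2 D t with hpdef
  have hp1 : p ≤ 1 := disc_ext2_le D t
  have hv : Measurable fun z : ℝ => u2 D (t, z) :=
    h.measurable_u2.comp (measurable_const.prodMk measurable_id)
  set κ := ext3 D t - p with hκ
  have hG : ∀ s : ℚ, 0 < (s : ℝ) → (s : ℝ) < 1 →
      volume.real {z : ℝ | z ∈ I ∧ s * p ≤ u2 D (t, z)} = κ + p * √(1 - (s : ℝ) ^ 2) := by
    intro s h0 h1
    have hsp : 0 < (s : ℝ) * p := mul_pos h0 hp
    have h2 : {z : ℝ | z ∈ I ∧ 0 < u2 D (t, z)} =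
        {z : ℝ | z ∈ I ∧ 0 < u2 D (t, z) ∧ u2 D (t, z) < s * p} ∪
          {z : ℝ | z ∈ I ∧ s * p ≤ u2 D (t, z)} := by
      ext z
      simp only [mem_union, mem_ofPred_eq]
      constructor
      · rintro ⟨h1, h2⟩
        rcases lt_or_ge (u2 D (t, z)) (s * p) with h3 | h3
        · exact Or.inl ⟨h1, h2, h3⟩
        · exact Or.inr ⟨h1, h3⟩
      · rintro (h | h)
        · exact ⟨h.1, h.2.1⟩
        · exact ⟨h.1, hsp.trans_le h.2⟩
    have h3 : ext3 D t = volume.real {z : ℝ | z ∈ I ∧ 0 < u2 D (t, z)} := rfl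
    have h4 : MeasurableSet {z : ℝ | z ∈ I ∧ s * p ≤ u2 D (t, z)} :=
      measurableSet_Ioo.inter (measurableSet_le measurable_const hv)
    have h5 : Disjoint {z : ℝ | z ∈ I ∧ 0 < u2 D (t, z) ∧ u2 D (t, z) < s * p}
        {z : ℝ | z ∈ I ∧ s * p ≤ u2 D (t, z)} := by
      rw [Set.disjoint_left]
      intro z h1 h2
      exact absurd h1.2.2 (not_lt.mpr h2.2)
    rw [h2, measureReal_union h5 h4
      (disc_fin fun _ hz => hz.1) (disc_fin fun _ hz => hz.1), hq s h0 h1] at h3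
    linarith
  have hsub : ∀ y, {z : ℝ | (t, y, z) ∈ D} ⊆ I := fun y z hz => (h.sub hz).2.2
  have hw : ∀ y ∈ Ioo 0 p, u3 D (t, y) = κ + p * √(1 - (y / p) ^ 2) := by
    intro y hy
    have hyI : y ∈ I := ⟨hy.1, hy.2.trans_le hp1⟩
    have hu : u3 D (t, y) = volume.real {z : ℝ | (t, y, z) ∈ D} := rfl
    have hg : Continuous fun s : ℝ => κ + p * √(1 - s ^ 2) := by fun_prop
    have hy0 : 0 < y / p := div_pos hy.1 hp
    have hy1 : y / p < 1 := (div_lt_one hp).mpr hy.2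
    refine le_antisymm (disc_le_of_rat hg hy0 fun q hq0 hq1 => ?_)
      (disc_ge_of_rat hg hy1 fun q hq0 hq1 => ?_)
    · rw [← hG q hq0 (hq1.trans hy1), hu]
      refine measureReal_mono (fun z hz => ⟨hsub y hz, ?_⟩) (disc_fin fun _ hz => hz.1)
      rw [lt_div_iff₀ hp] at hq1
      exact hq1.le.trans (h.le_u2 hz)
    · rw [← hG q (hy0.trans hq0) hq1, hu]
      refine measureReal_mono (fun z hz => ?_) (disc_fin (hsub y))
      rw [div_lt_iff₀ hp] at hq0
      exact h.mem_of_lt_u2 hyI (hq0.trans_le hz.2)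
  have he := eventuallyEq_set.mp (h.ext2_ae t)
  have hz : ∀ᵐ y, y ∈ I → y ∉ Ioo 0 p → u3 D (t, y) = 0 := by
    filter_upwards [he] with y hy hyI hyp
    by_contra hc
    exact hyp (hy.mp ⟨hyI, lt_of_le_of_ne (u3_nonneg _ _) (Ne.symm hc)⟩)
  have hκ0 : κ = 0 := by
    have h1 : ∫ y in I, u3 D (t, y) = ∫ y in Ioo 0 p, u3 D (t, y) := by
      refine setIntegral_eq_of_subset_of_ae_sdiff_eq_zero measurableSet_Ioo.nullMeasurableSet
        (Ioo_subset_Ioo_right hp1) ?_
      filter_upwards [hz] with y hy hy'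
      exact hy hy'.1 hy'.2
    have hc : Continuous fun y : ℝ => p * √(1 - (y / p) ^ 2) := by fun_prop
    rw [← h.sa_eq_u3, setIntegral_congr_fun measurableSet_Ioo hw,
      integral_add (continuous_const.integrableOn_Icc.mono_set Ioo_subset_Icc_self)
        (hc.integrableOn_Icc.mono_set Ioo_subset_Icc_self),
      integral_const_mul, integral_quarter hp, ha] at h1
    simp only [integral_const, MeasurableSet.univ, measureReal_restrict_apply, univ_inter,
      Real.volume_real_Ioo, sub_zero, smul_eq_mul, max_eq_left hp.le] at h1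
    have : p * κ = 0 := by linarith
    exact (mul_eq_zero.mp this).resolve_left hp.ne'
  filter_upwards [hz] with y hy hyI
  by_cases hyp : y ∈ Ioo 0 p
  · rw [hw y hyp, hκ0, zero_add,
      show p ^ 2 - y ^ 2 = p ^ 2 * (1 - (y / p) ^ 2) by field_simp,
      Real.sqrt_mul (sq_nonneg p), Real.sqrt_sq hp.le]
  · rw [hy hyI hyp, eq_comm, Real.sqrt_eq_zero']
    have : p ≤ y := not_lt.mp fun h => hyp ⟨hyI.1, h⟩
    nlinarith

/-- Let `p = ext2 D t`, `B' = B ∩ {p > 0}` (off `B'` the slice is empty: `u3 = 0` a.e., `sa = 0`).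
On `B'`: `√(π a) ≤ a / p + π p / 4 = slv ≤ lam ≤ √(π a)` a.e., so `4 a / π = p²`, and
`∫ 1_{B'}(x) (√(n2² + n3²) - (cY2 n2 + cY3 n3)) dA = 0` (`integral_lam`, `integral_slv`); hence
`cY3 n2 = cY2 n3` for `A`-a.e. point over `B'`.  For rationals `0 < s < s' < 1` apply `integral_slv`
to `(Y2, Y3) = (1_{s p < y < s' p}, - 1_{s p < y < s' p} cY2 / cY3)`: for a.e. `t ∈ B'`,
`|{z | s p < u2 (t, z) < s' p}| = ∫_{s p}^{s' p} y / √(p² - y²) dy = p (√(1 - s²) - √(1 - s'²))`.
The left side is squeezed by differences of the antitone function `w = u3 D (t, ·)`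
(`w (s p +) - w (s' p -) ≤ … ≤ w (s p) - w (s' p)` style), so `w y - √(p² - y²)` is a.e. equal to a
constant `κ` on `(0, p)`; `a = ∫ w = π p² / 4 + κ p` gives `κ = 0`. -/
theorem Surf.disc3 (h : Surf D A n1 n2 n3) {B : Set ℝ} (hB : MeasurableSet B) (hI : B ⊆ I)
    (hc : ∀ t ∈ B, rho D t = 0 ∧ sig D t = 0)
    (hl : ∀ᵐ t, t ∈ B → lam A n2 n3 t ≤ √(π * sa D t)) :
    ∀ᵐ t, t ∈ B → ∀ᵐ y, y ∈ I → u3 D (t, y) = √(4 * sa D t / π - y ^ 2) := by
  have key : ∀ s : ℚ, ∀ᵐ t, 0 < (s : ℝ) → (s : ℝ) < 1 → t ∈ I →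
      lam A n2 n3 t ≤ slv D (cY2 D) (cY3 D) t →
      slv D (fun p => disc_phi D s p * cY3 D p) (fun p => -(disc_phi D s p * cY2 D p)) t = 0 := by
    intro s
    by_cases hs : 0 < (s : ℝ) ∧ (s : ℝ) < 1
    · have h2 : 0 < √(1 - (s : ℝ) ^ 2) := Real.sqrt_pos.mpr (by nlinarith [hs.1, hs.2])
      filter_upwards [disc_perp h (disc_phi_meas h.down s) (one_div_pos.mpr h2)
        (disc_phi_le D hs.1 hs.2)] with t ht _ _ using ht
    · exact Eventually.of_forall fun t h0 h1 => absurd ⟨h0, h1⟩ hs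
  filter_upwards [ae_all_iff.mpr key, hl, h.slv_le h.down.measurable_cY2 h.down.measurable_cY3
    fun p => (cY_sq D p).le] with t h1 h2 h3 htB
  have htI := hI htB
  obtain ⟨hr, hs⟩ := hc t htB
  have h2 := h2 htB
  have h3 := h3 htI
  have hp0 : 0 ≤ ext2 D t := ENNReal.toReal_nonneg
  rcases hp0.lt_or_eq with hp | hp
  · have hsl := h.down.slv_corner hr hs hp
    have hπ := Real.pi_pos
    have hr2 : √(π * sa D t) ^ 2 = π * sa D t :=
      Real.sq_sqrt (mul_nonneg hπ.le (sa_nonneg D t))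
    have hid : (sa D t / ext2 D t + π * ext2 D t / 4 - √(π * sa D t)) * (4 * π * ext2 D t) =
        (2 * √(π * sa D t) - π * ext2 D t) ^ 2 := by
      have : (2 * √(π * sa D t) - π * ext2 D t) ^ 2 =
          4 * √(π * sa D t) ^ 2 - 4 * π * ext2 D t * √(π * sa D t) + (π * ext2 D t) ^ 2 := by ring
      rw [this, hr2]
      field_simp
      ring
    have hpos : 0 < 4 * π * ext2 D t := by positivity
    have hge : 0 ≤ sa D t / ext2 D t + π * ext2 D t / 4 - √(π * sa D t) :=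
      nonneg_of_mul_nonneg_left (by rw [hid]; exact sq_nonneg _) hpos
    have heq : sa D t / ext2 D t + π * ext2 D t / 4 - √(π * sa D t) = 0 := by linarith
    rw [heq, zero_mul, eq_comm, pow_eq_zero_iff two_ne_zero] at hid
    have ha : sa D t = π * ext2 D t ^ 2 / 4 := by
      have h4 : √(π * sa D t) = π * ext2 D t / 2 := by linarith
      rw [h4] at hr2
      have : π * sa D t = π * (π * ext2 D t ^ 2 / 4) := by rw [← hr2]; ring
      exact mul_left_cancel₀ hπ.ne' this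
    have h4 : 4 * sa D t / π = ext2 D t ^ 2 := by rw [ha]; field_simp
    rw [h4]
    refine disc_planar h.down hp ha fun s h0 h1' => ?_
    have := h1 s h0 h1' htI (by linarith)
    rw [disc_slv_phi h.down hs hp h0 h1'] at this
    linarith
  · have he := eventuallyEq_set.mp (h.down.ext2_ae t)
    rw [← hp] at he
    filter_upwards [he] with y hy hyI
    rw [h.down.sa_eq_zero hp.symm, Real.sqrt_eq_zero'.mpr (by simp [sq_nonneg y])]
    by_contra hc
    have := hy.mp ⟨hyI, lt_of_le_of_ne (u3_nonneg _ _) (Ne.symm hc)⟩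
    simp at this

theorem Surf.disc2 (h : Surf D A n1 n2 n3) {B : Set ℝ} (hB : MeasurableSet B) (hI : B ⊆ I)
    (hc : ∀ t ∈ B, rho D t = 0 ∧ sig D t = 0)
    (hl : ∀ᵐ t, t ∈ B → lam A n2 n3 t ≤ √(π * sa D t)) :
    ∀ᵐ t, t ∈ B → ∀ᵐ z, z ∈ I → u2 D (t, z) = √(4 * sa D t / π - z ^ 2) := by
  have := h.swp.disc3 hB hI (fun t ht => ⟨(hc t ht).2, (hc t ht).1⟩)
    (by rw [lam_swp A h.m2 h.m3, sa_swp]; exact hl)
  rw [sa_swp, u3_swp] at this
  exact this

end Crest.Agent.R214
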