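import Crest.Agent.R214.Contact
import Crest.Agent.R214.Disc
import Crest.Agent.R214.Combine

/-! Row 214: rigidity: tube and ball. -/

set_option autoImplicit false

namespace Crest.Agent.R214

open MeasureTheory Set Filter Topology Real
open scoped ENNReal

variable {D : Set X} {A : Measure X} {n1 n2 n3 : X → ℝ} {H F1 F2 F3 : ℝ}

lemma rig_ae_le {f g : ℝ → ℝ} (hf : IntegrableOn f I) (hg : IntegrableOn g I)
    (hle : ∀ᵐ t, t ∈ I → g t ≤ f t) (hi : ∫ t in I, f t ≤ ∫ t in I, g t) :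
    ∀ᵐ t, t ∈ I → f t ≤ g t := by
  have h1 : g ≤ᵐ[volume.restrict I] f := (ae_restrict_iff' measurableSet_Ioo).mpr hle
  have h2 : ∫ t in I, g t = ∫ t in I, f t := le_antisymm (integral_mono_ae hg hf h1) hi
  have h3 := (integral_eq_iff_of_ae_le hg hf h1).mp h2
  have h4 := (ae_restrict_iff' measurableSet_Ioo).mp h3
  filter_upwards [h4] with t ht hI
  exact (ht hI).ge

lemma rig_exists {P : ℝ → Prop} (hP : ∀ᵐ x, P x) {ε : ℝ} (hε : 0 < ε) :
    ∃ x ∈ Ioo 0 ε, P x := by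
  have h0 : volume (Ioo (0 : ℝ) ε) ≠ 0 := by simp [hε]
  exact Measure.exists_mem_of_measure_ne_zero_of_ae h0 (ae_restrict_of_ae hP)

lemma rig_int_sa (h : Down D) : IntegrableOn (sa D) I :=
  disc_intOn subset_rfl h.measurable_sa (C := 1) fun t =>
    abs_le.mpr ⟨by linarith [sa_nonneg D t], h.sa_le_one t⟩

lemma rig_u3_zero (h : Down D) {t : ℝ} (ht : sa D t = 0) : ∀ᵐ y, y ∈ I → u3 D (t, y) = 0 := by
  have hm : Measurable fun y : ℝ => u3 D (t, y) :=
    h.measurable_u3.comp (measurable_const.prodMk measurable_id)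
  have hi : IntegrableOn (fun y : ℝ => u3 D (t, y)) I :=
    disc_intOn subset_rfl hm (C := 1) fun y =>
      abs_le.mpr ⟨by linarith [u3_nonneg D (t, y)], h.u3_le _⟩
  have h0 : IntegrableOn (fun _ : ℝ => (0 : ℝ)) I := integrable_zero _ _ _
  have := rig_ae_le hi h0 (Eventually.of_forall fun y _ => u3_nonneg D _)
    (by rw [← h.sa_eq_u3, ht]; simp)
  filter_upwards [this] with y hy hI
  exact le_antisymm (hy hI) (u3_nonneg D _)

lemma rig_u2_zero (h : Down D) {t : ℝ} (ht : sa D t = 0) : ∀ᵐ z, z ∈ I → u2 D (t, z) = 0 := by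
  have := rig_u3_zero h.swp (t := t) (by rw [sa_swp]; exact ht)
  rw [u3_swp] at this
  exact this

/-- `ae_eq_u3` and Fubini (`Measure.ae_prod_iff_ae_ae`); for `z > 0`, `z < √c ↔ z² < c` -/
lemma Down.ae_cmod (h : Down D) {e1 R : ℝ}
    (hu : ∀ᵐ x, x ∈ I → ∀ᵐ y, y ∈ I → u3 D (x, y) = √(R ^ 2 - e1 * x ^ 2 - y ^ 2)) :
    D =ᵐ[volume] CMod e1 1 1 R := by
  have hm : Measurable fun p : X => u3 D (p.1, p.2.1) :=
    h.measurable_u3.comp (measurable_fst.prodMk (measurable_fst.comp measurable_snd))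
  have hm' : Measurable fun p : X => √(R ^ 2 - e1 * p.1 ^ 2 - p.2.1 ^ 2) := by fun_prop
  have hI1 : MeasurableSet {p : X | p.1 ∈ I} := measurable_fst measurableSet_Ioo
  have hI2 : MeasurableSet {p : X | p.2.1 ∈ I} :=
    (measurable_fst.comp measurable_snd) measurableSet_Ioo
  have hS : MeasurableSet {p : X | p.1 ∈ I → p.2.1 ∈ I →
      u3 D (p.1, p.2.1) = √(R ^ 2 - e1 * p.1 ^ 2 - p.2.1 ^ 2)} :=
    hI1.imp (hI2.imp (measurableSet_eq_fun hm hm'))
  have key : ∀ᵐ p : X, p.1 ∈ I → p.2.1 ∈ I →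
      u3 D (p.1, p.2.1) = √(R ^ 2 - e1 * p.1 ^ 2 - p.2.1 ^ 2) := by
    rw [Measure.volume_eq_prod, Measure.ae_prod_iff_ae_ae hS]
    filter_upwards [hu] with x hx
    by_cases hxI : x ∈ I
    · have h2 : ∀ᵐ q : ℝ × ℝ, q.1 ∈ I → u3 D (x, q.1) = √(R ^ 2 - e1 * x ^ 2 - q.1 ^ 2) := by
        rw [Measure.volume_eq_prod]
        exact Measure.quasiMeasurePreserving_fst.ae (hx hxI)
      filter_upwards [h2] with q hq _ hq1
      exact hq hq1
    · exact Eventually.of_forall fun q h1 => absurd h1 hxI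
  refine h.ae_eq_u3.trans ?_
  rw [eventuallyEq_set]
  filter_upwards [key] with p hp
  simp only [CMod, mem_ofPred_eq]
  refine and_congr_right fun hQ => ?_
  rw [hp hQ.1 hQ.2.1, Real.lt_sqrt hQ.2.2.1.le]
  constructor <;> intro hh <;> linarith

/-- `√(π V) ≤ H V + F1 ≤ A ≤ conj V ≤ √(π V)`, so `α = β`, `sa D = V` on `I`; the contacts vanish
near `1`, hence everywhere (`rho_eq_of_sa_eq`); `√(π V) ≤ lam` a.e. and `∫ lam ≤ A` give
`lam = √(π V)` a.e.; `disc3` with `B = I`. -/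
theorem Geo.tube (h : Geo D A n1 n2 n3 H F1 F2 F3) (h3 : be (cyc ⁻¹' D) < 1)
    (h2 : be (cyc ⁻¹' (cyc ⁻¹' D)) < 1) (ht : √(π * vol D) ≤ H * vol D + F1) :
    √(π * vol D) ≤ A.real univ ∧ D =ᵐ[volume] CMod 0 1 1 √(4 * vol D / π) := by
  have d := h.dir
  have hd := h.min.down
  have hA : A.real univ ≤ √(π * vol D) := h.A_le.trans (conj_le_sqrt h.half)
  have ha := d.a_eq (d.eq_of_le (hA.trans ht))
  refine ⟨ht.trans d.le_A, ?_⟩
  obtain ⟨t0, ⟨hr, hs⟩, ht0⟩ := (((hd.rho_eventually h3).and (hd.sig_eventually h2)).and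
    (Ioo_mem_nhdsLT (zero_lt_one' ℝ))).exists
  have hc : ∀ t ∈ I, rho D t = 0 ∧ sig D t = 0 := fun t htI =>
    ⟨(hd.rho_eq_of_sa_eq htI ht0 ((ha t htI).trans (ha t0 ht0).symm)).trans hr,
      (hd.sig_eq_of_sa_eq htI ht0 ((ha t htI).trans (ha t0 ht0).symm)).trans hs⟩
  have h0 : IntegrableOn (fun _ : ℝ => √(π * vol D)) I :=
    disc_intOn subset_rfl measurable_const (C := |√(π * vol D)|) fun _ => le_rfl
  have hl := rig_ae_le d.il h0 (by
    filter_upwards [h.surf.sl_corner] with t h1 htI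
    have := h1 htI (hc t htI).1 (hc t htI).2
    rwa [ha t htI] at this) (by
    refine d.int_le.trans (hA.trans (le_of_eq ?_))
    simp)
  have := h.surf.disc3 measurableSet_Ioo subset_rfl hc (by
    filter_upwards [hl] with t h1 htI
    rw [ha t htI]
    exact h1 htI)
  refine hd.ae_cmod ?_
  filter_upwards [this] with x hx hxI
  filter_upwards [hx hxI] with y hy hyI
  rw [hy hyI, ha x hxI, Real.sq_sqrt (by have := h.pos; positivity)]
  congr 1
  ring

/-- The contacts vanish (`rho_eq_zero`, `sig_eq_zero`), so `√(π a) ≤ lam` a.e.  `Dir.slab` with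
`c b = √(1 - max b 0 / β)` gives `∫ √(a / β) lam + 2 β / 3 ≤ A ≤ sph V ≤ √(π / β) V + 2 β / 3
= ∫ √(a / β) √(π a) + 2 β / 3`; so `lam = √(π a)` a.e. on `B = {t ∈ I | 0 < a t}`.  Off `B` the
heights vanish a.e. (`sa_eq_u3`, `sa_eq_u2`). -/
theorem Geo.ball_dir (h : Geo D A n1 n2 n3 H F1 F2 F3) (h1 : al D = 0) (h3 : al (cyc ⁻¹' D) = 0)
    (h2 : al (cyc ⁻¹' (cyc ⁻¹' D)) = 0) : sph (vol D) ≤ A.real univ ∧
      (∀ᵐ t, t ∈ I → ∀ᵐ y, y ∈ I → u3 D (t, y) = √(4 * sa D t / π - y ^ 2)) ∧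
      ∀ᵐ t, t ∈ I → ∀ᵐ z, z ∈ I → u2 D (t, z) = √(4 * sa D t / π - z ^ 2) := by
  have d := h.dir
  have hd := h.min.down
  have hβ : 0 < be D := h.pos.trans_le d.le_β
  have hc : ∀ t ∈ I, rho D t = 0 ∧ sig D t = 0 := fun t htI =>
    ⟨hd.rho_eq_zero h2 htI, hd.sig_eq_zero h3 htI⟩
  have hs := d.slab (fun b => √(1 - max b 0 / be D)) (by fun_prop) (fun _ => Real.sqrt_nonneg _)
    (fun b => Real.sqrt_le_one.mpr (by
      have : 0 ≤ max b 0 / be D := div_nonneg (le_max_right _ _) hβ.le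
      linarith))
  have e1 : ∫ b in (al D)..(be D), √(1 - max b 0 / be D) = 2 * be D / 3 := by
    rw [h1, ← integral_sqrt_lin hβ]
    refine intervalIntegral.integral_congr fun b hb => ?_
    rw [uIcc_of_le hβ.le] at hb
    simp only [max_eq_left hb.1]
  have e2 : ∫ t in I, √(1 - √(1 - max (sa D t) 0 / be D) ^ 2) * lam A n2 n3 t =
      ∫ t in I, √(sa D t / be D) * lam A n2 n3 t := by
    refine setIntegral_congr_fun measurableSet_Ioo fun t htI => ?_
    have h4 : sa D t / be D ≤ 1 := (div_le_one hβ).mpr (d.hi t htI)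
    simp only [max_eq_left (sa_nonneg D t)]
    rw [Real.sq_sqrt (by linarith)]
    congr 2
    ring
  rw [e1, e2] at hs
  have hsq : ∀ t, √(π / be D) * sa D t = √(sa D t / be D) * √(π * sa D t) := fun t => by
    have h4 := sa_nonneg D t
    rw [← Real.sqrt_mul (div_nonneg h4 hβ.le),
      show sa D t / be D * (π * sa D t) = π / be D * sa D t ^ 2 by ring,
      Real.sqrt_mul (by positivity), Real.sqrt_sq h4]
  have hf : IntegrableOn (fun t => √(sa D t / be D) * lam A n2 n3 t) I := by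
    have hm := hd.measurable_sa
    refine Integrable.bdd_mul (c := √(1 / be D)) d.il (by fun_prop) (Eventually.of_forall fun t => ?_)
    rw [Real.norm_eq_abs, abs_of_nonneg (Real.sqrt_nonneg _)]
    exact Real.sqrt_le_sqrt (div_le_div_of_nonneg_right (hd.sa_le_one t) hβ.le)
  have hg : IntegrableOn (fun t => √(π / be D) * sa D t) I := (rig_int_sa hd).const_mul _
  have hgf : ∀ᵐ t, t ∈ I → √(π / be D) * sa D t ≤ √(sa D t / be D) * lam A n2 n3 t := by
    filter_upwards [h.surf.sl_corner] with t h4 htI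
    rw [hsq]
    exact mul_le_mul_of_nonneg_left (h4 htI (hc t htI).1 (hc t htI).2) (Real.sqrt_nonneg _)
  have e3 : ∫ t in I, √(π / be D) * sa D t = √(π / be D) * vol D := by
    rw [integral_const_mul, hd.integral_sa]
  have hA : A.real univ ≤ sph (vol D) := h.A_le.trans (conj_le_sph h.half)
  have hsph := sph_le h.pos hβ
  have hmono : ∫ t in I, √(π / be D) * sa D t ≤ ∫ t in I, √(sa D t / be D) * lam A n2 n3 t :=
    integral_mono_ae hg hf ((ae_restrict_iff' measurableSet_Ioo).mpr hgf)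
  have hl := rig_ae_le hf hg hgf (by linarith)
  have hB : MeasurableSet {t : ℝ | t ∈ I ∧ 0 < sa D t} :=
    measurableSet_Ioo.inter (measurableSet_lt measurable_const hd.measurable_sa)
  have hl' : ∀ᵐ t, t ∈ {t : ℝ | t ∈ I ∧ 0 < sa D t} → lam A n2 n3 t ≤ √(π * sa D t) := by
    filter_upwards [hl] with t h4 htB
    have h5 := h4 htB.1
    rw [hsq] at h5
    exact le_of_mul_le_mul_left h5 (Real.sqrt_pos.mpr (div_pos htB.2 hβ))
  have hz : ∀ t y : ℝ, sa D t = 0 → √(4 * sa D t / π - y ^ 2) = 0 := fun t y h0 => by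
    rw [h0]
    exact Real.sqrt_eq_zero_of_nonpos (by simp [sq_nonneg])
  refine ⟨by linarith, ?_, ?_⟩
  · filter_upwards [h.surf.disc3 hB (fun t ht => ht.1) (fun t ht => hc t ht.1) hl'] with t h4 htI
    rcases (sa_nonneg D t).eq_or_lt with h0 | h0
    · filter_upwards [rig_u3_zero hd h0.symm] with y hy hyI
      rw [hy hyI, hz t y h0.symm]
    · exact h4 ⟨htI, h0⟩
  · filter_upwards [h.surf.disc2 hB (fun t ht => ht.1) (fun t ht => hc t ht.1) hl'] with t h4 htI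
    rcases (sa_nonneg D t).eq_or_lt with h0 | h0
    · filter_upwards [rig_u2_zero hd h0.symm] with y hy hyI
      rw [hy hyI, hz t y h0.symm]
    · exact h4 ⟨htI, h0⟩

/-- `ball_dir` for `h` (heights `u3`) and for `h.cyc.cyc` (heights `u2`:
`u2 (cyc ⁻¹' (cyc ⁻¹' D)) (y, x) = u3 D (x, y)` by `rfl`), `combine`; `R ≤ 1` because `u3 ≤ 1`;
`vol D = ∫ sa = π / 4 * ∫ (R² - x²)₊`. -/
theorem Geo.ball (h : Geo D A n1 n2 n3 H F1 F2 F3) (h1 : al D = 0) (h3 : al (cyc ⁻¹' D) = 0)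
    (h2 : al (cyc ⁻¹' (cyc ⁻¹' D)) = 0) : sph (vol D) ≤ A.real univ ∧
      ∃ R, 0 < R ∧ vol D = π * R ^ 3 / 6 ∧ D =ᵐ[volume] CMod 1 1 1 R := by
  have hd := h.min.down
  obtain ⟨hs, hu, -⟩ := h.ball_dir h1 h3 h2
  obtain ⟨-, -, hv⟩ := h.cyc.cyc.ball_dir h2 h1 h3
  have m1 := hd.measurable_sa
  have m2 := hd.cyc.cyc.measurable_sa
  have hpos : ∃ t ∈ I, 0 < 4 * sa D t / π := by
    by_contra hne
    push Not at hne
    have h0 : ∫ t in I, sa D t = ∫ t in I, (0 : ℝ) := by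
      refine setIntegral_congr_fun measurableSet_Ioo fun t htI => ?_
      have h4 := hne t htI
      have h5 := sa_nonneg D t
      rw [div_nonpos_iff] at h4
      rcases h4 with h4 | h4
      · linarith [h4.2, pi_pos]
      · show sa D t = 0
        linarith [h4.1]
    rw [hd.integral_sa] at h0
    have := h.pos
    simp at h0
    linarith
  obtain ⟨R, hR, hr⟩ := combine (u := u3 D) (r1 := fun t => 4 * sa D t / π)
    (r2 := fun t => 4 * sa (cyc ⁻¹' (cyc ⁻¹' D)) t / π) hd.measurable_u3 (by fun_prop) (by fun_prop)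
    (fun s hsI t htI hst => div_le_div_of_nonneg_right
      (by linarith [hd.anti_sa hsI htI hst]) pi_pos.le)
    (fun t => by have := sa_nonneg D t; positivity) hpos hu hv
  have hu' : ∀ᵐ x, x ∈ I → ∀ᵐ y, y ∈ I → u3 D (x, y) = √(R ^ 2 - 1 * x ^ 2 - y ^ 2) := by
    filter_upwards [hu, hr] with x hx hx' hxI
    filter_upwards [hx hxI] with y hy hyI
    rw [hy hyI, hx' hxI, one_mul]
    rcases le_total (R ^ 2 - x ^ 2) 0 with h0 | h0
    · rw [max_eq_right h0, Real.sqrt_eq_zero_of_nonpos (by nlinarith [sq_nonneg y]),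
        Real.sqrt_eq_zero_of_nonpos (by nlinarith [sq_nonneg y])]
    · rw [max_eq_left h0]
  have hR1 : R ≤ 1 := by
    by_contra hne
    push Not at hne
    have hε : (0 : ℝ) < (1 : ℝ) ⊓ ((R ^ 2 - 1) / 2) := lt_min one_pos (by nlinarith)
    obtain ⟨x, hx, hx'⟩ := rig_exists hu' hε
    have hx1 : x < 1 := hx.2.trans_le (min_le_left _ _)
    have hx2 : x < (R ^ 2 - 1) / 2 := hx.2.trans_le (min_le_right _ _)
    obtain ⟨y, hy, hy'⟩ := rig_exists (hx' ⟨hx.1, hx1⟩) hε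
    have hy1 : y < 1 := hy.2.trans_le (min_le_left _ _)
    have hy2 : y < (R ^ 2 - 1) / 2 := hy.2.trans_le (min_le_right _ _)
    have h4 := hd.u3_le (x, y)
    rw [hy' ⟨hy.1, hy1⟩, Real.sqrt_le_one] at h4
    nlinarith [hx.1, hy.1]
  refine ⟨hs, R, hR, ?_, hd.ae_cmod hu'⟩
  have e1 : ∫ t in I, sa D t = ∫ t in I, π / 4 * max (R ^ 2 - t ^ 2) 0 := by
    refine setIntegral_congr_ae measurableSet_Ioo ?_
    filter_upwards [hr] with t ht htI
    rw [← ht htI]
    field_simp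
  rw [← hd.integral_sa, e1, integral_const_mul, integral_cap hR hR1]
  ring

end Crest.Agent.R214
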