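import Crest.Agent.R214.TBasic

/-! Row 214: invariances of the periodic perimeter and volume, the function `dz`. -/

set_option autoImplicit false

namespace Crest.Agent.R214

open MeasureTheory Set Filter Topology Real
open scoped ENNReal

lemma dz_nonneg (s : ℝ) : 0 ≤ dz s := abs_nonneg _
lemma dz_le (s : ℝ) : dz s ≤ 1 / 2 := abs_sub_round s
lemma dz_add_int (s : ℝ) (a : ℤ) : dz (s + a) = dz s := by
  unfold dz
  rw [round_add_intCast]
  push_cast
  congr 1
  ring
lemma tinv_dz_neg_le (s : ℝ) : dz (-s) ≤ dz s := by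
  refine (round_le (-s) (-round s)).trans (le_of_eq ?_)
  unfold dz
  rw [← abs_neg]
  push_cast
  congr 1
  ring
lemma dz_neg (s : ℝ) : dz (-s) = dz s := by
  refine le_antisymm (tinv_dz_neg_le s) ?_
  simpa using tinv_dz_neg_le (-s)
lemma dz_le_abs (s : ℝ) (a : ℤ) : dz s ≤ |s - a| := by
  exact round_le s a
lemma dz_of_abs_le {s : ℝ} (h : |s| ≤ 1 / 2) : dz s = |s| := by
  refine le_antisymm (by simpa using dz_le_abs s 0) ?_
  unfold dz
  by_cases h0 : round s = 0
  · simp [h0]
  · have h1 : (1 : ℝ) ≤ |(round s : ℝ)| := by exact_mod_cast Int.one_le_abs h0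
    have h2 := abs_sub_abs_le_abs_sub (round s : ℝ) s
    rw [abs_sub_comm] at h2
    linarith
lemma dz_dz (s : ℝ) : dz (dz s) = dz s := by
  have h := abs_of_nonneg (dz_nonneg s)
  rw [dz_of_abs_le (h.trans_le (dz_le s)), h]
/-- `dz` is `1`-Lipschitz -/
lemma continuous_dz : Continuous dz := by
  refine (LipschitzWith.of_le_add fun s t => ?_).continuous
  have h1 := dz_le_abs s (round t)
  have h2 := abs_sub_le s t (round t : ℝ)
  rw [Real.dist_eq]
  unfold dz at *
  linarith
lemma volume_dz_lt {w : ℝ} (h0 : 0 ≤ w) (h1 : w ≤ 1) (c : ℝ) :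
    volume {t : ℝ | t ∈ Ico (0 : ℝ) 1 ∧ dz (t - c) < w / 2} = ENNReal.ofReal w := by
  have hm : MeasurableSet {t : ℝ | dz (t - c) < w / 2} :=
    (isOpen_lt (continuous_dz.comp (continuous_id.sub continuous_const))
      continuous_const).measurableSet
  have h2 := (isAddFundamentalDomain_Ioc one_pos 0).measure_set_eq
    (isAddFundamentalDomain_Ioc one_pos (c - 1 / 2)) hm (by
      rintro ⟨g, hg⟩
      obtain ⟨k, rfl⟩ := AddSubgroup.mem_zmultiples_iff.1 hg
      ext x
      change dz (k • (1 : ℝ) + x - c) < w / 2 ↔ dz (x - c) < w / 2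
      rw [show k • (1 : ℝ) + x - c = x - c + k by simp; ring, dz_add_int])
  have h3 : {t : ℝ | dz (t - c) < w / 2} ∩ Ioc (c - 1 / 2) (c - 1 / 2 + 1) =
      Ioo (c - w / 2) (c + w / 2) := by
    ext t
    simp only [mem_inter_iff, mem_ofPred_eq, mem_Ioc, mem_Ioo]
    constructor
    · rintro ⟨h3, h4, h5⟩
      rw [dz_of_abs_le (abs_le.2 ⟨by linarith, by linarith⟩), abs_lt] at h3
      constructor <;> linarith [h3.1, h3.2]
    · rintro ⟨h3, h4⟩
      rw [dz_of_abs_le (abs_le.2 ⟨by linarith, by linarith⟩), abs_lt]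
      refine ⟨⟨?_, ?_⟩, ?_, ?_⟩ <;> linarith
  rw [h3, Real.volume_Ioo, zero_add, show c + w / 2 - (c - w / 2) = w by ring] at h2
  rw [← h2]
  refine measure_congr ?_
  have h4 : {t : ℝ | t ∈ Ico (0 : ℝ) 1 ∧ dz (t - c) < w / 2} =
      {t : ℝ | dz (t - c) < w / 2} ∩ Ico 0 1 := by
    ext t; exact and_comm
  rw [h4]
  exact (ae_eq_refl _).inter Ico_ae_eq_Ioc
/-- folding the circle onto the unit interval -/
lemma measurePreserving_fold :
    MeasurePreserving (fun s => 2 * dz s) (volume.restrict (Ico (0 : ℝ) 1))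
      (volume.restrict I) := by
  have hm : Measurable fun s => 2 * dz s := (continuous_const.mul continuous_dz).measurable
  refine ⟨hm, ?_⟩
  have hI : ∀ a : ℝ, (volume.restrict (Ico (0 : ℝ) 1)).map (fun s => 2 * dz s) (Iio a) =
      volume.restrict I (Iio a) := by
    intro a
    rw [Measure.map_apply hm measurableSet_Iio, Measure.restrict_apply (hm measurableSet_Iio),
      Measure.restrict_apply measurableSet_Iio]
    rcases le_or_gt a 0 with ha | ha
    · have e1 : (fun s => 2 * dz s) ⁻¹' Iio a ∩ Ico 0 1 = ∅ := by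
        refine eq_empty_of_forall_notMem fun s hs => ?_
        have h1 : 2 * dz s < a := hs.1
        linarith [dz_nonneg s]
      have e2 : Iio a ∩ I = ∅ := by
        refine eq_empty_of_forall_notMem fun s hs => ?_
        have h1 : s < a := hs.1
        linarith [hs.2.1]
      rw [e1, e2]
    rcases le_or_gt a 1 with ha1 | ha1
    · have e1 : (fun s => 2 * dz s) ⁻¹' Iio a ∩ Ico 0 1 =
          {t : ℝ | t ∈ Ico (0 : ℝ) 1 ∧ dz (t - 0) < a / 2} := by
        ext s
        simp only [mem_inter_iff, mem_preimage, mem_Iio, mem_ofPred_eq, sub_zero]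
        constructor <;> rintro ⟨h1, h2⟩
        · exact ⟨h2, by linarith⟩
        · exact ⟨by linarith, h1⟩
      have e2 : Iio a ∩ I = Ioo 0 a := by
        ext s
        simp only [mem_inter_iff, mem_Iio, mem_Ioo]
        constructor
        · rintro ⟨h1, h2, -⟩; exact ⟨h2, h1⟩
        · rintro ⟨h1, h2⟩; exact ⟨h2, h1, by linarith⟩
      rw [e1, e2, volume_dz_lt ha.le ha1, Real.volume_Ioo, sub_zero]
    · have e1 : (fun s => 2 * dz s) ⁻¹' Iio a ∩ Ico 0 1 = Ico 0 1 := by
        refine inter_eq_right.2 fun s _ => ?_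
        change 2 * dz s < a
        linarith [dz_le s]
      have e2 : Iio a ∩ I = Ioo 0 1 := inter_eq_right.2 fun s hs => hs.2.trans ha1
      rw [e1, e2, Real.volume_Ioo, Real.volume_Ico]
  have hU : (volume.restrict (Ico (0 : ℝ) 1)).map (fun s => 2 * dz s) univ =
      volume.restrict I univ := by
    rw [Measure.map_apply hm MeasurableSet.univ]
    simp
  refine Measure.ext_of_Ici _ _ fun a => ?_
  rw [← compl_Iio, measure_compl measurableSet_Iio (measure_ne_top _ _),
    measure_compl measurableSet_Iio (measure_ne_top _ _), hI, hU]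

lemma le_tper {f1 f2 f3 : X → ℝ} (h : TField f1 f2 f3) (E : Set X) :
    ENNReal.ofReal (∫ p in E ∩ C0, dv f1 f2 f3 p) ≤ tper E := by
  exact le_iSup_of_le f1 (le_iSup_of_le f2 (le_iSup_of_le f3 (le_iSup_of_le h le_rfl)))
lemma tper_le {E : Set X} {b : ℝ≥0∞} (h : ∀ f1 f2 f3, TField f1 f2 f3 →
    ENNReal.ofReal (∫ p in E ∩ C0, dv f1 f2 f3 p) ≤ b) : tper E ≤ b := by
  exact iSup_le fun f1 => iSup_le fun f2 => iSup_le fun f3 => iSup_le fun hf => h f1 f2 f3 hf

protected lemma PerSet.compl {E : Set X} (h : PerSet E) : PerSet Eᶜ := by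
  exact ⟨h.meas.compl, fun a b c p => not_congr (h.per a b c p)⟩
protected lemma PerSet.tr {E : Set X} (h : PerSet E) (c : X) : PerSet (tr c E) := by
  refine ⟨(measurable_id.sub_const c) h.meas, fun a b d p => ?_⟩
  change p + _ - c ∈ E ↔ p - c ∈ E
  rw [add_sub_right_comm]
  exact h.per a b d _
protected lemma PerSet.cyc {E : Set X} (h : PerSet E) : PerSet (cyc ⁻¹' E) := by
  exact ⟨measurePreserving_cyc.measurable h.meas, fun a b c p => h.per b c a (cyc p)⟩
lemma perSet_mod (e1 e2 e3 r : ℝ) : PerSet (Mod e1 e2 e3 r) := by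
  refine ⟨(isOpen_lt ?_ continuous_const).measurableSet, fun a b c p => ?_⟩
  · have := continuous_dz
    fun_prop
  · simp only [Mod, mem_ofPred_eq, Prod.fst_add, Prod.snd_add, dz_add_int]

lemma tper_congr {E F : Set X} (h : E =ᵐ[volume] F) : tper E = tper F := by
  unfold tper
  simp only [setIntegral_congr_set (h.inter (ae_eq_refl C0))]
lemma tvol_congr {E F : Set X} (h : E =ᵐ[volume] F) : tvol E = tvol F := by
  unfold tvol
  rw [measure_congr (h.inter (ae_eq_refl C0))]
lemma tinv_integral_dv {f1 f2 f3 : X → ℝ} (h : TField f1 f2 f3) :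
    ∫ p in C0, dv f1 f2 f3 p = 0 := by
  have i1 := integrableOn_C0 (continuous_d1 h.c1)
  have i2 := integrableOn_C0 (continuous_d2 h.c2)
  have i3 := integrableOn_C0 (continuous_d3 h.c3)
  unfold dv
  rw [integral_add (f := fun p => d1 f1 p + d2 f2 p) (i1.add i2) i3, integral_add i1 i2, integral_d1 h.c1 h.p1,
    integral_d2 h.c2 h.p2, integral_d3 h.c3 h.p3]
  simp

lemma tinv_compl_le {E : Set X} (h : PerSet E) : tper Eᶜ ≤ tper E := by
  refine tper_le fun f1 f2 f3 hf => ?_
  have hg : TField (fun p => -f1 p) (fun p => -f2 p) (fun p => -f3 p) :=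
    ⟨hf.c1.neg, hf.c2.neg, hf.c3.neg, fun a b c p => by rw [hf.p1 a b c p],
      fun a b c p => by rw [hf.p2 a b c p], fun a b c p => by rw [hf.p3 a b c p],
      fun p => by simpa using hf.le p⟩
  refine le_trans (le_of_eq ?_) (le_tper hg E)
  congr 1
  have h1 := integral_inter_add_sdiff (μ := volume) h.meas
    (integrableOn_C0 (continuous_dv hf.c1 hf.c2 hf.c3))
  have h2 : ∀ p, dv (fun p => -f1 p) (fun p => -f2 p) (fun p => -f3 p) p = -dv f1 f2 f3 p := by
    intro p
    simp only [dv, d1, d2, d3, fderiv_fun_neg, neg_apply]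
    ring
  rw [tinv_integral_dv hf, inter_comm, sdiff_eq, inter_comm C0] at h1
  simp only [h2, integral_neg]
  linarith

/-- use the field `-f` and `∫_{C0} dv = 0` -/
lemma tper_compl {E : Set X} (h : PerSet E) : tper Eᶜ = tper E := by
  refine le_antisymm (tinv_compl_le h) ?_
  simpa using tinv_compl_le h.compl
lemma tvol_compl {E : Set X} (h : PerSet E) : tvol Eᶜ = 1 - tvol E := by
  have h1 := measure_inter_add_sdiff (μ := volume) C0 h.meas
  have h2 : ∀ S : Set X, volume (S ∩ C0) ≠ ⊤ := fun S =>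
    ((measure_mono inter_subset_right).trans_lt (by rw [volume_C0]; exact ENNReal.one_lt_top)).ne
  rw [volume_C0, inter_comm, sdiff_eq, inter_comm C0] at h1
  have h3 := congrArg ENNReal.toReal h1
  rw [ENNReal.toReal_add (h2 _) (h2 _), ENNReal.toReal_one] at h3
  unfold tvol
  linarith
lemma tinv_tr_le {E : Set X} (h : PerSet E) (c : X) : tper (tr c E) ≤ tper E := by
  refine tper_le fun f1 f2 f3 hf => ?_
  have hc : ContDiff ℝ 1 fun p : X => p + c := contDiff_id.add contDiff_const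
  have hg : TField (fun p => f1 (p + c)) (fun p => f2 (p + c)) (fun p => f3 (p + c)) :=
    ⟨hf.c1.comp hc, hf.c2.comp hc, hf.c3.comp hc,
      fun a b d p => by rw [add_right_comm]; exact hf.p1 a b d _,
      fun a b d p => by rw [add_right_comm]; exact hf.p2 a b d _,
      fun a b d p => by rw [add_right_comm]; exact hf.p3 a b d _, fun p => hf.le _⟩
  refine le_trans (le_of_eq ?_) (le_tper hg E)
  congr 1
  have hp : ZPer ((tr c E).indicator (dv f1 f2 f3)) := fun a b d p => by
    classical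
    simp only [indicator_apply, (h.tr c).per a b d p, hf.dv_per a b d p]
  rw [inter_comm, inter_comm E, ← setIntegral_indicator (h.tr c).meas,
    ← setIntegral_indicator h.meas, ← integral_C0_add hp c]
  congr 1
  funext p
  classical
  have h1 : p + c ∈ tr c E ↔ p ∈ E := by
    change p + c - c ∈ E ↔ _
    rw [add_sub_cancel_right]
  simp only [indicator_apply, h1, dv, d1, d2, d3, fderiv_comp_add_right]

lemma tper_tr {E : Set X} (h : PerSet E) (c : X) : tper (tr c E) = tper E := by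
  refine le_antisymm (tinv_tr_le h c) ?_
  have h1 := tinv_tr_le (h.tr c) (-c)
  have h2 : tr (-c) (tr c E) = E := by
    ext p
    change p - -c - c ∈ E ↔ _
    rw [sub_neg_eq_add, add_sub_cancel_right]
  rwa [h2] at h1
lemma tvol_tr {E : Set X} (h : PerSet E) (c : X) : tvol (tr c E) = tvol E := by
  unfold tvol
  congr 1
  have hp : ZPer ((tr c E).indicator (1 : X → ℝ≥0∞)) := fun a b d p => by
    classical
    simp only [indicator_apply, (h.tr c).per a b d p, Pi.one_apply]
  rw [← Measure.restrict_apply (h.tr c).meas, ← Measure.restrict_apply h.meas,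
    ← lintegral_indicator_one (h.tr c).meas, ← lintegral_indicator_one h.meas,
    ← lintegral_C0_add hp c]
  congr 1
  funext p
  classical
  have h1 : p + c ∈ tr c E ↔ p ∈ E := by
    change p + c - c ∈ E ↔ _
    rw [add_sub_cancel_right]
  simp only [indicator_apply, h1, Pi.one_apply]
lemma tinv_emb_cyc : MeasurableEmbedding cyc :=
  (⟨⟨cyc, cyi, fun _ => rfl, fun _ => rfl⟩, measurePreserving_cyc.measurable,
    measurePreserving_cyi.measurable⟩ : X ≃ᵐ X).measurableEmbedding

lemma tinv_cyc_inter (E : Set X) : cyc ⁻¹' E ∩ C0 = cyc ⁻¹' (E ∩ C0) := by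
  ext p
  simp only [mem_inter_iff, mem_preimage, C0, C2, mem_prod, cyc]
  tauto

/-- `cyi` as a continuous linear map -/
noncomputable def tinv_cyiL : X →L[ℝ] X :=
  (ContinuousLinearMap.snd ℝ ℝ ℝ ∘L ContinuousLinearMap.snd ℝ ℝ (ℝ × ℝ)).prod
    ((ContinuousLinearMap.fst ℝ ℝ (ℝ × ℝ)).prod
      (ContinuousLinearMap.fst ℝ ℝ ℝ ∘L ContinuousLinearMap.snd ℝ ℝ (ℝ × ℝ)))

lemma tinv_fderiv_cyi {f : X → ℝ} (hf : ContDiff ℝ 1 f) (p v : X) :
    fderiv ℝ (fun q => f (cyi q)) p v = fderiv ℝ f (cyi p) (cyi v) := by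
  have h1 : HasFDerivAt (fun q => f (cyi q)) (fderiv ℝ f (cyi p) ∘L tinv_cyiL) p :=
    (hf.differentiable one_ne_zero (tinv_cyiL p)).hasFDerivAt.comp p tinv_cyiL.hasFDerivAt
  rw [h1.fderiv]
  rfl

lemma tinv_cyc_le (E : Set X) : tper (cyc ⁻¹' E) ≤ tper E := by
  refine tper_le fun f1 f2 f3 hf => ?_
  have hc : ContDiff ℝ 1 cyi := tinv_cyiL.contDiff
  have hg : TField (fun p => f2 (cyi p)) (fun p => f3 (cyi p)) (fun p => f1 (cyi p)) :=
    ⟨hf.c2.comp hc, hf.c3.comp hc, hf.c1.comp hc, fun a b c p => hf.p2 c a b (cyi p),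
      fun a b c p => hf.p3 c a b (cyi p), fun a b c p => hf.p1 c a b (cyi p),
      fun p => by linarith [hf.le (cyi p)]⟩
  refine le_trans (le_of_eq ?_) (le_tper hg E)
  congr 1
  rw [tinv_cyc_inter, ← measurePreserving_cyc.setIntegral_preimage_emb tinv_emb_cyc _ (E ∩ C0)]
  congr 1
  funext p
  simp only [dv, d1, d2, d3, tinv_fderiv_cyi hf.c1, tinv_fderiv_cyi hf.c2, tinv_fderiv_cyi hf.c3]
  change _ = fderiv ℝ f2 p (0, 1, 0) + fderiv ℝ f3 p (0, 0, 1) + fderiv ℝ f1 p (1, 0, 0)
  ring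

lemma tper_cyc (E : Set X) : tper (cyc ⁻¹' E) = tper E := by
  exact le_antisymm (tinv_cyc_le E)
    ((tinv_cyc_le (cyc ⁻¹' (cyc ⁻¹' E))).trans (tinv_cyc_le (cyc ⁻¹' E)))
lemma tvol_cyc (E : Set X) : tvol (cyc ⁻¹' E) = tvol E := by
  unfold tvol
  rw [tinv_cyc_inter, measurePreserving_cyc.measure_preimage_emb tinv_emb_cyc]

lemma cyc_cyc_cyc (E : Set X) : cyc ⁻¹' (cyc ⁻¹' (cyc ⁻¹' E)) = E := rfl
lemma cyc_mod (e1 e2 e3 r : ℝ) : cyc ⁻¹' Mod e1 e2 e3 r = Mod e3 e1 e2 r := by
  ext p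
  simp only [Mod, mem_preimage, mem_ofPred_eq, cyc]
  constructor <;> intro h <;> linarith
lemma cyc_tr (c : X) (E : Set X) : cyc ⁻¹' tr c E = tr (cyi c) (cyc ⁻¹' E) := by
  rfl
lemma tr_tr (c c' : X) (E : Set X) : tr c (tr c' E) = tr (c + c') E := by
  ext p
  change p - c - c' ∈ E ↔ p - (c + c') ∈ E
  rw [sub_sub]
lemma tr_zero (E : Set X) : tr 0 E = E := by
  ext p
  change p - 0 ∈ E ↔ _
  rw [sub_zero]
lemma tr_congr {E F : Set X} (h : E =ᵐ[volume] F) (c : X) : tr c E =ᵐ[volume] tr c F := by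
  have h1 : MeasurePreserving (fun p : X => p - c) volume volume :=
    (measurePreserving_sub_right volume c.1).prod
      ((measurePreserving_sub_right volume c.2.1).prod (measurePreserving_sub_right volume c.2.2))
  exact h1.quasiMeasurePreserving.preimage_ae_eq h
lemma cyc_congr {E F : Set X} (h : E =ᵐ[volume] F) : cyc ⁻¹' E =ᵐ[volume] cyc ⁻¹' F := by
  exact measurePreserving_cyc.quasiMeasurePreserving.preimage_ae_eq h

end Crest.Agent.R214
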