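import Crest.Agent.R214.Core
import Crest.Agent.R214.TInv
import Crest.Agent.R214.Rig

/-! Row 214: the relative isoperimetric problem for down-sets of the cube. -/

set_option autoImplicit false

namespace Crest.Agent.R214

open MeasureTheory Set Filter Topology Real
open scoped ENNReal

variable {D : Set X}

/-- the conclusion of the classification -/
def cubemain_P (D : Set X) (a : ℝ) : Prop :=
  conj (vol D) ≤ a ∧ ∃ e1 e2 e3 r, Bits e1 e2 e3 ∧ Std (vol D) (e1 + e2 + e3) r ∧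
    D =ᵐ[volume] CMod e1 e2 e3 (2 * r)

lemma cubemain_cyc {A : Measure X} (h : cubemain_P (cyc ⁻¹' D) ((A.map cyi).real univ)) :
    cubemain_P D (A.real univ) := by
  obtain ⟨h1, e1, e2, e3, r, hb, hs, hD⟩ := h
  rw [vol_cyc, real_map_cyi] at h1
  rw [vol_cyc] at hs
  refine ⟨h1, e2, e3, e1, r, ⟨hb.b2, hb.b3, hb.b1, by linarith [hb.pos]⟩, ?_, ?_⟩
  · rwa [show e2 + e3 + e1 = e1 + e2 + e3 by ring]
  · have := cyc_congr (cyc_congr hD)
    rwa [cyc_cyc_cyc, cyc_cmod, cyc_cmod] at this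

lemma cubemain_slab {A : Measure X} {n1 n2 n3 : X → ℝ} {H F1 F2 F3 : ℝ}
    (h : Geo D A n1 n2 n3 H F1 F2 F3) (hb : be D = 1) : cubemain_P D (A.real univ) := by
  obtain ⟨e1, e2⟩ := h.slab hb
  have h0 := h.pos
  refine ⟨(conj_le_one _).trans e1, 1, 0, 0, vol D / 2,
    ⟨Or.inr rfl, Or.inl rfl, Or.inl rfl, by norm_num⟩, ⟨by positivity, ?_, Or.inr (Or.inr
      ⟨by norm_num, ge_of_one_le h0 h.half (e1.trans h.A_le), h.half⟩)⟩, ?_⟩
  · rw [mvol, if_neg (by norm_num), if_neg (by norm_num)]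
    ring
  · rwa [show 2 * (vol D / 2) = vol D by ring]

lemma cubemain_tube {A : Measure X} {n1 n2 n3 : X → ℝ} {H F1 F2 F3 : ℝ}
    (h : Geo D A n1 n2 n3 H F1 F2 F3) (h3 : be (cyc ⁻¹' D) < 1)
    (h2 : be (cyc ⁻¹' (cyc ⁻¹' D)) < 1) (ht : √(π * vol D) ≤ H * vol D + F1) :
    cubemain_P D (A.real univ) := by
  obtain ⟨e1, e2⟩ := h.tube h3 h2 ht
  have h0 := h.pos
  have hπ := pi_pos
  refine ⟨(conj_le_sqrt h.half).trans e1, 0, 1, 1, √(vol D / π),
    ⟨Or.inl rfl, Or.inr rfl, Or.inr rfl, by norm_num⟩, ⟨by positivity, ?_, Or.inr (Or.inl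
      ⟨by norm_num, mid_of_sqrt_le h0 h.half (e1.trans h.A_le)⟩)⟩, ?_⟩
  · rw [mvol, if_neg (by norm_num), if_pos (by norm_num), Real.sq_sqrt (by positivity)]
    field_simp
  · have e : √(4 * vol D / π) = 2 * √(vol D / π) := by
      rw [mul_div_assoc, Real.sqrt_mul (by norm_num), show (4 : ℝ) = 2 ^ 2 by norm_num,
        Real.sqrt_sq (by norm_num)]
    rwa [← e]

/-- `exists_geo`; `per D = A.real univ ≤ conj (vol D)`.  If `be = 1` in one of the three directions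
(`h`, `h.cyc`, `h.cyc.cyc`): `Geo.slab`, `r = V / 2`, `ge_of_one_le`.  Otherwise, if
`√(π V) ≤ H V + F i` for some `i`: `Geo.tube`, `r = √(V / π)`, `mid_of_sqrt_le`.  Otherwise `core`
(with `Geo.dr` in the three directions, `Flux3.sum`) and `Geo.ball`, `r = R / 2`,
`le_v0_of_sph_le`.  To come back from `cyc ⁻¹' D` to `D` use `cyc_congr`, `cyc_cyc_cyc`, `cyc_cmod`,
`vol_cyc`, `real_map_cyi`. -/
theorem Min.class (hm : Min D) (h0 : 0 < vol D) (h1 : vol D ≤ 1 / 2) :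
    conj (vol D) ≤ per D ∧ ∃ e1 e2 e3 r, Bits e1 e2 e3 ∧ Std (vol D) (e1 + e2 + e3) r ∧
      D =ᵐ[volume] CMod e1 e2 e3 (2 * r) := by
  obtain ⟨A, n1, n2, n3, H, F1, F2, F3, h⟩ := hm.exists_geo h0 h1
  rw [h.surf.per_eq]
  change cubemain_P D (A.real univ)
  have c1 := h.cyc
  have c2 := h.cyc.cyc
  by_cases b1 : be D = 1
  · exact cubemain_slab h b1
  by_cases b3 : be (cyc ⁻¹' D) = 1
  · exact cubemain_cyc (cubemain_slab c1 b3)
  by_cases b2 : be (cyc ⁻¹' (cyc ⁻¹' D)) = 1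
  · exact cubemain_cyc (cubemain_cyc (cubemain_slab c2 b2))
  have l1 := lt_of_le_of_ne (be_le_one _) b1
  have l2 := lt_of_le_of_ne (be_le_one _) b2
  have l3 := lt_of_le_of_ne (be_le_one _) b3
  by_cases t1 : √(π * vol D) ≤ H * vol D + F1
  · exact cubemain_tube h l3 l2 t1
  by_cases t3 : √(π * vol D) ≤ H * vol D + F3
  · exact cubemain_cyc (cubemain_tube c1 l2 l1 (by rwa [vol_cyc]))
  by_cases t2 : √(π * vol D) ≤ H * vol D + F2
  · exact cubemain_cyc (cubemain_cyc (cubemain_tube c2 l1 l3 (by rwa [vol_cyc, vol_cyc])))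
  have d1 := h.dr l1 l3 l2
  have d3 := c1.dr l3 l2 l1
  have d2 := c2.dr l2 l1 l3
  rw [real_map_cyi, vol_cyc, cyc_cyc_cyc] at d3
  rw [real_map_cyi, real_map_cyi, vol_cyc, vol_cyc, cyc_cyc_cyc, cyc_cyc_cyc] at d2
  obtain ⟨a1, a2, a3⟩ := core d1 d2 d3 (h.flux.sum h.surf) h.A_le h.sup h0 h1 (not_le.1 t1)
    (not_le.1 t2) (not_le.1 t3)
  obtain ⟨e1, R, hR, e2, e3⟩ := h.ball a1 a3 a2
  refine ⟨(conj_le_sph h1).trans e1, 1, 1, 1, R / 2,
    ⟨Or.inr rfl, Or.inr rfl, Or.inr rfl, by norm_num⟩, ⟨by positivity, ?_, Or.inl ⟨by norm_num,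
      le_v0_of_sph_le h0 h1 (e1.trans h.A_le)⟩⟩, ?_⟩
  · rw [mvol, if_pos (by norm_num), e2]
    ring
  · rwa [show 2 * (R / 2) = R by ring]

/-- for a minimiser `D₀` (`exists_min`): `conj (vol D₀) ≤ per D₀`, by `Min.class` for `D₀` or
`cpl D₀`, or trivially if `vol D₀ ∈ {0, 1}` -/
theorem Down.conj_le_per (h : Down D) : conj (vol D) ≤ per D := by
  obtain ⟨D₀, hm⟩ := exists_min
  have h1 : conj (vol D₀) ≤ per D₀ := by
    have hd := hm.down
    rcases (vol_nonneg D₀).eq_or_lt with e | h0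
    · rw [← e, conj_zero]
      exact hd.per_nonneg
    rcases hd.vol_le_one.eq_or_lt with e | h1
    · rw [e, conj_one]
      exact hd.per_nonneg
    rcases le_total (vol D₀) (1 / 2) with h2 | h2
    · exact (hm.class h0 h2).1
    · have := (hm.cpl.class (by rw [hd.vol_cpl]; linarith) (by rw [hd.vol_cpl]; linarith)).1
      rwa [hd.vol_cpl, conj_symm, hd.per_cpl] at this
  linarith [hm.min D h]

theorem Down.class (h : Down D) (h0 : 0 < vol D) (h1 : vol D ≤ 1 / 2)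
    (hp : per D ≤ conj (vol D)) : ∃ e1 e2 e3 r, Bits e1 e2 e3 ∧ Std (vol D) (e1 + e2 + e3) r ∧
      D =ᵐ[volume] CMod e1 e2 e3 (2 * r) := by
  exact (Min.class ⟨h, fun D' h' => by linarith [h'.conj_le_per]⟩ h0 h1).2

end Crest.Agent.R214
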