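import Crest.Agent.R214.TInv

/-! Row 214: fibre averages of `C¹` functions. -/

set_option autoImplicit false

namespace Crest.Agent.R214

open MeasureTheory Set Filter Topology Real
open scoped ENNReal

variable {u : X → ℝ}

/-- differentiation under the integral sign -/
lemma hasFDerivAt_integral_fibre {F : Type*} [NormedAddCommGroup F] [NormedSpace ℝ F]
    [CompleteSpace F] {g : X → F} (hg : ContDiff ℝ 1 g) (q : ℝ × ℝ) :
    HasFDerivAt (fun q : ℝ × ℝ => ∫ t in (0 : ℝ)..1, g (t, q))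
      (∫ t in (0 : ℝ)..1, (fderiv ℝ g (t, q)).comp (ContinuousLinearMap.inr ℝ ℝ (ℝ × ℝ))) q := by
  have hc : Continuous fun p : X => (fderiv ℝ g p).comp (ContinuousLinearMap.inr ℝ ℝ (ℝ × ℝ)) :=
    (hg.continuous_fderiv one_ne_zero).clm_comp continuous_const
  obtain ⟨C, hC⟩ := ((isCompact_Icc (a := (0 : ℝ)) (b := 1)).prod
    (isCompact_closedBall q 1)).exists_bound_of_continuousOn hc.continuousOn
  refine intervalIntegral.hasFDerivAt_integral_of_dominated_of_fderiv_le (μ := volume)
    (F := fun q t => g (t, q))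
    (F' := fun q t => (fderiv ℝ g (t, q)).comp (ContinuousLinearMap.inr ℝ ℝ (ℝ × ℝ)))
    (s := Metric.closedBall q 1) (bound := fun _ => C) (Metric.closedBall_mem_nhds q one_pos)
    (Eventually.of_forall fun x => ?_) ?_ ?_ (Eventually.of_forall fun t ht x hx => ?_)
    intervalIntegrable_const (Eventually.of_forall fun t _ x _ => ?_)
  · exact (hg.continuous.comp (Continuous.prodMk_left x)).aestronglyMeasurable
  · exact (hg.continuous.comp (Continuous.prodMk_left q)).intervalIntegrable _ _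
  · exact (hc.comp (Continuous.prodMk_left q)).aestronglyMeasurable
  · rw [uIoc_of_le zero_le_one] at ht
    exact hC (t, x) ⟨Ioc_subset_Icc_self ht, hx⟩
  · exact (hg.differentiable one_ne_zero (t, x)).hasFDerivAt.comp x (hasFDerivAt_prodMk_right t x)
lemma contDiff_integral_fibre {F : Type*} [NormedAddCommGroup F] [NormedSpace ℝ F]
    [CompleteSpace F] {g : X → F} (hg : ContDiff ℝ 1 g) :
    ContDiff ℝ 1 (fun q : ℝ × ℝ => ∫ t in (0 : ℝ)..1, g (t, q)) := by
  rw [contDiff_one_iff_fderiv]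
  refine ⟨fun q => (hasFDerivAt_integral_fibre hg q).differentiableAt, ?_⟩
  have : fderiv ℝ (fun q : ℝ × ℝ => ∫ t in (0 : ℝ)..1, g (t, q)) = fun q =>
      ∫ t in (0 : ℝ)..1, (fderiv ℝ g (t, q)).comp (ContinuousLinearMap.inr ℝ ℝ (ℝ × ℝ)) :=
    funext fun q => (hasFDerivAt_integral_fibre hg q).fderiv
  rw [this]
  have hc : Continuous fun p : X => (fderiv ℝ g p).comp (ContinuousLinearMap.inr ℝ ℝ (ℝ × ℝ)) :=
    (hg.continuous_fderiv one_ne_zero).clm_comp continuous_const
  exact intervalIntegral.continuous_parametric_intervalIntegral_of_continuous'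
    (f := fun (q : ℝ × ℝ) (t : ℝ) => (fderiv ℝ g (t, q)).comp (ContinuousLinearMap.inr ℝ ℝ (ℝ × ℝ)))
    (hc.comp continuous_swap) 0 1
lemma contDiff_fav (hu : ContDiff ℝ 1 u) : ContDiff ℝ 1 (fav u) := contDiff_integral_fibre hu
lemma fav_fderiv (hu : ContDiff ℝ 1 u) (q v : ℝ × ℝ) :
    fderiv ℝ (fav u) q v = ∫ t in (0 : ℝ)..1, fderiv ℝ u (t, q) (0, v) := by
  have hc : Continuous fun p : X => (fderiv ℝ u p).comp (ContinuousLinearMap.inr ℝ ℝ (ℝ × ℝ)) :=
    (hu.continuous_fderiv one_ne_zero).clm_comp continuous_const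
  have : fderiv ℝ (fav u) q = _ := (hasFDerivAt_integral_fibre hu q).fderiv
  rw [this]
  exact ContinuousLinearMap.intervalIntegral_apply
    ((hc.comp (Continuous.prodMk_left q)).intervalIntegrable _ _) v

lemma da_fav (hu : ContDiff ℝ 1 u) (q : ℝ × ℝ) :
    da (fav u) q = ∫ t in (0 : ℝ)..1, d2 u (t, q) := by
  exact fav_fderiv hu q (1, 0)
lemma db_fav (hu : ContDiff ℝ 1 u) (q : ℝ × ℝ) :
    db (fav u) q = ∫ t in (0 : ℝ)..1, d3 u (t, q) := by
  exact fav_fderiv hu q (0, 1)
lemma fav_per (hp : ZPer u) : ZPer2 (fav u) := by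
  intro b c q
  unfold fav
  congr 1
  funext t
  simpa using hp 0 b c (t, q)
lemma ftv_per (hp : ZPer u) : ZPer2 (ftv u) := by
  intro b c q
  unfold ftv
  congr 1
  funext t
  congr 1
  simpa using hp.d1 0 b c (t, q)
lemma continuous_ftv (hu : ContDiff ℝ 1 u) : Continuous (ftv u) := by
  exact intervalIntegral.continuous_parametric_intervalIntegral_of_continuous'
    (f := fun (q : ℝ × ℝ) (t : ℝ) => |d1 u (t, q)|)
    (((continuous_d1 hu).comp continuous_swap).abs) 0 1
lemma ftv_eq (hu : ContDiff ℝ 1 u) (q : ℝ × ℝ) :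
    ftv u q = ∫ t in (0 : ℝ)..1, |deriv (fun s => u (s, q)) t| := by
  unfold ftv
  congr 1
  funext t
  rw [(hasDerivAt_d1 hu t q).deriv]
/-- Fubini on the cell -/
lemma integral_C0_eq {F : Type*} [NormedAddCommGroup F] [NormedSpace ℝ F] {f : X → F}
    (hf : IntegrableOn f C0) : ∫ p in C0, f p = ∫ q in C2, ∫ t in (0 : ℝ)..1, f (t, q) := by
  have h1 : (volume : Measure X).restrict C0 =
      (volume.restrict (Ico (0 : ℝ) 1)).prod (volume.restrict C2) := by
    rw [Measure.prod_restrict]; rfl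
  rw [IntegrableOn, h1] at hf
  rw [h1, integral_prod_symm f hf]
  refine integral_congr_ae (Eventually.of_forall fun q => ?_)
  simp only
  rw [intervalIntegral.integral_of_le zero_le_one, setIntegral_congr_set Ico_ae_eq_Ioc]
/-- Minkowski: test with a unit vector -/
lemma sqrt_fav_le (hu : ContDiff ℝ 1 u) (q : ℝ × ℝ) :
    √(da (fav u) q ^ 2 + db (fav u) q ^ 2 + ftv u q ^ 2) ≤ ∫ t in (0 : ℝ)..1, gn u (t, q) := by
  have c1 : Continuous fun t => |d1 u (t, q)| := ((continuous_d1 hu).comp (Continuous.prodMk_left q)).abs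
  have c2 : Continuous fun t => d2 u (t, q) := (continuous_d2 hu).comp (Continuous.prodMk_left q)
  have c3 : Continuous fun t => d3 u (t, q) := (continuous_d3 hu).comp (Continuous.prodMk_left q)
  have c4 : Continuous fun t => gn u (t, q) := (continuous_gn hu).comp (Continuous.prodMk_left q)
  obtain ⟨a, ha⟩ : ∃ a, a = da (fav u) q := ⟨_, rfl⟩
  obtain ⟨b, hb⟩ : ∃ b, b = db (fav u) q := ⟨_, rfl⟩
  obtain ⟨c, hc⟩ : ∃ c, c = ftv u q := ⟨_, rfl⟩
  rw [← ha, ← hb, ← hc]
  have hs : 0 ≤ a ^ 2 + b ^ 2 + c ^ 2 := by positivity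
  have h0 : 0 ≤ ∫ t in (0 : ℝ)..1, gn u (t, q) :=
    intervalIntegral.integral_nonneg zero_le_one fun t _ => Real.sqrt_nonneg _
  rcases (Real.sqrt_nonneg (a ^ 2 + b ^ 2 + c ^ 2)).eq_or_lt with h | h
  · rw [← h]; exact h0
  refine le_of_mul_le_mul_left ?_ h
  rw [Real.mul_self_sqrt hs, ← intervalIntegral.integral_const_mul]
  have e : a ^ 2 + b ^ 2 + c ^ 2 =
      ∫ t in (0 : ℝ)..1, (a * d2 u (t, q) + b * d3 u (t, q) + c * |d1 u (t, q)|) := by
    rw [intervalIntegral.integral_add, intervalIntegral.integral_add,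
      intervalIntegral.integral_const_mul, intervalIntegral.integral_const_mul,
      intervalIntegral.integral_const_mul, ← da_fav hu, ← db_fav hu, ← ha, ← hb]
    · change _ = _ + c * ftv u q
      rw [← hc]; ring
    all_goals exact Continuous.intervalIntegrable (by fun_prop) _ _
  conv_lhs => rw [e]
  refine intervalIntegral.integral_mono_on zero_le_one
    (Continuous.intervalIntegrable (by fun_prop) _ _)
    (Continuous.intervalIntegrable (by fun_prop) _ _) fun t _ => ?_
  rw [gn, ← Real.sqrt_mul hs, ← sq_abs (d1 u (t, q))]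
  refine Real.le_sqrt_of_sq_le ?_
  generalize d2 u (t, q) = x
  generalize d3 u (t, q) = y
  generalize |d1 u (t, q)| = z
  nlinarith [sq_nonneg (a * y - b * x), sq_nonneg (a * z - c * x), sq_nonneg (b * z - c * y)]
lemma integral_sqrt_fav_le (hu : ContDiff ℝ 1 u) :
    ∫ q in C2, √(da (fav u) q ^ 2 + db (fav u) q ^ 2 + ftv u q ^ 2) ≤ ∫ p in C0, gn u p := by
  rw [integral_C0_eq (integrableOn_C0 (continuous_gn hu))]
  have c0 := (contDiff_fav hu).continuous_fderiv one_ne_zero
  have c1 : Continuous (da (fav u)) := c0.clm_apply continuous_const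
  have c2 : Continuous (db (fav u)) := c0.clm_apply continuous_const
  have c3 := continuous_ftv hu
  refine integral_mono (integrableOn_C2 (by fun_prop)) (integrableOn_C2 ?_) fun q => sqrt_fav_le hu q
  exact intervalIntegral.continuous_parametric_intervalIntegral_of_continuous'
    (f := fun (q : ℝ × ℝ) (t : ℝ) => gn u (t, q)) ((continuous_gn hu).comp continuous_swap) 0 1

end Crest.Agent.R214
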