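import Crest.Agent.R214.TInv

/-! Row 214: sets of finite perimeter on the circle. -/

set_option autoImplicit false

namespace Crest.Agent.R214

open MeasureTheory Set Filter Topology Real
open scoped ENNReal

lemma oned_cont {f : ℝ → ℝ} (hf : ContDiff ℝ 1 f) : Continuous fun t => |deriv f t| :=
  (hf.continuous_deriv le_rfl).abs

lemma oned_per {f : ℝ → ℝ} (hp : Function.Periodic f 1) : Function.Periodic (deriv f) 1 := by
  intro t
  have : (fun s => f (s + 1)) = f := funext hp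
  rw [← deriv_comp_add_const, this]

lemma oned_abs_le {f : ℝ → ℝ} (hf : ContDiff ℝ 1 f) {a b : ℝ} (hab : a ≤ b) :
    |f b - f a| ≤ ∫ t in a..b, |deriv f t| := by
  rw [← intervalIntegral.integral_deriv_eq_sub
    (fun x _ => (hf.differentiable (by simp)).differentiableAt)
    ((hf.continuous_deriv le_rfl).intervalIntegrable _ _)]
  exact intervalIntegral.abs_integral_le_integral_abs hab

lemma oned_add {f : ℝ → ℝ} (hf : ContDiff ℝ 1 f) (a b c : ℝ) :
    (∫ t in a..b, |deriv f t|) + ∫ t in b..c, |deriv f t| = ∫ t in a..c, |deriv f t| :=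
  intervalIntegral.integral_add_adjacent_intervals ((oned_cont hf).intervalIntegrable _ _)
    ((oned_cont hf).intervalIntegrable _ _)

lemma oned_shift {f : ℝ → ℝ} (hp : Function.Periodic f 1) (a : ℝ) :
    ∫ t in a..a + 1, |deriv f t| = ∫ t in (0 : ℝ)..1, |deriv f t| := by
  have h : Function.Periodic (fun t => |deriv f t|) 1 := fun t => by
    simp only [oned_per hp t]
  simpa using h.intervalIntegral_add_eq a 0

lemma oned_nonneg (f : ℝ → ℝ) {a b : ℝ} (hab : a ≤ b) : 0 ≤ ∫ t in a..b, |deriv f t| :=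
  intervalIntegral.integral_nonneg hab fun _ _ => abs_nonneg _

lemma oned_up {v : ℕ → ℝ → ℝ} (hv : ∀ n, ContDiff ℝ 1 (v n)) {a b : ℝ} (hab : a ≤ b)
    (ha : Tendsto (fun n => v n a) atTop (𝓝 0)) (hb : Tendsto (fun n => v n b) atTop (𝓝 1))
    {η : ℝ} (hη : 0 < η) : ∀ᶠ n in atTop, 1 - η ≤ ∫ t in a..b, |deriv (v n) t| := by
  have h := (hb.sub ha).eventually (lt_mem_nhds (show 1 - η < 1 - 0 by linarith))
  filter_upwards [h] with n hn
  exact (hn.le.trans (le_abs_self _)).trans (oned_abs_le (hv n) hab)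

lemma oned_down {v : ℕ → ℝ → ℝ} (hv : ∀ n, ContDiff ℝ 1 (v n)) {a b : ℝ} (hab : a ≤ b)
    (ha : Tendsto (fun n => v n a) atTop (𝓝 1)) (hb : Tendsto (fun n => v n b) atTop (𝓝 0))
    {η : ℝ} (hη : 0 < η) : ∀ᶠ n in atTop, 1 - η ≤ ∫ t in a..b, |deriv (v n) t| := by
  have h := (ha.sub hb).eventually (lt_mem_nhds (show 1 - η < 1 - 0 by linarith))
  filter_upwards [h] with n hn
  refine (hn.le.trans ?_).trans (oned_abs_le (hv n) hab)
  rw [abs_sub_comm]; exact le_abs_self _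

lemma oned_pick {P : ℝ → Prop} (hP : ∀ᵐ t : ℝ, P t) {s : Set ℝ} (hs : volume s ≠ 0) :
    ∃ t ∈ s, P t :=
  Measure.exists_mem_of_measure_ne_zero_of_ae hs (ae_restrict_of_ae hP)

lemma oned_pick_Ioo {P : ℝ → Prop} (hP : ∀ᵐ t : ℝ, P t) {a b : ℝ} (hab : a < b) :
    ∃ t, a < t ∧ t < b ∧ P t := by
  obtain ⟨t, ht, h⟩ := oned_pick hP (s := Ioo a b) (by simp [hab])
  exact ⟨t, ht.1, ht.2, h⟩

lemma oned_exists_in {P : ℝ → Prop} (hP : ∀ᵐ t : ℝ, P t) {B : Set ℝ} {m : ℝ}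
    (hm : (volume {t | t ∈ Ico (0 : ℝ) 1 ∧ t ∈ B}).toReal = m) (h0 : 0 < m) :
    ∃ t, 0 ≤ t ∧ t < 1 ∧ t ∈ B ∧ P t := by
  obtain ⟨t, ht, h⟩ := oned_pick hP (s := {t | t ∈ Ico (0 : ℝ) 1 ∧ t ∈ B}) (by
    intro h; rw [h] at hm; simp at hm; linarith)
  exact ⟨t, ht.1.1, ht.1.2, ht.2, h⟩

lemma oned_exists_out {P : ℝ → Prop} (hP : ∀ᵐ t : ℝ, P t) {B : Set ℝ} {m : ℝ}
    (hm : (volume {t | t ∈ Ico (0 : ℝ) 1 ∧ t ∈ B}).toReal = m) (h1 : m < 1) :
    ∃ t, 0 ≤ t ∧ t < 1 ∧ t ∉ B ∧ P t := by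
  obtain ⟨t, ht, h⟩ := oned_pick hP (s := {t | t ∈ Ico (0 : ℝ) 1 ∧ t ∉ B}) (by
    intro h
    have h2 : Ico (0 : ℝ) 1 ⊆ {t | t ∈ Ico (0 : ℝ) 1 ∧ t ∈ B} ∪ {t | t ∈ Ico (0 : ℝ) 1 ∧ t ∉ B} :=
      fun t ht => by
        by_cases htB : t ∈ B
        · exact Or.inl ⟨ht, htB⟩
        · exact Or.inr ⟨ht, htB⟩
    have h3 := (measure_mono (μ := volume) h2).trans (measure_union_le _ _)
    rw [h, add_zero, Real.volume_Ico] at h3
    have h4 : volume {t | t ∈ Ico (0 : ℝ) 1 ∧ t ∈ B} ≠ ∞ :=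
      ne_top_of_le_ne_top (by simp) (measure_mono (t := Ico (0 : ℝ) 1) fun t ht => ht.1)
    have h5 := ENNReal.toReal_mono h4 h3
    rw [hm] at h5
    simp at h5
    linarith)
  exact ⟨t, ht.1.1, ht.1.2, ht.2, h⟩

lemma oned_mem_int {B : Set ℝ} (hBp : ∀ t, t + 1 ∈ B ↔ t ∈ B) (t : ℝ) (k : ℤ) :
    t + k ∈ B ↔ t ∈ B := by
  have h : Function.Periodic (fun t => t ∈ B) (1 : ℝ) := fun t => propext (hBp t)
  have := h.int_mul k t
  simp only [mul_one] at this
  rw [this]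

lemma oned_vol_shift {B : Set ℝ} (hB : MeasurableSet B) (hBp : ∀ t, t + 1 ∈ B ↔ t ∈ B) (a : ℝ) :
    (volume (Ioc a (a + 1) ∩ B)).toReal = (volume {t | t ∈ Ico (0 : ℝ) 1 ∧ t ∈ B}).toReal := by
  have h : Function.Periodic (B.indicator (1 : ℝ → ℝ)) 1 := fun t => by
    by_cases ht : t ∈ B
    · rw [indicator_of_mem ht, indicator_of_mem ((hBp t).2 ht)]; rfl
    · rw [indicator_of_notMem ht, indicator_of_notMem (fun h => ht ((hBp t).1 h))]
  have h1 := h.intervalIntegral_add_eq a 0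
  have h2 : ∀ b : ℝ, ∫ t in b..b + 1, B.indicator (1 : ℝ → ℝ) t =
      (volume (Ioc b (b + 1) ∩ B)).toReal := fun b => by
    rw [intervalIntegral.integral_of_le (by linarith), setIntegral_indicator hB]
    simp [Measure.real]
  rw [h2, h2] at h1
  rw [h1, zero_add]
  congr 1
  exact measure_congr ((Ico_ae_eq_Ioc (a := (0 : ℝ)) (b := 1)).symm.inter (ae_eq_refl B))

lemma oned_ch_cont : Continuous ch := by
  unfold ch; fun_prop

lemma oned_ch_norm (t : ℝ) : ‖ch t‖ = 1 := by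
  have : ch t = Complex.exp (((2 * π * t : ℝ) : ℂ) * Complex.I) := by
    unfold ch; push_cast; rfl
  rw [this, Complex.norm_exp_ofReal_mul_I]

lemma oned_ch_add (s t : ℝ) : ch (s + t) = ch s * ch t := by
  unfold ch; rw [← Complex.exp_add]; congr 1; push_cast; ring

lemma oned_ch_per : Function.Periodic ch 1 := fun t => by
  rw [oned_ch_add]
  have : ch 1 = 1 := by
    unfold ch; simp
  rw [this, mul_one]

lemma oned_piece {g : ℝ → ℝ} (hg : Continuous g) (hg0 : ∀ t, 0 ≤ g t) {a b ω : ℝ} {w : ℂ}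
    (hab : a ≤ b) (h : ∀ t, a ≤ t → t ≤ b → ‖ch t - w‖ ≤ ω) :
    ‖(∫ t in a..b, (g t : ℂ) * ch t) - ((∫ t in a..b, g t : ℝ) : ℂ) * w‖ ≤
      ω * ∫ t in a..b, g t := by
  have hc : Continuous fun t => (g t : ℂ) := Complex.continuous_ofReal.comp hg
  have e : (∫ t in a..b, (g t : ℂ) * ch t) - ((∫ t in a..b, g t : ℝ) : ℂ) * w =
      ∫ t in a..b, (g t : ℂ) * (ch t - w) := by
    rw [← intervalIntegral.integral_ofReal, ← intervalIntegral.integral_mul_const,
      ← intervalIntegral.integral_sub (f := fun t => (g t : ℂ) * ch t) (g := fun t => (g t : ℂ) * w)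
        ((hc.mul oned_ch_cont).intervalIntegrable _ _)
        ((hc.mul continuous_const).intervalIntegrable _ _)]
    congr 1; funext t; ring
  rw [e, ← intervalIntegral.integral_const_mul]
  refine intervalIntegral.norm_integral_le_of_norm_le hab ?_
    ((continuous_const.mul hg).intervalIntegrable _ _)
  refine Eventually.of_forall fun t ht => ?_
  rw [norm_mul, Complex.norm_real, Real.norm_of_nonneg (hg0 t), mul_comm]
  exact mul_le_mul_of_nonneg_right (h t ht.1.le ht.2) (hg0 t)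

lemma oned_ch_sum (c m : ℝ) :
    ch (c - m / 2) + ch (c + m / 2) = 2 * (Real.cos (π * m) : ℂ) * ch c := by
  rw [sub_eq_add_neg, oned_ch_add, oned_ch_add, Complex.ofReal_cos, Complex.two_cos]
  have e1 : ch (-(m / 2)) = Complex.exp (-((π * m : ℝ) : ℂ) * Complex.I) := by
    unfold ch; congr 1; push_cast; ring
  have e2 : ch (m / 2) = Complex.exp (((π * m : ℝ) : ℂ) * Complex.I) := by
    unfold ch; congr 1; push_cast; ring
  rw [e1, e2]; ring

/-- the limit set is an arc -/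
lemma oned_arc {v : ℕ → ℝ → ℝ} {B : Set ℝ} (hv : ∀ n, ContDiff ℝ 1 (v n))
    (hp : ∀ n, Function.Periodic (v n) 1) (hB : MeasurableSet B) (hBp : ∀ t, t + 1 ∈ B ↔ t ∈ B)
    (hlim : ∀ᵐ t : ℝ, Tendsto (fun n => v n t) atTop (𝓝 (B.indicator 1 t))) {m : ℝ}
    (hm : (volume {t | t ∈ Ico (0 : ℝ) 1 ∧ t ∈ B}).toReal = m) (h0 : 0 < m) (h1 : m < 1)
    (htv : Tendsto (fun n => ∫ t in (0 : ℝ)..1, |deriv (v n) t|) atTop (𝓝 2)) :
    ∃ c : ℝ, ∀ᵐ t : ℝ, t ∈ B ↔ dz (t - c) < m / 2 := by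
  set G : ℝ → Prop := fun t => Tendsto (fun n => v n t) atTop (𝓝 (B.indicator 1 t)) with hG
  have hG1 : ∀ t, G t → t ∈ B → Tendsto (fun n => v n t) atTop (𝓝 1) := fun t h ht => by
    simpa [hG, indicator_of_mem ht] using h
  have hG0 : ∀ t, G t → t ∉ B → Tendsto (fun n => v n t) atTop (𝓝 0) := fun t h ht => by
    simpa [hG, indicator_of_notMem ht] using h
  have hGk : ∀ t (k : ℤ), G t → G (t + k) := fun t k h => by
    have e1 : ∀ n, v n (t + k) = v n t := fun n => by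
      simpa using (hp n).int_mul k t
    have e2 : B.indicator (1 : ℝ → ℝ) (t + k) = B.indicator 1 t := by
      by_cases ht : t ∈ B
      · rw [indicator_of_mem ht, indicator_of_mem ((oned_mem_int hBp t k).2 ht)]; rfl
      · rw [indicator_of_notMem ht, indicator_of_notMem (fun h => ht ((oned_mem_int hBp t k).1 h))]
    simp only [hG, e1, e2]
    exact h
  obtain ⟨z, -, -, hzB, hzG⟩ := oned_exists_out hlim hm h1
  have hz0 := hG0 z hzG hzB
  have hz1 : Tendsto (fun n => v n (z + 1)) atTop (𝓝 0) := by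
    simpa only [fun n => hp n z] using hz0
  have hvol := (oned_vol_shift hB hBp z).trans hm
  set S : Set ℝ := {t | z < t ∧ t < z + 1 ∧ t ∈ B ∧ G t} with hS
  have hne : S.Nonempty := by
    obtain ⟨t, ht, h⟩ := oned_pick hlim (s := Ioc z (z + 1) ∩ B) (by
      intro h; rw [h] at hvol; simp at hvol; linarith)
    refine ⟨t, ht.1.1, lt_of_le_of_ne ht.1.2 ?_, ht.2, h⟩
    rintro rfl
    exact hzB ((hBp z).1 ht.2)
  have hbb : BddBelow S := ⟨z, fun t ht => ht.1.le⟩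
  have hba : BddAbove S := ⟨z + 1, fun t ht => ht.2.1.le⟩
  set p := sInf S with hpdef
  set q := sSup S with hqdef
  have hzp : z ≤ p := le_csInf hne fun t ht => ht.1.le
  have hqz : q ≤ z + 1 := csSup_le hne fun t ht => ht.2.1.le
  have hpq : p ≤ q := csInf_le_csSup hne hbb hba
  have hin : ∀ t, G t → p < t → t < q → t ∈ B := by
    intro t ht hpt htq
    by_contra htB
    obtain ⟨t₁, ht₁, h₁⟩ := exists_lt_of_csInf_lt hne hpt
    obtain ⟨t₂, ht₂, h₂⟩ := exists_lt_of_lt_csSup hne htq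
    have a1 := oned_up hv ht₁.1.le hz0 (hG1 _ ht₁.2.2.2 ht₁.2.2.1) (η := 1 / 4) (by norm_num)
    have a2 := oned_down hv h₁.le (hG1 _ ht₁.2.2.2 ht₁.2.2.1) (hG0 t ht htB) (η := 1 / 4)
      (by norm_num)
    have a3 := oned_up hv h₂.le (hG0 t ht htB) (hG1 _ ht₂.2.2.2 ht₂.2.2.1) (η := 1 / 4)
      (by norm_num)
    have a4 := oned_down hv ht₂.2.1.le (hG1 _ ht₂.2.2.2 ht₂.2.2.1) hz1 (η := 1 / 4) (by norm_num)
    have a5 := htv.eventually (gt_mem_nhds (show (2 : ℝ) < 3 by norm_num))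
    obtain ⟨n, b1, b2, b3, b4, b5⟩ := (a1.and (a2.and (a3.and (a4.and a5)))).exists
    have c1 := oned_add (hv n) z t₁ t
    have c2 := oned_add (hv n) z t t₂
    have c3 := oned_add (hv n) z t₂ (z + 1)
    have c4 := oned_shift (hp n) z
    linarith
  have hnull : ∀ r : ℝ, ∀ᵐ t : ℝ, ∀ k : ℤ, t + k ≠ r := fun r => by
    rw [ae_all_iff]
    intro k
    filter_upwards [(countable_singleton (r - k)).ae_notMem volume] with t ht h
    exact ht (by simp [← h])
  have hiff : ∀ t, G t → z < t → t < z + 1 → t ≠ p → t ≠ q → (t ∈ B ↔ p < t ∧ t < q) := by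
    intro t ht h1 h2 h3 h4
    refine ⟨fun hB => ⟨lt_of_le_of_ne (csInf_le hbb ⟨h1, h2, hB, ht⟩) h3.symm,
      lt_of_le_of_ne (le_csSup hba ⟨h1, h2, hB, ht⟩) h4⟩, fun h => hin t ht h.1 h.2⟩
  have hlen : q - p = m := by
    have e : (Ioc z (z + 1) ∩ B : Set ℝ) =ᵐ[volume] Ioo p q := by
      filter_upwards [hlim, hnull p, hnull q, hnull (z + 1)] with t ht k1 k2 k3
      have k1' : t ≠ p := by simpa using k1 0
      have k2' : t ≠ q := by simpa using k2 0
      have k3' : t ≠ z + 1 := by simpa using k3 0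
      refine propext ⟨fun h => ?_, fun h => ?_⟩
      · exact (hiff t ht h.1.1 (lt_of_le_of_ne h.1.2 k3') k1' k2').1 h.2
      · exact ⟨⟨hzp.trans_lt h.1, h.2.le.trans hqz⟩, hin t ht h.1 h.2⟩
    rw [measure_congr e, Real.volume_Ioo, ENNReal.toReal_ofReal (by linarith)] at hvol
    exact hvol
  refine ⟨(p + q) / 2, ?_⟩
  filter_upwards [hlim, hnull p, hnull q, hnull z] with t ht k1 k2 k3
  set k : ℤ := -⌊t - z⌋ with hk
  have f1 : z ≤ t + k := by
    have := Int.floor_le (t - z); rw [hk]; push_cast; linarith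
  have f2 : t + k < z + 1 := by
    have := Int.lt_floor_add_one (t - z); rw [hk]; push_cast; linarith
  have f3 : z < t + k := lt_of_le_of_ne f1 (k3 k).symm
  rw [← oned_mem_int hBp t k, hiff _ (hGk t k ht) f3 f2 (k1 k) (k2 k),
    ← dz_add_int (t - (p + q) / 2) k]
  constructor
  · intro h
    refine (dz_le_abs _ 0).trans_lt ?_
    rw [abs_lt]; push_cast; constructor <;> linarith [h.1, h.2]
  · intro h
    unfold dz at h
    set j := round (t - (p + q) / 2 + k) with hj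
    rw [abs_lt] at h
    have g1 : (j : ℝ) < 1 := by linarith [h.1]
    have g2 : (-1 : ℝ) < j := by linarith [h.2]
    have g3 : j = 0 := by
      have a : j < 1 := by exact_mod_cast g1
      have b : -1 < j := by exact_mod_cast g2
      omega
    rw [g3] at h
    push_cast at h
    constructor <;> linarith [h.1, h.2]

/-- There are points `s` with `v n s → 1` and `s'` with `v n s' → 0`, `s < s' < s + 1`; the variation
on `[s, s']` and on `[s', s + 1]` is at least `|v n s - v n s'|`. -/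
theorem tv_liminf {v : ℕ → ℝ → ℝ} {B : Set ℝ} (hv : ∀ n, ContDiff ℝ 1 (v n))
    (hp : ∀ n, Function.Periodic (v n) 1) (hB : MeasurableSet B) (hBp : ∀ t, t + 1 ∈ B ↔ t ∈ B)
    (hlim : ∀ᵐ t : ℝ, Tendsto (fun n => v n t) atTop (𝓝 (B.indicator 1 t))) {m : ℝ}
    (hm : (volume {t | t ∈ Ico (0 : ℝ) 1 ∧ t ∈ B}).toReal = m) (h0 : 0 < m) (h1 : m < 1) :
    ∀ η > 0, ∀ᶠ n in atTop, 2 - η ≤ ∫ t in (0 : ℝ)..1, |deriv (v n) t| := by
  intro η hη
  obtain ⟨s, s0, s1, hsB, hsG⟩ := oned_exists_in hlim hm h0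
  obtain ⟨z, z0, z1, hzB, hzG⟩ := oned_exists_out hlim hm h1
  rw [indicator_of_mem hsB] at hsG
  rw [indicator_of_notMem hzB] at hzG
  replace hsG : Tendsto (fun n => v n s) atTop (𝓝 1) := hsG
  have hs1 : Tendsto (fun n => v n (s + 1)) atTop (𝓝 1) := by
    simpa only [fun n => hp n s] using hsG
  obtain ⟨z', a, b, hz'⟩ : ∃ z', s ≤ z' ∧ z' ≤ s + 1 ∧
      Tendsto (fun n => v n z') atTop (𝓝 0) := by
    rcases le_total s z with h | h
    · exact ⟨z, h, by linarith, hzG⟩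
    · exact ⟨z + 1, by linarith, by linarith, by simpa only [fun n => hp n z] using hzG⟩
  filter_upwards [oned_down hv a hsG hz' (half_pos hη), oned_up hv b hz' hs1 (half_pos hη)]
    with n b1 b2
  have c1 := oned_add (hv n) s z' (s + 1)
  have c2 := oned_shift (hp n) s
  linarith

/-- Let `T = {t | v n t → 1}`, `Z = {t | v n t → 0}` (periodic, `T ∪ Z` is conull, `T = B` a.e.).
There are no `z₀ < t₁ < z < t₂ < z₀ + 1` with `z₀, z ∈ Z`, `t₁, t₂ ∈ T` (the variation would be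
`≥ 4 - o(1)`).  Fix `z₀ ∈ Z`, let `p`, `q` be the infimum and supremum of `T ∩ (z₀, z₀ + 1)`; then
`B ∩ (z₀, z₀ + 1) = (p, q)` a.e., `q - p = m`, `c = (p + q) / 2`.  For small `η` choose
`z₁ ∈ Z ∩ (p - η, p)`, `t₁ ∈ T ∩ (p, p + η)`, `t₂ ∈ T ∩ (q - η, q)`, `z₂ ∈ Z ∩ (q, q + η)`,
`z₂ < z₁ + 1`: the variations on `[z₁, t₁]` and `[t₂, z₂]` are `≥ 1 - o(1)`, so they tend to `1` and
the rest of the period `[z₁, z₁ + 1]` carries variation `o(1)`; `ch` is `2π`-Lipschitz and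
`ch p + ch q = 2 cos (π m) ch c`. -/
theorem arc_of_tv {v : ℕ → ℝ → ℝ} {B : Set ℝ} (hv : ∀ n, ContDiff ℝ 1 (v n))
    (hp : ∀ n, Function.Periodic (v n) 1) (hB : MeasurableSet B) (hBp : ∀ t, t + 1 ∈ B ↔ t ∈ B)
    (hlim : ∀ᵐ t : ℝ, Tendsto (fun n => v n t) atTop (𝓝 (B.indicator 1 t))) {m : ℝ}
    (hm : (volume {t | t ∈ Ico (0 : ℝ) 1 ∧ t ∈ B}).toReal = m) (h0 : 0 < m) (h1 : m < 1)
    (htv : Tendsto (fun n => ∫ t in (0 : ℝ)..1, |deriv (v n) t|) atTop (𝓝 2)) :
    ∃ c : ℝ, (∀ᵐ t : ℝ, t ∈ B ↔ dz (t - c) < m / 2) ∧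
      Tendsto (fun n => ∫ t in (0 : ℝ)..1, ((|deriv (v n) t| : ℝ) : ℂ) * ch t) atTop
        (𝓝 (2 * (Real.cos (π * m) : ℂ) * ch c)) := by
  obtain ⟨c, hc⟩ := oned_arc hv hp hB hBp hlim hm h0 h1 htv
  refine ⟨c, hc, ?_⟩
  rw [← oned_ch_sum, Metric.tendsto_atTop]
  intro ε hε
  set δ := min (ε / 11) 1 with hδ
  have δ0 : 0 < δ := lt_min (by linarith) one_pos
  have δ1 : δ ≤ 1 := min_le_right _ _
  have δ2 : δ ≤ ε / 11 := min_le_left _ _
  obtain ⟨η₁, η₁0, hη₁⟩ := Metric.continuous_iff.1 oned_ch_cont (c - m / 2) δ δ0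
  obtain ⟨η₂, η₂0, hη₂⟩ := Metric.continuous_iff.1 oned_ch_cont (c + m / 2) δ δ0
  set η := min (min η₁ η₂) (min (m / 2) ((1 - m) / 2)) with hη
  have η0 : 0 < η := lt_min (lt_min η₁0 η₂0) (lt_min (by linarith) (by linarith))
  have η1 : η ≤ η₁ := (min_le_left _ _).trans (min_le_left _ _)
  have η2 : η ≤ η₂ := (min_le_left _ _).trans (min_le_right _ _)
  have η3 : η ≤ m / 2 := (min_le_right _ _).trans (min_le_left _ _)
  have η4 : η ≤ (1 - m) / 2 := (min_le_right _ _).trans (min_le_right _ _)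
  have hin : ∀ a b : ℝ, a < b → c - m / 2 ≤ a → b ≤ c + m / 2 →
      ∃ t, a < t ∧ t < b ∧ Tendsto (fun n => v n t) atTop (𝓝 1) := by
    intro a b hab ha hb
    obtain ⟨t, t1, t2, t3, t4⟩ := oned_pick_Ioo (hlim.and hc) hab
    have : t ∈ B := t4.2 ((dz_le_abs _ 0).trans_lt (by
      rw [abs_lt]; push_cast; constructor <;> linarith))
    rw [indicator_of_mem this] at t3
    exact ⟨t, t1, t2, t3⟩
  have hout : ∀ a b : ℝ, a < b → c - 1 / 2 ≤ a → b ≤ c + 1 / 2 →
      (b ≤ c - m / 2 ∨ c + m / 2 ≤ a) →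
      ∃ t, a < t ∧ t < b ∧ Tendsto (fun n => v n t) atTop (𝓝 0) := by
    intro a b hab ha hb hh
    obtain ⟨t, t1, t2, t3, t4⟩ := oned_pick_Ioo (hlim.and hc) hab
    have : t ∉ B := fun h => by
      have h2 := t4.1 h
      rw [dz_of_abs_le (by rw [abs_le]; constructor <;> linarith), abs_lt] at h2
      rcases hh with hh | hh <;> linarith [h2.1, h2.2]
    rw [indicator_of_notMem this] at t3
    exact ⟨t, t1, t2, t3⟩
  obtain ⟨z₁, a1, a2, a3⟩ := hout (c - m / 2 - η) (c - m / 2) (by linarith) (by linarith)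
    (by linarith) (Or.inl le_rfl)
  obtain ⟨t₁, b1, b2, b3⟩ := hin (c - m / 2) (c - m / 2 + η) (by linarith) le_rfl (by linarith)
  obtain ⟨t₂, c1, c2, c3⟩ := hin (c + m / 2 - η) (c + m / 2) (by linarith) (by linarith) le_rfl
  obtain ⟨z₂, d1, d2, d3⟩ := hout (c + m / 2) (c + m / 2 + η) (by linarith) (by linarith)
    (by linarith) (Or.inr le_rfl)
  have e1 := oned_up hv (show z₁ ≤ t₁ by linarith) a3 b3 δ0
  have e2 := oned_down hv (show t₂ ≤ z₂ by linarith) c3 d3 δ0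
  have e3 := htv.eventually (gt_mem_nhds (show (2 : ℝ) < 2 + δ by linarith))
  obtain ⟨N, hN⟩ := eventually_atTop.1 (e1.and (e2.and e3))
  refine ⟨N, fun n hn => ?_⟩
  obtain ⟨f1, f2, f3⟩ := hN n hn
  have hg := oned_cont (hv n)
  have hg0 : ∀ t, 0 ≤ |deriv (v n) t| := fun t => abs_nonneg _
  have hgc : Continuous fun t => ((|deriv (v n) t| : ℝ) : ℂ) * ch t :=
    (Complex.continuous_ofReal.comp hg).mul oned_ch_cont
  have hper : Function.Periodic (fun t => ((|deriv (v n) t| : ℝ) : ℂ) * ch t) 1 := fun t => by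
    simp only [oned_per (hp n) t, oned_ch_per t]
  have g0 := hper.intervalIntegral_add_eq 0 z₁
  rw [zero_add] at g0
  have g1 := intervalIntegral.integral_add_adjacent_intervals (μ := volume) (hgc.intervalIntegrable z₁ t₁)
    (hgc.intervalIntegrable t₁ t₂)
  have g2 := intervalIntegral.integral_add_adjacent_intervals (μ := volume) (hgc.intervalIntegrable z₁ t₂)
    (hgc.intervalIntegrable t₂ z₂)
  have g3 := intervalIntegral.integral_add_adjacent_intervals (μ := volume) (hgc.intervalIntegrable z₁ z₂)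
    (hgc.intervalIntegrable z₂ (z₁ + 1))
  have k1 := oned_add (hv n) z₁ t₁ t₂
  have k2 := oned_add (hv n) z₁ t₂ z₂
  have k3 := oned_add (hv n) z₁ z₂ (z₁ + 1)
  have k4 := oned_shift (hp n) z₁
  have n2 := oned_nonneg (v n) (show t₁ ≤ t₂ by linarith)
  have n4 := oned_nonneg (v n) (show z₂ ≤ z₁ + 1 by linarith)
  have p1 := oned_piece hg hg0 (w := ch (c - m / 2)) (ω := δ) (show z₁ ≤ t₁ by linarith)
    fun t u1 u2 => by
      rw [← dist_eq_norm]
      refine (hη₁ t ?_).le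
      rw [Real.dist_eq, abs_lt]; constructor <;> linarith
  have p3 := oned_piece hg hg0 (w := ch (c + m / 2)) (ω := δ) (show t₂ ≤ z₂ by linarith)
    fun t u1 u2 => by
      rw [← dist_eq_norm]
      refine (hη₂ t ?_).le
      rw [Real.dist_eq, abs_lt]; constructor <;> linarith
  have p2 := oned_piece hg hg0 (w := 0) (ω := 1) (show t₁ ≤ t₂ by linarith)
    fun t _ _ => by rw [sub_zero, oned_ch_norm]
  have p4 := oned_piece hg hg0 (w := 0) (ω := 1) (show z₂ ≤ z₁ + 1 by linarith)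
    fun t _ _ => by rw [sub_zero, oned_ch_norm]
  rw [mul_zero, sub_zero, one_mul] at p2 p4
  rw [g0, ← g3, ← g2, ← g1, dist_eq_norm]
  generalize (∫ t in z₁..t₁, ((|deriv (v n) t| : ℝ) : ℂ) * ch t) = W1 at *
  generalize (∫ t in t₁..t₂, ((|deriv (v n) t| : ℝ) : ℂ) * ch t) = W2 at *
  generalize (∫ t in t₂..z₂, ((|deriv (v n) t| : ℝ) : ℂ) * ch t) = W3 at *
  generalize (∫ t in z₂..z₁ + 1, ((|deriv (v n) t| : ℝ) : ℂ) * ch t) = W4 at *
  generalize (∫ t in z₁..t₁, |deriv (v n) t|) = A1 at *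
  generalize (∫ t in t₁..t₂, |deriv (v n) t|) = A2 at *
  generalize (∫ t in t₂..z₂, |deriv (v n) t|) = A3 at *
  generalize (∫ t in z₂..z₁ + 1, |deriv (v n) t|) = A4 at *
  have q1 : ‖((A1 - 1 : ℝ) : ℂ) * ch (c - m / 2)‖ ≤ 2 * δ := by
    rw [norm_mul, oned_ch_norm, mul_one, Complex.norm_real, Real.norm_eq_abs, abs_le]
    constructor <;> linarith
  have q3 : ‖((A3 - 1 : ℝ) : ℂ) * ch (c + m / 2)‖ ≤ 2 * δ := by
    rw [norm_mul, oned_ch_norm, mul_one, Complex.norm_real, Real.norm_eq_abs, abs_le]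
    constructor <;> linarith
  have r : W1 + W2 + W3 + W4 - (ch (c - m / 2) + ch (c + m / 2)) =
      (W1 - A1 * ch (c - m / 2)) + ((A1 - 1 : ℝ) : ℂ) * ch (c - m / 2) + W2 +
        (W3 - A3 * ch (c + m / 2)) + ((A3 - 1 : ℝ) : ℂ) * ch (c + m / 2) + W4 := by
    push_cast; ring
  rw [r]
  have s1 : δ * (A1 + A3) ≤ δ * 3 := by gcongr; linarith
  have s2 := norm_add_le ((W1 - A1 * ch (c - m / 2)) + ((A1 - 1 : ℝ) : ℂ) * ch (c - m / 2) + W2 +
        (W3 - A3 * ch (c + m / 2)) + ((A3 - 1 : ℝ) : ℂ) * ch (c + m / 2)) W4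
  have s3 := norm_add_le ((W1 - A1 * ch (c - m / 2)) + ((A1 - 1 : ℝ) : ℂ) * ch (c - m / 2) + W2 +
        (W3 - A3 * ch (c + m / 2))) (((A3 - 1 : ℝ) : ℂ) * ch (c + m / 2))
  have s4 := norm_add_le ((W1 - A1 * ch (c - m / 2)) + ((A1 - 1 : ℝ) : ℂ) * ch (c - m / 2) + W2)
        (W3 - A3 * ch (c + m / 2))
  have s5 := norm_add_le ((W1 - A1 * ch (c - m / 2)) + ((A1 - 1 : ℝ) : ℂ) * ch (c - m / 2)) W2
  have s6 := norm_add_le (W1 - A1 * ch (c - m / 2)) (((A1 - 1 : ℝ) : ℂ) * ch (c - m / 2))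
  linarith

/-- first Fourier coefficient of an arc -/
theorem integral_ch_arc {m : ℝ} (h0 : 0 ≤ m) (h1 : m ≤ 1) (c : ℝ) :
    ∫ t in (0 : ℝ)..1, {t | dz (t - c) < m / 2}.indicator ch t =
      ((Real.sin (π * m) / π : ℝ) : ℂ) * ch c := by
  have hper : Function.Periodic ({t | dz (t - c) < m / 2}.indicator ch) 1 := fun t => by
    have e : dz (t + 1 - c) = dz (t - c) := by
      rw [← dz_add_int (t - c) 1]; congr 1; push_cast; ring
    by_cases ht : dz (t - c) < m / 2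
    · rw [indicator_of_mem (show t ∈ {t | dz (t - c) < m / 2} from ht),
        indicator_of_mem (show t + 1 ∈ {t | dz (t - c) < m / 2} from by
          rw [mem_ofPred_eq, e]; exact ht), oned_ch_per t]
    · rw [indicator_of_notMem (show t ∉ {t | dz (t - c) < m / 2} from ht),
        indicator_of_notMem (show t + 1 ∉ {t | dz (t - c) < m / 2} from by
          rw [mem_ofPred_eq, e]; exact ht)]
  have g0 := hper.intervalIntegral_add_eq 0 (c - 1 / 2)
  rw [zero_add] at g0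
  have hmeas : MeasurableSet {t : ℝ | dz (t - c) < m / 2} :=
    (isOpen_lt (continuous_dz.comp (continuous_id.sub continuous_const))
      continuous_const).measurableSet
  have hset : Ioc (c - 1 / 2) (c - 1 / 2 + 1) ∩ {t : ℝ | dz (t - c) < m / 2} =
      Ioo (c - m / 2) (c + m / 2) := by
    ext t
    constructor
    · rintro ⟨⟨u1, u2⟩, u3⟩
      rw [mem_ofPred_eq, dz_of_abs_le (by rw [abs_le]; constructor <;> linarith), abs_lt] at u3
      constructor <;> linarith [u3.1, u3.2]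
    · rintro ⟨u1, u2⟩
      refine ⟨⟨by linarith, by linarith⟩, (dz_le_abs _ 0).trans_lt ?_⟩
      rw [abs_lt]; push_cast; constructor <;> linarith
  rw [g0, intervalIntegral.integral_of_le (by linarith), setIntegral_indicator hmeas, hset,
    ← integral_Ioc_eq_integral_Ioo, ← intervalIntegral.integral_of_le (by linarith)]
  have hπ : (π : ℂ) ≠ 0 := by exact_mod_cast Real.pi_ne_zero
  have hne : (2 * π * Complex.I : ℂ) ≠ 0 := Complex.two_pi_I_ne_zero
  have e : ∀ t : ℝ, ch t = Complex.exp ((2 * π * Complex.I) * t) := fun t => by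
    unfold ch; congr 1; ring
  have e0 : ∫ t in (c - m / 2)..(c + m / 2), ch t =
      (ch (c + m / 2) - ch (c - m / 2)) / (2 * π * Complex.I) := by
    simp only [e]
    exact integral_exp_mul_complex hne
  rw [e0, sub_eq_add_neg c, oned_ch_add, oned_ch_add]
  have e1 : ch (-(m / 2)) = Complex.exp (-((π * m : ℝ) : ℂ) * Complex.I) := by
    unfold ch; congr 1; push_cast; ring
  have e2 : ch (m / 2) = Complex.exp (((π * m : ℝ) : ℂ) * Complex.I) := by
    unfold ch; congr 1; push_cast; ring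
  have e3 := Complex.two_sin ((π * m : ℝ) : ℂ)
  rw [e1, e2, Complex.ofReal_div, Complex.ofReal_sin, div_eq_iff hne]
  generalize Complex.exp (-((π * m : ℝ) : ℂ) * Complex.I) = a at *
  generalize Complex.exp (((π * m : ℝ) : ℂ) * Complex.I) = b at *
  field_simp
  linear_combination (-Complex.I * ch c) * e3 +
    ch c * (b - a) * Complex.I_mul_I

lemma dz_eq_of_ch_eq {c c' : ℝ} (h : ch c = ch c') (t : ℝ) : dz (t - c) = dz (t - c') := by
  unfold ch at h
  obtain ⟨n, hn⟩ := Complex.exp_eq_exp_iff_exists_int.1 h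
  have hne : (2 * π * Complex.I : ℂ) ≠ 0 := Complex.two_pi_I_ne_zero
  have h2 : (c : ℂ) = c' + n := by
    apply mul_right_cancel₀ hne
    linear_combination hn
  have h3 : c = c' + n := by exact_mod_cast h2
  rw [← dz_add_int (t - c) n, h3]
  congr 1; ring

end Crest.Agent.R214
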