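import Crest.Agent.R214.TInv

/-! Row 214: elementary properties of the Steiner symmetrisation. -/

set_option autoImplicit false

namespace Crest.Agent.R214

open MeasureTheory Set Filter Topology Real
open scoped ENNReal

variable {E F : Set X}

lemma stbasic_le (E : Set X) (q : ℝ × ℝ) :
    volume {t : ℝ | t ∈ Ico (0 : ℝ) 1 ∧ (t, q) ∈ E} ≤ 1 :=
  (measure_mono fun _ ht => ht.1).trans (by simp)

lemma stbasic_ne (E : Set X) (q : ℝ × ℝ) :
    volume {t : ℝ | t ∈ Ico (0 : ℝ) 1 ∧ (t, q) ∈ E} ≠ ∞ :=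
  ((stbasic_le E q).trans_lt ENNReal.one_lt_top).ne

lemma stbasic_meas (hE : MeasurableSet E) :
    Measurable fun q : ℝ × ℝ => volume {t : ℝ | t ∈ Ico (0 : ℝ) 1 ∧ (t, q) ∈ E} :=
  measurable_measure_prodMk_right (μ := volume) (s := Prod.fst ⁻¹' Ico (0 : ℝ) 1 ∩ E)
    ((measurable_fst measurableSet_Ico).inter hE)

lemma stbasic_mono {q q' : ℝ × ℝ} (h : ∀ t, (t, q) ∈ E → (t, q') ∈ F) : fib E q ≤ fib F q' :=
  ENNReal.toReal_mono (stbasic_ne F q') (measure_mono fun t ht => ⟨ht.1, h t ht.2⟩)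

lemma stbasic_compl (hE : MeasurableSet E) (q : ℝ × ℝ) : fib Eᶜ q = 1 - fib E q := by
  have hm : MeasurableSet ((fun t : ℝ => (t, q)) ⁻¹' E) := measurable_prodMk_right hE
  have h1 := measure_inter_add_diff (μ := volume) (Ico (0 : ℝ) 1) hm
  have h2 := (ENNReal.toReal_add (stbasic_ne E q) (stbasic_ne Eᶜ q)).symm.trans
    (congrArg ENNReal.toReal h1)
  have h3 : (volume (Ico (0 : ℝ) 1)).toReal = 1 := by simp
  rw [h3] at h2
  change fib E q + fib Eᶜ q = 1 at h2
  linarith

lemma stbasic_dz_ae : ∀ᵐ t : ℝ, dz t < 1 / 2 := by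
  have hc : ((range fun n : ℤ => (n : ℝ) + 1 / 2) ∪ range fun n : ℤ => (n : ℝ) - 1 / 2).Countable :=
    (countable_range _).union (countable_range _)
  filter_upwards [hc.ae_notMem volume] with t ht
  refine lt_of_le_of_ne (dz_le t) fun h => ht ?_
  rcases (abs_eq (by norm_num : (0 : ℝ) ≤ 1 / 2)).1 h with h | h
  · exact Or.inl ⟨round t, by simp only; linarith⟩
  · exact Or.inr ⟨round t, by simp only; linarith⟩

lemma measurable_fib (hE : MeasurableSet E) : Measurable (fib E) := by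
  exact (stbasic_meas hE).ennreal_toReal
lemma fib_nonneg (E : Set X) (q : ℝ × ℝ) : 0 ≤ fib E q := ENNReal.toReal_nonneg
lemma fib_le_one (E : Set X) (q : ℝ × ℝ) : fib E q ≤ 1 := by
  exact ENNReal.toReal_le_of_le_ofReal zero_le_one (by simpa using stbasic_le E q)
lemma PerSet.fib_per (h : PerSet E) : ZPer2 (fib E) := by
  intro b c q
  unfold fib
  congr 2
  ext t
  have := h.per 0 b c (t, q)
  simp only [Int.cast_zero, Prod.mk_add_mk, add_zero] at this
  simp only [mem_setOf_eq, this]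
protected lemma PerSet.st (h : PerSet E) : PerSet (st E) := by
  refine ⟨measurableSet_lt (continuous_dz.measurable.comp measurable_fst)
    (((measurable_fib h.meas).comp measurable_snd).div_const 2), fun a b c p => ?_⟩
  change dz (p.1 + a) < fib E (p.2 + ((b : ℝ), (c : ℝ))) / 2 ↔ dz p.1 < fib E p.2 / 2
  rw [dz_add_int, h.fib_per]
protected lemma PerSet.sym3 (h : PerSet E) : PerSet (sym3 E) := h.st.cyc.st.cyc.st.cyc
lemma fib_st (E : Set X) : fib (st E) = fib E := by
  funext q
  have := volume_dz_lt (fib_nonneg E q) (fib_le_one E q) 0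
  simp only [sub_zero] at this
  change (volume {t : ℝ | t ∈ Ico (0 : ℝ) 1 ∧ dz t < fib E q / 2}).toReal = _
  rw [this, ENNReal.toReal_ofReal (fib_nonneg E q)]
lemma tvol_eq_integral_fib (hE : MeasurableSet E) : tvol E = ∫ q in C2, fib E q := by
  unfold fib
  rw [integral_toReal (stbasic_meas hE).aemeasurable
    (Eventually.of_forall fun q => (stbasic_ne E q).lt_top), tvol]
  congr 1
  rw [Measure.volume_eq_prod, Measure.prod_apply_symm (hE.inter measurableSet_C0),
    ← lintegral_indicator measurableSet_C2]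
  refine lintegral_congr fun q => ?_
  by_cases hq : q ∈ C2
  · rw [indicator_of_mem hq]
    congr 1
    ext t
    simp only [C0, mem_preimage, mem_inter_iff, mem_prod, hq, and_true, mem_setOf_eq]
    exact and_comm
  · rw [indicator_of_notMem hq]
    have : (fun x : ℝ => (x, q)) ⁻¹' (E ∩ C0) = ∅ := by
      ext t
      simp only [C0, mem_preimage, mem_inter_iff, mem_prod, hq, and_false, mem_empty_iff_false]
    rw [this, measure_empty]
lemma tvol_st (h : PerSet E) : tvol (st E) = tvol E := by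
  rw [tvol_eq_integral_fib h.st.meas, tvol_eq_integral_fib h.meas, fib_st]
lemma tvol_sym3 (h : PerSet E) : tvol (sym3 E) = tvol E := by
  rw [sym3, tvol_cyc, tvol_st h.st.cyc.st.cyc, tvol_cyc, tvol_st h.st.cyc, tvol_cyc, tvol_st h]
lemma fib_congr (hE : MeasurableSet E) (hF : MeasurableSet F) (h : E =ᵐ[volume] F) :
    fib E =ᵐ[volume] fib F := by
  have h1 : ∀ᵐ p : X ∂(volume : Measure ℝ).prod (volume : Measure (ℝ × ℝ)), p ∈ E ↔ p ∈ F :=
    eventuallyEq_set.1 h
  have h2 := Measure.ae_ae_of_ae_prod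
    ((Measure.measurePreserving_swap (μ := (volume : Measure (ℝ × ℝ)))
      (ν := (volume : Measure ℝ))).quasiMeasurePreserving.ae h1)
  filter_upwards [h2] with q hq
  unfold fib
  congr 1
  refine measure_congr (eventuallyEq_set.2 ?_)
  filter_upwards [hq] with t ht
  exact and_congr_right fun _ => ht
lemma fib_tr (E : Set X) (b c : ℝ) (q : ℝ × ℝ) : fib (tr (0, b, c) E) q = fib E (q - (b, c)) := by
  unfold fib tr
  simp only [mem_setOf_eq, Prod.mk_sub_mk, sub_zero]
lemma st_tr (E : Set X) (b c : ℝ) : st (tr (0, b, c) E) = tr (0, b, c) (st E) := by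
  ext p
  change dz p.1 < fib (tr (0, b, c) E) p.2 / 2 ↔ dz (p.1 - 0) < fib E (p.2 - (b, c)) / 2
  rw [fib_tr, sub_zero]

/-- `st E` is monotone in the first coordinate, and it stays monotone in the other coordinates if
`E` is. -/
theorem mono_sym3 (E : Set X) : Mono (sym3 E) := by
  rintro ⟨x, y, z⟩ ⟨x', y', z'⟩ hx hy hz hp
  change dz y < fib (cyc ⁻¹' st (cyc ⁻¹' st E)) (z, x) / 2 at hp
  change dz y' < fib (cyc ⁻¹' st (cyc ⁻¹' st E)) (z', x') / 2
  change dz x' ≤ dz x at hx
  change dz y' ≤ dz y at hy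
  change dz z' ≤ dz z at hz
  have h1 : fib (cyc ⁻¹' st (cyc ⁻¹' st E)) (z, x) ≤ fib (cyc ⁻¹' st (cyc ⁻¹' st E)) (z', x') := by
    refine stbasic_mono fun t ht => ?_
    change dz z < fib (cyc ⁻¹' st E) (x, t) / 2 at ht
    change dz z' < fib (cyc ⁻¹' st E) (x', t) / 2
    have h2 : fib (cyc ⁻¹' st E) (x, t) ≤ fib (cyc ⁻¹' st E) (x', t) := by
      refine stbasic_mono fun s hs => ?_
      change dz x < fib E (t, s) / 2 at hs
      change dz x' < fib E (t, s) / 2
      linarith
    linarith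
  linarith

lemma stbasic_ae (h : PerSet E) : ∀ᵐ p : X, fib E p.2 = 0 → p ∉ E := by
  refine ae_of_ae_box (P := fun p : X => fib E p.2 = 0 → p ∉ E) (fun a b c p => ?_) 0 0 0 ?_
  · change (fib E (p.2 + ((b : ℝ), (c : ℝ))) = 0 → _) = _
    rw [h.fib_per, h.per]
  · have hm : MeasurableSet ((Prod.fst ⁻¹' Ico (0 : ℝ) 1 ∩ E) ∩ {p : X | fib E p.2 = 0}) :=
      ((measurable_fst measurableSet_Ico).inter h.meas).inter
        (measurableSet_eq_fun ((measurable_fib h.meas).comp measurable_snd) measurable_const)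
    have h0 : volume ((Prod.fst ⁻¹' Ico (0 : ℝ) 1 ∩ E) ∩ {p : X | fib E p.2 = 0}) = 0 := by
      rw [Measure.volume_eq_prod, Measure.prod_apply_symm hm]
      refine (lintegral_congr fun q => ?_).trans lintegral_zero
      by_cases hq : fib E q = 0
      · have h1 := ((ENNReal.toReal_eq_zero_iff _).1 hq).resolve_right (stbasic_ne E q)
        exact measure_mono_null (fun t ht => ht.1) h1
      · exact measure_mono_null (fun t ht => absurd ht.2 hq) (measure_empty (μ := volume))
    filter_upwards [measure_eq_zero_iff_ae_notMem.1 h0] with p hp hb hf hE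
    exact hp ⟨⟨by simpa using hb.1, hE⟩, hf⟩

/-- full or empty fibres -/
lemma ae_eq_st_of_trivial (h : PerSet E) (hf : ∀ᵐ q : ℝ × ℝ, fib E q = 0 ∨ fib E q = 1) :
    E =ᵐ[volume] st E := by
  have h1 := stbasic_ae h
  have h2 := stbasic_ae h.compl
  have h3 : ∀ᵐ p : X, fib E p.2 = 0 ∨ fib E p.2 = 1 :=
    (Measure.quasiMeasurePreserving_snd (μ := (volume : Measure ℝ))
      (ν := (volume : Measure (ℝ × ℝ)))).ae hf
  have h4 : ∀ᵐ p : X, dz p.1 < 1 / 2 :=
    (Measure.quasiMeasurePreserving_fst (μ := (volume : Measure ℝ))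
      (ν := (volume : Measure (ℝ × ℝ)))).ae stbasic_dz_ae
  refine eventuallyEq_set.2 ?_
  filter_upwards [h1, h2, h3, h4] with p a1 a2 a3 a4
  change p ∈ E ↔ dz p.1 < fib E p.2 / 2
  rcases a3 with a3 | a3
  · refine iff_of_false (a1 a3) ?_
    rw [a3]
    linarith [dz_nonneg p.1]
  · refine iff_of_true (not_not.1 (a2 (by rw [stbasic_compl h.meas, a3, sub_self]))) ?_
    rw [a3]
    exact a4

/-- the part of `E` over `{fib E = 0}` is null -/
lemma ae_notMem_of_fib_zero (h : PerSet E) : ∀ᵐ p : X, fib E p.2 = 0 → p ∉ E := by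
  exact stbasic_ae h

end Crest.Agent.R214
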