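import Crest.Agent.R214.Moll
import Crest.Agent.R214.OneD
import Crest.Agent.R214.StBasic
import Crest.Agent.R214.Fav

/-! Row 214: the equality case of the Steiner inequality: vanishing of the defect. -/

set_option autoImplicit false

namespace Crest.Agent.R214

open MeasureTheory Set Filter Topology Real
open scoped ENNReal

/-- hypotheses of the equality case -/
structure UHyp (E : Set X) (Ω : Set (ℝ × ℝ)) (m : ℝ × ℝ → ℝ) : Prop where
  per : PerSet E
  op : IsOpen Ω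
  conv : Convex ℝ Ω
  sub : Ω ⊆ Ioo (-1 / 2) (1 / 2) ×ˢ Ioo (-1 / 2) (1 / 2)
  zero : (0 : ℝ × ℝ) ∈ Ω
  c2 : ContDiffOn ℝ 2 m Ω
  pos : ∀ q ∈ Ω, 0 < m q
  lt : ∀ q ∈ Ω, m q < 1
  fib : ∀ᵐ q : ℝ × ℝ, q ∈ Ω → fib E q = m q
  le : tper E ≤ ∫⁻ q in Ω, ENNReal.ofReal √(4 + da m q ^ 2 + db m q ^ 2)
  fin : ∫⁻ q in Ω, ENNReal.ofReal √(4 + da m q ^ 2 + db m q ^ 2) ≠ ⊤

/-- test functions -/
structure DefectT (Ω : Set (ℝ × ℝ)) (n : ℕ) (φ : ℝ × ℝ → ℝ) : Prop where
  c : ContDiff ℝ n φ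
  k : HasCompactSupport φ
  s : tsupport φ ⊆ Ω

lemma DefectT.mul {Ω : Set (ℝ × ℝ)} (hΩ : IsOpen Ω) {n : ℕ} {φ f : ℝ × ℝ → ℝ} (h : DefectT Ω n φ)
    (hf : ContDiffOn ℝ n f Ω) : DefectT Ω n fun q => φ q * f q := by
  refine ⟨contDiff_iff_contDiffAt.2 fun q => ?_, h.k.mul_right, tsupport_mul_subset_left.trans h.s⟩
  by_cases hq : q ∈ tsupport φ
  · exact h.c.contDiffAt.mul (hf.contDiffAt (hΩ.mem_nhds (h.s hq)))
  · refine (contDiffAt_const (c := (0 : ℝ))).congr_of_eventuallyEq ?_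
    filter_upwards [notMem_tsupport_iff_eventuallyEq.1 hq] with y hy
    simp [hy]

lemma DefectT.of_le {Ω : Set (ℝ × ℝ)} {φ : ℝ × ℝ → ℝ} (h : DefectT Ω 1 φ) : DefectT Ω 0 φ :=
  ⟨h.c.of_le (by simp), h.k, h.s⟩

lemma DefectT.zero {Ω : Set (ℝ × ℝ)} {n : ℕ} {φ : ℝ × ℝ → ℝ} (h : DefectT Ω n φ) {q : ℝ × ℝ}
    (hq : q ∉ Ω) : φ q = 0 := image_eq_zero_of_notMem_tsupport fun h' => hq (h.s h')

lemma DefectT.integrable {Ω : Set (ℝ × ℝ)} {n : ℕ} {φ : ℝ × ℝ → ℝ} (h : DefectT Ω n φ) :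
    Integrable φ := h.c.continuous.integrable_of_hasCompactSupport h.k

lemma DefectT.integrable_mul {Ω : Set (ℝ × ℝ)} (hΩ : IsOpen Ω) {φ f : ℝ × ℝ → ℝ}
    (h : DefectT Ω 0 φ) (hf : ContinuousOn f Ω) : Integrable fun q => φ q * f q :=
  (h.mul hΩ (by simpa using hf)).integrable

lemma DefectT.fderiv {Ω : Set (ℝ × ℝ)} {φ : ℝ × ℝ → ℝ} (h : DefectT Ω 1 φ) (v : ℝ × ℝ) :
    DefectT Ω 0 fun q => fderiv ℝ φ q v := by
  refine ⟨?_, h.k.fderiv_apply ℝ v, (tsupport_fderiv_apply_subset ℝ v).trans h.s⟩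
  simpa using (h.c.continuous_fderiv (by simp)).clm_apply continuous_const

lemma defect_contOn_fderiv {Ω : Set (ℝ × ℝ)} (hΩ : IsOpen Ω) {f : ℝ × ℝ → ℝ}
    (hf : ContDiffOn ℝ 1 f Ω) (v : ℝ × ℝ) : ContinuousOn (fun q => fderiv ℝ f q v) Ω :=
  (hf.continuousOn_fderiv_of_isOpen hΩ le_rfl).clm_apply continuousOn_const

lemma DefectT.ibp {Ω : Set (ℝ × ℝ)} (hΩ : IsOpen Ω) {φ f : ℝ × ℝ → ℝ} (h : DefectT Ω 1 φ)
    (hf : ContDiffOn ℝ 1 f Ω) (v : ℝ × ℝ) :
    ∫ q, φ q * _root_.fderiv ℝ f q v = -∫ q, _root_.fderiv ℝ φ q v * f q :=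
  integral_mul_fderiv_eq_neg_fderiv_mul_of_integrable
    ((h.fderiv v).integrable_mul hΩ hf.continuousOn)
    (h.of_le.integrable_mul hΩ (defect_contOn_fderiv hΩ hf v))
    (h.of_le.integrable_mul hΩ hf.continuousOn)
    (fun q _ => h.c.differentiable (by simp) q)
    fun q hq => (hf.contDiffAt (hΩ.mem_nhds (h.s hq))).differentiableAt (by simp)

lemma defect_exists_bump {Ω K : Set (ℝ × ℝ)} (hΩ : IsOpen Ω) (hK : IsCompact K) (hKΩ : K ⊆ Ω) :
    ∃ χ : ℝ × ℝ → ℝ, DefectT Ω 1 χ ∧ (∀ q ∈ K, χ q = 1) ∧ ∀ q, 0 ≤ χ q ∧ χ q ≤ 1 := by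
  obtain ⟨K', hK', h1, h2⟩ := exists_compact_between hK hΩ hKΩ
  obtain ⟨f, hf0, hf1, hf⟩ := exists_contMDiffMap_zero_one_of_isClosed (n := 1)
    (modelWithCornersSelf ℝ (ℝ × ℝ)) (s := (interior K')ᶜ) (t := K)
    isOpen_interior.isClosed_compl hK.isClosed (disjoint_compl_left_iff_subset.2 h1)
  have hs : tsupport f ⊆ K' := by
    refine closure_minimal (fun q hq => ?_) hK'.isClosed
    by_contra hc
    exact hq (hf0 fun h' => hc (interior_subset h'))
  exact ⟨f, ⟨f.contMDiff.contDiff, hK'.of_isClosed_subset (isClosed_tsupport _) hs, hs.trans h2⟩,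
    fun q hq => hf1 hq, fun q => hf q⟩

lemma defect_cs (x y z a b : ℝ) :
    (2 * |x| + a * y + b * z) / √(4 + a ^ 2 + b ^ 2) ≤ √(x ^ 2 + y ^ 2 + z ^ 2) := by
  have hW : 0 < √(4 + a ^ 2 + b ^ 2) := Real.sqrt_pos.2 (by positivity)
  rw [div_le_iff₀ hW, ← Real.sqrt_mul (by positivity)]
  refine (le_abs_self _).trans (Real.abs_le_sqrt ?_)
  rw [← sq_abs x]
  nlinarith [sq_nonneg (a * |x| - 2 * y), sq_nonneg (b * |x| - 2 * z), sq_nonneg (a * z - b * y)]

/-- the area element -/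
noncomputable def defectW (m : ℝ × ℝ → ℝ) (q : ℝ × ℝ) : ℝ := √(4 + da m q ^ 2 + db m q ^ 2)
/-- fibre integral of the gradient -/
noncomputable def defectG (u : X → ℝ) (q : ℝ × ℝ) : ℝ := ∫ t in (0 : ℝ)..1, gn u (t, q)
/-- the defect -/
noncomputable def defectD (m : ℝ × ℝ → ℝ) (u : X → ℝ) (q : ℝ × ℝ) : ℝ :=
  ∫ t in (0 : ℝ)..1, (gn u (t, q) -
    (2 * |d1 u (t, q)| + da m q * d2 u (t, q) + db m q * d3 u (t, q)) /
      √(4 + da m q ^ 2 + db m q ^ 2))

lemma defectW_pos (m : ℝ × ℝ → ℝ) (q : ℝ × ℝ) : 0 < defectW m q := Real.sqrt_pos.2 (by positivity)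

lemma defectW_sq (m : ℝ × ℝ → ℝ) (q : ℝ × ℝ) : defectW m q ^ 2 = 4 + da m q ^ 2 + db m q ^ 2 :=
  Real.sq_sqrt (by positivity)

lemma defectD_nonneg (m : ℝ × ℝ → ℝ) (u : X → ℝ) (q : ℝ × ℝ) : 0 ≤ defectD m u q :=
  intervalIntegral.integral_nonneg zero_le_one fun _ _ => sub_nonneg.2 (defect_cs _ _ _ _ _)

lemma defectG_nonneg (u : X → ℝ) (q : ℝ × ℝ) : 0 ≤ defectG u q :=
  intervalIntegral.integral_nonneg zero_le_one fun _ _ => Real.sqrt_nonneg _

lemma defect_ii {f : X → ℝ} (hf : Continuous f) (q : ℝ × ℝ) :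
    IntervalIntegrable (fun t => f (t, q)) volume 0 1 :=
  (hf.comp (continuous_id.prodMk continuous_const)).intervalIntegrable _ _

lemma defectD_eq (m : ℝ × ℝ → ℝ) {u : X → ℝ} (hu : ContDiff ℝ 1 u) (q : ℝ × ℝ) :
    defectD m u q = defectG u q -
      (2 * ftv u q + da m q * da (fav u) q + db m q * db (fav u) q) / defectW m q := by
  have h0 := defect_ii (continuous_gn hu) q
  have h1 := (defect_ii (continuous_d1 hu).abs q).const_mul 2
  have h2 := (defect_ii (continuous_d2 hu) q).const_mul (da m q)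
  have h3 := (defect_ii (continuous_d3 hu) q).const_mul (db m q)
  rw [defectD, intervalIntegral.integral_sub h0 (((h1.add h2).add h3).div_const _),
    intervalIntegral.integral_div, intervalIntegral.integral_add (h1.add h2) h3,
    intervalIntegral.integral_add h1 h2, intervalIntegral.integral_const_mul,
    intervalIntegral.integral_const_mul, intervalIntegral.integral_const_mul, da_fav hu, db_fav hu]
  rfl

lemma defectG_continuous {u : X → ℝ} (hu : ContDiff ℝ 1 u) : Continuous (defectG u) :=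
  intervalIntegral.continuous_parametric_intervalIntegral_of_continuous'
    (f := fun (q : ℝ × ℝ) (t : ℝ) => gn u (t, q))
    ((continuous_gn hu).comp (continuous_snd.prodMk continuous_fst)) 0 1

lemma defectG_per {u : X → ℝ} (hp : ZPer u) : ZPer2 (defectG u) := by
  intro b c q
  unfold defectG
  congr 1
  funext t
  have e : ((t, q + ((b : ℝ), (c : ℝ))) : X) = (t, q) + (((0 : ℤ) : ℝ), (b : ℝ), (c : ℝ)) := by
    simp
  simp only [gn, e, hp.d1 0 b c, hp.d2 0 b c, hp.d3 0 b c]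

/-- the centred box -/
def defectB : Set (ℝ × ℝ) := Ico (-1 / 2) (-1 / 2 + 1) ×ˢ Ico (-1 / 2) (-1 / 2 + 1)

lemma defectG_intB {u : X → ℝ} (hu : ContDiff ℝ 1 u) : IntegrableOn (defectG u) defectB :=
  ((defectG_continuous hu).continuousOn.integrableOn_compact
    (isCompact_Icc.prod isCompact_Icc)).mono_set (prod_mono Ico_subset_Icc_self Ico_subset_Icc_self)

section
variable {E : Set X} {Ω : Set (ℝ × ℝ)} {m : ℝ × ℝ → ℝ} {u : ℕ → X → ℝ}

lemma UHyp.defect_subB (h : UHyp E Ω m) : Ω ⊆ defectB := by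
  refine h.sub.trans (prod_mono ?_ ?_) <;>
    exact fun x hx => ⟨hx.1.le, by linarith [hx.2]⟩

lemma UHyp.defect_GB (h : UHyp E Ω m) (hu : Moll E u) (n : ℕ) :
    ∫ q in defectB, defectG (u n) q ≤ (tper E).toReal := by
  rw [defectB, integral_box2 (defectG_per (hu.per n))]
  have := integral_C0_eq (integrableOn_C0 (continuous_gn (hu.c n)))
  refine le_trans (le_of_eq this.symm) ?_
  exact (ENNReal.ofReal_le_iff_le_toReal (ne_top_of_le_ne_top h.fin h.le)).1 (hu.grad n)

lemma UHyp.defect_da (h : UHyp E Ω m) : ContDiffOn ℝ 1 (da m) Ω :=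
  (h.c2.fderiv_of_isOpen h.op (m := 1) (by norm_num)).clm_apply contDiffOn_const

lemma UHyp.defect_db (h : UHyp E Ω m) : ContDiffOn ℝ 1 (db m) Ω :=
  (h.c2.fderiv_of_isOpen h.op (m := 1) (by norm_num)).clm_apply contDiffOn_const

lemma UHyp.defect_W (h : UHyp E Ω m) : ContDiffOn ℝ 1 (defectW m) Ω :=
  ((contDiffOn_const.add (h.defect_da.pow 2)).add (h.defect_db.pow 2)).sqrt
    fun q _ => by positivity

lemma UHyp.defect_D (h : UHyp E Ω m) {u : X → ℝ} (hu : ContDiff ℝ 1 u) :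
    ContinuousOn (defectD m u) Ω := by
  have e : defectD m u = _ := funext (defectD_eq m hu)
  rw [e]
  have h1 := defect_contOn_fderiv h.op (contDiff_fav hu).contDiffOn (1, 0)
  have h2 := defect_contOn_fderiv h.op (contDiff_fav hu).contDiffOn (0, 1)
  exact (defectG_continuous hu).continuousOn.sub
    ((((continuousOn_const.mul (continuous_ftv hu).continuousOn).add
      (h.defect_da.continuousOn.mul h1)).add (h.defect_db.continuousOn.mul h2)).div
      h.defect_W.continuousOn fun q _ => (defectW_pos m q).ne')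

lemma UHyp.defect_tendsto_ibp (h : UHyp E Ω m) (hu : Moll E u) {φ : ℝ × ℝ → ℝ}
    (hφ : DefectT Ω 1 φ) (v : ℝ × ℝ) :
    Tendsto (fun n => ∫ q, φ q * fderiv ℝ (fav (u n)) q v) atTop
      (𝓝 (∫ q, φ q * fderiv ℝ m q v)) := by
  have hm : ContDiffOn ℝ 1 m Ω := h.c2.of_le (by norm_num)
  rw [hφ.ibp h.op hm]
  simp only [hφ.ibp h.op (contDiff_fav (hu.c _)).contDiffOn]
  refine Tendsto.neg (tendsto_integral_of_dominated_convergence (fun q => |fderiv ℝ φ q v|)
    (fun n => ((hφ.fderiv v).integrable_mul h.op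
      (contDiff_fav (hu.c n)).continuous.continuousOn).aestronglyMeasurable)
    (hφ.fderiv v).integrable.abs (fun n => Eventually.of_forall fun q => ?_) ?_)
  · rw [Real.norm_eq_abs, abs_mul]
    refine mul_le_of_le_one_right (abs_nonneg _) ?_
    have := intervalIntegral.norm_integral_le_of_norm_le_const (a := 0) (b := 1) (C := 1)
      (f := fun t => u n (t, q)) fun t _ => by
        rw [Real.norm_eq_abs, abs_of_nonneg (hu.nn n _)]; exact hu.le n _
    simpa [fav] using this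
  · filter_upwards [hu.tendsto_fav h.per, h.fib] with q h1 h2
    by_cases hq : q ∈ Ω
    · rw [← h2 hq]
      exact h1.const_mul _
    · simp only [(hφ.fderiv v).zero hq, zero_mul]
      exact tendsto_const_nhds

lemma UHyp.defect_tendsto_neg (h : UHyp E Ω m) (hu : Moll E u) {φ : ℝ × ℝ → ℝ}
    (hφ : DefectT Ω 0 φ) :
    Tendsto (fun n => ∫ q, φ q * max (2 - ftv (u n) q) 0) atTop (𝓝 0) := by
  have h0 : (0 : ℝ) = ∫ q : ℝ × ℝ, (0 : ℝ) := by simp
  rw [h0]
  simp only [integral_zero]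
  rw [h0]
  refine tendsto_integral_of_dominated_convergence (fun q => |φ q| * 2)
    (fun n => ?_) (hφ.integrable.abs.mul_const 2) (fun n => Eventually.of_forall fun q => ?_) ?_
  · simp only [integral_zero]
    exact (hφ.c.continuous.mul ((continuous_const.sub (continuous_ftv (hu.c n))).max
      continuous_const)).aestronglyMeasurable
  · simp only [integral_zero]
    rw [Real.norm_eq_abs, abs_mul]
    refine mul_le_mul_of_nonneg_left ?_ (abs_nonneg _)
    have : 0 ≤ ftv (u n) q := intervalIntegral.integral_nonneg zero_le_one fun _ _ => abs_nonneg _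
    rw [abs_of_nonneg (le_max_right _ _)]
    exact max_le (by linarith) (by norm_num)
  · simp only [integral_zero]
    filter_upwards [hu.ae_fibre h.per, h.fib] with q h1 h2
    by_cases hq : q ∈ Ω
    · have h3 := tv_liminf (v := fun n s => u n (s, q)) (B := {s | (s, q) ∈ E})
        (fun n => (hu.c n).comp (contDiff_id.prodMk contDiff_const))
        (fun n s => by simpa [Prod.mk_zero_zero] using hu.per n 1 0 0 (s, q))
        (measurable_prodMk_right h.per.meas)
        (fun t => by simpa [Prod.mk_zero_zero] using h.per.per 1 0 0 (t, q))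
        h1 (m := m q) (h2 hq) (h.pos q hq) (h.lt q hq)
      have h4 : Tendsto (fun n => max (2 - ftv (u n) q) 0) atTop (𝓝 0) := by
        refine Metric.tendsto_nhds.2 fun η hη => ?_
        filter_upwards [h3 (η / 2) (by positivity)] with n hn
        rw [← ftv_eq (hu.c n)] at hn
        rw [Real.dist_eq, sub_zero, abs_of_nonneg (le_max_right _ _)]
        exact max_lt (by linarith) hη
      simpa using h4.const_mul (φ q)
    · simp only [hφ.zero hq, zero_mul]
      exact tendsto_const_nhds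

lemma defect_set_le (hΩ : IsOpen Ω) {χ F : ℝ × ℝ → ℝ} (hχ : DefectT Ω 0 χ) (h0 : ∀ q, 0 ≤ χ q)
    (hF : ContinuousOn F Ω) (hF0 : ∀ q, 0 ≤ F q) {S : Set (ℝ × ℝ)} (hS : MeasurableSet S)
    (h1 : ∀ q ∈ S, χ q = 1) : ∫ q in S, F q ≤ ∫ q, χ q * F q := by
  refine le_trans (le_of_eq (setIntegral_congr_fun hS fun q hq => ?_))
    (setIntegral_le_integral (s := S) (hχ.integrable_mul hΩ hF)
      (Eventually.of_forall fun q => mul_nonneg (h0 q) (hF0 q)))
  simp [h1 q hq]

lemma UHyp.defect_exists_compact (h : UHyp E Ω m) {ε : ℝ} (hε : 0 < ε) :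
    ∃ K ⊆ Ω, IsCompact K ∧ (tper E).toReal ≤ (∫ q in K, defectW m q) + ε := by
  have e : ∀ S : Set (ℝ × ℝ), MeasurableSet S →
      (volume.withDensity fun q => ENNReal.ofReal (defectW m q)) S =
        ∫⁻ q in S, ENNReal.ofReal (defectW m q) := fun S hS => withDensity_apply _ hS
  obtain ⟨K, hK, hKc, hlt⟩ := h.op.measurableSet.exists_isCompact_lt_add
    (μ := volume.withDensity fun q => ENNReal.ofReal (defectW m q))
    (by rw [e _ h.op.measurableSet]; exact h.fin) (ε := ENNReal.ofReal ε) (by simpa using hε)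
  refine ⟨K, hK, hKc, ?_⟩
  rw [e _ h.op.measurableSet, e _ hKc.measurableSet, ← ofReal_integral_eq_lintegral_ofReal
    ((h.defect_W.continuousOn.mono hK).integrableOn_compact hKc)
    (Eventually.of_forall fun q => (defectW_pos m q).le)] at hlt
  have h0 : 0 ≤ ∫ q in K, defectW m q := integral_nonneg fun q => (defectW_pos m q).le
  rw [← ENNReal.ofReal_add h0 hε.le] at hlt
  exact ENNReal.toReal_le_of_le_ofReal (by positivity) (h.le.trans hlt.le)

lemma UHyp.defect_F (h : UHyp E Ω m) {u : X → ℝ} (hu : ContDiff ℝ 1 u) :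
    ContinuousOn (fun q => 2 / defectW m q * |ftv u q - 2|) Ω :=
  (continuousOn_const.div h.defect_W.continuousOn fun q _ => (defectW_pos m q).ne').mul
    ((continuous_ftv hu).sub continuous_const).abs.continuousOn

lemma UHyp.defect_core (h : UHyp E Ω m) (hu : Moll E u) {L : Set (ℝ × ℝ)} (hL : L ⊆ Ω)
    (hc : IsCompact L) :
    Tendsto (fun n => ∫ q in L, (defectD m (u n) q + 2 / defectW m q * |ftv (u n) q - 2|)) atTop
      (𝓝 0) := by
  have hF0 : ∀ n q, 0 ≤ defectD m (u n) q + 2 / defectW m q * |ftv (u n) q - 2| := fun n q =>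
    add_nonneg (defectD_nonneg _ _ _) (by have := defectW_pos m q; positivity)
  refine Metric.tendsto_nhds.2 fun ε hε => ?_
  obtain ⟨K, hK, hKc, hP⟩ := h.defect_exists_compact (half_pos hε)
  obtain ⟨χ, hχ, hχ1, hχ0⟩ := defect_exists_bump h.op (hc.union hKc) (union_subset hL hK)
  have hW : ∀ q ∈ Ω, defectW m q ≠ 0 := fun q _ => (defectW_pos m q).ne'
  have t1 : DefectT Ω 1 fun q => χ q * (2 / defectW m q) :=
    hχ.mul h.op (contDiffOn_const.div h.defect_W hW)
  have t2 : DefectT Ω 1 fun q => χ q * (da m q / defectW m q) :=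
    hχ.mul h.op (h.defect_da.div h.defect_W hW)
  have t3 : DefectT Ω 1 fun q => χ q * (db m q / defectW m q) :=
    hχ.mul h.op (h.defect_db.div h.defect_W hW)
  have l1 := h.defect_tendsto_neg hu t1.of_le
  have l2 : Tendsto (fun n => ∫ q, χ q * (da m q / defectW m q) * da (fav (u n)) q) atTop
      (𝓝 (∫ q, χ q * (da m q / defectW m q) * da m q)) := h.defect_tendsto_ibp hu t2 (1, 0)
  have l3 : Tendsto (fun n => ∫ q, χ q * (db m q / defectW m q) * db (fav (u n)) q) atTop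
      (𝓝 (∫ q, χ q * (db m q / defectW m q) * db m q)) := h.defect_tendsto_ibp hu t3 (0, 1)
  have i1 : Integrable fun q => χ q * (2 / defectW m q) * 2 := t1.integrable.mul_const 2
  have hWχ : ∫ q, χ q * defectW m q = (∫ q, χ q * (2 / defectW m q) * 2) +
      (∫ q, χ q * (da m q / defectW m q) * da m q) +
      ∫ q, χ q * (db m q / defectW m q) * db m q := by
    have i2 := t2.of_le.integrable_mul h.op h.defect_da.continuousOn
    have i3 := t3.of_le.integrable_mul h.op h.defect_db.continuousOn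
    rw [← integral_add i1 i2, ← integral_add (i1.fun_add i2) i3]
    refine integral_congr_ae (Eventually.of_forall fun q => ?_)
    have h1 := defectW_pos m q
    have h2 := defectW_sq m q
    field_simp
    rw [h2]
    ring
  have hKW := defect_set_le h.op hχ.of_le (fun q => (hχ0 q).1) h.defect_W.continuousOn
    (fun q => (defectW_pos m q).le) hKc.measurableSet fun q hq => hχ1 q (Or.inr hq)
  have l4 := (((l1.const_mul 2).const_add ((tper E).toReal -
    ∫ q, χ q * (2 / defectW m q) * 2)).sub l2).sub l3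
  filter_upwards [l4.eventually (gt_mem_nhds (a := ε) (by linarith))] with n hn
  rw [Real.dist_eq, sub_zero, abs_of_nonneg (integral_nonneg (hF0 n))]
  refine lt_of_le_of_lt ?_ hn
  refine (defect_set_le h.op hχ.of_le (fun q => (hχ0 q).1)
    (F := fun q => defectD m (u n) q + 2 / defectW m q * |ftv (u n) q - 2|)
    ((h.defect_D (hu.c n)).add (h.defect_F (hu.c n))) (hF0 n) hc.measurableSet
    fun q hq => hχ1 q (Or.inl hq)).trans ?_
  have j0 := hχ.of_le.integrable_mul h.op (defectG_continuous (hu.c n)).continuousOn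
  have j1 := (t1.of_le.integrable_mul h.op (f := fun q => max (2 - ftv (u n) q) 0)
    ((continuous_const.sub (continuous_ftv (hu.c n))).max continuous_const).continuousOn).const_mul 2
  have j2 : Integrable fun q => χ q * (da m q / defectW m q) * da (fav (u n)) q :=
    t2.of_le.integrable_mul h.op
      (defect_contOn_fderiv h.op (contDiff_fav (hu.c n)).contDiffOn (1, 0))
  have j3 : Integrable fun q => χ q * (db m q / defectW m q) * db (fav (u n)) q :=
    t3.of_le.integrable_mul h.op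
      (defect_contOn_fderiv h.op (contDiff_fav (hu.c n)).contDiffOn (0, 1))
  have hG : ∫ q, χ q * defectG (u n) q ≤ (tper E).toReal := by
    rw [← setIntegral_eq_integral_of_forall_compl_eq_zero (s := defectB)
      fun q hq => by rw [hχ.zero fun h' => hq (h.defect_subB h'), zero_mul]]
    refine le_trans (integral_mono j0.integrableOn (defectG_intB (hu.c n)) fun q => ?_)
      (h.defect_GB hu n)
    exact mul_le_of_le_one_left (defectG_nonneg _ _) (hχ0 q).2
  have e : ∫ q, χ q * (defectD m (u n) q + 2 / defectW m q * |ftv (u n) q - 2|) =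
      (∫ q, χ q * defectG (u n) q) - (∫ q, χ q * (2 / defectW m q) * 2) +
        2 * (∫ q, χ q * (2 / defectW m q) * max (2 - ftv (u n) q) 0) -
        (∫ q, χ q * (da m q / defectW m q) * da (fav (u n)) q) -
        ∫ q, χ q * (db m q / defectW m q) * db (fav (u n)) q := by
    rw [← integral_const_mul, ← integral_sub j0 i1, ← integral_add (j0.sub' i1) j1,
      ← integral_sub ((j0.sub' i1).fun_add j1) j2,
      ← integral_sub (((j0.sub' i1).fun_add j1).sub' j2) j3]
    refine integral_congr_ae (Eventually.of_forall fun q => ?_)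
    have h1 : |ftv (u n) q - 2| = ftv (u n) q - 2 + 2 * max (2 - ftv (u n) q) 0 := by
      rcases le_total (ftv (u n) q) 2 with h2 | h2
      · rw [abs_of_nonpos (by linarith), max_eq_left (by linarith)]; ring
      · rw [abs_of_nonneg (by linarith), max_eq_right (by linarith)]; ring
    simp only [defectD_eq m (hu.c n), h1]
    ring
  rw [e]
  linarith

end

/-- Let `W = √(4 + |∇m|²)`, `N = (2, da m, db m) / W` (a unit vector) and
`δ n p = gn (u n) p - (N₁ |d1 u| + N₂ d2 u + N₃ d3 u) ≥ 0` over `Ω`.  Let `χ` be smooth with compact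
support in `Ω`, `0 ≤ χ ≤ 1`, `χ = 1` on a compact `L' ⊇ L` with `∫_Ω W ≤ ∫_{L'} W + ε`.  Then
`P ≥ ∫ gn ≥ ∫ χ gn = ∫ χ δ n + ∫ χ N₁ ftv + ∫ χ (N₂ da (fav u) + N₃ db (fav u))` (`integral_box`),
the last integral tends to `∫ χ (N₂ da m + N₃ db m)` (integrate by parts in the plane twice,
`Moll.tendsto_fav`), and `∫ χ N₁ (2 - ftv)₊ → 0` (`tv_liminf`, dominated convergence).  Hence
`limsup (∫ χ δ n + ∫ χ N₁ (ftv - 2)₊) ≤ P - ∫ χ W ≤ ε`; `N₁` is bounded below on `L`. -/
theorem UHyp.defect {E : Set X} {Ω : Set (ℝ × ℝ)} {m : ℝ × ℝ → ℝ} (h : UHyp E Ω m)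
    {u : ℕ → X → ℝ} (hu : Moll E u) {L : Set (ℝ × ℝ)} (hL : L ⊆ Ω) (hc : IsCompact L) :
    Tendsto (fun n => ∫ q in L, |ftv (u n) q - 2|) atTop (𝓝 0) ∧
    Tendsto (fun n => ∫ q in L, ∫ t in (0 : ℝ)..1, (gn (u n) (t, q) -
      (2 * |d1 (u n) (t, q)| + da m q * d2 (u n) (t, q) + db m q * d3 (u n) (t, q)) /
        √(4 + da m q ^ 2 + db m q ^ 2))) atTop (𝓝 0) := by
  have hcore := h.defect_core hu hL hc
  have iD : ∀ n, IntegrableOn (defectD m (u n)) L := fun n =>
    ((h.defect_D (hu.c n)).mono hL).integrableOn_compact hc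
  have iF : ∀ n, IntegrableOn (fun q => 2 / defectW m q * |ftv (u n) q - 2|) L := fun n =>
    ((h.defect_F (hu.c n)).mono hL).integrableOn_compact hc
  have hF0 : ∀ n q, 0 ≤ 2 / defectW m q * |ftv (u n) q - 2| := fun n q => by
    have := defectW_pos m q; positivity
  constructor
  · obtain ⟨M, hM⟩ := hc.exists_bound_of_continuousOn (h.defect_W.continuousOn.mono hL)
    have h1 := hcore.const_mul (|M| / 2)
    rw [mul_zero] at h1
    refine squeeze_zero (fun n => integral_nonneg fun q => abs_nonneg _) (fun n => ?_) h1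
    rw [← integral_const_mul]
    refine setIntegral_mono_on (((continuous_ftv (hu.c n)).sub
      continuous_const).abs.continuousOn.integrableOn_compact hc)
      (((iD n).add (iF n)).const_mul _) hc.measurableSet fun q hq => ?_
    have h2 := defectW_pos m q
    have h3 : defectW m q ≤ |M| := (le_abs_self _).trans ((hM q hq).trans (le_abs_self _))
    have h4 := defectD_nonneg m (u n) q
    have h5 : 1 ≤ |M| / 2 * (2 / defectW m q) := by
      rw [div_mul_div_cancel₀ two_ne_zero, le_div_iff₀ h2]; linarith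
    have h6 := abs_nonneg (ftv (u n) q - 2)
    have h7 : 0 ≤ |M| / 2 * defectD m (u n) q := by positivity
    nlinarith
  · refine squeeze_zero (g := fun n => ∫ q in L,
      (defectD m (u n) q + 2 / defectW m q * |ftv (u n) q - 2|))
      (fun n => integral_nonneg fun q => defectD_nonneg m (u n) q) (fun n => ?_) hcore
    exact integral_mono (iD n) ((iD n).add (iF n)) fun q => le_add_of_nonneg_right (hF0 n q)

/-- pointwise: for a vector `v`, `a, b` and `N = (2, a, b) / W`, `δ = |v| - N · (|v₁|, v₂, v₃)` one has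
`‖(|v₁|, v₂, v₃) - |v| N‖² = 2 |v| δ ≤ (κ |v| + δ / (2 κ))²`. -/
lemma defect_pt (v1 v2 v3 a b : ℝ) {κ : ℝ} (hκ : 0 < κ) :
    |v2 - a / 2 * (|v1|)| ≤ (1 + |a| / 2) * (κ * √(v1 ^ 2 + v2 ^ 2 + v3 ^ 2) +
      (√(v1 ^ 2 + v2 ^ 2 + v3 ^ 2) - (2 * |v1| + a * v2 + b * v3) / √(4 + a ^ 2 + b ^ 2)) /
        (2 * κ)) := by
  have hδ := sub_nonneg.2 (defect_cs v1 v2 v3 a b)
  obtain ⟨r, hr⟩ : ∃ r, r = √(v1 ^ 2 + v2 ^ 2 + v3 ^ 2) := ⟨_, rfl⟩
  obtain ⟨W, hW⟩ : ∃ W, W = √(4 + a ^ 2 + b ^ 2) := ⟨_, rfl⟩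
  have hr0 : 0 ≤ r := hr ▸ Real.sqrt_nonneg _
  have hW0 : 0 < W := hW ▸ Real.sqrt_pos.2 (by positivity)
  have hr2 : r ^ 2 = |v1| ^ 2 + v2 ^ 2 + v3 ^ 2 := by
    rw [hr, Real.sq_sqrt (by positivity), sq_abs]
  have hW2 : W ^ 2 = 4 + a ^ 2 + b ^ 2 := by rw [hW, Real.sq_sqrt (by positivity)]
  rw [← hr, ← hW] at hδ ⊢
  obtain ⟨x, hx⟩ : ∃ x, x = |v1| := ⟨_, rfl⟩
  rw [← hx] at hδ hr2 ⊢
  obtain ⟨δ, hδe⟩ : ∃ δ, δ = r - (2 * x + a * v2 + b * v3) / W := ⟨_, rfl⟩
  rw [← hδe] at hδ ⊢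
  obtain ⟨ρ, hρ⟩ : ∃ ρ, ρ = r / W := ⟨_, rfl⟩
  have e1 : (x - 2 * ρ) ^ 2 + (v2 - a * ρ) ^ 2 + (v3 - b * ρ) ^ 2 = 2 * r * δ := by
    have h1 : ρ ^ 2 * (4 + a ^ 2 + b ^ 2) = r ^ 2 := by
      rw [← hW2, hρ]; field_simp
    have h2 : r * δ = r ^ 2 - ρ * (2 * x + a * v2 + b * v3) := by
      rw [hδe, hρ]; field_simp
    linear_combination h1 - hr2 - 2 * h2
  have hZ : 0 ≤ κ * r + δ / (2 * κ) := by positivity
  have e2 : 2 * r * δ ≤ (κ * r + δ / (2 * κ)) ^ 2 := by
    have h1 : 2 * r * δ = 4 * (κ * r) * (δ / (2 * κ)) := by field_simp; ring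
    rw [h1]
    nlinarith [sq_nonneg (κ * r - δ / (2 * κ))]
  have b1 : |x - 2 * ρ| ≤ κ * r + δ / (2 * κ) := abs_le_of_sq_le_sq' (by
    nlinarith [sq_nonneg (v2 - a * ρ), sq_nonneg (v3 - b * ρ)]) hZ |> abs_le.2
  have b2 : |v2 - a * ρ| ≤ κ * r + δ / (2 * κ) := abs_le_of_sq_le_sq' (by
    nlinarith [sq_nonneg (x - 2 * ρ), sq_nonneg (v3 - b * ρ)]) hZ |> abs_le.2
  have e3 : v2 - a / 2 * x = (v2 - a * ρ) - a / 2 * (x - 2 * ρ) := by ring
  rw [e3]
  refine (abs_sub _ _).trans ?_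
  rw [abs_mul, abs_div, abs_two]
  have := mul_le_mul_of_nonneg_left b1 (show 0 ≤ |a| / 2 by positivity)
  linarith

lemma UHyp.defect_aux {E : Set X} {Ω : Set (ℝ × ℝ)} {m : ℝ × ℝ → ℝ} (h : UHyp E Ω m)
    {u : ℕ → X → ℝ} (hu : Moll E u) {L : Set (ℝ × ℝ)} (hL : L ⊆ Ω) (hc : IsCompact L)
    {a : ℝ × ℝ → ℝ} (ha : ContinuousOn a Ω) {f : ℕ → ℝ × ℝ → ℝ} (hf0 : ∀ n q, 0 ≤ f n q)
    (hf : ∀ κ > 0, ∀ n q, f n q ≤
      (1 + |a q| / 2) * (κ * defectG (u n) q + defectD m (u n) q / (2 * κ))) :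
    Tendsto (fun n => ∫ q in L, f n q) atTop (𝓝 0) := by
  have hD : Tendsto (fun n => ∫ q in L, defectD m (u n) q) atTop (𝓝 0) := (h.defect hu hL hc).2
  obtain ⟨M, hM⟩ := hc.exists_bound_of_continuousOn (ha.mono hL)
  obtain ⟨P, hP⟩ : ∃ P, P = (tper E).toReal := ⟨_, rfl⟩
  have hP0 : 0 ≤ P := hP ▸ ENNReal.toReal_nonneg
  refine Metric.tendsto_nhds.2 fun ε hε => ?_
  obtain ⟨κ, hκ, hκε⟩ : ∃ κ > 0, (1 + |M| / 2) * (κ * P) < ε := by
    refine ⟨ε / ((1 + |M| / 2) * P + 1), by positivity, ?_⟩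
    rw [mul_left_comm, div_mul_eq_mul_div, div_lt_iff₀ (by positivity)]
    nlinarith
  have l1 := ((hD.div_const (2 * κ)).const_add (κ * P)).const_mul (1 + |M| / 2)
  rw [zero_div, add_zero] at l1
  filter_upwards [l1.eventually (gt_mem_nhds hκε)] with n hn
  rw [Real.dist_eq, sub_zero, abs_of_nonneg (integral_nonneg (hf0 n))]
  refine lt_of_le_of_lt ?_ hn
  have iD : IntegrableOn (defectD m (u n)) L :=
    ((h.defect_D (hu.c n)).mono hL).integrableOn_compact hc
  have iG : IntegrableOn (defectG (u n)) L :=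
    (defectG_continuous (hu.c n)).continuousOn.integrableOn_compact hc
  have hG : ∫ q in L, defectG (u n) q ≤ P := by
    rw [hP]
    exact (setIntegral_mono_set (defectG_intB (hu.c n))
      (Eventually.of_forall fun q => defectG_nonneg _ q)
      (hL.trans h.defect_subB).eventuallyLE).trans (h.defect_GB hu n)
  have h1 : ∫ q in L, f n q ≤ ∫ q in L,
      (1 + |M| / 2) * (κ * defectG (u n) q + defectD m (u n) q / (2 * κ)) := by
    refine integral_mono_of_nonneg (Eventually.of_forall (hf0 n))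
      (((iG.const_mul κ).add (iD.div_const _)).const_mul _) ?_
    filter_upwards [ae_restrict_mem hc.measurableSet] with q hq
    refine (hf κ hκ n q).trans (mul_le_mul_of_nonneg_right ?_ ?_)
    · have : |a q| ≤ |M| := (hM q hq).trans (le_abs_self _)
      linarith
    · have := defectG_nonneg (u n) q
      have := defectD_nonneg m (u n) q
      positivity
  refine h1.trans ?_
  rw [integral_const_mul, integral_add (iG.const_mul κ) (iD.div_const _), integral_const_mul,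
    integral_div]
  gcongr

lemma defect_int_le (m : ℝ × ℝ → ℝ) {u g : X → ℝ} (hu : ContDiff ℝ 1 u) (q : ℝ × ℝ) (c κ : ℝ)
    (hg : Continuous g) (h : ∀ t, g (t, q) ≤ c * (κ * gn u (t, q) + (gn u (t, q) -
      (2 * |d1 u (t, q)| + da m q * d2 u (t, q) + db m q * d3 u (t, q)) /
        √(4 + da m q ^ 2 + db m q ^ 2)) / (2 * κ))) :
    ∫ t in (0 : ℝ)..1, g (t, q) ≤ c * (κ * defectG u q + defectD m u q / (2 * κ)) := by
  have h0 := defect_ii (continuous_gn hu) q
  have h1 := (defect_ii (continuous_d1 hu).abs q).const_mul 2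
  have h2 := (defect_ii (continuous_d2 hu) q).const_mul (da m q)
  have h3 := (defect_ii (continuous_d3 hu) q).const_mul (db m q)
  have h4 := (h0.sub (((h1.add h2).add h3).div_const √(4 + da m q ^ 2 + db m q ^ 2))).div_const (2 * κ)
  refine (intervalIntegral.integral_mono_on zero_le_one (defect_ii hg q)
    (((h0.const_mul κ).add h4).const_mul c) fun t _ => h t).trans (le_of_eq ?_)
  rw [intervalIntegral.integral_const_mul, intervalIntegral.integral_add (h0.const_mul κ) h4,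
    intervalIntegral.integral_const_mul, intervalIntegral.integral_div]
  rfl

/-- from `defect`, `defect_pt` and `∫ gn ≤ tper E < ∞` -/
theorem UHyp.defect' {E : Set X} {Ω : Set (ℝ × ℝ)} {m : ℝ × ℝ → ℝ} (h : UHyp E Ω m)
    {u : ℕ → X → ℝ} (hu : Moll E u) {L : Set (ℝ × ℝ)} (hL : L ⊆ Ω) (hc : IsCompact L) :
    Tendsto (fun n => ∫ q in L, ∫ t in (0 : ℝ)..1,
      |d2 (u n) (t, q) - da m q / 2 * (|d1 (u n) (t, q)|)|) atTop (𝓝 0) ∧
    Tendsto (fun n => ∫ q in L, ∫ t in (0 : ℝ)..1,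
      |d3 (u n) (t, q) - db m q / 2 * (|d1 (u n) (t, q)|)|) atTop (𝓝 0) := by
  constructor
  · refine h.defect_aux hu hL hc h.defect_da.continuousOn
      (fun n q => intervalIntegral.integral_nonneg zero_le_one fun _ _ => abs_nonneg _)
      fun κ hκ n q => ?_
    exact defect_int_le m (g := fun p => |d2 (u n) p - da m q / 2 * (|d1 (u n) p|)|) (hu.c n) q _ κ
      ((continuous_d2 (hu.c n)).sub (continuous_const.mul (continuous_d1 (hu.c n)).abs)).abs
      fun t => defect_pt _ _ _ _ _ hκ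
  · refine h.defect_aux hu hL hc h.defect_db.continuousOn
      (fun n q => intervalIntegral.integral_nonneg zero_le_one fun _ _ => abs_nonneg _)
      fun κ hκ n q => ?_
    refine defect_int_le m (g := fun p => |d3 (u n) p - db m q / 2 * (|d1 (u n) p|)|) (hu.c n) q _ κ
      ((continuous_d3 (hu.c n)).sub (continuous_const.mul (continuous_d1 (hu.c n)).abs)).abs
      fun t => ?_
    have := defect_pt (d1 (u n) (t, q)) (d3 (u n) (t, q)) (d2 (u n) (t, q)) (db m q) (da m q) hκ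
    rw [add_right_comm (d1 (u n) (t, q) ^ 2), add_right_comm (2 * |d1 (u n) (t, q)|),
      add_right_comm 4] at this
    exact this

end Crest.Agent.R214
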