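import Mathlib
import Crest.Prelude.Def_PeriodicPerimeter

/-!
Row 214 (isoperimetric problem in the cubic flat three-torus): definitions.

Plan.  Everything is transported to `X = ℝ × ℝ × ℝ`.  Three Steiner symmetrisations (`sym3`) reduce
to down-sets `D` of the open unit cube `Q` (`cube`).  The boundary of `D` is described by the three
graph measures `mu1, mu2, mu3`, i.e. by an area measure `A` and a unit normal (`Surf`).  A minimiser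
of `per D - conj (vol D)` (`Min`) is stationary under product deformations (`Flux3`, `Bdry`), which
gives for every direction the one-dimensional data `Dir`, `Sl`; a real-variable argument
(`Core.lean`, with a numerical certificate) leaves only ball, tube and slab.
-/

set_option autoImplicit false

namespace Crest.Agent.R214

open MeasureTheory Set Filter Topology Real
open scoped ENNReal

noncomputable section

abbrev X := ℝ × ℝ × ℝ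

/-- partial derivatives, divergence, Euclidean norm of the gradient -/
def d1 (f : X → ℝ) (p : X) : ℝ := fderiv ℝ f p (1, 0, 0)
def d2 (f : X → ℝ) (p : X) : ℝ := fderiv ℝ f p (0, 1, 0)
def d3 (f : X → ℝ) (p : X) : ℝ := fderiv ℝ f p (0, 0, 1)
def dv (f1 f2 f3 : X → ℝ) (p : X) : ℝ := d1 f1 p + d2 f2 p + d3 f3 p
def gn (f : X → ℝ) (p : X) : ℝ := √(d1 f p ^ 2 + d2 f p ^ 2 + d3 f p ^ 2)
/-- partial derivatives in the plane -/
def da (w : ℝ × ℝ → ℝ) (q : ℝ × ℝ) : ℝ := fderiv ℝ w q (1, 0)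
def db (w : ℝ × ℝ → ℝ) (q : ℝ × ℝ) : ℝ := fderiv ℝ w q (0, 1)

/-- coordinate permutations; `cyi` is the inverse of `cyc`.  The first coordinate of
`cyc ⁻¹' D` is the third coordinate of `D`, the first coordinate of `cyc ⁻¹' (cyc ⁻¹' D)` is the
second coordinate of `D`. -/
def cyc (p : X) : X := (p.2.1, p.2.2, p.1)
def cyi (p : X) : X := (p.2.2, p.1, p.2.1)
def swp (p : X) : X := (p.1, p.2.2, p.2.1)

/-! ### the profile (of the unit cube; the torus profile is `2 * conj`) -/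

def sph (v : ℝ) : ℝ := (9 * π / 2) ^ ((1 : ℝ) / 3) * v ^ ((2 : ℝ) / 3)
def conj (V : ℝ) : ℝ := min (min (sph (min V (1 - V))) (√(π * min V (1 - V)))) 1
def v0 : ℝ := 4 * π / 81

/-- `H` is a super-gradient of `conj` at `V` (along sequences) -/
structure Super (V H : ℝ) : Prop where
  right : ∀ η > 0, ∃ W, V < W ∧ W < V + η ∧ conj W ≤ conj V + (H + η) * (W - V)
  left : ∀ η > 0, ∃ W, W < V ∧ V - η < W ∧ conj W ≤ conj V - (H - η) * (V - W)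

/-! ### the torus -/

def ZPer {α : Type*} (f : X → α) : Prop :=
  ∀ (a b c : ℤ) (p : X), f (p + ((a : ℝ), (b : ℝ), (c : ℝ))) = f p
def ZPer2 {α : Type*} (f : ℝ × ℝ → α) : Prop :=
  ∀ (b c : ℤ) (q : ℝ × ℝ), f (q + ((b : ℝ), (c : ℝ))) = f q

structure PerSet (E : Set X) : Prop where
  meas : MeasurableSet E
  per : ∀ (a b c : ℤ) (p : X), p + ((a : ℝ), (b : ℝ), (c : ℝ)) ∈ E ↔ p ∈ E

def C2 : Set (ℝ × ℝ) := Ico 0 1 ×ˢ Ico 0 1
def C0 : Set X := Ico 0 1 ×ˢ C2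

structure TField (f1 f2 f3 : X → ℝ) : Prop where
  c1 : ContDiff ℝ 1 f1
  c2 : ContDiff ℝ 1 f2
  c3 : ContDiff ℝ 1 f3
  p1 : ZPer f1
  p2 : ZPer f2
  p3 : ZPer f3
  le : ∀ p, f1 p ^ 2 + f2 p ^ 2 + f3 p ^ 2 ≤ 1

def tper (E : Set X) : ℝ≥0∞ :=
  ⨆ (f1 : X → ℝ) (f2 : X → ℝ) (f3 : X → ℝ) (_ : TField f1 f2 f3),
    ENNReal.ofReal (∫ p in E ∩ C0, dv f1 f2 f3 p)
def tvol (E : Set X) : ℝ := (volume (E ∩ C0)).toReal

/-- distance to the nearest integer -/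
def dz (s : ℝ) : ℝ := |s - round s|
/-- length of the fibre in the first direction -/
def fib (E : Set X) (q : ℝ × ℝ) : ℝ := (volume {t : ℝ | t ∈ Ico (0 : ℝ) 1 ∧ (t, q) ∈ E}).toReal
/-- Steiner symmetrisation in the first direction -/
def st (E : Set X) : Set X := {p | dz p.1 < fib E p.2 / 2}
def sym3 (E : Set X) : Set X := cyc ⁻¹' st (cyc ⁻¹' st (cyc ⁻¹' st E))
/-- translate -/
def tr (c : X) (E : Set X) : Set X := {p | p - c ∈ E}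
def Mono (E : Set X) : Prop :=
  ∀ p q : X, dz q.1 ≤ dz p.1 → dz q.2.1 ≤ dz p.2.1 → dz q.2.2 ≤ dz p.2.2 → p ∈ E → q ∈ E

/-- smooth approximation of a periodic set -/
structure Moll (E : Set X) (u : ℕ → X → ℝ) : Prop where
  c : ∀ n, ContDiff ℝ 1 (u n)
  per : ∀ n, ZPer (u n)
  nn : ∀ n p, 0 ≤ u n p
  le : ∀ n p, u n p ≤ 1
  grad : ∀ n, ENNReal.ofReal (∫ p in C0, gn (u n) p) ≤ tper E
  lim : ∀ᵐ p : X, Tendsto (fun n => u n p) atTop (𝓝 (E.indicator 1 p))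

/-- fibre average and fibre variation -/
def fav (u : X → ℝ) (q : ℝ × ℝ) : ℝ := ∫ t in (0 : ℝ)..1, u (t, q)
def ftv (u : X → ℝ) (q : ℝ × ℝ) : ℝ := ∫ t in (0 : ℝ)..1, |d1 u (t, q)|
/-- the basic character of the circle -/
def ch (t : ℝ) : ℂ := Complex.exp (2 * π * t * Complex.I)

/-- the models: ball (three `e i = 1`), tube (two), slab (one) -/
def Mod (e1 e2 e3 r : ℝ) : Set X :=
  {p | e1 * dz p.1 ^ 2 + e2 * dz p.2.1 ^ 2 + e3 * dz p.2.2 ^ 2 < r ^ 2}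
structure Bits (e1 e2 e3 : ℝ) : Prop where
  b1 : e1 = 0 ∨ e1 = 1
  b2 : e2 = 0 ∨ e2 = 1
  b3 : e3 = 0 ∨ e3 = 1
  pos : 1 ≤ e1 + e2 + e3
/-- perimeter and volume of the models; `s = e1 + e2 + e3` -/
def mper (s r : ℝ) : ℝ := if s = 3 then 4 * π * r ^ 2 else if s = 2 then 2 * π * r else 2
def mvol (s r : ℝ) : ℝ := if s = 3 then 4 * π * r ^ 3 / 3 else if s = 2 then π * r ^ 2 else 2 * r
/-- the model with `s` and `r` is standard for the volume `V` -/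
def Std (V s r : ℝ) : Prop :=
  0 < r ∧ V = mvol s r ∧ ((s = 3 ∧ V ≤ v0) ∨ (s = 2 ∧ v0 ≤ V ∧ V ≤ 1 / π) ∨
    (s = 1 ∧ 1 / π ≤ V ∧ V ≤ 1 / 2))

abbrev E3 := EuclideanSpace ℝ (Fin 3)
def ofX (p : X) : E3 := !₂[p.1, p.2.1, p.2.2]
def toX (x : E3) : X := (x 0, x 1, x 2)

/-! ### down-sets of the cube -/

abbrev I : Set ℝ := Ioo 0 1
def Q : Set X := I ×ˢ I ×ˢ I

structure Down (D : Set X) : Prop where
  meas : MeasurableSet D
  sub : D ⊆ Q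
  low : ∀ p ∈ D, ∀ q ∈ Q, q ≤ p → q ∈ D

def vol (D : Set X) : ℝ := (volume D).toReal
def cube (E : Set X) : Set X := {p | p ∈ Q ∧ (p.1 / 2, p.2.1 / 2, p.2.2 / 2) ∈ E}
def cpl (D : Set X) : Set X := {p | p ∈ Q ∧ (1 - p.1, 1 - p.2.1, 1 - p.2.2) ∉ D}
def CMod (e1 e2 e3 R : ℝ) : Set X :=
  {p | p ∈ Q ∧ e1 * p.1 ^ 2 + e2 * p.2.1 ^ 2 + e3 * p.2.2 ^ 2 < R ^ 2}

/-- test fields: `C¹`, vanishing near the faces of the cube -/
structure CField (f1 f2 f3 : X → ℝ) : Prop where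
  c1 : ContDiff ℝ 1 f1
  c2 : ContDiff ℝ 1 f2
  c3 : ContDiff ℝ 1 f3
  supp : ∃ δ > (0 : ℝ), ∀ p : X, p ∉ Icc δ (1 - δ) ×ˢ Icc δ (1 - δ) ×ˢ Icc δ (1 - δ) →
    f1 p = 0 ∧ f2 p = 0 ∧ f3 p = 0
  le : ∀ p, f1 p ^ 2 + f2 p ^ 2 + f3 p ^ 2 ≤ 1

/-- relative perimeter in the cube -/
def per (D : Set X) : ℝ :=
  sSup {r | ∃ f1 f2 f3, CField f1 f2 f3 ∧ r = ∫ p in D, dv f1 f2 f3 p}

structure Min (D : Set X) : Prop where
  down : Down D
  min : ∀ D', Down D' → per D - conj (vol D) ≤ per D' - conj (vol D')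

/-- heights -/
def u1 (D : Set X) (q : ℝ × ℝ) : ℝ := (volume {x : ℝ | (x, q.1, q.2) ∈ D}).toReal
def u2 (D : Set X) (q : ℝ × ℝ) : ℝ := (volume {y : ℝ | (q.1, y, q.2) ∈ D}).toReal
def u3 (D : Set X) (q : ℝ × ℝ) : ℝ := (volume {z : ℝ | (q.1, q.2, z) ∈ D}).toReal
def act (u : ℝ × ℝ → ℝ) : Set (ℝ × ℝ) := {q | q ∈ I ×ˢ I ∧ 0 < u q ∧ u q < 1}
/-- graph measures -/
def mu1 (D : Set X) : Measure X :=
  (volume.restrict (act (u1 D))).map fun q => (u1 D q, q.1, q.2)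
def mu2 (D : Set X) : Measure X :=
  (volume.restrict (act (u2 D))).map fun q => (q.1, u2 D q, q.2)
def mu3 (D : Set X) : Measure X :=
  (volume.restrict (act (u3 D))).map fun q => (q.1, q.2, u3 D q)

/-- area measure and unit normal -/
structure Surf (D : Set X) (A : Measure X) (n1 n2 n3 : X → ℝ) : Prop where
  down : Down D
  fin : IsFiniteMeasure A
  conc : A Qᶜ = 0
  m1 : Measurable n1
  m2 : Measurable n2
  m3 : Measurable n3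
  nn1 : ∀ p, 0 ≤ n1 p
  nn2 : ∀ p, 0 ≤ n2 p
  nn3 : ∀ p, 0 ≤ n3 p
  unit : ∀ p, n1 p ^ 2 + n2 p ^ 2 + n3 p ^ 2 = 1
  r1 : A.withDensity (fun p => ENNReal.ofReal (n1 p)) = mu1 D
  r2 : A.withDensity (fun p => ENNReal.ofReal (n2 p)) = mu2 D
  r3 : A.withDensity (fun p => ENNReal.ofReal (n3 p)) = mu3 D

/-- areas of the slices in the three directions -/
def sa (D : Set X) (t : ℝ) : ℝ := (volume {q : ℝ × ℝ | (t, q.1, q.2) ∈ D}).toReal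
def sb (D : Set X) (t : ℝ) : ℝ := (volume {q : ℝ × ℝ | (q.1, t, q.2) ∈ D}).toReal
def sc (D : Set X) (t : ℝ) : ℝ := (volume {q : ℝ × ℝ | (q.1, q.2, t) ∈ D}).toReal
/-- limits of `sa` at `1` and at `0` -/
def al (D : Set X) : ℝ := (volume {q : ℝ × ℝ | q ∈ I ×ˢ I ∧ u1 D q = 1}).toReal
def be (D : Set X) : ℝ := (volume {q : ℝ × ℝ | q ∈ I ×ˢ I ∧ 0 < u1 D q}).toReal
/-- contact of the slice `x = t` with the faces `y = 1`, `z = 1` -/
def rho (D : Set X) (t : ℝ) : ℝ := (volume {z : ℝ | z ∈ I ∧ u2 D (t, z) = 1}).toReal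
def sig (D : Set X) (t : ℝ) : ℝ := (volume {y : ℝ | y ∈ I ∧ u3 D (t, y) = 1}).toReal
/-- extent of the slice `x = t` in the directions `y`, `z` -/
def ext2 (D : Set X) (t : ℝ) : ℝ := (volume {y : ℝ | y ∈ I ∧ 0 < u3 D (t, y)}).toReal
def ext3 (D : Set X) (t : ℝ) : ℝ := (volume {z : ℝ | z ∈ I ∧ 0 < u2 D (t, z)}).toReal
/-- length of the boundary curve of the slice `x = t` -/
def lam (A : Measure X) (n2 n3 : X → ℝ) (t : ℝ) : ℝ :=
  (((A.withDensity fun p => ENNReal.ofReal √(n2 p ^ 2 + n3 p ^ 2)).map Prod.fst).rnDeriv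
    volume t).toReal

/-- flux identities -/
structure Flux3 (D : Set X) (A : Measure X) (n1 n2 n3 : X → ℝ) (H F1 F2 F3 : ℝ) : Prop where
  f1 : ∀ g : ℝ → ℝ, Continuous g →
    ∫ p, g p.1 * (1 - n1 p ^ 2) ∂A = ∫ t in I, g t * (H * sa D t + F1)
  f2 : ∀ g : ℝ → ℝ, Continuous g →
    ∫ p, g p.2.1 * (1 - n2 p ^ 2) ∂A = ∫ t in I, g t * (H * sb D t + F2)
  f3 : ∀ g : ℝ → ℝ, Continuous g →
    ∫ p, g p.2.2 * (1 - n3 p ^ 2) ∂A = ∫ t in I, g t * (H * sc D t + F3)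

/-- boundary inequalities in the first direction -/
structure Bdry (D : Set X) (A : Measure X) (H F : ℝ) : Prop where
  top : ∀ η > 0, ∀ᶠ δ in 𝓝[>] (0 : ℝ), A.real {p | 1 - δ ≤ p.1} ≤ δ * (H * al D + F + η)
  bot : ∀ η > 0, ∀ᶠ δ in 𝓝[>] (0 : ℝ), A.real {p | p.1 ≤ δ} ≤ δ * (H * be D + F + η)

/-! ### one-dimensional data -/

structure Dir (a l : ℝ → ℝ) (A V H F α β : ℝ) : Prop where
  ma : Measurable a
  anti : AntitoneOn a I
  α0 : 0 ≤ α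
  β1 : β ≤ 1
  lo : ∀ t ∈ I, α ≤ a t
  hi : ∀ t ∈ I, a t ≤ β
  tα : Tendsto a (𝓝[<] 1) (𝓝 α)
  tβ : Tendsto a (𝓝[>] 0) (𝓝 β)
  vol : ∫ t in I, a t = V
  ml : Measurable l
  il : IntegrableOn l I
  nn : ∀ t, 0 ≤ l t
  slab : ∀ c : ℝ → ℝ, Measurable c → (∀ b, 0 ≤ c b) → (∀ b, c b ≤ 1) →
    (∫ t in I, √(1 - c (a t) ^ 2) * l t) + ∫ b in α..β, c b ≤ A
  flux : ∀ᵐ t, t ∈ I → H * a t + F ≤ l t
  top : ∀ L, (∀ᶠ t in 𝓝[<] (1 : ℝ) ⊓ ae volume, L ≤ l t) → L ≤ H * α + F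
  bot : ∀ L, (∀ᶠ t in 𝓝[>] (0 : ℝ) ⊓ ae volume, L ≤ l t) → L ≤ H * β + F
  cs : (β - α) ^ 2 ≤ A * (A - H * V - F)

/-- calibration of a strip with contact `S` -/
def strip (k S a : ℝ) : ℝ := k * (a - S) + 1 - k ^ 2 / 6 - k ^ 4 / 30
/-- calibration of an L-shaped slice whose complement has width `w` -/
def ell (w a : ℝ) : ℝ := (1 - a) / w + π * w / 4

/-- types of the slices; `ρ`, `σ` are the contacts with the far sides -/
structure Sl (a l ρ σ : ℝ → ℝ) : Prop where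
  aρ : AntitoneOn ρ I
  aσ : AntitoneOn σ I
  ρ0 : ∀ t, 0 ≤ ρ t
  σ0 : ∀ t, 0 ≤ σ t
  ρa : ∀ t ∈ I, ρ t ≤ a t
  σa : ∀ t ∈ I, σ t ≤ a t
  cor : ∀ᵐ t, t ∈ I → ρ t = 0 → σ t = 0 → √(π * a t) ≤ l t
  sρ : ∀ k, 0 ≤ k → k ≤ 2 / 3 → ∀ᵐ t, t ∈ I → 0 < ρ t → σ t = 0 → strip k (ρ t) (a t) ≤ l t
  sσ : ∀ k, 0 ≤ k → k ≤ 2 / 3 → ∀ᵐ t, t ∈ I → ρ t = 0 → 0 < σ t → strip k (σ t) (a t) ≤ l t
  lρ : ∀ᵐ t, t ∈ I → 0 < ρ t → 0 < σ t → ρ t < 1 → ell (1 - ρ t) (a t) ≤ l t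
  lσ : ∀ᵐ t, t ∈ I → 0 < ρ t → 0 < σ t → σ t < 1 → ell (1 - σ t) (a t) ≤ l t

end

end Crest.Agent.R214
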