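import Crest.Agent.R214.Defs

/-! Row 214: definitions for the real-variable part. -/

set_option autoImplicit false

namespace Crest.Agent.R214

open MeasureTheory Set Filter Topology Real
open scoped ENNReal

noncomputable section

/-- admissible lengths `l` of a slice of area `a` -/
def Adm (S wl wh a l : ℝ) : Prop :=
  √(π * a) ≤ l ∨ (∀ k : ℕ, k ≤ 666666 → strip (k / 1000000) S a ≤ l) ∨
    ∃ w, 0 < w ∧ wl ≤ w ∧ w ≤ wh ∧ ell w a ≤ l

/-- `K` is the value of a calibration `c` on `[x, y]` for the line `H a + F` -/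
def Val (S wl wh H F x y K : ℝ) : Prop :=
  ∃ c : ℝ → ℝ, Measurable c ∧ (∀ a, 0 ≤ c a) ∧ (∀ a, c a ≤ 1) ∧
    (∀ a ∈ Icc x y, ∀ l, H * a + F ≤ l → Adm S wl wh a l → H * a + F ≤ √(1 - c a ^ 2) * l) ∧
    K ≤ ∫ a in x..y, c a

/-- `H V + K > √(π V)` for all `V ∈ [v0, 1 / π]` -/
def Crt (H K : ℝ) : Prop :=
  π < 4 * H * K ∨ (H ≤ π / 2 ∧ 1 < K + H / π) ∨ (9 / 4 ≤ H ∧ π * (18 - 4 * H) < 81 * K)

/-- the line is below the profile of the bottom slices at `y` (`thin`: both contacts are at most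
`0.0755`) -/
def Hi (thin : Bool) (H F y : ℝ) : Prop :=
  (H * y + F) ^ 2 < π * y ∧
    if thin then H * y + F < strip (666666 / 1000000) 0.0755 y ∧ H * y + F < 1 - y + π * 0.9245 / 4
    else H * y + F < 1 ∧ (H * y + F) ^ 2 < π * (1 - y)

/-- the line `(H, F)` is excluded by a calibration -/
def Ex (thin : Bool) (S wl wh H F : ℝ) : Prop :=
  ∃ H' F', 0 ≤ H' ∧ H' ≤ H ∧ 0 ≤ F' ∧ F' ≤ F ∧ (Crt H' F' ∨ ∃ x y K, 0 ≤ x ∧ x ≤ y ∧ y ≤ 1 ∧
    (1 / π ≤ x ∨ (H * x + F) ^ 2 < π * x) ∧ Hi thin H F y ∧ Val S wl wh H' F' x y K ∧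
    Crt H' (F' + K))


/-- the data of one direction when no face of the cube is covered; `N` bounds the contacts -/
def Dr (A V H F α N : ℝ) : Prop :=
  ∃ (a l ρ σ : ℝ → ℝ) (β : ℝ), Dir a l A V H F α β ∧ Sl a l ρ σ ∧ β < 1 ∧ √(π * α) ≤ H * α + F ∧
    ∀ t ∈ I, ρ t ≤ N ∧ σ t ≤ N

/-- a minimiser with all its data -/
structure Geo (D : Set X) (A : Measure X) (n1 n2 n3 : X → ℝ) (H F1 F2 F3 : ℝ) : Prop where
  min : Min D
  surf : Surf D A n1 n2 n3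
  flux : Flux3 D A n1 n2 n3 H F1 F2 F3
  pos : 0 < vol D
  half : vol D ≤ 1 / 2
  sup : Super (vol D) H

end

end Crest.Agent.R214
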