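import Crest.Agent.R214.TInv
import Crest.Agent.R214.CPer

/-! Row 214: from monotone periodic sets to down-sets of the cube. -/

set_option autoImplicit false

namespace Crest.Agent.R214

open MeasureTheory Set Filter Topology Real
open scoped ENNReal

variable {E : Set X}

/-- the folding map -/
noncomputable def fold (p : X) : X := (2 * dz p.1, 2 * dz p.2.1, 2 * dz p.2.2)

lemma measurePreserving_fold3 :
    MeasurePreserving fold (volume.restrict C0) (volume.restrict Q) := by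
  have h := measurePreserving_fold.prod (measurePreserving_fold.prod measurePreserving_fold)
  rw [Measure.prod_restrict, Measure.prod_restrict, Measure.prod_restrict,
    Measure.prod_restrict] at h
  exact h
lemma down_cube (hE : PerSet E) (hm : Mono E) : Down (cube E) := by
  have hd : ∀ x ∈ I, dz (x / 2) = x / 2 := by
    intro x hx
    have h0 : 0 ≤ x / 2 := by linarith [hx.1]
    rw [dz_of_abs_le (by rw [abs_of_nonneg h0]; linarith [hx.2]), abs_of_nonneg h0]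
  refine ⟨measurableSet_Q.inter ((by fun_prop :
    Measurable fun p : X => ((p.1 / 2, p.2.1 / 2, p.2.2 / 2) : X)) hE.meas), fun p hp => hp.1, ?_⟩
  intro p hp q hq hle
  refine ⟨hq, hm _ _ ?_ ?_ ?_ hp.2⟩
  · show dz (q.1 / 2) ≤ dz (p.1 / 2)
    rw [hd _ hq.1, hd _ hp.1.1]
    linarith [hle.1]
  · show dz (q.2.1 / 2) ≤ dz (p.2.1 / 2)
    rw [hd _ hq.2.1, hd _ hp.1.2.1]
    linarith [hle.2.1]
  · show dz (q.2.2 / 2) ≤ dz (p.2.2 / 2)
    rw [hd _ hq.2.2, hd _ hp.1.2.2]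
    linarith [hle.2.2]
lemma mem_iff_fold (hm : Mono E) {p : X} (hp : fold p ∈ Q) : p ∈ E ↔ fold p ∈ cube E := by
  have hd : ∀ x : ℝ, dz (2 * dz x / 2) = dz x := by
    intro x
    rw [mul_div_cancel_left₀ _ (two_ne_zero' ℝ), dz_dz]
  exact ⟨fun h => ⟨hp, hm _ _ (hd _).le (hd _).le (hd _).le h⟩,
    fun h => hm _ _ (hd _).ge (hd _).ge (hd _).ge h.2⟩

lemma fold_ae_mem : ∀ᵐ p ∂(volume.restrict C0), fold p ∈ Q :=
  measurePreserving_fold3.quasiMeasurePreserving.ae (ae_restrict_mem measurableSet_Q)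

lemma fold_mp (hE : PerSet E) (hm : Mono E) :
    MeasurePreserving fold (volume.restrict (E ∩ C0)) (volume.restrict (cube E)) := by
  have hD := down_cube hE hm
  have h := measurePreserving_fold3.restrict_preimage hD.meas
  have h1 : fold ⁻¹' cube E =ᵐ[volume.restrict C0] E := by
    filter_upwards [fold_ae_mem] with p hp
    exact propext (mem_iff_fold hm hp).symm
  rwa [Measure.restrict_congr_set h1, Measure.restrict_restrict hE.meas,
    Measure.restrict_restrict hD.meas, inter_eq_left.mpr hD.sub] at h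

lemma vol_cube (hE : PerSet E) (hm : Mono E) : vol (cube E) = tvol E := by
  have h := (fold_mp hE hm).measure_preimage (s := univ) MeasurableSet.univ.nullMeasurableSet
  rw [preimage_univ, Measure.restrict_apply_univ, Measure.restrict_apply_univ] at h
  rw [vol, tvol, h]

/-- the sign of `s - round s` -/
noncomputable def fold_sg (s : ℝ) : ℝ := if (round s : ℝ) < s then 1 else -1

lemma fold_sg_sq (s : ℝ) : fold_sg s ^ 2 = 1 := by
  unfold fold_sg
  split_ifs <;> norm_num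

lemma fold_sg_add (s : ℝ) (a : ℤ) : fold_sg (s + a) = fold_sg s := by
  unfold fold_sg
  rw [round_add_intCast]
  simp

lemma fold_loc {s : ℝ} (h : 2 * dz s ∈ I) : ∃ σ c : ℝ, σ * σ = 1 ∧
    ∀ᶠ t in 𝓝 s, 2 * dz t = 2 * σ * t + c ∧ fold_sg t = σ := by
  have h0 : 0 < |s - round s| := by
    have := h.1
    unfold dz at this
    linarith
  have h1 : |s - round s| < 1 / 2 := by
    have := h.2
    unfold dz at this
    linarith
  have h2 := abs_lt.mp h1
  have hr : ∀ᶠ t in 𝓝 s, round t = round s := by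
    filter_upwards [lt_mem_nhds (show (round s : ℝ) - 1 / 2 < s by linarith [h2.1]),
      gt_mem_nhds (show s < (round s : ℝ) + 1 / 2 by linarith [h2.2])] with t ht1 ht2
    rw [round_eq t, Int.floor_eq_iff]
    constructor <;> linarith
  rcases lt_or_gt_of_ne (sub_ne_zero.mp (abs_pos.mp h0)) with hs | hs
  · refine ⟨-1, 2 * round s, by norm_num, ?_⟩
    filter_upwards [hr, gt_mem_nhds hs] with t ht1 ht2
    unfold dz fold_sg
    rw [ht1, abs_of_neg (by linarith), if_neg (not_lt.mpr ht2.le)]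
    exact ⟨by ring, rfl⟩
  · refine ⟨1, -(2 * round s), by norm_num, ?_⟩
    filter_upwards [hr, lt_mem_nhds hs] with t ht1 ht2
    unfold dz fold_sg
    rw [ht1, abs_of_pos (by linarith), if_pos ht2]
    exact ⟨by ring, rfl⟩

lemma fold_loc3 {p : X} (h : fold p ∈ Q) : ∃ (σ1 σ2 σ3 : ℝ) (L : X →L[ℝ] X) (c : X),
    σ1 * σ1 = 1 ∧ σ2 * σ2 = 1 ∧ σ3 * σ3 = 1 ∧
    L (1, 0, 0) = (2 * σ1) • ((1, 0, 0) : X) ∧ L (0, 1, 0) = (2 * σ2) • ((0, 1, 0) : X) ∧
    L (0, 0, 1) = (2 * σ3) • ((0, 0, 1) : X) ∧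
    ∀ᶠ q in 𝓝 p, fold q = L q + c ∧ fold_sg q.1 = σ1 ∧ fold_sg q.2.1 = σ2 ∧ fold_sg q.2.2 = σ3 := by
  obtain ⟨σ1, c1, s1, e1⟩ := fold_loc h.1
  obtain ⟨σ2, c2, s2, e2⟩ := fold_loc h.2.1
  obtain ⟨σ3, c3, s3, e3⟩ := fold_loc h.2.2
  refine ⟨σ1, σ2, σ3, ((2 * σ1) • ContinuousLinearMap.fst ℝ ℝ (ℝ × ℝ)).prod
    ((((2 * σ2) • ContinuousLinearMap.fst ℝ ℝ ℝ).prod
      ((2 * σ3) • ContinuousLinearMap.snd ℝ ℝ ℝ)).comp (ContinuousLinearMap.snd ℝ ℝ (ℝ × ℝ))),
    (c1, c2, c3), s1, s2, s3, by simp, by simp, by simp, ?_⟩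
  have t1 : Tendsto (fun q : X => q.1) (𝓝 p) (𝓝 p.1) := continuous_fst.tendsto p
  have t2 : Tendsto (fun q : X => q.2.1) (𝓝 p) (𝓝 p.2.1) := continuous_snd.fst.tendsto p
  have t3 : Tendsto (fun q : X => q.2.2) (𝓝 p) (𝓝 p.2.2) := continuous_snd.snd.tendsto p
  filter_upwards [t1.eventually e1, t2.eventually e2, t3.eventually e3] with q h1 h2 h3
  refine ⟨?_, h1.2, h2.2, h3.2⟩
  simp [fold, h1.1, h2.1, h3.1]

lemma fold_continuous : Continuous fold := by
  have := continuous_dz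
  unfold fold
  fun_prop

lemma fold_per (a b c : ℤ) (p : X) : fold (p + ((a : ℝ), (b : ℝ), (c : ℝ))) = fold p := by
  simp [fold, dz_add_int]

lemma fold_key {f : X → ℝ} (hf : ContDiff ℝ 1 f) {δ : ℝ} (hδ : 0 < δ)
    (hs : ∀ p : X, p ∉ Icc δ (1 - δ) ×ˢ Icc δ (1 - δ) ×ˢ Icc δ (1 - δ) → f p = 0)
    (s : X → ℝ) (v : X)
    (hsv : ∀ p, fold p ∈ Q → ∃ (σ : ℝ) (L : X →L[ℝ] X) (c : X), σ * σ = 1 ∧ L v = (2 * σ) • v ∧
      ∀ᶠ q in 𝓝 p, fold q = L q + c ∧ s q = σ) :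
    ContDiff ℝ 1 (fun p => s p * f (fold p)) ∧
      ∀ p, fderiv ℝ (fun p => s p * f (fold p)) p v = 2 * fderiv ℝ f (fold p) v := by
  have key : ∀ p, ContDiffAt ℝ 1 (fun p => s p * f (fold p)) p ∧
      fderiv ℝ (fun p => s p * f (fold p)) p v = 2 * fderiv ℝ f (fold p) v := by
    intro p
    by_cases hp : fold p ∈ Icc δ (1 - δ) ×ˢ Icc δ (1 - δ) ×ˢ Icc δ (1 - δ)
    · have hI : Icc δ (1 - δ) ⊆ I := fun x hx => ⟨by linarith [hx.1], by linarith [hx.2]⟩
      obtain ⟨σ, L, c, hσ, hL, hev⟩ := hsv p ⟨hI hp.1, hI hp.2.1, hI hp.2.2⟩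
      have h1 : (fun p => s p * f (fold p)) =ᶠ[𝓝 p] fun q => σ * f (L q + c) := by
        filter_upwards [hev] with q hq
        rw [hq.1, hq.2]
      have h2 : ContDiff ℝ 1 fun q => σ * f (L q + c) :=
        contDiff_const.mul (hf.comp (L.contDiff.add contDiff_const))
      refine ⟨h2.contDiffAt.congr_of_eventuallyEq h1, ?_⟩
      have h3 : HasFDerivAt (fun q => σ * f (L q + c))
          (σ • (fderiv ℝ f (L p + c)).comp L) p :=
        (((hf.differentiable one_ne_zero _).hasFDerivAt).comp p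
          (L.hasFDerivAt.add_const c)).const_mul σ
      rw [h1.fderiv_eq, h3.fderiv, hev.self_of_nhds.1]
      simp only [ContinuousLinearMap.smul_apply, ContinuousLinearMap.comp_apply, hL, map_smul,
        smul_eq_mul]
      linear_combination (2 * fderiv ℝ f (L p + c) v) * hσ
    · have hcl : IsClosed (Icc δ (1 - δ) ×ˢ Icc δ (1 - δ) ×ˢ Icc δ (1 - δ) : Set X) :=
        isClosed_Icc.prod (isClosed_Icc.prod isClosed_Icc)
      have h0 : f =ᶠ[𝓝 (fold p)] fun _ => 0 := by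
        filter_upwards [hcl.isOpen_compl.mem_nhds hp] with q hq
        exact hs q hq
      have h1 : (fun p => s p * f (fold p)) =ᶠ[𝓝 p] fun _ => 0 := by
        filter_upwards [(fold_continuous.tendsto p).eventually h0] with q hq
        rw [hq, mul_zero]
      refine ⟨contDiffAt_const.congr_of_eventuallyEq h1, ?_⟩
      rw [h1.fderiv_eq, h0.fderiv_eq]
      simp
  exact ⟨contDiff_iff_contDiffAt.mpr fun p => (key p).1, fun p => (key p).2⟩

/-- For a `CField f` put `sg s = sign (s - round s)` and `φ i p = sg (p i) * f i (fold p)`.  Near a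
point with `fold p ∈ Q` the map `fold` is affine and `sg` is constant; near the other points
`f i ∘ fold = 0`.  So `φ` is a `TField` with `dv φ p = 2 * dv f (fold p)`. -/
theorem exists_tField {f1 f2 f3 : X → ℝ} (hf : CField f1 f2 f3) :
    ∃ g1 g2 g3, TField g1 g2 g3 ∧ ∀ p, dv g1 g2 g3 p = 2 * dv f1 f2 f3 (fold p) := by
  obtain ⟨δ, hδ, hs⟩ := hf.supp
  obtain ⟨a1, b1⟩ := fold_key hf.c1 hδ (fun p hp => (hs p hp).1) (fun p => fold_sg p.1) (1, 0, 0)
    fun p hp => by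
      obtain ⟨σ1, σ2, σ3, L, c, s1, s2, s3, l1, l2, l3, h⟩ := fold_loc3 hp
      exact ⟨σ1, L, c, s1, l1, h.mono fun q hq => ⟨hq.1, hq.2.1⟩⟩
  obtain ⟨a2, b2⟩ := fold_key hf.c2 hδ (fun p hp => (hs p hp).2.1) (fun p => fold_sg p.2.1)
    (0, 1, 0) fun p hp => by
      obtain ⟨σ1, σ2, σ3, L, c, s1, s2, s3, l1, l2, l3, h⟩ := fold_loc3 hp
      exact ⟨σ2, L, c, s2, l2, h.mono fun q hq => ⟨hq.1, hq.2.2.1⟩⟩
  obtain ⟨a3, b3⟩ := fold_key hf.c3 hδ (fun p hp => (hs p hp).2.2) (fun p => fold_sg p.2.2)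
    (0, 0, 1) fun p hp => by
      obtain ⟨σ1, σ2, σ3, L, c, s1, s2, s3, l1, l2, l3, h⟩ := fold_loc3 hp
      exact ⟨σ3, L, c, s3, l3, h.mono fun q hq => ⟨hq.1, hq.2.2.2⟩⟩
  refine ⟨_, _, _, ⟨a1, a2, a3, ?_, ?_, ?_, ?_⟩, ?_⟩
  · intro a b c p
    simp only [fold_per, Prod.fst_add, fold_sg_add]
  · intro a b c p
    simp only [fold_per, Prod.fst_add, Prod.snd_add, fold_sg_add]
  · intro a b c p
    simp only [fold_per, Prod.snd_add, fold_sg_add]
  · intro p
    simp only [mul_pow, fold_sg_sq, one_mul]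
    exact hf.le _
  · intro p
    simp only [dv, d1, d2, d3, b1, b2, b3]
    ring

theorem per_cube_le (hE : PerSet E) (hm : Mono E) :
    ENNReal.ofReal (2 * per (cube E)) ≤ tper E := by
  rcases eq_or_ne (tper E) ⊤ with ht | ht
  · rw [ht]; exact le_top
  refine ENNReal.ofReal_le_of_le_toReal ?_
  have h : per (cube E) ≤ (tper E).toReal / 2 := by
    refine per_le fun f1 f2 f3 hf => ?_
    obtain ⟨g1, g2, g3, hg, hdv⟩ := exists_tField hf
    have h1 := (ENNReal.ofReal_le_iff_le_toReal ht).mp (le_tper hg E)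
    have h2 := fold_mp hE hm
    have h3 : ∫ p in cube E, dv f1 f2 f3 p = ∫ p in E ∩ C0, dv f1 f2 f3 (fold p) := by
      rw [← h2.map_eq]
      exact integral_map h2.measurable.aemeasurable
        (continuous_dv hf.c1 hf.c2 hf.c3).aestronglyMeasurable
    simp only [hdv] at h1
    rw [integral_const_mul] at h1
    linarith
  linarith

theorem ae_mod_of_cube (hE : PerSet E) (hm : Mono E) {e1 e2 e3 r : ℝ}
    (h : cube E =ᵐ[volume] CMod e1 e2 e3 (2 * r)) : E =ᵐ[volume] Mod e1 e2 e3 r := by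
  have h1 : ∀ᵐ p ∂(volume.restrict C0), fold p ∈ cube E ↔ fold p ∈ CMod e1 e2 e3 (2 * r) :=
    measurePreserving_fold3.quasiMeasurePreserving.ae (ae_restrict_of_ae h.mem_iff)
  have h2 : ∀ᵐ p ∂(volume.restrict C0), p ∈ E ↔ p ∈ Mod e1 e2 e3 r := by
    filter_upwards [h1, fold_ae_mem] with p h3 h4
    rw [mem_iff_fold hm h4, h3]
    constructor
    · intro h5
      have h6 : e1 * (2 * dz p.1) ^ 2 + e2 * (2 * dz p.2.1) ^ 2 + e3 * (2 * dz p.2.2) ^ 2
          < (2 * r) ^ 2 := h5.2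
      show e1 * dz p.1 ^ 2 + e2 * dz p.2.1 ^ 2 + e3 * dz p.2.2 ^ 2 < r ^ 2
      linarith
    · intro h5
      have h6 : e1 * dz p.1 ^ 2 + e2 * dz p.2.1 ^ 2 + e3 * dz p.2.2 ^ 2 < r ^ 2 := h5
      refine ⟨h4, ?_⟩
      show e1 * (2 * dz p.1) ^ 2 + e2 * (2 * dz p.2.1) ^ 2 + e3 * (2 * dz p.2.2) ^ 2 < (2 * r) ^ 2
      linarith
  rw [ae_restrict_iff' measurableSet_C0] at h2
  refine eventuallyEq_set.mpr (ae_of_ae_box (P := fun p => p ∈ E ↔ p ∈ Mod e1 e2 e3 r) ?_ 0 0 0 ?_)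
  · intro a b c p
    show (_ ↔ _) = (_ ↔ _)
    rw [hE.per, (perSet_mod e1 e2 e3 r).per]
  · rw [zero_add]
    exact h2

end Crest.Agent.R214
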