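import Crest.Agent.R214.CPer

/-! Row 214: the length of the slices. -/

set_option autoImplicit false

namespace Crest.Agent.R214

open MeasureTheory Set Filter Topology Real
open scoped ENNReal

variable {D : Set X} {A : Measure X} {n1 n2 n3 : X → ℝ} {H F1 F2 F3 : ℝ}

lemma measurable_lam (A : Measure X) (n2 n3 : X → ℝ) : Measurable (lam A n2 n3) := by
  exact (Measure.measurable_rnDeriv _ _).ennreal_toReal
lemma lam_nonneg (A : Measure X) (n2 n3 : X → ℝ) (t : ℝ) : 0 ≤ lam A n2 n3 t :=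
  ENNReal.toReal_nonneg
lemma lam_sqrt_le_one (h : Surf D A n1 n2 n3) (p : X) : √(n2 p ^ 2 + n3 p ^ 2) ≤ 1 := by
  rw [Real.sqrt_le_one]
  nlinarith [h.unit p, sq_nonneg (n1 p)]

lemma lam_meas_sqrt (h : Surf D A n1 n2 n3) :
    Measurable fun p => √(n2 p ^ 2 + n3 p ^ 2) :=
  ((h.m2.pow_const 2).add (h.m3.pow_const 2)).sqrt

lemma lam_finite_dens (h : Surf D A n1 n2 n3) :
    IsFiniteMeasure (A.withDensity fun p => ENNReal.ofReal √(n2 p ^ 2 + n3 p ^ 2)) := by
  haveI := h.fin
  refine isFiniteMeasure_withDensity ?_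
  refine ne_of_lt (lt_of_le_of_lt (lintegral_mono (g := fun _ => 1) fun p => ?_) ?_)
  · exact ENNReal.ofReal_le_one.2 (lam_sqrt_le_one h p)
  · simp

lemma lam_fst_ac (u : Set (ℝ × ℝ)) {F : ℝ × ℝ → X} (hF : Measurable F)
    (h1 : ∀ q, (F q).1 = q.1) :
    ((volume.restrict u).map F).map Prod.fst ≪ (volume : Measure ℝ) := by
  refine Measure.AbsolutelyContinuous.mk fun s hs h0 => ?_
  rw [Measure.map_apply measurable_fst hs, Measure.map_apply hF (measurable_fst hs),
    Measure.restrict_apply (hF (measurable_fst hs))]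
  refine measure_mono_null (t := s ×ˢ (univ : Set ℝ)) ?_ ?_
  · intro q hq
    refine ⟨?_, mem_univ _⟩
    have := hq.1
    simpa [h1] using this
  · rw [Measure.volume_eq_prod, Measure.prod_prod, h0, zero_mul]

lemma lam_ac (h : Surf D A n1 n2 n3) :
    (A.withDensity fun p => ENNReal.ofReal √(n2 p ^ 2 + n3 p ^ 2)).map Prod.fst ≪
      (volume : Measure ℝ) := by
  have a2 : (mu2 D).map Prod.fst ≪ (volume : Measure ℝ) :=
    lam_fst_ac _
      (measurable_fst.prodMk (h.down.measurable_u2.prodMk measurable_snd)) fun _ => rfl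
  have a3 : (mu3 D).map Prod.fst ≪ (volume : Measure ℝ) :=
    lam_fst_ac _
      (measurable_fst.prodMk (measurable_snd.prodMk h.down.measurable_u3)) fun _ => rfl
  have hle : (A.withDensity fun p => ENNReal.ofReal √(n2 p ^ 2 + n3 p ^ 2)) ≤ mu2 D + mu3 D := by
    rw [← h.r2, ← h.r3, ← withDensity_add_left h.m2.ennreal_ofReal]
    refine withDensity_mono (Eventually.of_forall fun p => ?_)
    simp only [Pi.add_apply]
    rw [← ENNReal.ofReal_add (h.nn2 p) (h.nn3 p)]
    refine ENNReal.ofReal_le_ofReal ?_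
    rw [Real.sqrt_le_left (add_nonneg (h.nn2 p) (h.nn3 p))]
    nlinarith [mul_nonneg (h.nn2 p) (h.nn3 p)]
  refine Measure.AbsolutelyContinuous.mk fun s hs h0 => ?_
  have e2 := a2 h0
  have e3 := a3 h0
  rw [Measure.map_apply measurable_fst hs] at e2 e3 ⊢
  refine le_antisymm (le_trans (hle _) ?_) zero_le
  rw [Measure.add_apply, e2, e3, add_zero]

lemma Surf.integrable_lam (h : Surf D A n1 n2 n3) : Integrable (lam A n2 n3) := by
  haveI := lam_finite_dens h
  exact Measure.integrable_toReal_rnDeriv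
/-- The marginal is absolutely continuous since `√(n2² + n3²) ≤ n2 + n3` and the first marginals of
`mu2`, `mu3` are; it is concentrated on `I`. -/
lemma Surf.integral_lam (h : Surf D A n1 n2 n3) {s : ℝ → ℝ} (hs : Measurable s) {C : ℝ}
    (hb : ∀ t, |s t| ≤ C) :
    ∫ p, s p.1 * √(n2 p ^ 2 + n3 p ^ 2) ∂A = ∫ t in I, s t * lam A n2 n3 t := by
  haveI := lam_finite_dens h
  set ν := (A.withDensity fun p => ENNReal.ofReal √(n2 p ^ 2 + n3 p ^ 2)).map Prod.fst with hν
  have e1 : ∫ t in I, s t * lam A n2 n3 t = ∫ t in I, s t ∂ν := by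
    rw [← setIntegral_toReal_rnDeriv_mul (lam_ac h) measurableSet_Ioo]
    refine integral_congr_ae (Eventually.of_forall fun t => ?_)
    simp only [lam]
    ring
  have e2 : ∫ t in I, s t ∂ν = ∫ t, s t ∂ν := by
    rw [Measure.restrict_eq_self_of_ae_mem]
    refine (ae_map_iff measurable_fst.aemeasurable (p := fun x => x ∈ I) measurableSet_Ioo).2 ?_
    refine (withDensity_absolutelyContinuous _ _).ae_le ?_
    filter_upwards [h.ae_mem] with p hp using hp.1
  rw [e1, e2, hν, integral_map measurable_fst.aemeasurable hs.aestronglyMeasurable,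
    integral_withDensity_eq_integral_toReal_smul (lam_meas_sqrt h).ennreal_ofReal
      (Eventually.of_forall fun _ => ENNReal.ofReal_lt_top)]
  refine integral_congr_ae (Eventually.of_forall fun p => ?_)
  simp only [smul_eq_mul]
  rw [ENNReal.toReal_ofReal (Real.sqrt_nonneg _), mul_comm]

/-- value of a planar field on the slice `x = t` -/
noncomputable def slv (D : Set X) (Y2 Y3 : X → ℝ) (t : ℝ) : ℝ :=
  (∫ z in {z | z ∈ I ∧ 0 < u2 D (t, z) ∧ u2 D (t, z) < 1}, Y2 (t, u2 D (t, z), z)) +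
    ∫ y in {y | y ∈ I ∧ 0 < u3 D (t, y) ∧ u3 D (t, y) < 1}, Y3 (t, y, u3 D (t, y))

lemma lam_measurableSet_sl {u : ℝ × ℝ → ℝ} (hu : Measurable u) :
    MeasurableSet {q : ℝ × ℝ | q.2 ∈ I ∧ 0 < u q ∧ u q < 1} :=
  (measurable_snd measurableSet_Ioo).inter
    ((measurableSet_lt measurable_const hu).inter (measurableSet_lt hu measurable_const))

lemma lam_sl_eq {u : ℝ × ℝ → ℝ} (hu : Measurable u) (G : ℝ × ℝ → ℝ) (t : ℝ) :
    ∫ z in {z | z ∈ I ∧ 0 < u (t, z) ∧ u (t, z) < 1}, G (t, z) =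
      ∫ z, {q : ℝ × ℝ | q.2 ∈ I ∧ 0 < u q ∧ u q < 1}.indicator G (t, z) := by
  have hm : MeasurableSet {z | z ∈ I ∧ 0 < u (t, z) ∧ u (t, z) < 1} :=
    measurable_prodMk_left (lam_measurableSet_sl hu)
  rw [← integral_indicator hm]
  rfl

lemma lam_measurable_sl {u : ℝ × ℝ → ℝ} (hu : Measurable u) {G : ℝ × ℝ → ℝ} (hG : Measurable G) :
    Measurable fun t => ∫ z in {z | z ∈ I ∧ 0 < u (t, z) ∧ u (t, z) < 1}, G (t, z) := by
  simp only [lam_sl_eq hu G]
  exact (hG.indicator (lam_measurableSet_sl hu)).stronglyMeasurable.integral_prod_right'.measurable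

lemma lam_abs_sl {u : ℝ × ℝ → ℝ} {G : ℝ × ℝ → ℝ} {C : ℝ} (hb : ∀ q, |G q| ≤ C) (t : ℝ) :
    |∫ z in {z | z ∈ I ∧ 0 < u (t, z) ∧ u (t, z) < 1}, G (t, z)| ≤ C := by
  have hC : 0 ≤ C := (abs_nonneg _).trans (hb 0)
  have hm : volume {z | z ∈ I ∧ 0 < u (t, z) ∧ u (t, z) < 1} ≤ 1 := by
    refine (measure_mono (t := I) fun z hz => hz.1).trans ?_
    simp
  have := norm_setIntegral_le_of_norm_le_const (μ := volume) (f := fun z => G (t, z)) (C := C)
    (lt_of_le_of_lt hm ENNReal.one_lt_top) fun z _ => hb _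
  refine this.trans ?_
  have h1 : volume.real {z | z ∈ I ∧ 0 < u (t, z) ∧ u (t, z) < 1} ≤ 1 := by
    rw [Measure.real]
    exact ENNReal.toReal_le_of_le_ofReal zero_le_one (by simpa using hm)
  nlinarith

lemma lam_fubini {u : ℝ × ℝ → ℝ} (hu : Measurable u) {G : ℝ × ℝ → ℝ} (hG : Measurable G) {C : ℝ}
    (hb : ∀ q, |G q| ≤ C) :
    ∫ q in act u, G q =
      ∫ t in I, ∫ z in {z | z ∈ I ∧ 0 < u (t, z) ∧ u (t, z) < 1}, G (t, z) := by
  simp only [lam_sl_eq hu G]
  set S := {q : ℝ × ℝ | q.2 ∈ I ∧ 0 < u q ∧ u q < 1} with hS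
  have hSm : MeasurableSet S := lam_measurableSet_sl hu
  have hact : act u = S ∩ I ×ˢ (univ : Set ℝ) := by
    ext q
    simp only [act, hS, mem_setOf_eq, mem_prod, mem_inter_iff, mem_univ, and_true]
    tauto
  have hfin : volume (act u) ≠ ∞ := by
    refine ne_of_lt (lt_of_le_of_lt (measure_mono (t := I ×ˢ I) fun q hq => hq.1) ?_)
    rw [volume_II]
    exact ENNReal.one_lt_top
  have hint : IntegrableOn G (act u) := by
    refine Measure.integrableOn_of_bounded (M := C) hfin hG.aestronglyMeasurable ?_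
    exact Eventually.of_forall fun q => hb q
  have e : (volume : Measure (ℝ × ℝ)).restrict (I ×ˢ (univ : Set ℝ)) =
      ((volume : Measure ℝ).restrict I).prod volume := by
    rw [Measure.volume_eq_prod, ← Measure.prod_restrict, Measure.restrict_univ]
  rw [hact, ← Measure.restrict_restrict hSm, ← integral_indicator hSm, e, integral_prod]
  rw [← e, integrable_indicator_iff hSm, IntegrableOn, Measure.restrict_restrict hSm, ← hact]
  exact hint

lemma Down.measurable_slv (h : Down D) {Y2 Y3 : X → ℝ} (h2 : Measurable Y2) (h3 : Measurable Y3) :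
    Measurable (slv D Y2 Y3) := by
  exact (lam_measurable_sl h.measurable_u2 (G := fun q => Y2 (q.1, u2 D q, q.2))
    (h2.comp (measurable_fst.prodMk (h.measurable_u2.prodMk measurable_snd)))).add
    (lam_measurable_sl h.measurable_u3 (G := fun q => Y3 (q.1, q.2, u3 D q))
    (h3.comp (measurable_fst.prodMk (measurable_snd.prodMk h.measurable_u3))))
/-- `int2`, `int3`, `integral_mu2`, `integral_mu3` and Fubini -/
lemma Surf.integral_slv (h : Surf D A n1 n2 n3) {Y2 Y3 : X → ℝ} (h2 : Measurable Y2)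
    (h3 : Measurable Y3) {C : ℝ} (b2 : ∀ p, |Y2 p| ≤ C) (b3 : ∀ p, |Y3 p| ≤ C) {s : ℝ → ℝ}
    (hs : Measurable s) (hb : ∀ t, |s t| ≤ C) :
    ∫ p, s p.1 * (Y2 p * n2 p + Y3 p * n3 p) ∂A = ∫ t in I, s t * slv D Y2 Y3 t := by
  haveI := h.fin
  have hC : 0 ≤ C := (abs_nonneg _).trans (hb 0)
  have hd := h.down
  have m2 : Measurable fun q : ℝ × ℝ => Y2 (q.1, u2 D q, q.2) :=
    h2.comp (measurable_fst.prodMk (hd.measurable_u2.prodMk measurable_snd))
  have m3 : Measurable fun q : ℝ × ℝ => Y3 (q.1, q.2, u3 D q) :=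
    h3.comp (measurable_fst.prodMk (measurable_snd.prodMk hd.measurable_u3))
  have bnd : ∀ {Y : X → ℝ}, (∀ p, |Y p| ≤ C) → ∀ (t : ℝ) (p : X), |s t * Y p| ≤ C * C := by
    intro Y bY t p
    rw [abs_mul]
    exact mul_le_mul (hb t) (bY p) (abs_nonneg _) hC
  have int : ∀ {Y n : X → ℝ}, Measurable Y → (∀ p, |Y p| ≤ C) → Measurable n → (∀ p, 0 ≤ n p) →
      (∀ p, n p ≤ 1) → Integrable (fun p : X => s p.1 * Y p * n p) A := by
    intro Y n mY bY mn n0 n1'
    refine Integrable.of_bound (C := C * C)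
      (((hs.comp measurable_fst).mul mY).mul mn).aestronglyMeasurable
      (Eventually.of_forall fun p => ?_)
    rw [Real.norm_eq_abs, abs_mul, abs_of_nonneg (n0 p)]
    calc |s p.1 * Y p| * n p ≤ (C * C) * 1 :=
          mul_le_mul (bnd bY _ _) (n1' p) (n0 p) (mul_nonneg hC hC)
      _ = C * C := mul_one _
  have e0 : ∫ p, s p.1 * (Y2 p * n2 p + Y3 p * n3 p) ∂A =
      (∫ p, s p.1 * Y2 p * n2 p ∂A) + ∫ p, s p.1 * Y3 p * n3 p ∂A := by
    rw [← integral_add (int h2 b2 h.m2 h.nn2 h.le2) (int h3 b3 h.m3 h.nn3 h.le3)]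
    refine integral_congr_ae (Eventually.of_forall fun p => ?_)
    simp only
    ring
  have int' : ∀ {u G : ℝ × ℝ → ℝ}, Measurable u → Measurable G → (∀ q, |G q| ≤ C) →
      IntegrableOn (fun t => s t * ∫ z in {z | z ∈ I ∧ 0 < u (t, z) ∧ u (t, z) < 1}, G (t, z))
        I := by
    intro u G mu mG bG
    refine Measure.integrableOn_of_bounded (M := C * C) (by simp)
      (hs.mul (lam_measurable_sl mu mG)).aestronglyMeasurable (Eventually.of_forall fun t => ?_)
    rw [Real.norm_eq_abs, abs_mul]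
    exact mul_le_mul (hb t) (lam_abs_sl bG t) (abs_nonneg _) hC
  rw [e0, h.int2 (f := fun p => s p.1 * Y2 p) ((hs.comp measurable_fst).mul h2),
    h.int3 (f := fun p => s p.1 * Y3 p) ((hs.comp measurable_fst).mul h3),
    hd.integral_mu2 (f := fun p => s p.1 * Y2 p) ((hs.comp measurable_fst).mul h2),
    hd.integral_mu3 (f := fun p => s p.1 * Y3 p) ((hs.comp measurable_fst).mul h3),
    lam_fubini hd.measurable_u2 (C := C * C) (G := fun q => s q.1 * Y2 (q.1, u2 D q, q.2))
      ((hs.comp measurable_fst).mul m2) (fun q => bnd b2 _ _),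
    lam_fubini hd.measurable_u3 (C := C * C) (G := fun q => s q.1 * Y3 (q.1, q.2, u3 D q))
      ((hs.comp measurable_fst).mul m3) (fun q => bnd b3 _ _)]
  simp only [integral_const_mul, slv, mul_add]
  rw [integral_add (int' hd.measurable_u2 m2 fun q => b2 _) (int' hd.measurable_u3 m3 fun q => b3 _)]
/-- test with indicators (`ae_le_of_forall_setIntegral_le`) -/
theorem Surf.slv_le (h : Surf D A n1 n2 n3) {Y2 Y3 : X → ℝ} (h2 : Measurable Y2)
    (h3 : Measurable Y3) (hY : ∀ p, Y2 p ^ 2 + Y3 p ^ 2 ≤ 1) :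
    ∀ᵐ t, t ∈ I → slv D Y2 Y3 t ≤ lam A n2 n3 t := by
  haveI := h.fin
  have hd := h.down
  have b2 : ∀ p, |Y2 p| ≤ 1 := fun p => by
    rw [← sq_le_one_iff_abs_le_one]; nlinarith [hY p, sq_nonneg (Y3 p)]
  have b3 : ∀ p, |Y3 p| ≤ 1 := fun p => by
    rw [← sq_le_one_iff_abs_le_one]; nlinarith [hY p, sq_nonneg (Y2 p)]
  have islv : IntegrableOn (slv D Y2 Y3) I := by
    refine Measure.integrableOn_of_bounded (M := 1 + 1) (by simp)
      (hd.measurable_slv h2 h3).aestronglyMeasurable (Eventually.of_forall fun t => ?_)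
    rw [Real.norm_eq_abs]
    exact (abs_add_le _ _).trans (add_le_add
      (lam_abs_sl (G := fun q => Y2 (q.1, u2 D q, q.2)) (fun q => b2 _) t)
      (lam_abs_sl (G := fun q => Y3 (q.1, q.2, u3 D q)) (fun q => b3 _) t))
  rw [← ae_restrict_iff' measurableSet_Ioo]
  refine ae_le_of_forall_setIntegral_le islv h.integrable_lam.integrableOn fun S hS _ => ?_
  have ms : Measurable (S.indicator (1 : ℝ → ℝ)) := measurable_one.indicator hS
  have s0 : ∀ t, 0 ≤ S.indicator (1 : ℝ → ℝ) t := fun t => indicator_nonneg (by simp) t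
  have bs : ∀ t, |S.indicator (1 : ℝ → ℝ) t| ≤ 1 := fun t => by
    by_cases ht : t ∈ S <;> simp [ht]
  have ind : ∀ f : ℝ → ℝ, ∫ t in S, f t ∂(volume.restrict I) =
      ∫ t in I, S.indicator (1 : ℝ → ℝ) t * f t := by
    intro f
    rw [← integral_indicator hS]
    refine integral_congr_ae (Eventually.of_forall fun t => ?_)
    by_cases ht : t ∈ S <;> simp [ht]
  rw [ind, ind, ← h.integral_lam ms bs, ← h.integral_slv h2 h3 b2 b3 ms bs]
  have key : ∀ p, |Y2 p * n2 p + Y3 p * n3 p| ≤ √(n2 p ^ 2 + n3 p ^ 2) := fun p => by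
    refine Real.abs_le_sqrt ?_
    nlinarith [hY p, sq_nonneg (Y2 p * n3 p - Y3 p * n2 p), sq_nonneg (n2 p), sq_nonneg (n3 p),
      mul_nonneg (sub_nonneg.2 (hY p)) (add_nonneg (sq_nonneg (n2 p)) (sq_nonneg (n3 p)))]
  refine integral_mono ?_ ?_ fun p => ?_
  · refine Integrable.of_bound (C := 1)
      ((ms.comp measurable_fst).mul ((h2.mul h.m2).add (h3.mul h.m3))).aestronglyMeasurable
      (Eventually.of_forall fun p => ?_)
    rw [Real.norm_eq_abs, abs_mul]
    exact mul_le_one₀ (bs _) (abs_nonneg _) ((key p).trans (lam_sqrt_le_one h p))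
  · refine Integrable.of_bound (C := 1)
      ((ms.comp measurable_fst).mul (lam_meas_sqrt h)).aestronglyMeasurable
      (Eventually.of_forall fun p => ?_)
    rw [Real.norm_eq_abs, abs_mul, abs_of_nonneg (Real.sqrt_nonneg _)]
    exact mul_le_one₀ (bs _) (Real.sqrt_nonneg _) (lam_sqrt_le_one h p)
  · exact mul_le_mul_of_nonneg_left ((le_abs_self _).trans (key p)) (s0 _)

lemma lam_nonneg_of_cont {μ : Measure ℝ} [IsFiniteMeasure μ] {f : ℝ → ℝ} (hm : Measurable f)
    (hf : Integrable f μ)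
    (h : ∀ g : ℝ → ℝ, Continuous g → (∀ t, 0 ≤ g t) → (∀ t, g t ≤ 1) → 0 ≤ ∫ t, g t * f t ∂μ) :
    ∀ᵐ t ∂μ, 0 ≤ f t := by
  have hcl : ∀ K : Set ℝ, IsClosed K → 0 ≤ ∫ t in K, f t ∂μ := by
    intro K hK
    have lim : Tendsto (fun n => ∫ t, (hK.apprSeq n t : ℝ) * f t ∂μ) atTop
        (𝓝 (∫ t, K.indicator f t ∂μ)) := by
      refine tendsto_integral_of_dominated_convergence (fun t => ‖f t‖) (fun n => ?_) hf.norm
        (fun n => Eventually.of_forall fun t => ?_) (Eventually.of_forall fun t => ?_)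
      · exact ((NNReal.continuous_coe.comp (hK.apprSeq n).continuous).measurable.mul
          hm).aestronglyMeasurable
      · rw [norm_mul]
        refine mul_le_of_le_one_left (norm_nonneg _) ?_
        rw [Real.norm_eq_abs, abs_of_nonneg NNReal.zero_le_coe]
        exact_mod_cast HasOuterApproxClosed.apprSeq_apply_le_one hK n t
      · have h1 := (NNReal.tendsto_coe.2
          (tendsto_pi_nhds.1 (HasOuterApproxClosed.tendsto_apprSeq hK) t)).mul_const (f t)
        convert h1 using 2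
        by_cases ht : t ∈ K <;> simp [ht]
    rw [← integral_indicator hK.measurableSet]
    refine ge_of_tendsto' lim fun n => h _
      (NNReal.continuous_coe.comp (hK.apprSeq n).continuous) (fun t => NNReal.zero_le_coe)
      fun t => ?_
    exact_mod_cast HasOuterApproxClosed.apprSeq_apply_le_one hK n t
  have hS : MeasurableSet {t | f t < 0} := measurableSet_lt hm measurable_const
  rw [ae_iff]
  simp only [not_le]
  rw [hS.measure_eq_iSup_isClosed_of_ne_top (measure_ne_top _ _)]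
  simp only [ENNReal.iSup_eq_zero]
  intro K hKS hK
  by_contra hne
  have hpos : 0 < ∫ t in K, -f t ∂μ := by
    rw [setIntegral_pos_iff_support_of_nonneg_ae (f := fun t => -f t) ?_ hf.neg.integrableOn]
    · refine lt_of_lt_of_le (pos_iff_ne_zero.2 hne) (measure_mono fun t ht => ⟨?_, ht⟩)
      have : f t < 0 := hKS ht
      simp only [Function.mem_support]
      linarith
    · refine (ae_restrict_iff' hK.measurableSet).2 (Eventually.of_forall fun t ht => ?_)
      have : f t < 0 := hKS ht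
      simp only [Pi.zero_apply]
      linarith
  rw [integral_neg] at hpos
  linarith [hcl K hK]

/-- `1 - n1² ≤ √(n2² + n3²)`, so `∫_I g (lam - (H a + F)) ≥ 0` for all continuous `g ≥ 0`, hence for
indicators of measurable sets -/
theorem Surf.flux_le (h : Surf D A n1 n2 n3) (hf : Flux3 D A n1 n2 n3 H F1 F2 F3) :
    ∀ᵐ t, t ∈ I → H * sa D t + F1 ≤ lam A n2 n3 t := by
  haveI := h.fin
  have hd := h.down
  haveI : IsFiniteMeasure ((volume : Measure ℝ).restrict I) := ⟨by simp⟩
  have msa : Measurable fun t => H * sa D t + F1 := (hd.measurable_sa.const_mul H).add_const F1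
  have bsa : ∀ t, |H * sa D t + F1| ≤ |H| + |F1| := fun t => by
    refine (abs_add_le _ _).trans (add_le_add_left ?_ _)
    rw [abs_mul, abs_of_nonneg (sa_nonneg D t)]
    exact mul_le_of_le_one_right (abs_nonneg _) (hd.sa_le_one t)
  have isa : Integrable (fun t => H * sa D t + F1) (volume.restrict I) :=
    Integrable.of_bound msa.aestronglyMeasurable _ (Eventually.of_forall bsa)
  have ilam : Integrable (lam A n2 n3) (volume.restrict I) := h.integrable_lam.integrableOn
  rw [← ae_restrict_iff' measurableSet_Ioo]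
  have := lam_nonneg_of_cont (μ := volume.restrict I)
    (f := fun t => lam A n2 n3 t - (H * sa D t + F1)) ((measurable_lam A n2 n3).sub msa)
    (ilam.sub isa) ?_
  · filter_upwards [this] with t ht
    linarith
  intro g hg g0 g1
  have bg : ∀ t, |g t| ≤ 1 := fun t => by rw [abs_of_nonneg (g0 t)]; exact g1 t
  have e : ∫ t in I, g t * (lam A n2 n3 t - (H * sa D t + F1)) =
      (∫ t in I, g t * lam A n2 n3 t) - ∫ t in I, g t * (H * sa D t + F1) := by
    rw [← integral_sub (ilam.bdd_mul hg.aestronglyMeasurable (Eventually.of_forall bg))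
      (isa.bdd_mul hg.aestronglyMeasurable (Eventually.of_forall bg))]
    refine integral_congr_ae (Eventually.of_forall fun t => ?_)
    simp only
    ring
  rw [e, ← h.integral_lam hg.measurable bg, ← hf.f1 g hg, sub_nonneg]
  have key : ∀ p, 1 - n1 p ^ 2 ≤ √(n2 p ^ 2 + n3 p ^ 2) := fun p => by
    have e1 : 1 - n1 p ^ 2 = n2 p ^ 2 + n3 p ^ 2 := by linarith [h.unit p]
    rw [e1]
    have h0 : 0 ≤ n2 p ^ 2 + n3 p ^ 2 := by positivity
    refine Real.le_sqrt_of_sq_le ?_
    nlinarith [sq_nonneg (n1 p)]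
  have key0 : ∀ p, 0 ≤ 1 - n1 p ^ 2 := fun p => by
    nlinarith [h.unit p, sq_nonneg (n2 p), sq_nonneg (n3 p)]
  refine integral_mono_of_nonneg (Eventually.of_forall fun p => mul_nonneg (g0 _) (key0 p)) ?_
    (Eventually.of_forall fun p => mul_le_mul_of_nonneg_left (key p) (g0 _))
  refine Integrable.of_bound (C := 1)
    ((hg.measurable.comp measurable_fst).mul (lam_meas_sqrt h)).aestronglyMeasurable
    (Eventually.of_forall fun p => ?_)
  rw [Real.norm_eq_abs, abs_mul, abs_of_nonneg (Real.sqrt_nonneg _)]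
  exact mul_le_one₀ (bg _) (Real.sqrt_nonneg _) (lam_sqrt_le_one h p)

end Crest.Agent.R214
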