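import Crest.Agent.R214.TInv

/-! Row 214: the perimeter of a symmetric subgraph; fibre averages. -/

set_option autoImplicit false

namespace Crest.Agent.R214

open MeasureTheory Set Filter Topology Real
open scoped ENNReal

lemma sub_cs {x y z a b c : ℝ} (h : x ^ 2 + y ^ 2 + z ^ 2 ≤ 1) :
    a * x + b * y + c * z ≤ √(b ^ 2 + c ^ 2 + a ^ 2) := by
  apply Real.le_sqrt_of_sq_le
  have h0 : 0 ≤ b ^ 2 + c ^ 2 + a ^ 2 := by positivity
  calc (a * x + b * y + c * z) ^ 2
      ≤ (b ^ 2 + c ^ 2 + a ^ 2) * (x ^ 2 + y ^ 2 + z ^ 2) := by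
        nlinarith [sq_nonneg (a * y - b * x), sq_nonneg (a * z - c * x), sq_nonneg (b * z - c * y)]
    _ ≤ (b ^ 2 + c ^ 2 + a ^ 2) * 1 := by gcongr
    _ = _ := mul_one _

lemma sub_cont_fderiv {E : Type*} [NormedAddCommGroup E] [NormedSpace ℝ E] {f : E → ℝ}
    (hf : ContDiff ℝ 1 f) (e : E) : Continuous fun p => fderiv ℝ f p e :=
  (hf.continuous_fderiv (by norm_num)).clm_apply continuous_const

lemma sub_integrableOn {s : Set ℝ} {a b : ℝ} (hs : s ⊆ Icc a b) {f : X → ℝ} (hf : Continuous f) :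
    IntegrableOn f (s ×ˢ C2) := by
  have hK : IsCompact (Icc a b ×ˢ (Icc (0 : ℝ) 1 ×ˢ Icc (0 : ℝ) 1)) :=
    isCompact_Icc.prod (isCompact_Icc.prod isCompact_Icc)
  refine (hf.continuousOn.integrableOn_compact hK).mono_set ?_
  exact prod_mono hs (prod_mono Ico_subset_Icc_self Ico_subset_Icc_self)

/-- Fubini with the fibre variable inside -/
lemma sub_fubini {s : Set ℝ} {F : X → ℝ} (hF : IntegrableOn F (s ×ˢ C2)) :
    ∫ p in s ×ˢ C2, F p = ∫ q in C2, ∫ t in s, F (t, q) := by
  have h : Integrable F ((volume.restrict s).prod (volume.restrict C2)) := by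
    rw [Measure.prod_restrict]; exact hF
  have : (volume : Measure X).restrict (s ×ˢ C2) =
      (volume.restrict s).prod (volume.restrict C2) := by
    rw [Measure.prod_restrict]; rfl
  rw [this, integral_prod_symm _ h]

lemma sub_fubini' {s : Set ℝ} {F : X → ℝ} (hF : IntegrableOn F (s ×ˢ C2)) :
    ∫ p in s ×ˢ C2, F p = ∫ t in s, ∫ q in C2, F (t, q) := by
  have h : Integrable F ((volume.restrict s).prod (volume.restrict C2)) := by
    rw [Measure.prod_restrict]; exact hF
  have : (volume : Measure X).restrict (s ×ˢ C2) =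
      (volume.restrict s).prod (volume.restrict C2) := by
    rw [Measure.prod_restrict]; rfl
  rw [this, integral_prod _ h]

/-- the derivative of the rescaled field -/
lemma sub_fderiv {w : ℝ × ℝ → ℝ} (hw : ContDiff ℝ 1 w) {f : X → ℝ} (hf : ContDiff ℝ 1 f)
    (τ : ℝ) (q e : ℝ × ℝ) :
    fderiv ℝ (fun q => w q / 2 * f (w q / 2 * τ, q)) q e =
      fderiv ℝ w q e / 2 * (f (w q / 2 * τ, q) + τ * (w q / 2 * d1 f (w q / 2 * τ, q))) +
        w q / 2 * fderiv ℝ f (w q / 2 * τ, q) (0, e) := by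
  have hw' : HasFDerivAt w (fderiv ℝ w q) q := (hw.differentiable (by norm_num) q).hasFDerivAt
  have hf' : HasFDerivAt f (fderiv ℝ f (w q / 2 * τ, q)) (w q / 2 * τ, q) :=
    (hf.differentiable (by norm_num) _).hasFDerivAt
  have h1 : HasFDerivAt (fun q => w q / 2) ((1 / 2 : ℝ) • fderiv ℝ w q) q := by
    have e1 : (fun q => w q / 2) = (1 / 2 : ℝ) • w := by ext q; simp; ring
    rw [e1]; exact hw'.const_smul (1 / 2 : ℝ)
  have h2 : HasFDerivAt (fun q => (w q / 2 * τ, q))
      (((τ / 2) • fderiv ℝ w q).prod (ContinuousLinearMap.id ℝ (ℝ × ℝ))) q := by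
    refine HasFDerivAt.prodMk ?_ (hasFDerivAt_id q)
    have e1 : (fun q => w q / 2 * τ) = (τ / 2 : ℝ) • w := by ext q; simp; ring
    rw [e1]; exact hw'.const_smul (τ / 2 : ℝ)
  have h3 := h1.mul (HasFDerivAt.comp (f := fun q => ((w q / 2 * τ, q) : X)) q hf' h2)
  have h4 : fderiv ℝ (fun q => w q / 2 * f (w q / 2 * τ, q)) q = _ := h3.fderiv
  rw [h4]
  have h5 : fderiv ℝ f (w q / 2 * τ, q) (τ / 2 * fderiv ℝ w q e, e) =
      τ / 2 * fderiv ℝ w q e * d1 f (w q / 2 * τ, q) + fderiv ℝ f (w q / 2 * τ, q) (0, e) := by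
    have : ((τ / 2 * fderiv ℝ w q e, e) : X) =
        (τ / 2 * fderiv ℝ w q e) • ((1, 0, 0) : X) + (0, e) := by
      ext <;> simp
    rw [this, map_add, map_smul]; rfl
  simp only [add_apply, smul_apply,
    ContinuousLinearMap.comp_apply, ContinuousLinearMap.prod_apply, ContinuousLinearMap.id_apply,
    smul_eq_mul, Function.comp_apply]
  rw [h5]; ring

lemma sub_key {w : ℝ × ℝ → ℝ} (hw : ContDiff ℝ 1 w) (hp : ZPer2 w) {f : X → ℝ}
    (hf : ContDiff ℝ 1 f) (hfp : ZPer f) (e : ℝ × ℝ)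
    (he : ∀ g : ℝ × ℝ → ℝ, ContDiff ℝ 1 g → ZPer2 g → ∫ q in C2, fderiv ℝ g q e = 0) :
    ∫ q in C2, ((∫ t in (-(w q / 2))..(w q / 2), fderiv ℝ f (t, q) (0, e)) +
      fderiv ℝ w q e / 2 * (f (w q / 2, q) + f (-(w q / 2), q))) = 0 := by
  set G : X → ℝ := fun p =>
    fderiv ℝ w p.2 e / 2 * (f (w p.2 / 2 * p.1, p.2) +
      p.1 * (w p.2 / 2 * d1 f (w p.2 / 2 * p.1, p.2))) +
        w p.2 / 2 * fderiv ℝ f (w p.2 / 2 * p.1, p.2) (0, e) with hG
  have cw := hw.continuous
  have cf := hf.continuous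
  have cw' := sub_cont_fderiv hw e
  have cf' := sub_cont_fderiv hf ((0, e) : X)
  have cd := continuous_d1 hf
  have cΦ : Continuous fun p : X => ((w p.2 / 2 * p.1, p.2) : X) := by fun_prop
  have cG : Continuous G := by
    refine (((cw'.comp continuous_snd).div_const 2).mul ((cf.comp cΦ).add (continuous_fst.mul
      (((cw.comp continuous_snd).div_const 2).mul (cd.comp cΦ))))).add
      (((cw.comp continuous_snd).div_const 2).mul (cf'.comp cΦ))
  have hint : IntegrableOn G (Ioc (-1) 1 ×ˢ C2) := sub_integrableOn Ioc_subset_Icc_self cG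
  have h1 : ∫ p in Ioc (-1 : ℝ) 1 ×ˢ C2, G p = 0 := by
    rw [sub_fubini' hint]
    have : ∀ τ : ℝ, ∫ q in C2, G (τ, q) = 0 := by
      intro τ
      rw [← he (fun q => w q / 2 * f (w q / 2 * τ, q)) ?_ ?_]
      · congr 1; ext q; rw [sub_fderiv hw hf]
      · exact (hw.div_const 2).mul (hf.comp (((hw.div_const 2).mul contDiff_const).prodMk
          contDiff_id))
      · intro b c q
        have := hfp 0 b c (w q / 2 * τ, q)
        simp only [hp b c q]
        rw [← this]; congr 2; ext <;> simp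
    simp [this]
  rw [sub_fubini hint] at h1
  refine Eq.trans ?_ h1
  congr 1; ext q
  rw [← intervalIntegral.integral_of_le (by norm_num : (-1 : ℝ) ≤ 1)]
  have cΨ : Continuous fun τ : ℝ => ((w q / 2 * τ, q) : X) := by fun_prop
  have c1 : Continuous fun τ : ℝ =>
      f (w q / 2 * τ, q) + τ * (w q / 2 * d1 f (w q / 2 * τ, q)) :=
    (cf.comp cΨ).add (continuous_id.mul (continuous_const.mul (cd.comp cΨ)))
  have c2 : Continuous fun τ : ℝ => fderiv ℝ f (w q / 2 * τ, q) (0, e) := cf'.comp cΨ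
  simp only [hG]
  rw [intervalIntegral.integral_add ((c1.intervalIntegrable _ _).const_mul _)
    ((c2.intervalIntegrable _ _).const_mul _), intervalIntegral.integral_const_mul,
    intervalIntegral.integral_const_mul, add_comm]
  congr 1
  · congr 1
    have hd : ∀ τ ∈ uIcc (-1 : ℝ) 1, HasDerivAt (fun τ => τ * f (w q / 2 * τ, q))
        (f (w q / 2 * τ, q) + τ * (w q / 2 * d1 f (w q / 2 * τ, q))) τ := by
      intro τ _
      have h2 : HasDerivAt (fun τ => f (w q / 2 * τ, q))
          (d1 f (w q / 2 * τ, q) * (w q / 2)) τ := by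
        have h3 : HasDerivAt (fun τ : ℝ => w q / 2 * τ) (w q / 2) τ := by
          simpa using (hasDerivAt_id τ).const_mul (w q / 2)
        exact (hasDerivAt_d1 hf (w q / 2 * τ) q).comp τ h3
      exact ((hasDerivAt_id' τ).mul h2).congr_deriv (by ring)
    rw [intervalIntegral.integral_eq_sub_of_hasDerivAt hd (c1.intervalIntegrable _ _)]
    simp
  · have := intervalIntegral.mul_integral_comp_mul_left (a := -1) (b := 1)
      (f := fun t => fderiv ℝ f (t, q) (0, e)) (w q / 2)
    rw [this]; simp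

/-- reduction to fibre integrals -/
lemma sub_fibre {w : ℝ × ℝ → ℝ} (hw : Continuous w) (hp : ZPer2 w) (h0 : ∀ q, 0 ≤ w q)
    (h1 : ∀ q, w q ≤ 1) {F : X → ℝ} (hF : Continuous F) (hFp : ZPer F) :
    ∫ p in {p : X | dz p.1 < w p.2 / 2} ∩ C0, F p =
      ∫ q in C2, ∫ t in (-(w q / 2))..(w q / 2), F (t, q) := by
  set S : Set X := {p : X | dz p.1 < w p.2 / 2} with hS
  have hSm : MeasurableSet S := by
    refine (isOpen_lt (continuous_dz.comp continuous_fst) ?_).measurableSet
    exact (hw.comp continuous_snd).div_const 2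
  have hper : ZPer (S.indicator F) := by
    intro a b c p
    have hmem : p + ((a : ℝ), (b : ℝ), (c : ℝ)) ∈ S ↔ p ∈ S := by
      simp only [hS, mem_ofPred_eq, Prod.fst_add, Prod.snd_add, dz_add_int, hp b c p.2]
    by_cases h : p ∈ S
    · rw [indicator_of_mem h, indicator_of_mem (hmem.2 h), hFp]
    · rw [indicator_of_notMem h, indicator_of_notMem (fun h' => h (hmem.1 h'))]
  have hbox := integral_box hper (-(1 / 2)) 0 0
  have hC : Ico (0 : ℝ) (0 + 1) ×ˢ Ico (0 : ℝ) (0 + 1) = C2 := by simp [C2]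
  rw [hC] at hbox
  rw [inter_comm, ← setIntegral_indicator hSm, ← hbox, sub_fubini
    ((sub_integrableOn Ico_subset_Icc_self hF).indicator hSm)]
  congr 1; ext q
  have hle : -(w q / 2) ≤ w q / 2 := by linarith [h0 q]
  rw [intervalIntegral.integral_of_le hle, integral_Ioc_eq_integral_Ioo]
  have h2 : (fun t => S.indicator F (t, q)) =
      {t : ℝ | dz t < w q / 2}.indicator fun t => F (t, q) := by
    ext t; by_cases h : dz t < w q / 2
    · rw [indicator_of_mem (show (t, q) ∈ S from h), indicator_of_mem (show t ∈ {t : ℝ | dz t < w q / 2} from h)]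
    · rw [indicator_of_notMem (show (t, q) ∉ S from h), indicator_of_notMem (show t ∉ {t : ℝ | dz t < w q / 2} from h)]
  rw [h2, setIntegral_indicator (isOpen_lt continuous_dz continuous_const).measurableSet]
  congr 2
  ext t
  simp only [mem_inter_iff, mem_Ico, mem_ofPred_eq, mem_Ioo]
  constructor
  · rintro ⟨⟨ha, hb⟩, hc⟩
    rw [dz_of_abs_le (abs_le.2 ⟨ha, by linarith⟩)] at hc
    exact abs_lt.1 hc
  · rintro ⟨ha, hb⟩
    have := h1 q
    refine ⟨⟨by linarith, by linarith⟩, ?_⟩
    rw [dz_of_abs_le (abs_le.2 ⟨by linarith, by linarith⟩)]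
    exact abs_lt.2 ⟨ha, hb⟩

lemma sub_cont_fibre {w : ℝ × ℝ → ℝ} (hw : Continuous w) {F : X → ℝ} (hF : Continuous F) :
    Continuous fun q => ∫ t in (-(w q / 2))..(w q / 2), F (t, q) := by
  have : (fun q => ∫ t in (-(w q / 2))..(w q / 2), F (t, q)) =
      fun q => w q / 2 * ∫ τ in (-1 : ℝ)..1, F (w q / 2 * τ, q) := by
    ext q
    have := intervalIntegral.mul_integral_comp_mul_left (a := -1) (b := 1)
      (f := fun t => F (t, q)) (w q / 2)
    rw [this]; simp
  rw [this]
  refine (hw.div_const 2).mul ?_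
  apply intervalIntegral.continuous_parametric_intervalIntegral_of_continuous'
  exact hF.comp (by fun_prop)

/-- By `integral_box` integrate over `Ico (-1/2) (1/2) ×ˢ C2`, where the set is
`{|t| < w q / 2}`.  The `d1` part gives `f1 (w/2, q) - f1 (-w/2, q)`, which vanishes if
`w q ∈ {0, 1}`.  For the `d2` part put `ψ q = ∫ t in (-w q / 2)..(w q / 2), f2 (t, q)
= w q / 2 * ∫ τ in (-1)..1, f2 (w q / 2 * τ, q)`; it is `C¹` (or at least differentiable along the
coordinate line with continuous derivative) and periodic with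
`da ψ q = ∫ d2 f2 + (f2 (w/2, q) + f2 (-w/2, q)) * da w q / 2`, and `∫_{C2} da ψ = 0`.  Finish with
Cauchy-Schwarz at the two points `(± w/2, q)`; at points with `w q ∈ {0, 1}` use
`f2² + f3² ≤ 1`. -/
theorem integral_sub_le {w : ℝ × ℝ → ℝ} (hw : ContDiff ℝ 1 w) (hp : ZPer2 w) (h0 : ∀ q, 0 ≤ w q)
    (h1 : ∀ q, w q ≤ 1) {f1 f2 f3 : X → ℝ} (hf : TField f1 f2 f3) :
    ∫ p in {p : X | dz p.1 < w p.2 / 2} ∩ C0, dv f1 f2 f3 p ≤
      ∫ q in C2, √(da w q ^ 2 + db w q ^ 2 + if 0 < w q ∧ w q < 1 then 4 else 0) := by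
  have cw := hw.continuous
  rw [sub_fibre cw hp h0 h1 (continuous_dv hf.c1 hf.c2 hf.c3) hf.dv_per]
  have k2 := sub_key hw hp hf.c2 hf.p2 (1, 0) (fun g hg hgp => integral_da hg hgp)
  have k3 := sub_key hw hp hf.c3 hf.p3 (0, 1) (fun g hg hgp => integral_db hg hgp)
  have ca : Continuous (da w) := sub_cont_fderiv hw _
  have cb : Continuous (db w) := sub_cont_fderiv hw _
  have cP : Continuous fun q => ((w q / 2, q) : X) := by fun_prop
  have cM : Continuous fun q => ((-(w q / 2), q) : X) := by fun_prop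
  set A2 : ℝ × ℝ → ℝ := fun q => (∫ t in (-(w q / 2))..(w q / 2), d2 f2 (t, q)) +
      da w q / 2 * (f2 (w q / 2, q) + f2 (-(w q / 2), q)) with hA2
  set A3 : ℝ × ℝ → ℝ := fun q => (∫ t in (-(w q / 2))..(w q / 2), d3 f3 (t, q)) +
      db w q / 2 * (f3 (w q / 2, q) + f3 (-(w q / 2), q)) with hA3
  set B : ℝ × ℝ → ℝ := fun q => f1 (w q / 2, q) - f1 (-(w q / 2), q) -
      da w q / 2 * (f2 (w q / 2, q) + f2 (-(w q / 2), q)) -
      db w q / 2 * (f3 (w q / 2, q) + f3 (-(w q / 2), q)) with hB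
  have k2' : ∫ q in C2, A2 q = 0 := k2
  have k3' : ∫ q in C2, A3 q = 0 := k3
  have c1 := hf.c1.continuous
  have c2 := hf.c2.continuous
  have c3 := hf.c3.continuous
  have cA2 : Continuous A2 := (sub_cont_fibre cw (continuous_d2 hf.c2)).add
    ((ca.div_const 2).mul ((c2.comp cP).add (c2.comp cM)))
  have cA3 : Continuous A3 := (sub_cont_fibre cw (continuous_d3 hf.c3)).add
    ((cb.div_const 2).mul ((c3.comp cP).add (c3.comp cM)))
  have cB : Continuous B := (((c1.comp cP).sub (c1.comp cM)).sub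
    ((ca.div_const 2).mul ((c2.comp cP).add (c2.comp cM)))).sub
    ((cb.div_const 2).mul ((c3.comp cP).add (c3.comp cM)))
  have hsplit : ∀ q, ∫ t in (-(w q / 2))..(w q / 2), dv f1 f2 f3 (t, q) = B q + (A2 q + A3 q) := by
    intro q
    have cq : Continuous fun t : ℝ => ((t, q) : X) := by fun_prop
    have i1 := ((continuous_d1 hf.c1).comp cq).intervalIntegrable (μ := volume)
      (-(w q / 2)) (w q / 2)
    have i2 := ((continuous_d2 hf.c2).comp cq).intervalIntegrable (μ := volume)
      (-(w q / 2)) (w q / 2)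
    have i3 := ((continuous_d3 hf.c3).comp cq).intervalIntegrable (μ := volume)
      (-(w q / 2)) (w q / 2)
    have e1 := intervalIntegral.integral_eq_sub_of_hasDerivAt
      (fun t _ => hasDerivAt_d1 hf.c1 t q) i1
    have e2 := intervalIntegral.integral_add (i1.add i2) i3
    have e3 := intervalIntegral.integral_add i1 i2
    simp only [Function.comp_apply] at e1 e2 e3
    simp only [dv, hB, hA2, hA3]
    rw [e2, e3, e1]; ring
  simp_rw [hsplit]
  have cA : Continuous fun q => A2 q + A3 q := cA2.add cA3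
  rw [integral_add (integrableOn_C2 cB) (integrableOn_C2 cA),
    integral_add (integrableOn_C2 cA2) (integrableOn_C2 cA3), k2', k3', add_zero, add_zero]
  refine integral_mono (integrableOn_C2 cB) ?_ ?_
  · have cR : Continuous fun q => √(da w q ^ 2 + db w q ^ 2 + 4) := by fun_prop
    refine Integrable.mono' (integrableOn_C2 cR) ?_ (Eventually.of_forall fun q => ?_)
    · refine Measurable.aestronglyMeasurable ?_
      refine Measurable.sqrt (((ca.measurable.pow_const 2).add (cb.measurable.pow_const 2)).add ?_)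
      refine Measurable.ite ?_ measurable_const measurable_const
      exact ((isOpen_lt continuous_const cw).inter (isOpen_lt cw continuous_const)).measurableSet
    · rw [Real.norm_eq_abs, abs_of_nonneg (Real.sqrt_nonneg _)]
      apply Real.sqrt_le_sqrt
      split_ifs <;> linarith
  · intro q
    simp only [hB]
    split_ifs with h
    · have e1 := sub_cs (a := 2) (b := -da w q) (c := -db w q) (hf.le (w q / 2, q))
      have e2 := sub_cs (a := -2) (b := -da w q) (c := -db w q) (hf.le (-(w q / 2), q))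
      rw [neg_sq, neg_sq] at e1
      rw [neg_sq, neg_sq, neg_sq] at e2
      norm_num at e1 e2 ⊢
      linarith
    · have e1 := sub_cs (a := 0) (b := -da w q) (c := -db w q) (hf.le (w q / 2, q))
      have e2 := sub_cs (a := 0) (b := -da w q) (c := -db w q) (hf.le (-(w q / 2), q))
      rw [neg_sq, neg_sq] at e1 e2
      have e3 : f1 (w q / 2, q) = f1 (-(w q / 2), q) := by
        rcases (h0 q).eq_or_lt with h2 | h2
        · rw [← h2]; simp
        · have h3 : w q = 1 := le_antisymm (h1 q) (not_lt.1 fun h4 => h ⟨h2, h4⟩)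
          rw [← hf.p1 1 0 0 (-(w q / 2), q), h3]
          congr 1; ext <;> simp; norm_num
      norm_num at e1 e2 ⊢
      linarith

end Crest.Agent.R214
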