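import Crest.Agent.R214.StBasic
import Crest.Agent.R214.Sub
import Crest.Agent.R214.Fav
import Crest.Agent.R214.Bridge

/-! Row 214: perimeter and volume of the models. -/

set_option autoImplicit false

namespace Crest.Agent.R214

open MeasureTheory Set Filter Topology Real
open scoped ENNReal

/-- the symmetric fundamental interval -/
abbrev modper_J : Set ℝ := Ico (-1 / 2) (-1 / 2 + 1)

lemma modper_vol_box {E : Set X} (hE : PerSet E) :
    volume (E ∩ C0) = volume (E ∩ modper_J ×ˢ modper_J ×ˢ modper_J) := by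
  have hp : ZPer (E.indicator (1 : X → ℝ≥0∞)) := by
    intro a b c p
    by_cases h : p ∈ E
    · rw [indicator_of_mem h, indicator_of_mem ((hE.per a b c p).mpr h)]
      rfl
    · rw [indicator_of_notMem h, indicator_of_notMem fun h' => h ((hE.per a b c p).mp h')]
  have := lintegral_box hp (-1 / 2) (-1 / 2) (-1 / 2)
  rw [lintegral_indicator_one hE.meas, lintegral_indicator_one hE.meas,
    Measure.restrict_apply hE.meas, Measure.restrict_apply hE.meas] at this
  exact this.symm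

lemma modper_dz {s : ℝ} (h : s ∈ modper_J) : dz s ^ 2 = s ^ 2 := by
  rw [dz_of_abs_le (abs_le.2 ⟨by linarith [h.1], by linarith [h.2]⟩), sq_abs]

lemma modper_memJ {s r : ℝ} (h0 : 0 < r) (h1 : r ≤ 1 / 3) (h : s ^ 2 < r ^ 2) : s ∈ modper_J := by
  have := abs_lt.1 (abs_lt_of_sq_lt_sq h h0.le)
  exact ⟨by linarith [this.1], by linarith [this.2]⟩

lemma modper_volJ : volume modper_J = 1 := by
  rw [Real.volume_Ico]
  norm_num

lemma modper_ball {r : ℝ} (h0 : 0 < r) (h1 : r ≤ 1 / 3) : tvol (Mod 1 1 1 r) = mvol 3 r := by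
  have e : Mod 1 1 1 r ∩ modper_J ×ˢ modper_J ×ˢ modper_J = ofX ⁻¹' Metric.ball 0 r := by
    ext p
    have e1 : p ∈ ofX ⁻¹' Metric.ball 0 r ↔ p.1 ^ 2 + p.2.1 ^ 2 + p.2.2 ^ 2 < r ^ 2 := by
      rw [mem_preimage, mem_ball_zero_iff, EuclideanSpace.norm_eq, Real.sqrt_lt' h0,
        Fin.sum_univ_three]
      simp [ofX]
    rw [e1]
    constructor
    · rintro ⟨h, j1, j2, j3⟩
      simpa only [Mod, mem_ofPred_eq, modper_dz j1, modper_dz j2, modper_dz j3, one_mul] using h
    · intro h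
      have j1 := modper_memJ (s := p.1) h0 h1 (by nlinarith [sq_nonneg p.2.1, sq_nonneg p.2.2])
      have j2 := modper_memJ (s := p.2.1) h0 h1 (by nlinarith [sq_nonneg p.1, sq_nonneg p.2.2])
      have j3 := modper_memJ (s := p.2.2) h0 h1 (by nlinarith [sq_nonneg p.1, sq_nonneg p.2.1])
      refine ⟨?_, j1, j2, j3⟩
      simpa only [Mod, mem_ofPred_eq, modper_dz j1, modper_dz j2, modper_dz j3, one_mul] using h
  rw [tvol, modper_vol_box (perSet_mod _ _ _ _), e,
    measurePreserving_ofX.measure_preimage Metric.isOpen_ball.measurableSet.nullMeasurableSet,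
    EuclideanSpace.volume_ball_fin_three, ENNReal.toReal_mul, ENNReal.toReal_pow,
    ENNReal.toReal_ofReal h0.le, ENNReal.toReal_ofReal (by positivity), mvol, if_pos rfl]
  ring

lemma modper_disc {r : ℝ} (h0 : 0 < r) :
    volume {q : ℝ × ℝ | q.1 ^ 2 + q.2 ^ 2 < r ^ 2} = ENNReal.ofReal r ^ 2 * NNReal.pi := by
  have hm : MeasurableSet {q : ℝ × ℝ | q.1 ^ 2 + q.2 ^ 2 < r ^ 2} :=
    (isOpen_lt (by fun_prop) (by fun_prop)).measurableSet
  rw [← Complex.volume_preserving_equiv_real_prod.measure_preimage hm.nullMeasurableSet,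
    ← Complex.volume_ball 0 r]
  congr 1
  ext z
  rw [mem_ball_zero_iff, Complex.norm_eq_sqrt_sq_add_sq, Real.sqrt_lt' h0]
  simp

lemma modper_tube {r : ℝ} (h0 : 0 < r) (h1 : r ≤ 1 / 3) : tvol (Mod 0 1 1 r) = mvol 2 r := by
  have e : Mod 0 1 1 r ∩ modper_J ×ˢ modper_J ×ˢ modper_J =
      modper_J ×ˢ {q : ℝ × ℝ | q.1 ^ 2 + q.2 ^ 2 < r ^ 2} := by
    ext p
    constructor
    · rintro ⟨h, j1, j2, j3⟩
      refine ⟨j1, ?_⟩
      simpa only [Mod, mem_ofPred_eq, modper_dz j2, modper_dz j3, one_mul, zero_mul, zero_add]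
        using h
    · rintro ⟨j1, h⟩
      rw [mem_ofPred_eq] at h
      have j2 := modper_memJ (s := p.2.1) h0 h1 (by nlinarith [sq_nonneg p.2.2])
      have j3 := modper_memJ (s := p.2.2) h0 h1 (by nlinarith [sq_nonneg p.2.1])
      refine ⟨?_, j1, j2, j3⟩
      simpa only [Mod, mem_ofPred_eq, modper_dz j2, modper_dz j3, one_mul, zero_mul, zero_add]
        using h
  rw [tvol, modper_vol_box (perSet_mod _ _ _ _), e, Measure.volume_eq_prod, Measure.prod_prod,
    modper_volJ, modper_disc h0, one_mul, ENNReal.toReal_mul, ENNReal.toReal_pow,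
    ENNReal.toReal_ofReal h0.le, mvol, if_neg (by norm_num), if_pos rfl]
  simp [mul_comm]

lemma modper_slab {r : ℝ} (h0 : 0 < r) (h1 : r ≤ 1 / 3) : tvol (Mod 1 0 0 r) = mvol 1 r := by
  have e : Mod 1 0 0 r ∩ modper_J ×ˢ modper_J ×ˢ modper_J =
      Ioo (-r) r ×ˢ modper_J ×ˢ modper_J := by
    ext p
    constructor
    · rintro ⟨h, j1, j2⟩
      refine ⟨?_, j2⟩
      have : p.1 ^ 2 < r ^ 2 := by
        simpa only [Mod, mem_ofPred_eq, modper_dz j1, one_mul, zero_mul, add_zero] using h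
      exact abs_lt.1 (abs_lt_of_sq_lt_sq this h0.le)
    · rintro ⟨h, j2⟩
      have h' : p.1 ^ 2 < r ^ 2 := sq_lt_sq' h.1 h.2
      have j1 := modper_memJ h0 h1 h'
      refine ⟨?_, j1, j2⟩
      simpa only [Mod, mem_ofPred_eq, modper_dz j1, one_mul, zero_mul, add_zero] using h'
  rw [tvol, modper_vol_box (perSet_mod _ _ _ _), e, Measure.volume_eq_prod, Measure.prod_prod,
    Measure.volume_eq_prod, Measure.prod_prod, modper_volJ, Real.volume_Ioo, mul_one, mul_one,
    ENNReal.toReal_ofReal (by linarith), mvol, if_neg (by norm_num), if_neg (by norm_num)]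
  ring

lemma modper_cyc (e1 e2 e3 r : ℝ) : tvol (Mod e3 e1 e2 r) = tvol (Mod e1 e2 e3 r) := by
  rw [← cyc_mod, tvol_cyc]

/-- On the box `Ico (-1/2) (1/2)³` the model is a ball, a disc times an interval, or a product of
intervals (`integral_box`); by `cyc_mod` one may assume the shape `Mod 1 1 1`, `Mod 0 1 1`,
`Mod 1 0 0`. -/
theorem tvol_mod {e1 e2 e3 r : ℝ} (hb : Bits e1 e2 e3) (h0 : 0 < r) (h1 : r ≤ 1 / 3) :
    tvol (Mod e1 e2 e3 r) = mvol (e1 + e2 + e3) r := by
  have t1 := modper_tube h0 h1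
  have s1 := modper_slab h0 h1
  have hp := hb.pos
  rcases hb.b1 with rfl | rfl <;> rcases hb.b2 with rfl | rfl <;> rcases hb.b3 with rfl | rfl
  · norm_num at hp
  · rw [modper_cyc, modper_cyc, s1]; norm_num
  · rw [modper_cyc, s1]; norm_num
  · rw [t1]; norm_num
  · rw [s1]; norm_num
  · rw [modper_cyc, t1]; norm_num
  · rw [modper_cyc, modper_cyc, t1]; norm_num
  · rw [modper_ball h0 h1]; norm_num

lemma modper_loc {e s : ℝ} (he : e = 0 ∨ e = 1) (h : e * dz s ^ 2 ≤ 1 / 9) :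
    (fun t => e * dz t ^ 2) =ᶠ[𝓝 s] fun t => e * (t - round s) ^ 2 := by
  rcases he with rfl | rfl
  · simp
  · have h1 : |s - round s| ≤ 1 / 3 := by
      refine abs_le_of_sq_le_sq ?_ (by norm_num)
      rw [← sq_abs]
      change dz s ^ 2 ≤ _
      linarith
    filter_upwards [Metric.ball_mem_nhds s (by norm_num : (0 : ℝ) < 1 / 6)] with t ht
    rw [Metric.mem_ball, Real.dist_eq] at ht
    have h2 : |t - round s| ≤ 1 / 2 := by
      have := abs_add_le (t - s) (s - round s)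
      rw [sub_add_sub_cancel] at this
      linarith
    have h3 := dz_add_int (t - round s) (round s)
    rw [sub_add_cancel] at h3
    rw [h3, dz_of_abs_le h2, sq_abs]

lemma modper_der {e s : ℝ} (he : e = 0 ∨ e = 1) (h : e * dz s ^ 2 ≤ 1 / 9) :
    HasDerivAt (fun t => e * dz t ^ 2) (e * (2 * (s - round s))) s := by
  refine HasDerivAt.congr_of_eventuallyEq ?_ (modper_loc he h)
  simpa using (((hasDerivAt_id s).sub_const (round s : ℝ)).pow 2).const_mul e

lemma modper_sq {e : ℝ} (he : e = 0 ∨ e = 1) (a s : ℝ) :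
    (a * (e * (2 * (s - round s)))) ^ 2 = (2 * a) ^ 2 * (e * dz s ^ 2) := by
  rw [dz, sq_abs]
  rcases he with rfl | rfl <;> ring

/-- the quadratic form defining the model -/
noncomputable def modper_q (e1 e2 e3 : ℝ) (p : X) : ℝ :=
  e1 * dz p.1 ^ 2 + e2 * dz p.2.1 ^ 2 + e3 * dz p.2.2 ^ 2

lemma modper_q_cont (e1 e2 e3 : ℝ) : Continuous (modper_q e1 e2 e3) := by
  have := continuous_dz
  unfold modper_q
  fun_prop

lemma modper_parts {e1 e2 e3 : ℝ} (hb : Bits e1 e2 e3) {p : X} (h : modper_q e1 e2 e3 p ≤ 1 / 9) :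
    e1 * dz p.1 ^ 2 ≤ 1 / 9 ∧ e2 * dz p.2.1 ^ 2 ≤ 1 / 9 ∧ e3 * dz p.2.2 ^ 2 ≤ 1 / 9 := by
  have h1 : 0 ≤ e1 * dz p.1 ^ 2 := by rcases hb.b1 with rfl | rfl <;> positivity
  have h2 : 0 ≤ e2 * dz p.2.1 ^ 2 := by rcases hb.b2 with rfl | rfl <;> positivity
  have h3 : 0 ≤ e3 * dz p.2.2 ^ 2 := by rcases hb.b3 with rfl | rfl <;> positivity
  unfold modper_q at h
  exact ⟨by linarith, by linarith, by linarith⟩

lemma modper_zero {e1 e2 e3 T : ℝ} {φ : ℝ → ℝ} (hz : ∀ t, T ≤ t → φ t = 0) {p : X}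
    (h : T < modper_q e1 e2 e3 p) : (fun p => φ (modper_q e1 e2 e3 p)) =ᶠ[𝓝 p] fun _ => 0 := by
  filter_upwards [(isOpen_lt continuous_const (modper_q_cont e1 e2 e3)).mem_nhds h] with p' hp'
  exact hz _ (le_of_lt hp')

lemma modper_contDiff {e1 e2 e3 T : ℝ} (hb : Bits e1 e2 e3) (hT : T ≤ 1 / 9) {φ : ℝ → ℝ}
    (hφ : ContDiff ℝ 1 φ) (hz : ∀ t, T ≤ t → φ t = 0) :
    ContDiff ℝ 1 fun p => φ (modper_q e1 e2 e3 p) := by
  refine contDiff_iff_contDiffAt.2 fun p => ?_
  rcases lt_or_ge T (modper_q e1 e2 e3 p) with h | h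
  · exact contDiffAt_const.congr_of_eventuallyEq (modper_zero hz h)
  · obtain ⟨h1, h2, h3⟩ := modper_parts hb (h.trans hT)
    have hc : ContDiff ℝ 1 fun p' : X => φ (e1 * (p'.1 - round p.1) ^ 2 +
        e2 * (p'.2.1 - round p.2.1) ^ 2 + e3 * (p'.2.2 - round p.2.2) ^ 2) :=
      hφ.comp (by fun_prop)
    refine hc.contDiffAt.congr_of_eventuallyEq ?_
    filter_upwards [continuous_fst.continuousAt.eventually (modper_loc hb.b1 h1),
      (continuous_fst.comp continuous_snd).continuousAt.eventually (modper_loc hb.b2 h2),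
      (continuous_snd.comp continuous_snd).continuousAt.eventually (modper_loc hb.b3 h3)]
      with p' k1 k2 k3
    simp only [Function.comp] at k1 k2 k3
    rw [modper_q, k1, k2, k3]

lemma modper_gn {e1 e2 e3 T : ℝ} (hb : Bits e1 e2 e3) (hT : T ≤ 1 / 9) {φ φ' : ℝ → ℝ}
    (hφ : ContDiff ℝ 1 φ) (hd : ∀ t, HasDerivAt φ (φ' t) t) (hz : ∀ t, T ≤ t → φ t = 0) (p : X) :
    gn (fun p => φ (modper_q e1 e2 e3 p)) p ≤ |2 * φ' (modper_q e1 e2 e3 p)| * √T := by
  rcases lt_or_ge T (modper_q e1 e2 e3 p) with h | h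
  · have := (modper_zero hz h).fderiv_eq (𝕜 := ℝ)
    simp only [gn, d1, d2, d3, this]
    simp only [fderiv_fun_const, Pi.zero_apply, zero_apply]
    norm_num
    positivity
  · obtain ⟨h1, h2, h3⟩ := modper_parts hb (h.trans hT)
    have hc := modper_contDiff hb hT hφ hz
    obtain ⟨x, y, z⟩ := p
    have k1 := (hasDerivAt_d1 hc x (y, z)).unique ((hd _).comp x
      (((modper_der hb.b1 h1).add_const (e2 * dz y ^ 2)).add_const (e3 * dz z ^ 2)))
    have k2 := (hasDerivAt_d2 hc x y z).unique ((hd _).comp y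
      (((modper_der hb.b2 h2).const_add (e1 * dz x ^ 2)).add_const (e3 * dz z ^ 2)))
    have k3 := (hasDerivAt_d3 hc x y z).unique ((hd _).comp z
      ((modper_der hb.b3 h3).const_add (e1 * dz x ^ 2 + e2 * dz y ^ 2)))
    rw [gn, k1, k2, k3, modper_sq hb.b1, modper_sq hb.b2, modper_sq hb.b3, ← mul_add, ← mul_add,
      Real.sqrt_mul (sq_nonneg _), Real.sqrt_sq_eq_abs]
    exact mul_le_mul_of_nonneg_left (Real.sqrt_le_sqrt h) (abs_nonneg _)

lemma modper_P (x : ℝ) : HasDerivAt (fun x : ℝ => max x 0 ^ 2) (2 * max x 0) x := by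
  have hc : Continuous fun t : ℝ => 2 * max t 0 := by fun_prop
  have e : (fun x : ℝ => max x 0 ^ 2) = fun x => ∫ t in (0 : ℝ)..x, 2 * max t 0 := by
    funext x
    rcases le_total x 0 with h | h
    · rw [intervalIntegral.integral_congr (g := fun _ => 0) fun t ht => by
        rw [uIcc_of_ge h] at ht
        simp [max_eq_right ht.2]]
      simp [max_eq_right h]
    · rw [intervalIntegral.integral_congr (g := fun t => 2 * t) fun t ht => by
        rw [uIcc_of_le h] at ht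
        simp [max_eq_left ht.1]]
      rw [intervalIntegral.integral_const_mul, integral_id, max_eq_left h]
      ring
  rw [e]
  exact (hc.integral_hasStrictDerivAt 0 x).hasDerivAt

/-- an almost linear `C¹` cut-off -/
lemma modper_cut {b a k : ℝ} (hk : 0 < k) (h : b + k ≤ a) : ∃ φ φ' : ℝ → ℝ, ContDiff ℝ 1 φ ∧
    (∀ t, HasDerivAt φ (φ' t) t) ∧ (∀ t, a + k ≤ t → φ t = 0 ∧ φ' t = 0) ∧
    (∀ t, t ≤ b → φ t = 2 * k * (a - b) ∧ φ' t = 0) ∧ (∀ t, |φ' t| ≤ 2 * k) ∧
    ∀ t, 0 ≤ φ t ∧ φ t ≤ 2 * k * (a - b) := by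
  set φ : ℝ → ℝ := fun t =>
    max (a + k - t) 0 ^ 2 - max (a - t) 0 ^ 2 - max (b + k - t) 0 ^ 2 + max (b - t) 0 ^ 2 with hφ
  set φ' : ℝ → ℝ := fun t =>
    -2 * (max (a + k - t) 0 - max (a - t) 0 - max (b + k - t) 0 + max (b - t) 0) with hφ'
  have hP : ∀ c t : ℝ, HasDerivAt (fun t : ℝ => max (c - t) 0 ^ 2) (2 * max (c - t) 0 * -1) t :=
    fun c t => (modper_P (c - t)).comp t (by simpa using (hasDerivAt_id t).const_sub c)
  have hd : ∀ t, HasDerivAt φ (φ' t) t := fun t => by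
    refine ((((hP (a + k) t).sub (hP a t)).sub (hP (b + k) t)).add (hP b t)).congr_deriv ?_
    simp only [hφ']
    ring
  have hm : ∀ t, -(2 * k) ≤ φ' t ∧ φ' t ≤ 0 := fun t => by
    simp only [hφ', max_def]
    split_ifs <;> constructor <;> linarith
  have hanti : Antitone φ := antitone_of_deriv_nonpos (fun t => (hd t).differentiableAt)
    fun t => by rw [(hd t).deriv]; exact (hm t).2
  have h1 : ∀ t, a + k ≤ t → φ t = 0 ∧ φ' t = 0 := fun t ht => by
    simp only [hφ, hφ']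
    rw [max_eq_right (by linarith), max_eq_right (by linarith), max_eq_right (by linarith),
      max_eq_right (by linarith)]
    norm_num
  have h2 : ∀ t, t ≤ b → φ t = 2 * k * (a - b) ∧ φ' t = 0 := fun t ht => by
    simp only [hφ, hφ']
    rw [max_eq_left (by linarith), max_eq_left (by linarith), max_eq_left (by linarith),
      max_eq_left (by linarith)]
    constructor <;> ring
  refine ⟨φ, φ', ?_, hd, h1, h2, fun t => abs_le.2 ⟨(hm t).1, by linarith [(hm t).2]⟩, fun t => ?_⟩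
  · refine contDiff_one_iff_deriv.2 ⟨fun t => (hd t).differentiableAt, ?_⟩
    rw [show deriv φ = φ' from funext fun t => (hd t).deriv, hφ']
    fun_prop
  · constructor
    · rw [← (h1 (max t (a + k)) (le_max_right _ _)).1]
      exact hanti (le_max_left _ _)
    · rw [← (h2 (min t b) (min_le_right _ _)).1]
      exact hanti (min_le_left _ _)

lemma modper_key {e1 e2 e3 r r' k C : ℝ} (hb : Bits e1 e2 e3) (h0 : 0 < r) (h1 : r ≤ 1 / 3)
    (hk : 0 < k) (h : r' ^ 2 + k ≤ r ^ 2 - k) {f1 f2 f3 : X → ℝ} (hf : TField f1 f2 f3)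
    (hC : ∀ p, |dv f1 f2 f3 p| ≤ C) :
    (r ^ 2 - k - r' ^ 2) * ∫ p in Mod e1 e2 e3 r ∩ C0, dv f1 f2 f3 p ≤
      (2 * r + (r ^ 2 - k - r' ^ 2) * C) * (tvol (Mod e1 e2 e3 r) - tvol (Mod e1 e2 e3 r')) := by
  obtain ⟨φ, φ', hφ, hd, z1, z2, hφ', hb0⟩ := modper_cut hk h
  rw [sub_add_cancel] at z1
  set c := r ^ 2 - k - r' ^ 2 with hc
  have hc0 : 0 ≤ c := by linarith
  have hT : r ^ 2 ≤ 1 / 9 := by nlinarith
  have hU := modper_contDiff hb hT hφ fun t ht => (z1 t ht).1
  have hUp : ZPer fun p => φ (modper_q e1 e2 e3 p) := fun a b c p => by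
    simp only [modper_q, Prod.fst_add, Prod.snd_add, dz_add_int]
  have hw := continuous_dv hf.c1 hf.c2 hf.c3
  have hE := (perSet_mod e1 e2 e3 r).meas
  have hE' := (perSet_mod e1 e2 e3 r').meas
  set χ : X → ℝ := fun p => (Mod e1 e2 e3 r).indicator 1 p - (Mod e1 e2 e3 r').indicator 1 p
    with hχ
  have i1 : IntegrableOn ((Mod e1 e2 e3 r).indicator (1 : X → ℝ)) C0 :=
    (integrableOn_C0 continuous_const).indicator hE
  have i2 : IntegrableOn ((Mod e1 e2 e3 r').indicator (1 : X → ℝ)) C0 :=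
    (integrableOn_C0 continuous_const).indicator hE'
  have iχ : IntegrableOn χ C0 := i1.sub i2
  have eχ : ∫ p in C0, χ p = tvol (Mod e1 e2 e3 r) - tvol (Mod e1 e2 e3 r') := by
    rw [hχ, integral_sub i1 i2, integral_indicator_one hE, integral_indicator_one hE',
      measureReal_restrict_apply hE, measureReal_restrict_apply hE']
    rfl
  have mem : ∀ (R : ℝ) (p : X), p ∈ Mod e1 e2 e3 R ↔ modper_q e1 e2 e3 p < R ^ 2 :=
    fun R p => Iff.rfl
  have hC0 : 0 ≤ C := (abs_nonneg _).trans (hC 0)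
  have pt : ∀ p, gn (fun p => φ (modper_q e1 e2 e3 p)) p ≤ 4 * k * r * χ p ∧
      2 * k * c * (Mod e1 e2 e3 r).indicator (dv f1 f2 f3) p ≤
        φ (modper_q e1 e2 e3 p) * dv f1 f2 f3 p + 2 * k * c * C * χ p := fun p => by
    have g := modper_gn hb hT hφ hd (fun t ht => (z1 t ht).1) p
    rw [Real.sqrt_sq h0.le] at g
    by_cases m1 : p ∈ Mod e1 e2 e3 r
    · by_cases m2 : p ∈ Mod e1 e2 e3 r'
      · obtain ⟨v1, v2⟩ := z2 _ ((mem _ _).1 m2).le
        rw [v2] at g
        simp only [hχ, indicator_of_mem m1, indicator_of_mem m2, v1, Pi.one_apply]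
        constructor
        · simpa using g
        · simp
      · simp only [hχ, indicator_of_mem m1, indicator_of_notMem m2, Pi.one_apply]
        constructor
        · have := hφ' (modper_q e1 e2 e3 p)
          rw [abs_mul, abs_two] at g
          nlinarith
        · obtain ⟨v1, v2⟩ := hb0 (modper_q e1 e2 e3 p)
          have := (abs_le.1 (hC p)).2
          nlinarith [mul_le_mul_of_nonneg_left this (sub_nonneg.2 v2), mul_nonneg v1 hC0]
    · have m2 : p ∉ Mod e1 e2 e3 r' := fun m2 => m1 (by rw [mem] at m2 ⊢; linarith)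
      obtain ⟨v1, v2⟩ := z1 _ (not_lt.1 (mt (mem _ _).2 m1))
      rw [v2] at g
      simp only [hχ, indicator_of_notMem m1, indicator_of_notMem m2, v1]
      constructor
      · simpa using g
      · simp
  have a1 := integral_mul_dv_le hU hUp hf
  have a2 : ∫ p in C0, gn (fun p => φ (modper_q e1 e2 e3 p)) p ≤ ∫ p in C0, 4 * k * r * χ p :=
    integral_mono (integrableOn_C0 (continuous_gn hU)) (iχ.const_mul _) fun p => (pt p).1
  have iU : IntegrableOn (fun p => φ (modper_q e1 e2 e3 p) * dv f1 f2 f3 p) C0 :=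
    integrableOn_C0 (hU.continuous.mul hw)
  have a3 : ∫ p in C0, 2 * k * c * (Mod e1 e2 e3 r).indicator (dv f1 f2 f3) p ≤
      ∫ p in C0, (φ (modper_q e1 e2 e3 p) * dv f1 f2 f3 p + 2 * k * c * C * χ p) :=
    integral_mono (((integrableOn_C0 hw).indicator hE).const_mul _) (iU.add (iχ.const_mul _))
      fun p => (pt p).2
  rw [integral_add iU (iχ.const_mul _), integral_const_mul, integral_const_mul, eχ,
    setIntegral_indicator hE, inter_comm] at a3
  rw [integral_const_mul, eχ] at a2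
  refine le_of_mul_le_mul_left ?_ (by positivity : 0 < 2 * k)
  nlinarith

lemma modper_mvol (s : ℝ) {r δ : ℝ} (h0 : 0 ≤ δ) (h1 : δ ≤ r) :
    mvol s r - mvol s (r - δ) ≤ mper s r * δ := by
  unfold mvol mper
  have := pi_pos
  split_ifs
  · have : 0 ≤ π * (δ ^ 2 * (3 * r - δ)) := by
      have : 0 ≤ 3 * r - δ := by linarith
      positivity
    nlinarith
  · nlinarith [mul_nonneg this.le (sq_nonneg δ)]
  · linarith

/-- Let `ψ` be `C¹`, antitone, `1` on `(-∞, r²]`, `0` on `[r'², ∞)`, `r < r' < 1/2`, and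
`U p = ψ (e1 dz x² + e2 dz y² + e3 dz z²)`; on the box `(-1/2, 1/2)³` it is `ψ (e1 x² + …)`.  Integrate
by parts (on the box, coordinate by coordinate; or show that `U` is `C¹` and periodic and use
`integral_mul_dv_le`): `∫ U dv ≤ ∫ 2 |ψ'(ρ²)| ρ`, `ρ² = e1 x² + e2 y² + e3 z²`, which is at most
`mper s r'` in polar coordinates (`integral_fun_norm_addHaar` on `EuclideanSpace ℝ (Fin s)`, or
`2 |ψ'(ρ²)| ρ ≤ …` and the volume of balls); let `r' → r`.
Alternative for the ball: the slab is one-dimensional; for the tube and the ball use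
`integral_sub_le` of `Sub.lean` with a `C¹` approximation of the fibre length. -/
theorem tper_mod_le {e1 e2 e3 r : ℝ} (hb : Bits e1 e2 e3) (h0 : 0 < r) (h1 : r ≤ 1 / 3) :
    tper (Mod e1 e2 e3 r) ≤ ENNReal.ofReal (mper (e1 + e2 + e3) r) := by
  refine tper_le fun f1 f2 f3 hf => ENNReal.ofReal_le_ofReal ?_
  obtain ⟨C, hC⟩ := hf.dv_per.bdd (continuous_dv hf.c1 hf.c2 hf.c3)
  have hC0 : 0 ≤ C := (abs_nonneg _).trans (hC 0)
  set m := mper (e1 + e2 + e3) r with hm
  set F := ∫ p in Mod e1 e2 e3 r ∩ C0, dv f1 f2 f3 p with hF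
  have key : ∀ δ ∈ Ioo 0 (r / 2), (r - δ) * F ≤ (r + δ * (r - δ) * C) * m := by
    intro δ hδ
    obtain ⟨d0, d1⟩ := hδ
    have k := modper_key (r' := r - δ) (k := δ ^ 2) hb h0 h1 (by positivity) (by nlinarith) hf hC
    rw [tvol_mod hb h0 h1, tvol_mod hb (by linarith : 0 < r - δ) (by linarith)] at k
    have k2 := modper_mvol (e1 + e2 + e3) d0.le (by linarith : δ ≤ r)
    have e : r ^ 2 - δ ^ 2 - (r - δ) ^ 2 = 2 * δ * (r - δ) := by ring
    rw [e] at k
    have k3 : 0 ≤ 2 * r + 2 * δ * (r - δ) * C := by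
      have : 0 ≤ r - δ := by linarith
      positivity
    have k4 := k.trans (mul_le_mul_of_nonneg_left k2 k3)
    refine le_of_mul_le_mul_left ?_ (by positivity : 0 < 2 * δ)
    nlinarith
  have l1 : Tendsto (fun δ : ℝ => (r - δ) * F) (𝓝[>] 0) (𝓝 ((r - 0) * F)) :=
    (Continuous.tendsto (by fun_prop) 0).mono_left nhdsWithin_le_nhds
  have l2 : Tendsto (fun δ : ℝ => (r + δ * (r - δ) * C) * m) (𝓝[>] 0)
      (𝓝 ((r + 0 * (r - 0) * C) * m)) :=
    (Continuous.tendsto (by fun_prop) 0).mono_left nhdsWithin_le_nhds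
  have := le_of_tendsto_of_tendsto l1 l2
    (mem_of_superset (Ioo_mem_nhdsGT (half_pos h0)) fun δ hδ => key δ hδ)
  refine le_of_mul_le_mul_left ?_ h0
  simpa using this

end Crest.Agent.R214
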