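import Crest.Agent.R214.TInv

/-! Row 214: mollification. -/

set_option autoImplicit false

namespace Crest.Agent.R214

open MeasureTheory Set Filter Topology Real
open scoped ENNReal

lemma moll_ind_per {E : Set X} (hE : PerSet E) : ZPer (E.indicator (1 : X → ℝ)) := by
  intro a b c p
  by_cases h : p ∈ E
  · rw [indicator_of_mem h, indicator_of_mem ((hE.per a b c p).mpr h)]
    rfl
  · rw [indicator_of_notMem h, indicator_of_notMem fun h' => h ((hE.per a b c p).mp h')]

lemma moll_ind_mem (E : Set X) (p : X) :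
    0 ≤ E.indicator (1 : X → ℝ) p ∧ E.indicator (1 : X → ℝ) p ≤ 1 := by
  by_cases h : p ∈ E <;> simp [h]

lemma moll_shift {f1 f2 f3 : X → ℝ} (h : TField f1 f2 f3) (c : X) :
    TField (fun p => f1 (p + c)) (fun p => f2 (p + c)) fun p => f3 (p + c) where
  c1 := h.c1.comp (contDiff_id.add contDiff_const)
  c2 := h.c2.comp (contDiff_id.add contDiff_const)
  c3 := h.c3.comp (contDiff_id.add contDiff_const)
  p1 := fun a b d p => by simp only [add_right_comm p _ c, h.p1 a b d]
  p2 := fun a b d p => by simp only [add_right_comm p _ c, h.p2 a b d]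
  p3 := fun a b d p => by simp only [add_right_comm p _ c, h.p3 a b d]
  le := fun p => h.le _

lemma moll_dv_shift (f1 f2 f3 : X → ℝ) (c p : X) :
    dv (fun p => f1 (p + c)) (fun p => f2 (p + c)) (fun p => f3 (p + c)) p
      = dv f1 f2 f3 (p + c) := by
  simp only [dv, d1, d2, d3, fderiv_comp_add_right]

lemma moll_inter {E : Set X} (hE : MeasurableSet E) (f : X → ℝ) :
    ∫ p in E ∩ C0, f p = ∫ p in C0, E.indicator (1 : X → ℝ) p * f p := by
  rw [inter_comm, ← setIntegral_indicator hE]
  refine integral_congr_ae (Eventually.of_forall fun p => ?_)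
  by_cases h : p ∈ E <;> simp [h]

/-- an average of translates of `1_E` tested against a divergence -/
lemma moll_key {E : Set X} (hE : PerSet E) {ρ : X → ℝ} (hρ : Integrable ρ) (h0 : ∀ h, 0 ≤ ρ h)
    (h1 : ∫ h, ρ h = 1) {f1 f2 f3 : X → ℝ} (hf : TField f1 f2 f3) {T : ℝ} (hT0 : 0 ≤ T)
    (hT : tper E ≤ ENNReal.ofReal T) :
    ∫ p in C0, (∫ h, ρ h * E.indicator (1 : X → ℝ) (p - h)) * dv f1 f2 f3 p ≤ T := by
  have hw := continuous_dv hf.c1 hf.c2 hf.c3
  obtain ⟨C, hC⟩ := hf.dv_per.bdd hw
  haveI : IsFiniteMeasure (volume.restrict C0) :=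
    ⟨by rw [Measure.restrict_apply_univ, volume_C0]; exact ENNReal.one_lt_top⟩
  have hχ : Measurable (E.indicator (1 : X → ℝ)) := measurable_const.indicator hE.meas
  have hint : Integrable (Function.uncurry fun (p h : X) =>
      ρ h * (E.indicator (1 : X → ℝ) (p - h) * dv f1 f2 f3 p))
      ((volume.restrict C0).prod volume) := by
    refine (hρ.comp_snd (volume.restrict C0)).mul_bdd (c := C) ?_ ?_
    · exact ((hχ.comp (measurable_fst.sub measurable_snd)).mul
        (hw.measurable.comp measurable_fst)).aestronglyMeasurable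
    · refine Eventually.of_forall fun z => ?_
      rw [Real.norm_eq_abs, abs_mul, abs_of_nonneg (moll_ind_mem E _).1]
      exact (mul_le_of_le_one_left (abs_nonneg _) (moll_ind_mem E _).2).trans (hC _)
  have e1 : ∫ p in C0, (∫ h, ρ h * E.indicator (1 : X → ℝ) (p - h)) * dv f1 f2 f3 p
      = ∫ p in C0, ∫ h, ρ h * (E.indicator (1 : X → ℝ) (p - h) * dv f1 f2 f3 p) := by
    refine integral_congr_ae (Eventually.of_forall fun p => ?_)
    simp only [← mul_assoc, integral_mul_const]
  rw [e1, integral_integral_swap hint]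
  have e2 : ∀ h : X, ∫ p in C0, E.indicator (1 : X → ℝ) (p - h) * dv f1 f2 f3 p ≤ T := by
    intro h
    have hp : ZPer fun p => E.indicator (1 : X → ℝ) (p - h) * dv f1 f2 f3 p := by
      intro a b c p
      simp only
      rw [add_sub_right_comm, moll_ind_per hE a b c, hf.dv_per a b c]
    rw [← integral_C0_add hp h]
    simp only [add_sub_cancel_right]
    have := (le_tper (moll_shift hf h) E).trans hT
    rw [ENNReal.ofReal_le_ofReal_iff hT0, moll_inter hE.meas] at this
    simpa only [moll_dv_shift] using this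
  calc ∫ h, ∫ p in C0, ρ h * (E.indicator (1 : X → ℝ) (p - h) * dv f1 f2 f3 p)
      ≤ ∫ h, ρ h * T := by
        refine integral_mono hint.integral_prod_right (hρ.mul_const T) fun h => ?_
        simp only [integral_const_mul]
        exact mul_le_mul_of_nonneg_left (e2 h) (h0 h)
    _ = T := by rw [integral_mul_const, h1, one_mul]

lemma moll_contDiff_d {u : X → ℝ} (hu : ContDiff ℝ 2 u) (v : X) :
    ContDiff ℝ 1 fun p => fderiv ℝ u p v :=
  (hu.fderiv_right (m := 1) (by norm_num)).clm_apply contDiff_const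

/-- duality for the total variation of a smooth periodic function -/
lemma moll_grad {u : X → ℝ} (hu : ContDiff ℝ 2 u) (hp : ZPer u) {T : ℝ}
    (hT : ∀ f1 f2 f3, TField f1 f2 f3 → ∫ p in C0, u p * dv f1 f2 f3 p ≤ T) :
    ∫ p in C0, gn u p ≤ T := by
  have hu1 : ContDiff ℝ 1 u := hu.of_le (by norm_num)
  refine le_of_forall_pos_le_add fun η hη => ?_
  have c1 : ContDiff ℝ 1 (d1 u) := moll_contDiff_d hu _
  have c2 : ContDiff ℝ 1 (d2 u) := moll_contDiff_d hu _
  have c3 : ContDiff ℝ 1 (d3 u) := moll_contDiff_d hu _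
  set s : X → ℝ := fun p => √(η ^ 2 + (d1 u p ^ 2 + d2 u p ^ 2 + d3 u p ^ 2)) with hs
  have hpos : ∀ p, 0 < η ^ 2 + (d1 u p ^ 2 + d2 u p ^ 2 + d3 u p ^ 2) := fun p => by positivity
  have hs0 : ∀ p, 0 < s p := fun p => Real.sqrt_pos.mpr (hpos p)
  have hs2 : ∀ p, s p ^ 2 = η ^ 2 + (d1 u p ^ 2 + d2 u p ^ 2 + d3 u p ^ 2) := fun p =>
    Real.sq_sqrt (hpos p).le
  have cs : ContDiff ℝ 1 s :=
    (contDiff_const.add (((c1.pow 2).add (c2.pow 2)).add (c3.pow 2))).sqrt fun p => (hpos p).ne'
  have ps : ZPer s := fun a b c p => by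
    simp only [hs, hp.d1 a b c p, hp.d2 a b c p, hp.d3 a b c p]
  have hf : TField (fun p => -d1 u p / s p) (fun p => -d2 u p / s p) fun p => -d3 u p / s p :=
    { c1 := c1.neg.div cs fun p => (hs0 p).ne'
      c2 := c2.neg.div cs fun p => (hs0 p).ne'
      c3 := c3.neg.div cs fun p => (hs0 p).ne'
      p1 := fun a b c p => by simp only [hp.d1 a b c p, ps a b c p]
      p2 := fun a b c p => by simp only [hp.d2 a b c p, ps a b c p]
      p3 := fun a b c p => by simp only [hp.d3 a b c p, ps a b c p]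
      le := fun p => by
        simp only [div_pow, neg_sq]
        rw [← add_div, ← add_div, div_le_one (pow_pos (hs0 p) 2), hs2]
        linarith [sq_nonneg η] }
  have h1 := hT _ _ _ hf
  rw [integral_mul_dv hu1 hp hf.c1 hf.c2 hf.c3 hf.p1 hf.p2 hf.p3, ← integral_neg] at h1
  have hc : Continuous fun p => -(d1 u p * (-d1 u p / s p) + d2 u p * (-d2 u p / s p)
      + d3 u p * (-d3 u p / s p)) :=
    (((c1.continuous.mul hf.c1.continuous).add (c2.continuous.mul hf.c2.continuous)).add
      (c3.continuous.mul hf.c3.continuous)).neg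
  have h2 : ∫ p in C0, gn u p ≤ ∫ p in C0, (-(d1 u p * (-d1 u p / s p) + d2 u p * (-d2 u p / s p)
      + d3 u p * (-d3 u p / s p)) + η) := by
    refine integral_mono (integrableOn_C0 (continuous_gn hu1))
      (integrableOn_C0 (hc.add continuous_const)) fun p => ?_
    have g0 : 0 ≤ gn u p := Real.sqrt_nonneg _
    have g2 : gn u p ^ 2 = d1 u p ^ 2 + d2 u p ^ 2 + d3 u p ^ 2 := Real.sq_sqrt (by positivity)
    have e : -(d1 u p * (-d1 u p / s p) + d2 u p * (-d2 u p / s p) + d3 u p * (-d3 u p / s p))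
        = gn u p ^ 2 / s p := by
      rw [g2]
      ring
    have hle : s p ≤ η + gn u p := by
      refine le_of_sq_le_sq ?_ (by positivity)
      rw [hs2, ← g2]
      nlinarith
    simp only
    rw [e, ← sub_le_iff_le_add, le_div_iff₀ (hs0 p)]
    rcases le_total (gn u p) η with h | h
    · nlinarith [mul_nonneg (sub_nonneg.mpr h) (hs0 p).le]
    · nlinarith [mul_le_mul_of_nonneg_left hle (sub_nonneg.mpr h)]
  rw [integral_add (integrableOn_C0 hc) (integrableOn_C0 continuous_const), setIntegral_const,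
    Measure.real, volume_C0] at h2
  simp only [ENNReal.toReal_one, one_smul] at h2
  linarith

/-- `u n = (φ n).normed volume ⋆ E.indicator 1` for bump functions `φ n : ContDiffBump (0 : X)` with
`rOut → 0`, `rOut ≤ 2 rIn` (`ContDiffBump.ae_convolution_tendsto_right_of_locallyIntegrable`,
`HasCompactSupport.contDiff_convolution_left`).  Gradient bound: for `η > 0` the field
`g i = - d i u / √(η² + |∇u|²)` is a `TField` (`u` is smooth); by `integral_mul_dv`
`∫_{C0} |∇u|² / √(η² + |∇u|²) = ∫_{C0} u * dv g`.  Writing `u p = ∫ ρ h * 1_E (p - h) dh`, Fubini and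
`integral_C0_add` give `∫_{C0} u * dv g = ∫ ρ h * (∫_{E ∩ C0} dv g (p + h) dp) dh`, and for every `h`
the inner integral is at most `tper E` because the translate `g (· + h)` is a `TField` (no
convolution of `g` is needed).  Finally `|∇u| - η ≤ |∇u|² / √(η² + |∇u|²)`. -/
theorem exists_moll {E : Set X} (hE : PerSet E) : ∃ u, Moll E u := by
  have hH2 : (volume : Measure (ℝ × ℝ)).IsAddHaarMeasure :=
    Measure.prod.instIsAddHaarMeasure _ _
  have hH3 : (volume : Measure X).IsAddHaarMeasure :=
    Measure.prod.instIsAddHaarMeasure _ _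
  let φ : ℕ → ContDiffBump (0 : X) := fun n =>
    ⟨1 / ((n : ℝ) + 1) / 2, 1 / ((n : ℝ) + 1), by positivity, half_lt_self (by positivity)⟩
  have hχ : LocallyIntegrable (E.indicator (1 : X → ℝ)) volume :=
    (locallyIntegrable_const (1 : ℝ)).indicator hE.meas
  let u : ℕ → X → ℝ := fun n =>
    MeasureTheory.convolution ((φ n).normed volume) (E.indicator (1 : X → ℝ))
      (ContinuousLinearMap.lsmul ℝ ℝ) volume
  have hu : ∀ n p, u n p = ∫ h, (φ n).normed volume h * E.indicator (1 : X → ℝ) (p - h) :=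
    fun n p => rfl
  have hc : ∀ n, ContDiff ℝ 2 (u n) := fun n =>
    (φ n).hasCompactSupport_normed.contDiff_convolution_left (n := 2) _ (φ n).contDiff_normed hχ
  have hp : ∀ n, ZPer (u n) := fun n a b c p => by
    simp only [hu, add_sub_right_comm p, moll_ind_per hE a b c]
  refine ⟨u, fun n => (hc n).of_le (by norm_num), hp, fun n p => ?_, fun n p => ?_, fun n => ?_, ?_⟩
  · rw [hu]
    exact integral_nonneg fun h => mul_nonneg ((φ n).nonneg_normed h) (moll_ind_mem E _).1
  · rw [hu, ← (φ n).integral_normed (μ := volume)]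
    refine integral_mono_of_nonneg (Eventually.of_forall fun h =>
      mul_nonneg ((φ n).nonneg_normed h) (moll_ind_mem E _).1) (φ n).integrable_normed
      (Eventually.of_forall fun h => ?_)
    exact mul_le_of_le_one_right ((φ n).nonneg_normed h) (moll_ind_mem E _).2
  · by_cases hT : tper E = ⊤
    · rw [hT]
      exact le_top
    · refine ENNReal.ofReal_le_of_le_toReal (moll_grad (hc n) (hp n) fun f1 f2 f3 hf => ?_)
      exact moll_key hE (φ n).integrable_normed (φ n).nonneg_normed (φ n).integral_normed hf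
        ENNReal.toReal_nonneg (ENNReal.ofReal_toReal hT).ge
  · refine ContDiffBump.ae_convolution_tendsto_right_of_locallyIntegrable (K := 2)
      tendsto_one_div_add_atTop_nhds_zero_nat (Eventually.of_forall fun n => ?_) hχ
    change 1 / ((n : ℝ) + 1) ≤ 2 * (1 / ((n : ℝ) + 1) / 2)
    linarith

/-- dominated convergence -/
lemma Moll.tendsto_integral {E : Set X} {u : ℕ → X → ℝ} (h : Moll E u) (hE : PerSet E)
    {f : X → ℝ} (hf : IntegrableOn f C0) :
    Tendsto (fun n => ∫ p in C0, u n p * f p) atTop (𝓝 (∫ p in E ∩ C0, f p)) := by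
  rw [moll_inter hE.meas]
  refine tendsto_integral_of_dominated_convergence (fun p => ‖f p‖)
    (fun n => (h.c n).continuous.aestronglyMeasurable.mul hf.aestronglyMeasurable) hf.norm
    (fun n => Eventually.of_forall fun p => ?_) ?_
  · rw [norm_mul, Real.norm_eq_abs (u n p), abs_of_nonneg (h.nn n p)]
    exact mul_le_of_le_one_left (norm_nonneg _) (h.le n p)
  · filter_upwards [ae_restrict_of_ae h.lim] with p hp
    exact hp.mul_const _

/-- Fubini: convergence on almost every fibre -/
lemma Moll.ae_fibre {E : Set X} {u : ℕ → X → ℝ} (h : Moll E u) (hE : PerSet E) :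
    ∀ᵐ q : ℝ × ℝ, ∀ᵐ t : ℝ,
      Tendsto (fun n => u n (t, q)) atTop (𝓝 ({s | (s, q) ∈ E}.indicator 1 t)) := by
  have h1 := (Measure.measurePreserving_swap (μ := (volume : Measure (ℝ × ℝ)))
    (ν := (volume : Measure ℝ))).quasiMeasurePreserving.ae h.lim
  filter_upwards [Measure.ae_ae_of_ae_prod h1] with q hq
  filter_upwards [hq] with t ht
  exact ht

lemma Moll.tendsto_fav {E : Set X} {u : ℕ → X → ℝ} (h : Moll E u) (hE : PerSet E) :
    ∀ᵐ q : ℝ × ℝ, Tendsto (fun n => fav (u n) q) atTop (𝓝 (fib E q)) := by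
  filter_upwards [h.ae_fibre hE] with q hq
  have hS : MeasurableSet {s : ℝ | (s, q) ∈ E} := measurable_prodMk_right hE.meas
  have e1 : fib E q = ∫ t in Ico (0 : ℝ) 1, {s : ℝ | (s, q) ∈ E}.indicator 1 t := by
    rw [integral_indicator_one hS, measureReal_restrict_apply hS, inter_comm]
    rfl
  have e2 : ∀ n, fav (u n) q = ∫ t in Ico (0 : ℝ) 1, u n (t, q) := fun n => by
    rw [fav, intervalIntegral.integral_of_le zero_le_one, integral_Ioc_eq_integral_Ioo,
      integral_Ico_eq_integral_Ioo]
  simp only [e1, e2]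
  refine tendsto_integral_of_dominated_convergence (fun _ => (1 : ℝ))
    (fun n => ((h.c n).continuous.comp (Continuous.prodMk_left q)).aestronglyMeasurable)
    (integrable_const _) (fun n => Eventually.of_forall fun t => ?_) (ae_restrict_of_ae hq)
  rw [Real.norm_eq_abs, abs_of_nonneg (h.nn n _)]
  exact h.le n _

end Crest.Agent.R214
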