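import Crest.Agent.R214.CPer

/-! Row 214: product deformations of a down-set. -/

set_option autoImplicit false

namespace Crest.Agent.R214

open MeasureTheory Set Filter Topology Real
open scoped ENNReal

/-- `φ` is a `C¹` diffeomorphism of the line with derivative `w > 0` and inverse `ψ`, and
`φ lo = 0`, `φ hi = 1` with `0 ≤ lo < hi ≤ 1`. -/
structure Dif (φ ψ w : ℝ → ℝ) (lo hi : ℝ) : Prop where
  der : ∀ t, HasDerivAt φ (w t) t
  cont : Continuous w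
  pos : ∀ t, 0 < w t
  l : ∀ t, ψ (φ t) = t
  r : ∀ t, φ (ψ t) = t
  lo0 : φ lo = 0
  hi1 : φ hi = 1
  lo_nn : 0 ≤ lo
  hi_le : hi ≤ 1

/-- the deformed set -/
def psh (ψ1 ψ2 ψ3 : ℝ → ℝ) (D : Set X) : Set X :=
  {p | p ∈ Q ∧ (ψ1 p.1, ψ2 p.2.1, ψ3 p.2.2) ∈ D}

variable {D : Set X} {A : Measure X} {n1 n2 n3 : X → ℝ} {φ ψ w φ1 ψ1 w1 φ2 ψ2 w2 φ3 ψ3 w3 : ℝ → ℝ}
  {lo hi lo1 hi1 lo2 hi2 lo3 hi3 : ℝ}

lemma Dif.strictMono (h : Dif φ ψ w lo hi) : StrictMono φ := by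
  exact strictMono_of_deriv_pos fun t => by rw [(h.der t).deriv]; exact h.pos t
lemma Dif.strictMono_inv (h : Dif φ ψ w lo hi) : StrictMono ψ := by
  intro a b hab
  rw [← h.strictMono.lt_iff_lt, h.r, h.r]
  exact hab
lemma Dif.mem_iff (h : Dif φ ψ w lo hi) (t : ℝ) : φ t ∈ I ↔ t ∈ Ioo lo hi := by
  rw [mem_Ioo, mem_Ioo, ← h.strictMono.lt_iff_lt (a := lo), ← h.strictMono.lt_iff_lt (b := hi),
    h.lo0, h.hi1]
/-- change of variables (`lintegral_image_eq_lintegral_abs_deriv_mul`) -/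
lemma Dif.measurePreserving (h : Dif φ ψ w lo hi) : MeasurePreserving φ
    ((volume.restrict (Ioo lo hi)).withDensity fun t => ENNReal.ofReal (w t))
    (volume.restrict I) := by
  have hc : Continuous φ := continuous_iff_continuousAt.2 fun t => (h.der t).continuousAt
  refine ⟨hc.measurable, Measure.ext fun s hs => ?_⟩
  have hs' : MeasurableSet (φ ⁻¹' s) := hc.measurable hs
  rw [Measure.map_apply hc.measurable hs, withDensity_apply _ hs', Measure.restrict_restrict hs',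
    Measure.restrict_apply hs]
  have e := lintegral_image_eq_lintegral_abs_deriv_mul (hs'.inter measurableSet_Ioo)
    (fun x (_ : x ∈ φ ⁻¹' s ∩ Ioo lo hi) => (h.der x).hasDerivWithinAt)
    h.strictMono.injective.injOn (fun _ => 1)
  have e2 : φ '' (φ ⁻¹' s ∩ Ioo lo hi) = s ∩ I := by
    ext y
    constructor
    · rintro ⟨x, ⟨hx1, hx2⟩, rfl⟩
      exact ⟨hx1, (h.mem_iff x).2 hx2⟩
    · rintro ⟨hy1, hy2⟩
      refine ⟨ψ y, ⟨?_, (h.mem_iff _).1 ?_⟩, h.r y⟩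
      · rwa [mem_preimage, h.r]
      · rwa [h.r]
  rw [e2, setLIntegral_one] at e
  rw [e]
  refine lintegral_congr fun t => ?_
  rw [mul_one, abs_of_pos (h.pos t)]

lemma push_cont (h : Dif φ ψ w lo hi) : Continuous φ :=
  continuous_iff_continuousAt.2 fun t => (h.der t).continuousAt
lemma push_meas_inv (h : Dif φ ψ w lo hi) : Measurable ψ := h.strictMono_inv.monotone.measurable
lemma push_sub (h : Dif φ ψ w lo hi) : Ioo lo hi ⊆ I := Ioo_subset_Ioo h.lo_nn h.hi_le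
lemma push_inv_mem (h : Dif φ ψ w lo hi) {t : ℝ} (ht : t ∈ I) : ψ t ∈ I :=
  push_sub h ((h.mem_iff _).1 (by rwa [h.r]))

lemma push_mp2 (h2 : Dif φ2 ψ2 w2 lo2 hi2) (h3 : Dif φ3 ψ3 w3 lo3 hi3) :
    MeasurePreserving (Prod.map φ2 φ3)
      ((volume.restrict (Ioo lo2 hi2 ×ˢ Ioo lo3 hi3)).withDensity
        fun q => ENNReal.ofReal (w2 q.1) * ENNReal.ofReal (w3 q.2))
      (volume.restrict (I ×ˢ I)) := by
  have := h2.measurePreserving.prod h3.measurePreserving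
  rwa [prod_withDensity h2.cont.measurable.ennreal_ofReal h3.cont.measurable.ennreal_ofReal,
    Measure.prod_restrict, Measure.prod_restrict] at this

lemma push_cv2 (h2 : Dif φ2 ψ2 w2 lo2 hi2) (h3 : Dif φ3 ψ3 w3 lo3 hi3) {g : ℝ × ℝ → ℝ}
    (hg : Measurable g) : ∫ q in I ×ˢ I, g q =
      ∫ q in Ioo lo2 hi2 ×ˢ Ioo lo3 hi3, g (φ2 q.1, φ3 q.2) * (w2 q.1 * w3 q.2) := by
  have hm := push_mp2 h2 h3
  have m2 := h2.cont.measurable
  have m3 := h3.cont.measurable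
  rw [← hm.map_eq, integral_map hm.measurable.aemeasurable hg.aestronglyMeasurable,
    integral_withDensity_eq_integral_toReal_smul (by fun_prop)
      (Eventually.of_forall fun q => ENNReal.mul_lt_top ENNReal.ofReal_lt_top ENNReal.ofReal_lt_top)]
  refine integral_congr_ae (Eventually.of_forall fun q => ?_)
  simp only [ENNReal.toReal_mul, ENNReal.toReal_ofReal (h2.pos _).le,
    ENNReal.toReal_ofReal (h3.pos _).le, smul_eq_mul]
  exact mul_comm _ _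

lemma push_cv3 (h1 : Dif φ1 ψ1 w1 lo1 hi1) (h2 : Dif φ2 ψ2 w2 lo2 hi2) (h3 : Dif φ3 ψ3 w3 lo3 hi3)
    {g : X → ℝ} (hg : Measurable g) : ∫ p in Q, g p =
      ∫ p in Ioo lo1 hi1 ×ˢ Ioo lo2 hi2 ×ˢ Ioo lo3 hi3,
        g (φ1 p.1, φ2 p.2.1, φ3 p.2.2) * (w1 p.1 * w2 p.2.1 * w3 p.2.2) := by
  have m1 := h1.cont.measurable
  have m2 := h2.cont.measurable
  have m3 := h3.cont.measurable
  have hm := h1.measurePreserving.prod (push_mp2 h2 h3)
  rw [prod_withDensity (by fun_prop) (by fun_prop), Measure.prod_restrict,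
    Measure.prod_restrict] at hm
  change ∫ p, g p ∂((volume : Measure ℝ).prod (volume : Measure (ℝ × ℝ))).restrict (I ×ˢ I ×ˢ I) = _
  rw [← hm.map_eq, integral_map hm.measurable.aemeasurable hg.aestronglyMeasurable,
    integral_withDensity_eq_integral_toReal_smul (by fun_prop)
      (Eventually.of_forall fun q => ENNReal.mul_lt_top ENNReal.ofReal_lt_top
        (ENNReal.mul_lt_top ENNReal.ofReal_lt_top ENNReal.ofReal_lt_top))]
  refine integral_congr_ae (Eventually.of_forall fun q => ?_)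
  simp only [ENNReal.toReal_mul, ENNReal.toReal_ofReal (h1.pos _).le,
    ENNReal.toReal_ofReal (h2.pos _).le, ENNReal.toReal_ofReal (h3.pos _).le, smul_eq_mul]
  change _ * g (φ1 q.1, φ2 q.2.1, φ3 q.2.2) = _
  ring

lemma push_mem (h1 : Dif φ1 ψ1 w1 lo1 hi1) (h2 : Dif φ2 ψ2 w2 lo2 hi2) (h3 : Dif φ3 ψ3 w3 lo3 hi3)
    {p : X} (hp : p ∈ Ioo lo1 hi1 ×ˢ Ioo lo2 hi2 ×ˢ Ioo lo3 hi3) :
    (φ1 p.1, φ2 p.2.1, φ3 p.2.2) ∈ psh ψ1 ψ2 ψ3 D ↔ p ∈ D := by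
  simp only [psh, mem_ofPred_eq, h1.l, h2.l, h3.l]
  exact and_iff_right ⟨(h1.mem_iff _).2 hp.1, (h2.mem_iff _).2 hp.2.1, (h3.mem_iff _).2 hp.2.2⟩

lemma push_measJ : MeasurableSet (Ioo lo1 hi1 ×ˢ Ioo lo2 hi2 ×ˢ Ioo lo3 hi3 : Set X) :=
  measurableSet_Ioo.prod (measurableSet_Ioo.prod measurableSet_Ioo)

protected lemma Down.psh (h : Down D) (h1 : Dif φ1 ψ1 w1 lo1 hi1) (h2 : Dif φ2 ψ2 w2 lo2 hi2)
    (h3 : Dif φ3 ψ3 w3 lo3 hi3) : Down (psh ψ1 ψ2 ψ3 D) := by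
  have m1 := push_meas_inv h1
  have m2 := push_meas_inv h2
  have m3 := push_meas_inv h3
  have m : Measurable fun p : X => ((ψ1 p.1, ψ2 p.2.1, ψ3 p.2.2) : X) := by fun_prop
  refine ⟨measurableSet_Q.inter (m h.meas), fun p hp => hp.1, fun p hp q hq hle => ⟨hq, ?_⟩⟩
  exact h.low _ hp.2 _ ⟨push_inv_mem h1 hq.1, push_inv_mem h2 hq.2.1, push_inv_mem h3 hq.2.2⟩
    ⟨h1.strictMono_inv.monotone hle.1, h2.strictMono_inv.monotone hle.2.1,
      h3.strictMono_inv.monotone hle.2.2⟩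

lemma Down.vol_psh (h : Down D) (h1 : Dif φ1 ψ1 w1 lo1 hi1) (h2 : Dif φ2 ψ2 w2 lo2 hi2)
    (h3 : Dif φ3 ψ3 w3 lo3 hi3) : vol (psh ψ1 ψ2 ψ3 D) =
      ∫ p in D ∩ Ioo lo1 hi1 ×ˢ Ioo lo2 hi2 ×ˢ Ioo lo3 hi3, w1 p.1 * w2 p.2.1 * w3 p.2.2 := by
  have hP := h.psh h1 h2 h3
  have e := push_cv3 h1 h2 h3 (g := (R214.psh ψ1 ψ2 ψ3 D).indicator fun _ => 1)
    (measurable_const.indicator hP.meas)
  rw [setIntegral_indicator hP.meas, inter_eq_right.2 hP.sub, setIntegral_const, smul_eq_mul,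
    mul_one] at e
  rw [inter_comm, ← setIntegral_indicator h.meas]
  refine e.trans (setIntegral_congr_fun push_measJ fun p hp => ?_)
  have := push_mem (D := D) h1 h2 h3 hp
  by_cases hD : p ∈ D
  · simp only [indicator_of_mem hD, indicator_of_mem (this.2 hD), one_mul]
  · simp only [indicator_of_notMem hD, indicator_of_notMem (mt this.1 hD), zero_mul]

lemma push_clamp {a b : ℝ} (h1 : ∀ x ∈ I, x < a → x ≤ b) (h2 : ∀ x ∈ I, x < b → x ≤ a)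
    (ha : a ∈ I) : a = b := by
  rcases lt_trichotomy a b with h | h | h
  · obtain ⟨x, hx1, hx2⟩ := exists_between (lt_min h ha.2)
    exact absurd (h2 x ⟨ha.1.trans hx1, hx2.trans_le (min_le_right _ _)⟩
      (hx2.trans_le (min_le_left _ _))) (not_le.2 hx1)
  · exact h
  · obtain ⟨x, hx1, hx2⟩ := exists_between (max_lt h ha.1)
    exact absurd (h1 x ⟨(le_max_right _ _).trans_lt hx1, hx2.trans ha.2⟩ hx2)
      (not_le.2 ((le_max_left _ _).trans_lt hx1))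

lemma push_height (h : Down D) (h1 : Dif φ1 ψ1 w1 lo1 hi1) (h2 : Dif φ2 ψ2 w2 lo2 hi2)
    (h3 : Dif φ3 ψ3 w3 lo3 hi3) {q : ℝ × ℝ} (hq : q ∈ Ioo lo2 hi2 ×ˢ Ioo lo3 hi3)
    (hI : u1 (psh ψ1 ψ2 ψ3 D) (φ2 q.1, φ3 q.2) ∈ I ∨ u1 D q ∈ Ioo lo1 hi1) :
    u1 (psh ψ1 ψ2 ψ3 D) (φ2 q.1, φ3 q.2) = φ1 (u1 D q) := by
  have hP := h.psh h1 h2 h3
  have a1 : ∀ x ∈ I, x < u1 (psh ψ1 ψ2 ψ3 D) (φ2 q.1, φ3 q.2) → x ≤ φ1 (u1 D q) := by
    intro x hx hl
    have := (hP.mem_of_lt_u1 hx hl).2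
    simp only [h2.l, h3.l] at this
    have := h1.strictMono.monotone (h.le_u1 this)
    rwa [h1.r] at this
  have a2 : ∀ x ∈ I, x < φ1 (u1 D q) → x ≤ u1 (psh ψ1 ψ2 ψ3 D) (φ2 q.1, φ3 q.2) := by
    intro x hx hl
    have b := h1.strictMono_inv hl
    rw [h1.l] at b
    refine hP.le_u1 ⟨⟨hx, (h2.mem_iff _).2 hq.1, (h3.mem_iff _).2 hq.2⟩, ?_⟩
    simp only [h2.l, h3.l]
    exact h.mem_of_lt_u1 (push_inv_mem h1 hx) b
  rcases hI with hI | hI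
  · exact push_clamp a1 a2 hI
  · exact (push_clamp a2 a1 ((h1.mem_iff _).2 hI)).symm

/-- For `q ∈ Ioo lo2 hi2 × Ioo lo3 hi3`, the height of `psh` over `(φ2 q.1, φ3 q.2)` is `φ1 (u1 D q)`
clamped to `[0, 1]`; it lies in `(0, 1)` iff `u1 D q ∈ Ioo lo1 hi1`. -/
lemma Down.integral_mu1_psh (h : Down D) (h1 : Dif φ1 ψ1 w1 lo1 hi1) (h2 : Dif φ2 ψ2 w2 lo2 hi2)
    (h3 : Dif φ3 ψ3 w3 lo3 hi3) {f : X → ℝ} (hf : Measurable f) :
    ∫ p, f p ∂mu1 (R214.psh ψ1 ψ2 ψ3 D) =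
      ∫ p in Ioo lo1 hi1 ×ˢ Ioo lo2 hi2 ×ˢ Ioo lo3 hi3,
        f (φ1 p.1, φ2 p.2.1, φ3 p.2.2) * (w2 p.2.1 * w3 p.2.2) ∂mu1 D := by
  have hP := h.psh h1 h2 h3
  have m1 := (push_cont h1).measurable
  have m2 := (push_cont h2).measurable
  have m3 := (push_cont h3).measurable
  have k2 := h2.cont.measurable
  have k3 := h3.cont.measurable
  have mu := hP.measurable_u1
  have hJ : MeasurableSet (Ioo lo2 hi2 ×ˢ Ioo lo3 hi3 : Set (ℝ × ℝ)) :=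
    measurableSet_Ioo.prod measurableSet_Ioo
  have e := push_cv2 h2 h3 (g := (act (u1 (R214.psh ψ1 ψ2 ψ3 D))).indicator
    fun q => f (u1 (R214.psh ψ1 ψ2 ψ3 D) q, q.1, q.2))
    (Measurable.indicator (by fun_prop) hP.measurableSet_act1)
  have hsub : act (u1 (R214.psh ψ1 ψ2 ψ3 D)) ⊆ I ×ˢ I := fun q hq => hq.1
  rw [setIntegral_indicator hP.measurableSet_act1, inter_eq_right.2 hsub] at e
  rw [hP.integral_mu1 hf, e, ← integral_indicator push_measJ,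
    h.integral_mu1 (Measurable.indicator (by fun_prop) push_measJ), ← integral_indicator hJ,
    ← integral_indicator h.measurableSet_act1]
  refine integral_congr_ae (Eventually.of_forall fun q => ?_)
  by_cases hq : q ∈ Ioo lo2 hi2 ×ˢ Ioo lo3 hi3
  · rw [indicator_of_mem hq]
    by_cases hu : u1 D q ∈ Ioo lo1 hi1
    · have e1 := push_height h h1 h2 h3 hq (Or.inr hu)
      have a1 : q ∈ act (u1 D) :=
        ⟨⟨push_sub h2 hq.1, push_sub h3 hq.2⟩, (push_sub h1 hu).1, (push_sub h1 hu).2⟩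
      have a2 : (φ2 q.1, φ3 q.2) ∈ act (u1 (R214.psh ψ1 ψ2 ψ3 D)) := by
        refine ⟨⟨(h2.mem_iff _).2 hq.1, (h3.mem_iff _).2 hq.2⟩, ?_⟩
        rw [e1]
        exact (h1.mem_iff _).2 hu
      have a3 : ((u1 D q, q.1, q.2) : X) ∈ Ioo lo1 hi1 ×ˢ Ioo lo2 hi2 ×ˢ Ioo lo3 hi3 := ⟨hu, hq⟩
      rw [indicator_of_mem a1, indicator_of_mem a2, indicator_of_mem a3, e1]
    · have a2 : (φ2 q.1, φ3 q.2) ∉ act (u1 (R214.psh ψ1 ψ2 ψ3 D)) := fun a => by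
        have e1 := push_height h h1 h2 h3 hq (Or.inl a.2)
        exact hu ((h1.mem_iff _).1 (e1 ▸ a.2))
      have a3 : ((u1 D q, q.1, q.2) : X) ∉ Ioo lo1 hi1 ×ˢ Ioo lo2 hi2 ×ˢ Ioo lo3 hi3 :=
        fun a => hu a.1
      rw [indicator_of_notMem a2, zero_mul]
      by_cases a1 : q ∈ act (u1 D)
      · rw [indicator_of_mem a1, indicator_of_notMem a3]
      · rw [indicator_of_notMem a1]
  · have a3 : ((u1 D q, q.1, q.2) : X) ∉ Ioo lo1 hi1 ×ˢ Ioo lo2 hi2 ×ˢ Ioo lo3 hi3 :=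
      fun a => hq a.2
    rw [indicator_of_notMem hq]
    by_cases a1 : q ∈ act (u1 D)
    · rw [indicator_of_mem a1, indicator_of_notMem a3]
    · rw [indicator_of_notMem a1]

lemma push_meas_cyc : Measurable cyc := by unfold cyc; fun_prop
lemma push_meas_cyi : Measurable cyi := by unfold cyi; fun_prop

lemma push_cyc_psh (D : Set X) : cyc ⁻¹' psh ψ1 ψ2 ψ3 D = psh ψ3 ψ1 ψ2 (cyc ⁻¹' D) := by
  ext p
  simp only [psh, cyc, Q, mem_preimage, mem_ofPred_eq, mem_prod]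
  tauto

lemma push_setIntegral_cyi (A : Measure X) {g : X → ℝ} (hg : Measurable g) :
    ∫ p in Ioo lo3 hi3 ×ˢ Ioo lo1 hi1 ×ˢ Ioo lo2 hi2, g p ∂(A.map cyi) =
      ∫ p in Ioo lo1 hi1 ×ˢ Ioo lo2 hi2 ×ˢ Ioo lo3 hi3, g (cyi p) ∂A := by
  rw [setIntegral_map push_measJ hg.aestronglyMeasurable push_meas_cyi.aemeasurable]
  congr 2
  ext p
  simp only [cyi, mem_preimage, mem_prod]
  tauto

lemma push_S1 (h : Surf D A n1 n2 n3) (h1 : Dif φ1 ψ1 w1 lo1 hi1)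
    (h2 : Dif φ2 ψ2 w2 lo2 hi2) (h3 : Dif φ3 ψ3 w3 lo3 hi3) {f : X → ℝ} (hf : Measurable f) :
    ∫ p, f p ∂mu1 (psh ψ1 ψ2 ψ3 D) = ∫ p in Ioo lo1 hi1 ×ˢ Ioo lo2 hi2 ×ˢ Ioo lo3 hi3,
      f (φ1 p.1, φ2 p.2.1, φ3 p.2.2) * (w2 p.2.1 * w3 p.2.2) * n1 p ∂A := by
  have m1 := (push_cont h1).measurable
  have m2 := (push_cont h2).measurable
  have m3 := (push_cont h3).measurable
  have k2 := h2.cont.measurable
  have k3 := h3.cont.measurable
  rw [h.down.integral_mu1_psh h1 h2 h3 hf, ← integral_indicator push_measJ,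
    ← h.int1 (Measurable.indicator (by fun_prop) push_measJ), ← integral_indicator push_measJ]
  refine integral_congr_ae (Eventually.of_forall fun p => ?_)
  simp only [indicator]
  split_ifs <;> simp

lemma push_S3 (h : Surf D A n1 n2 n3) (h1 : Dif φ1 ψ1 w1 lo1 hi1)
    (h2 : Dif φ2 ψ2 w2 lo2 hi2) (h3 : Dif φ3 ψ3 w3 lo3 hi3) {f : X → ℝ} (hf : Measurable f) :
    ∫ p, f p ∂mu3 (psh ψ1 ψ2 ψ3 D) = ∫ p in Ioo lo1 hi1 ×ˢ Ioo lo2 hi2 ×ˢ Ioo lo3 hi3,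
      f (φ1 p.1, φ2 p.2.1, φ3 p.2.2) * (w1 p.1 * w2 p.2.1) * n3 p ∂A := by
  have m1 := (push_cont h1).measurable
  have m2 := (push_cont h2).measurable
  have m3 := (push_cont h3).measurable
  have k1 := h1.cont.measurable
  have k2 := h2.cont.measurable
  have mc := push_meas_cyc
  have mn := h.m3
  have e := push_S1 h.cyc h3 h1 h2 (hf.comp mc)
  rw [← push_cyc_psh, (h.down.psh h1 h2 h3).mu1_cyc,
    integral_map push_meas_cyi.aemeasurable (hf.comp mc).aestronglyMeasurable,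
    push_setIntegral_cyi A (by fun_prop)] at e
  exact e

lemma push_S2 (h : Surf D A n1 n2 n3) (h1 : Dif φ1 ψ1 w1 lo1 hi1)
    (h2 : Dif φ2 ψ2 w2 lo2 hi2) (h3 : Dif φ3 ψ3 w3 lo3 hi3) {f : X → ℝ} (hf : Measurable f) :
    ∫ p, f p ∂mu2 (psh ψ1 ψ2 ψ3 D) = ∫ p in Ioo lo1 hi1 ×ˢ Ioo lo2 hi2 ×ˢ Ioo lo3 hi3,
      f (φ1 p.1, φ2 p.2.1, φ3 p.2.2) * (w3 p.2.2 * w1 p.1) * n2 p ∂A := by
  have m1 := (push_cont h1).measurable
  have m2 := (push_cont h2).measurable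
  have m3 := (push_cont h3).measurable
  have k1 := h1.cont.measurable
  have k3 := h3.cont.measurable
  have mc := push_meas_cyc
  have mn := h.m2
  have e := push_S3 h.cyc h3 h1 h2 (hf.comp mc)
  rw [← push_cyc_psh, (h.down.psh h1 h2 h3).mu3_cyc,
    integral_map push_meas_cyi.aemeasurable (hf.comp mc).aestronglyMeasurable,
    push_setIntegral_cyi A (by fun_prop)] at e
  exact e

lemma push_integrable [IsFiniteMeasure A] {g m : X → ℝ} (hg : Continuous g) (hm : Measurable m)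
    (h0 : ∀ p, 0 ≤ m p) (h1 : ∀ p, m p ≤ 1) :
    IntegrableOn (fun p => g p * m p) (Ioo lo1 hi1 ×ˢ Ioo lo2 hi2 ×ˢ Ioo lo3 hi3) A := by
  have hc : IsCompact (Icc lo1 hi1 ×ˢ Icc lo2 hi2 ×ˢ Icc lo3 hi3 : Set X) :=
    isCompact_Icc.prod (isCompact_Icc.prod isCompact_Icc)
  have hi : IntegrableOn g (Ioo lo1 hi1 ×ˢ Ioo lo2 hi2 ×ˢ Ioo lo3 hi3) A :=
    (hg.continuousOn.integrableOn_compact hc).mono_set
      (prod_mono Ioo_subset_Icc_self (prod_mono Ioo_subset_Icc_self Ioo_subset_Icc_self))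
  exact Integrable.mul_bdd (c := 1) hi hm.aestronglyMeasurable
    (Eventually.of_forall fun p => by rw [Real.norm_of_nonneg (h0 p)]; exact h1 p)

lemma push_cs {f1 f2 f3 a b c : ℝ} (h : f1 ^ 2 + f2 ^ 2 + f3 ^ 2 ≤ 1) :
    f1 * a + f2 * b + f3 * c ≤ √(a ^ 2 + b ^ 2 + c ^ 2) := by
  refine Real.le_sqrt_of_sq_le ?_
  have h0 : 0 ≤ a ^ 2 + b ^ 2 + c ^ 2 := by positivity
  nlinarith [sq_nonneg (f1 * b - f2 * a), sq_nonneg (f1 * c - f3 * a), sq_nonneg (f2 * c - f3 * b),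
    mul_le_mul_of_nonneg_right h h0]

lemma push_sqrt_le (a b c : ℝ) : √(a ^ 2 + b ^ 2 + c ^ 2) ≤ |a| + |b| + |c| := by
  refine Real.sqrt_le_iff.2 ⟨by positivity, ?_⟩
  rw [← sq_abs a, ← sq_abs b, ← sq_abs c]
  have := abs_nonneg a
  have := abs_nonneg b
  have := abs_nonneg c
  nlinarith [mul_nonneg (abs_nonneg a) (abs_nonneg b), mul_nonneg (abs_nonneg a) (abs_nonneg c),
    mul_nonneg (abs_nonneg b) (abs_nonneg c)]

/-- `integral_dv`, `integral_mu1_psh` and its two cyclic permutations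
(`cyc ⁻¹' psh ψ1 ψ2 ψ3 D = psh ψ3 ψ1 ψ2 (cyc ⁻¹' D)`), Cauchy-Schwarz. -/
theorem Surf.per_psh (h : Surf D A n1 n2 n3) (h1 : Dif φ1 ψ1 w1 lo1 hi1)
    (h2 : Dif φ2 ψ2 w2 lo2 hi2) (h3 : Dif φ3 ψ3 w3 lo3 hi3) :
    per (psh ψ1 ψ2 ψ3 D) ≤ ∫ p in Ioo lo1 hi1 ×ˢ Ioo lo2 hi2 ×ˢ Ioo lo3 hi3,
      √((w2 p.2.1 * w3 p.2.2 * n1 p) ^ 2 + (w1 p.1 * w3 p.2.2 * n2 p) ^ 2 +
        (w1 p.1 * w2 p.2.1 * n3 p) ^ 2) ∂A := by
  have := h.fin
  have c1 := push_cont h1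
  have c2 := push_cont h2
  have c3 := push_cont h3
  have k1 := h1.cont
  have k2 := h2.cont
  have k3 := h3.cont
  have m1 := h.m1
  have m2 := h.m2
  have m3 := h.m3
  refine per_le fun f1 f2 f3 hf => ?_
  have d1 := hf.c1.continuous
  have d2 := hf.c2.continuous
  have d3 := hf.c3.continuous
  have i1 := push_integrable (A := A) (lo1 := lo1) (hi1 := hi1) (lo2 := lo2) (hi2 := hi2)
    (lo3 := lo3) (hi3 := hi3)
    (g := fun p => f1 (φ1 p.1, φ2 p.2.1, φ3 p.2.2) * (w2 p.2.1 * w3 p.2.2)) (by fun_prop) m1 h.nn1 h.le1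
  have i2 := push_integrable (A := A) (lo1 := lo1) (hi1 := hi1) (lo2 := lo2) (hi2 := hi2)
    (lo3 := lo3) (hi3 := hi3)
    (g := fun p => f2 (φ1 p.1, φ2 p.2.1, φ3 p.2.2) * (w3 p.2.2 * w1 p.1)) (by fun_prop) m2 h.nn2 h.le2
  have i3 := push_integrable (A := A) (lo1 := lo1) (hi1 := hi1) (lo2 := lo2) (hi2 := hi2)
    (lo3 := lo3) (hi3 := hi3)
    (g := fun p => f3 (φ1 p.1, φ2 p.2.1, φ3 p.2.2) * (w1 p.1 * w2 p.2.1)) (by fun_prop) m3 h.nn3 h.le3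
  have j1 := push_integrable (A := A) (lo1 := lo1) (hi1 := hi1) (lo2 := lo2) (hi2 := hi2)
    (lo3 := lo3) (hi3 := hi3) (g := fun p => w2 p.2.1 * w3 p.2.2) (by fun_prop) m1 h.nn1 h.le1
  have j2 := push_integrable (A := A) (lo1 := lo1) (hi1 := hi1) (lo2 := lo2) (hi2 := hi2)
    (lo3 := lo3) (hi3 := hi3) (g := fun p => w1 p.1 * w3 p.2.2) (by fun_prop) m2 h.nn2 h.le2
  have j3 := push_integrable (A := A) (lo1 := lo1) (hi1 := hi1) (lo2 := lo2) (hi2 := hi2)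
    (lo3 := lo3) (hi3 := hi3) (g := fun p => w1 p.1 * w2 p.2.1) (by fun_prop) m3 h.nn3 h.le3
  rw [(h.down.psh h1 h2 h3).integral_dv hf, push_S1 h h1 h2 h3 d1.measurable,
    push_S2 h h1 h2 h3 d2.measurable, push_S3 h h1 h2 h3 d3.measurable, ← integral_add' i1 i2,
    ← integral_add' (i1.add i2) i3]
  refine integral_mono ((i1.add i2).add i3) ?_ fun p => ?_
  · have l1 := k1.measurable
    have l2 := k2.measurable
    have l3 := k3.measurable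
    refine ((j1.abs.add j2.abs).add j3.abs).mono' (Measurable.aestronglyMeasurable (by fun_prop))
      (Eventually.of_forall fun p => ?_)
    rw [Real.norm_of_nonneg (Real.sqrt_nonneg _)]
    exact push_sqrt_le _ _ _
  · refine le_of_eq_of_le ?_ (push_cs (hf.le (φ1 p.1, φ2 p.2.1, φ3 p.2.2)))
    simp only [Pi.add_apply]
    ring

end Crest.Agent.R214
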