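import Crest.Agent.R214.Moll
import Crest.Agent.R214.OneD
import Crest.Agent.R214.StBasic
import Crest.Agent.R214.Sub
import Crest.Agent.R214.Fav

/-! Row 214: the Steiner inequality. -/

set_option autoImplicit false

namespace Crest.Agent.R214

open MeasureTheory Set Filter Topology Real
open scoped ENNReal

/-- a primitive of a continuous trapezoid, normalised -/
lemma exists_cut {η : ℝ} (h0 : 0 < η) : ∃ (θ : ℝ → ℝ) (δ : ℝ), 0 < δ ∧ ContDiff ℝ 1 θ ∧
    (∀ s, 0 ≤ θ s) ∧ (∀ s, θ s ≤ 1) ∧ (∀ s ≤ δ, θ s = 0) ∧ (∀ s, 1 - δ ≤ s → θ s = 1) ∧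
    (∀ s, |deriv θ s| ≤ 1 + η) ∧ ∀ s ∈ Icc (0 : ℝ) 1, |θ s - s| ≤ η := by
  obtain ⟨δ, hδ, hδ1, hδ2⟩ : ∃ δ : ℝ, 0 < δ ∧ δ < 1 / 4 ∧ 1 ≤ (1 + η) * (1 - 4 * δ) := by
    refine ⟨η / (4 * (1 + η)), by positivity, ?_, ?_⟩
    · rw [div_lt_div_iff₀ (by positivity) (by norm_num)]
      linarith
    · have : (1 + η) * (1 - 4 * (η / (4 * (1 + η)))) = 1 := by
        field_simp
        ring
      exact this.ge
  set k : ℝ → ℝ := fun s => max 0 (min 1 (min ((s - δ) / δ) ((1 - δ - s) / δ))) with hk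
  have hkc : Continuous k := by fun_prop
  have hk0 : ∀ s, 0 ≤ k s := fun s => le_max_left _ _
  have hk1 : ∀ s, k s ≤ 1 := fun s => max_le zero_le_one (min_le_left _ _)
  have hkl : ∀ s ≤ δ, k s = 0 := fun s hs => max_eq_left ((min_le_right _ _).trans
    ((min_le_left _ _).trans (div_nonpos_of_nonpos_of_nonneg (by linarith) hδ.le)))
  have hkr : ∀ s, 1 - δ ≤ s → k s = 0 := fun s hs => max_eq_left ((min_le_right _ _).trans
    ((min_le_right _ _).trans (div_nonpos_of_nonpos_of_nonneg (by linarith) hδ.le)))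
  have hkm : ∀ s, 2 * δ ≤ s → s ≤ 1 - 2 * δ → k s = 1 := fun s h1 h2 => by
    have a1 : 1 ≤ (s - δ) / δ := by rw [le_div_iff₀ hδ]; linarith
    have a2 : 1 ≤ (1 - δ - s) / δ := by rw [le_div_iff₀ hδ]; linarith
    simp only [hk]
    rw [min_eq_left (le_min a1 a2), max_eq_right zero_le_one]
  set K : ℝ → ℝ := fun s => ∫ t in (0 : ℝ)..s, k t with hK
  have hKd : ∀ s, HasDerivAt K (k s) s := fun s => (hkc.integral_hasStrictDerivAt 0 s).hasDerivAt
  have hKs : ∀ a b, K b - K a = ∫ t in a..b, k t := fun a b =>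
    intervalIntegral.integral_interval_sub_left (hkc.intervalIntegrable _ _)
      (hkc.intervalIntegrable _ _)
  have hKm : ∀ a b, a ≤ b → K a ≤ K b ∧ K b - K a ≤ b - a := fun a b hab => by
    have h1 : 0 ≤ ∫ t in a..b, k t := intervalIntegral.integral_nonneg hab fun t _ => hk0 t
    have h2 : ∫ t in a..b, k t ≤ ∫ _ in a..b, (1 : ℝ) :=
      intervalIntegral.integral_mono_on hab (hkc.intervalIntegrable _ _)
        (continuous_const.intervalIntegrable _ _) fun t _ => hk1 t
    rw [intervalIntegral.integral_const, smul_eq_mul, mul_one] at h2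
    rw [← hKs] at h1 h2
    exact ⟨by linarith, h2⟩
  have hKl : ∀ s ≤ δ, K s = 0 := fun s hs => by
    simp only [hK]
    rw [intervalIntegral.integral_congr (g := fun _ => 0) fun t ht =>
      hkl t (ht.2.trans (max_le hδ.le hs))]
    simp
  have hKr : ∀ s, 1 - δ ≤ s → K s = K 1 := fun s hs => by
    rw [← sub_eq_zero, hKs, intervalIntegral.integral_congr (g := fun _ => 0) fun t ht =>
      hkr t ((le_min (by linarith) hs).trans ht.1)]
    simp
  have hZ : 1 - 4 * δ ≤ K 1 := by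
    have h1 : K (1 - 2 * δ) - K (2 * δ) = 1 - 4 * δ := by
      rw [hKs, intervalIntegral.integral_congr (g := fun _ => 1) fun t ht => by
        rw [uIcc_of_le (by linarith)] at ht
        exact hkm t ht.1 ht.2]
      simp only [intervalIntegral.integral_const, smul_eq_mul, mul_one]
      ring
    have h2 := (hKm (1 - 2 * δ) 1 (by linarith)).1
    have h3 := (hKm 0 (2 * δ) (by linarith)).1
    have h4 := hKl 0 hδ.le
    linarith
  have hZ0 : 0 < K 1 := by linarith
  have hZ1 : 1 ≤ (1 + η) * K 1 := hδ2.trans (mul_le_mul_of_nonneg_left hZ (by linarith))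
  have hθd : ∀ s, HasDerivAt (fun s => K s / K 1) (k s / K 1) s := fun s => (hKd s).div_const _
  have hder : deriv (fun s => K s / K 1) = fun s => k s / K 1 := funext fun s => (hθd s).deriv
  refine ⟨fun s => K s / K 1, δ, hδ, ?_, fun s => ?_, fun s => ?_, fun s hs => ?_, fun s hs => ?_,
    fun s => ?_, fun s hs => ?_⟩
  · rw [contDiff_one_iff_deriv, hder]
    exact ⟨fun s => (hθd s).differentiableAt, hkc.div_const _⟩
  · refine div_nonneg ?_ hZ0.le
    have := (hKm (min s 0) s (min_le_left _ _)).1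
    rwa [hKl _ ((min_le_right _ _).trans hδ.le)] at this
  · rw [div_le_one hZ0]
    have := (hKm s (max s 1) (le_max_left _ _)).1
    rwa [hKr (max s 1) (le_trans (by linarith) (le_max_right _ _))] at this
  · simp only [hKl s hs, zero_div]
  · simp only [hKr s hs, div_self hZ0.ne']
  · rw [hder, abs_of_nonneg (div_nonneg (hk0 s) hZ0.le), div_le_iff₀ hZ0]
    exact (hk1 s).trans hZ1
  · have h1 := (hKm 0 s hs.1).2
    have h2 := (hKm s 1 hs.2).2
    rw [hKl 0 hδ.le] at h1
    have h3 := hs.1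
    have h4 := hs.2
    rw [abs_le]
    constructor
    · rw [le_sub_iff_add_le, le_div_iff₀ hZ0]
      nlinarith [mul_nonneg (sub_nonneg.2 h4) (sub_nonneg.2 hZ1), mul_nonneg h3 h0.le,
        mul_nonneg (mul_nonneg h3 h0.le) hZ0.le]
    · rw [sub_le_iff_le_add, div_le_iff₀ hZ0]
      nlinarith [mul_nonneg h3 (sub_nonneg.2 hZ1), mul_nonneg (sub_nonneg.2 h4) h0.le,
        mul_nonneg (mul_nonneg (sub_nonneg.2 h4) h0.le) hZ0.le]

lemma steiner_fin : IsFiniteMeasure ((volume : Measure (ℝ × ℝ)).restrict C2) :=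
  isFiniteMeasure_restrict.2 (by rw [volume_C2]; exact ENNReal.one_ne_top)

lemma steiner_fin0 : IsFiniteMeasure ((volume : Measure X).restrict C0) :=
  isFiniteMeasure_restrict.2 (by rw [volume_C0]; exact ENNReal.one_ne_top)

lemma steiner_meas {w : ℝ × ℝ → ℝ} (hw : Measurable w) :
    MeasurableSet {p : X | dz p.1 < w p.2 / 2} :=
  measurableSet_lt (continuous_dz.measurable.comp measurable_fst)
    ((hw.comp measurable_snd).div_const 2)

lemma steiner_vol {w : ℝ × ℝ → ℝ} (hw : Measurable w) (h0 : ∀ q, 0 ≤ w q) (h1 : ∀ q, w q ≤ 1) :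
    ∫ p in C0, {p : X | dz p.1 < w p.2 / 2}.indicator (1 : X → ℝ) p = ∫ q in C2, w q := by
  rw [integral_indicator_one (steiner_meas hw), measureReal_restrict_apply (steiner_meas hw)]
  refine (tvol_eq_integral_fib (steiner_meas hw)).trans
    (integral_congr_ae (Eventually.of_forall fun q => ?_))
  have := volume_dz_lt (h0 q) (h1 q) 0
  simp only [sub_zero] at this
  simp only [fib, mem_ofPred_eq]
  rw [this, ENNReal.toReal_ofReal (h0 q)]

lemma steiner_cmp {w w' : ℝ × ℝ → ℝ} (hw : Measurable w) (h0 : ∀ q, 0 ≤ w q) (h1 : ∀ q, w q ≤ 1)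
    (hw' : Measurable w') (h0' : ∀ q, 0 ≤ w' q) (h1' : ∀ q, w' q ≤ 1) {g : X → ℝ}
    (hg : Continuous g) {C : ℝ} (hC : ∀ p, |g p| ≤ C) :
    ∫ p in {p : X | dz p.1 < w p.2 / 2} ∩ C0, g p ≤
      (∫ p in {p : X | dz p.1 < w' p.2 / 2} ∩ C0, g p) + C * ∫ q in C2, |w q - w' q| := by
  have := steiner_fin
  have := steiner_fin0
  have hM : Measurable fun q => max (w q) (w' q) := hw.max hw'
  have hm : Measurable fun q => min (w q) (w' q) := hw.min hw'
  have vM := steiner_vol hM (fun q => le_max_of_le_left (h0 q)) (fun q => max_le (h1 q) (h1' q))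
  have vm := steiner_vol hm (fun q => le_min (h0 q) (h0' q)) (fun q => min_le_of_left_le (h1 q))
  have iw : ∀ {v : ℝ × ℝ → ℝ}, Measurable v → (∀ q, 0 ≤ v q) → (∀ q, v q ≤ 1) →
      Integrable v (volume.restrict C2) := fun hv a b =>
    (integrable_const (1 : ℝ)).mono' hv.aestronglyMeasurable (Eventually.of_forall fun q => by
      rw [Real.norm_eq_abs, abs_of_nonneg (a q)]; exact b q)
  have e1 : ∫ q in C2, |w q - w' q| =
      (∫ q in C2, max (w q) (w' q)) - ∫ q in C2, min (w q) (w' q) := by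
    rw [← integral_sub (iw hM (fun q => le_max_of_le_left (h0 q)) (fun q => max_le (h1 q) (h1' q)))
      (iw hm (fun q => le_min (h0 q) (h0' q)) (fun q => min_le_of_left_le (h1 q)))]
    simp only [max_sub_min_eq_abs']
  have i1 : ∀ {v : ℝ × ℝ → ℝ}, Measurable v →
      Integrable ({p : X | dz p.1 < v p.2 / 2}.indicator (1 : X → ℝ)) (volume.restrict C0) :=
    fun hv => (integrable_const (1 : ℝ)).indicator (steiner_meas hv)
  have ig : ∀ {v : ℝ × ℝ → ℝ}, Measurable v →
      Integrable ({p : X | dz p.1 < v p.2 / 2}.indicator g) (volume.restrict C0) :=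
    fun hv => Integrable.indicator (integrableOn_C0 hg) (steiner_meas hv)
  have e2 : ∀ {v : ℝ × ℝ → ℝ}, Measurable v → ∫ p in {p : X | dz p.1 < v p.2 / 2} ∩ C0, g p =
      ∫ p in C0, {p : X | dz p.1 < v p.2 / 2}.indicator g p := fun hv => by
    rw [integral_indicator (steiner_meas hv), Measure.restrict_restrict (steiner_meas hv)]
  have iD : Integrable (fun p => C *
      ({p : X | dz p.1 < max (w p.2) (w' p.2) / 2}.indicator (1 : X → ℝ) p -
        {p : X | dz p.1 < min (w p.2) (w' p.2) / 2}.indicator (1 : X → ℝ) p))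
      (volume.restrict C0) := ((i1 hM).sub (i1 hm)).const_mul C
  rw [e1, ← vM, ← vm, ← integral_sub (i1 hM) (i1 hm), ← integral_const_mul, e2 hw, e2 hw',
    ← integral_add (ig hw') iD]
  refine integral_mono (ig hw) ((ig hw').add iD) fun p => ?_
  have hp := abs_le.1 (hC p)
  have eM : dz p.1 < max (w p.2) (w' p.2) / 2 ↔ dz p.1 < w p.2 / 2 ∨ dz p.1 < w' p.2 / 2 := by
    rw [← max_div_div_right (by norm_num : (0 : ℝ) ≤ 2), lt_max_iff]
  have em : dz p.1 < min (w p.2) (w' p.2) / 2 ↔ dz p.1 < w p.2 / 2 ∧ dz p.1 < w' p.2 / 2 := by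
    rw [← min_div_div_right (by norm_num : (0 : ℝ) ≤ 2), lt_min_iff]
  simp only [indicator, mem_ofPred_eq, eM, em, Pi.one_apply]
  by_cases a : dz p.1 < w p.2 / 2 <;> by_cases b : dz p.1 < w' p.2 / 2 <;> simp [a, b] <;> linarith

lemma steiner_sqrt {a b A B F e l c : ℝ} (hl : 1 ≤ l) (ha : |a| ≤ l * |A|) (hb : |b| ≤ l * |B|)
    (hF : 0 ≤ F) (he : 0 ≤ e) (hc : c ≤ (F + e) ^ 2) :
    √(a ^ 2 + b ^ 2 + c) ≤ l * √(A ^ 2 + B ^ 2 + F ^ 2) + e := by
  have h1 : a ^ 2 ≤ l ^ 2 * A ^ 2 := by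
    have := pow_le_pow_left₀ (abs_nonneg a) ha 2
    rwa [mul_pow, sq_abs, sq_abs] at this
  have h2 : b ^ 2 ≤ l ^ 2 * B ^ 2 := by
    have := pow_le_pow_left₀ (abs_nonneg b) hb 2
    rwa [mul_pow, sq_abs, sq_abs] at this
  have h3 : F ≤ √(A ^ 2 + B ^ 2 + F ^ 2) := Real.le_sqrt_of_sq_le (by nlinarith)
  have h4 : √(A ^ 2 + B ^ 2 + F ^ 2) ^ 2 = A ^ 2 + B ^ 2 + F ^ 2 := Real.sq_sqrt (by positivity)
  generalize √(A ^ 2 + B ^ 2 + F ^ 2) = R at *
  have hR : 0 ≤ R := hF.trans h3
  have h5 : F ≤ l * R := h3.trans (le_mul_of_one_le_left hR hl)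
  have h6 : F ^ 2 ≤ l ^ 2 * F ^ 2 := le_mul_of_one_le_left (sq_nonneg _) (one_le_pow₀ hl)
  refine Real.sqrt_le_iff.2 ⟨by positivity, ?_⟩
  have h7 : (l * R + e) ^ 2 = l ^ 2 * R ^ 2 + 2 * (l * R * e) + e ^ 2 := by ring
  have h8 : F * e ≤ l * R * e := mul_le_mul_of_nonneg_right h5 he
  rw [h7, h4]
  nlinarith

lemma steiner_fav_mem {u : X → ℝ} (hu : Continuous u) (h0 : ∀ p, 0 ≤ u p) (h1 : ∀ p, u p ≤ 1)
    (q : ℝ × ℝ) : fav u q ∈ Icc (0 : ℝ) 1 := by
  refine ⟨intervalIntegral.integral_nonneg zero_le_one fun t _ => h0 _, ?_⟩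
  have : ∫ t in (0 : ℝ)..1, u (t, q) ≤ ∫ _ in (0 : ℝ)..1, (1 : ℝ) :=
    intervalIntegral.integral_mono_on zero_le_one
      ((hu.comp (Continuous.prodMk_left q)).intervalIntegrable _ _)
      (continuous_const.intervalIntegrable _ _) fun t _ => h1 _
  rw [intervalIntegral.integral_const, sub_zero, smul_eq_mul, mul_one] at this
  exact this

lemma steiner_ftv_nonneg (u : X → ℝ) (q : ℝ × ℝ) : 0 ≤ ftv u q :=
  intervalIntegral.integral_nonneg zero_le_one fun _ _ => abs_nonneg _

/-- the error term -/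
noncomputable def steiner_e (δ : ℝ) (u : X → ℝ) (q : ℝ × ℝ) : ℝ :=
  if δ < fav u q ∧ fav u q < 1 - δ then max (2 - ftv u q) 0 else 0

lemma steiner_e_nonneg (δ : ℝ) (u : X → ℝ) (q : ℝ × ℝ) : 0 ≤ steiner_e δ u q := by
  unfold steiner_e
  split_ifs
  · exact le_max_right _ _
  · exact le_rfl

lemma steiner_e_le (δ : ℝ) (u : X → ℝ) (q : ℝ × ℝ) : steiner_e δ u q ≤ 2 := by
  unfold steiner_e
  have := steiner_ftv_nonneg u q
  split_ifs
  · exact max_le (by linarith) (by norm_num)
  · norm_num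

lemma steiner_e_meas (δ : ℝ) {u : X → ℝ} (hu : ContDiff ℝ 1 u) : Measurable (steiner_e δ u) := by
  have h1 := (contDiff_fav hu).continuous.measurable
  have h2 := (continuous_ftv hu).measurable
  refine Measurable.ite ?_ ((measurable_const.sub h2).max measurable_const) measurable_const
  exact (measurableSet_lt measurable_const h1).inter (measurableSet_lt h1 measurable_const)

lemma steiner_e_tendsto {E : Set X} {u : ℕ → X → ℝ} (h : Moll E u) (hE : PerSet E) {δ : ℝ}
    (hδ : 0 < δ) : Tendsto (fun n => ∫ q in C2, steiner_e δ (u n) q) atTop (𝓝 0) := by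
  have := steiner_fin
  have key : Tendsto (fun n => ∫ q in C2, steiner_e δ (u n) q) atTop
      (𝓝 (∫ _ in C2, (0 : ℝ))) := by
    refine tendsto_integral_of_dominated_convergence (fun _ => (2 : ℝ))
      (fun n => (steiner_e_meas δ (h.c n)).aestronglyMeasurable) (integrable_const _)
      (fun n => Eventually.of_forall fun q => ?_) (ae_restrict_of_ae ?_)
    · rw [Real.norm_eq_abs, abs_of_nonneg (steiner_e_nonneg _ _ _)]
      exact steiner_e_le _ _ _
    filter_upwards [h.ae_fibre hE, h.tendsto_fav hE] with q hq1 hq2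
    rcases (fib_nonneg E q).eq_or_lt with h0 | h0
    · refine tendsto_const_nhds.congr' ?_
      filter_upwards [hq2.eventually (gt_mem_nhds (show fib E q < δ by linarith))] with n hn
      rw [steiner_e, if_neg fun h' => lt_asymm hn h'.1]
    rcases (fib_le_one E q).eq_or_lt with h1 | h1
    · refine tendsto_const_nhds.congr' ?_
      filter_upwards [hq2.eventually (lt_mem_nhds (show 1 - δ < fib E q by linarith))] with n hn
      rw [steiner_e, if_neg fun h' => lt_asymm hn h'.2]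
    have e : ∀ t : ℝ, ((t, q) : X) + (((1 : ℤ) : ℝ), ((0 : ℤ) : ℝ), ((0 : ℤ) : ℝ)) = (t + 1, q) := by
      intro t
      ext <;> simp
    have tv := tv_liminf (v := fun n s => u n (s, q)) (B := {s | (s, q) ∈ E})
      (fun n => (h.c n).comp (contDiff_id.prodMk contDiff_const))
      (fun n t => by dsimp only; rw [← e]; exact h.per n 1 0 0 _) (measurable_prodMk_right hE.meas)
      (fun t => by simp only [mem_ofPred_eq]; rw [← e]; exact hE.per 1 0 0 _) hq1 rfl h0 h1
    rw [Metric.tendsto_atTop]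
    intro η hη
    obtain ⟨N, hN⟩ := eventually_atTop.1 (tv (η / 2) (by linarith))
    refine ⟨N, fun n hn => ?_⟩
    have h2 := hN n hn
    rw [← ftv_eq (h.c n)] at h2
    rw [Real.dist_eq, sub_zero, abs_of_nonneg (steiner_e_nonneg _ _ _), steiner_e]
    split_ifs
    · exact max_lt (by linarith) hη
    · exact hη
  simpa using key

lemma steiner_fav_tendsto {E : Set X} {u : ℕ → X → ℝ} (h : Moll E u) (hE : PerSet E) :
    Tendsto (fun n => ∫ q in C2, |fib E q - fav (u n) q|) atTop (𝓝 0) := by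
  have := steiner_fin
  have key : Tendsto (fun n => ∫ q in C2, |fib E q - fav (u n) q|) atTop
      (𝓝 (∫ _ in C2, (0 : ℝ))) := by
    refine tendsto_integral_of_dominated_convergence (fun _ => (1 : ℝ))
      (fun n => ((measurable_fib hE.meas).sub
        (contDiff_fav (h.c n)).continuous.measurable).abs.aestronglyMeasurable) (integrable_const _)
      (fun n => Eventually.of_forall fun q => ?_) (ae_restrict_of_ae ?_)
    · have h1 := steiner_fav_mem (h.c n).continuous (h.nn n) (h.le n) q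
      have h2 := fib_nonneg E q
      have h3 := fib_le_one E q
      rw [Real.norm_eq_abs, abs_abs, abs_le]
      constructor <;> linarith [h1.1, h1.2]
    filter_upwards [h.tendsto_fav hE] with q hq
    simpa using ((tendsto_const_nhds (x := fib E q)).sub hq).abs
  simpa using key

lemma steiner_step {E : Set X} (hE : PerSet E) {u : X → ℝ} (hu : ContDiff ℝ 1 u) (hp : ZPer u)
    (h0 : ∀ p, 0 ≤ u p) (h1 : ∀ p, u p ≤ 1) {f1 f2 f3 : X → ℝ} (hf : TField f1 f2 f3) {C : ℝ}
    (hC : ∀ p, |dv f1 f2 f3 p| ≤ C) {η δ : ℝ} {θ : ℝ → ℝ} (hη : 0 < η) (hθ : ContDiff ℝ 1 θ)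
    (θ0 : ∀ s, 0 ≤ θ s) (θ1 : ∀ s, θ s ≤ 1) (θl : ∀ s ≤ δ, θ s = 0) (θr : ∀ s, 1 - δ ≤ s → θ s = 1)
    (θd : ∀ s, |deriv θ s| ≤ 1 + η) (θi : ∀ s ∈ Icc (0 : ℝ) 1, |θ s - s| ≤ η) :
    ∫ p in st E ∩ C0, dv f1 f2 f3 p ≤ (1 + η) * (∫ p in C0, gn u p) +
      (∫ q in C2, steiner_e δ u q) + C * (η + ∫ q in C2, |fib E q - fav u q|) := by
  have := steiner_fin
  have hm := contDiff_fav hu
  have hw : ContDiff ℝ 1 (fun q => θ (fav u q)) := hθ.comp hm
  have hC0 : 0 ≤ C := (abs_nonneg _).trans (hC 0)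
  have s1 := steiner_cmp (measurable_fib hE.meas) (fib_nonneg E) (fib_le_one E)
    hw.continuous.measurable (fun q => θ0 _) (fun q => θ1 _) (continuous_dv hf.c1 hf.c2 hf.c3) hC
  have s2 := integral_sub_le hw (fun b c q => by simp only [fav_per hp b c q]) (fun q => θ0 _)
    (fun q => θ1 _) hf
  have hd : ∀ q v, fderiv ℝ (fun q => θ (fav u q)) q v = deriv θ (fav u q) * fderiv ℝ (fav u) q v := by
    intro q v
    have := ((hθ.differentiable (by norm_num) (fav u q)).hasDerivAt.comp_hasFDerivAt q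
      (hm.differentiable (by norm_num) q).hasFDerivAt).fderiv
    rw [show (fun q => θ (fav u q)) = θ ∘ fav u from rfl, this]
    simp
  have cR : Continuous fun q => √(da (fav u) q ^ 2 + db (fav u) q ^ 2 + ftv u q ^ 2) := by
    have a1 : Continuous (fderiv ℝ (fav u)) := hm.continuous_fderiv (by norm_num)
    have a2 := continuous_ftv hu
    unfold da db
    fun_prop
  have ie : Integrable (steiner_e δ u) (volume.restrict C2) :=
    (integrable_const (2 : ℝ)).mono' (steiner_e_meas δ hu).aestronglyMeasurable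
      (Eventually.of_forall fun q => by
        rw [Real.norm_eq_abs, abs_of_nonneg (steiner_e_nonneg _ _ _)]
        exact steiner_e_le _ _ _)
  have iR : Integrable (fun q => (1 + η) * √(da (fav u) q ^ 2 + db (fav u) q ^ 2 + ftv u q ^ 2))
      (volume.restrict C2) := Integrable.const_mul (integrableOn_C2 cR) _
  have s3 : ∫ q in C2, √(da (fun q => θ (fav u q)) q ^ 2 + db (fun q => θ (fav u q)) q ^ 2 +
      if 0 < θ (fav u q) ∧ θ (fav u q) < 1 then 4 else 0) ≤
      ∫ q in C2, ((1 + η) * √(da (fav u) q ^ 2 + db (fav u) q ^ 2 + ftv u q ^ 2) +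
        steiner_e δ u q) := by
    refine integral_mono_of_nonneg (Eventually.of_forall fun q => Real.sqrt_nonneg _) (iR.add ie)
      (Eventually.of_forall fun q => ?_)
    refine steiner_sqrt (by linarith) ?_ ?_ (steiner_ftv_nonneg u q) (steiner_e_nonneg _ _ _) ?_
    · rw [da, hd, abs_mul]
      exact mul_le_mul_of_nonneg_right (θd _) (abs_nonneg _)
    · rw [db, hd, abs_mul]
      exact mul_le_mul_of_nonneg_right (θd _) (abs_nonneg _)
    · split_ifs with h
      · have a1 : δ < fav u q := by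
          by_contra a
          exact h.1.ne' (θl _ (not_lt.1 a))
        have a2 : fav u q < 1 - δ := by
          by_contra a
          exact h.2.ne (θr _ (not_lt.1 a))
        rw [steiner_e, if_pos ⟨a1, a2⟩]
        have a3 := le_max_left (2 - ftv u q) 0
        nlinarith
      · exact sq_nonneg _
  rw [integral_add iR ie, integral_const_mul] at s3
  have s4 := mul_le_mul_of_nonneg_left (integral_sqrt_fav_le hu) (by linarith : 0 ≤ 1 + η)
  have iF : Integrable (fun q => |fib E q - fav u q|) (volume.restrict C2) := by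
    refine Integrable.abs (Integrable.sub ?_ (integrableOn_C2 hm.continuous))
    exact (integrable_const (1 : ℝ)).mono' (measurable_fib hE.meas).aestronglyMeasurable
      (Eventually.of_forall fun q => by
        rw [Real.norm_eq_abs, abs_of_nonneg (fib_nonneg E q)]; exact fib_le_one E q)
  have s5 : ∫ q in C2, |fib E q - θ (fav u q)| ≤ ∫ q in C2, (η + |fib E q - fav u q|) := by
    refine integral_mono_of_nonneg (Eventually.of_forall fun q => abs_nonneg _)
      ((integrable_const _).add iF) (Eventually.of_forall fun q => ?_)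
    have a1 := θi _ (steiner_fav_mem hu.continuous h0 h1 q)
    have a2 := abs_sub_le (fib E q) (fav u q) (θ (fav u q))
    rw [abs_sub_comm] at a1
    dsimp only
    linarith
  rw [integral_add (integrable_const _) iF, integral_const, measureReal_restrict_apply_univ,
    measureReal_def, volume_C2, ENNReal.toReal_one, one_smul] at s5
  have s6 := mul_le_mul_of_nonneg_left s5 hC0
  change ∫ p in {p : X | dz p.1 < fib E p.2 / 2} ∩ C0, dv f1 f2 f3 p ≤ _
  linarith

/-- Fix a `TField` with `|dv| ≤ C`, `η > 0`, `θ` from `exists_cut`, `u` from `exists_moll`,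
`m n = fav (u n)`, `w n = θ ∘ m n`.  Then `∫_{st E ∩ C0} dv ≤ ∫_{{dz < w n / 2} ∩ C0} dv
+ C ∫_{C2} |w n - fib E|`, the last integral is eventually `≤ 2 η`; by `integral_sub_le` the first is
at most `(1 + η) ∫ √(|∇ m n|² + ftv²) + ∫_{C2} e n`, with
`e n q = if δ < m n q ∧ m n q < 1 - δ then max (2 - ftv (u n) q) 0 else 0 → 0` a.e. (`tv_liminf` if
`0 < fib E q < 1`, `Moll.tendsto_fav` otherwise), dominated by `2`. -/
theorem tper_st_le {E : Set X} (hE : PerSet E) : tper (st E) ≤ tper E := by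
  refine tper_le fun f1 f2 f3 hf => ?_
  rcases eq_top_or_lt_top (tper E) with hT | hT
  · rw [hT]; exact le_top
  rw [ENNReal.ofReal_le_iff_le_toReal hT.ne]
  obtain ⟨u, hu⟩ := exists_moll hE
  obtain ⟨C, hC⟩ := hf.dv_per.bdd (continuous_dv hf.c1 hf.c2 hf.c3)
  have hg : ∀ n, ∫ p in C0, gn (u n) p ≤ (tper E).toReal := fun n =>
    (ENNReal.ofReal_le_iff_le_toReal hT.ne).1 (hu.grad n)
  have key : ∀ η : ℝ, 0 < η →
      ∫ p in st E ∩ C0, dv f1 f2 f3 p ≤ (1 + η) * (tper E).toReal + 0 + C * (η + 0) := by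
    intro η hη
    obtain ⟨θ, δ, hδ, hθ, θ0, θ1, θl, θr, θd, θi⟩ := exists_cut hη
    refine ge_of_tendsto' ((tendsto_const_nhds.add (steiner_e_tendsto hu hE hδ)).add
      ((tendsto_const_nhds.add (steiner_fav_tendsto hu hE)).const_mul C)) fun n => ?_
    have h1 := steiner_step hE (hu.c n) (hu.per n) (hu.nn n) (hu.le n) hf hC hη hθ θ0 θ1 θl θr θd θi
    have h2 := mul_le_mul_of_nonneg_left (hg n) (by linarith : 0 ≤ 1 + η)
    linarith
  have lim : Tendsto (fun η : ℝ => (1 + η) * (tper E).toReal + 0 + C * (η + 0)) (𝓝[>] 0)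
      (𝓝 ((1 + 0) * (tper E).toReal + 0 + C * (0 + 0))) :=
    tendsto_nhdsWithin_of_tendsto_nhds (Continuous.tendsto (by fun_prop) 0)
  have := ge_of_tendsto lim (eventually_nhdsWithin_of_forall key)
  simpa using this

theorem tper_sym3_le {E : Set X} (hE : PerSet E) : tper (sym3 E) ≤ tper E := by
  unfold sym3
  rw [tper_cyc]
  refine (tper_st_le hE.st.cyc.st.cyc).trans ?_
  rw [tper_cyc]
  refine (tper_st_le hE.st.cyc).trans ?_
  rw [tper_cyc]
  exact tper_st_le hE

end Crest.Agent.R214
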