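import Crest.Agent.R214.Defs

/-! Row 214: integrals of periodic functions over the cell, integration by parts. -/

set_option autoImplicit false

namespace Crest.Agent.R214

open MeasureTheory Set Filter Topology Real
open scoped ENNReal

lemma measurableSet_C2 : MeasurableSet C2 := measurableSet_Ico.prod measurableSet_Ico
lemma measurableSet_C0 : MeasurableSet C0 := measurableSet_Ico.prod measurableSet_C2

section tbasic

variable {G Y : Type*} [AddCommGroup G] [Countable G] [NormedAddCommGroup Y] [MeasureSpace Y]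
  [BorelSpace Y] [Measure.IsAddLeftInvariant (volume : Measure Y)]

/-- `s` is a fundamental domain for the translations by `φ g` -/
def tbasic_FD (φ : G →+ Y) (s : Set Y) : Prop := MeasurableSet s ∧ ∀ x, ∃! g, φ g + x ∈ s

omit [Countable G] [Measure.IsAddLeftInvariant (volume : Measure Y)] in
lemma tbasic_FD.tr {φ : G →+ Y} {s : Set Y} (hs : tbasic_FD φ s) (c : Y) :
    tbasic_FD φ ((fun p => p + c) ⁻¹' s) :=
  ⟨measurable_add_const c hs.1, fun x => by
    simpa only [mem_preimage, add_assoc] using hs.2 (x + c)⟩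

lemma tbasic_lint {φ : G →+ Y} {s t : Set Y} (hs : tbasic_FD φ s) (ht : tbasic_FD φ t)
    {f : Y → ℝ≥0∞} (hf : ∀ g x, f (x + φ g) = f x) : ∫⁻ p in s, f p = ∫⁻ p in t, f p := by
  let _ : AddAction G Y := AddAction.compHom Y φ
  have : MeasurableConstVAdd G Y := ⟨fun g => measurable_const_add (φ g)⟩
  have : VAddInvariantMeasure G Y volume := ⟨fun g u _ => measure_preimage_add _ (φ g) u⟩
  exact (IsAddFundamentalDomain.mk' hs.1.nullMeasurableSet hs.2).setLIntegral_eq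
    (IsAddFundamentalDomain.mk' ht.1.nullMeasurableSet ht.2) f
    fun g x => by rw [← hf g x, add_comm]; rfl

lemma tbasic_int {F : Type*} [NormedAddCommGroup F] [NormedSpace ℝ F] {φ : G →+ Y} {s t : Set Y}
    (hs : tbasic_FD φ s) (ht : tbasic_FD φ t)
    {f : Y → F} (hf : ∀ g x, f (x + φ g) = f x) : ∫ p in s, f p = ∫ p in t, f p := by
  let _ : AddAction G Y := AddAction.compHom Y φ
  have : MeasurableConstVAdd G Y := ⟨fun g => measurable_const_add (φ g)⟩
  have : VAddInvariantMeasure G Y volume := ⟨fun g u _ => measure_preimage_add _ (φ g) u⟩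
  exact (IsAddFundamentalDomain.mk' hs.1.nullMeasurableSet hs.2).setIntegral_eq
    (IsAddFundamentalDomain.mk' ht.1.nullMeasurableSet ht.2)
    fun g x => by rw [← hf g x, add_comm]; rfl

lemma tbasic_lint_add {φ : G →+ Y} {s : Set Y} (hs : tbasic_FD φ s)
    {f : Y → ℝ≥0∞} (hf : ∀ g x, f (x + φ g) = f x) (c : Y) :
    ∫⁻ p in s, f (p + c) = ∫⁻ p in s, f p := by
  have h := (measurePreserving_add_right (volume : Measure Y) c).setLIntegral_comp_preimage_emb
    (measurableEmbedding_addRight c) f ((fun p => p + -c) ⁻¹' s)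
  rw [← tbasic_lint (hs.tr (-c)) hs hf, ← h]
  congr 2
  ext p
  simp

lemma tbasic_int_add {F : Type*} [NormedAddCommGroup F] [NormedSpace ℝ F] {φ : G →+ Y} {s : Set Y}
    (hs : tbasic_FD φ s) {f : Y → F} (hf : ∀ g x, f (x + φ g) = f x) (c : Y) :
    ∫ p in s, f (p + c) = ∫ p in s, f p := by
  have h := (measurePreserving_add_right (volume : Measure Y) c).setIntegral_preimage_emb
    (measurableEmbedding_addRight c) f ((fun p => p + -c) ⁻¹' s)
  rw [← tbasic_int (hs.tr (-c)) hs hf, ← h]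
  congr 2
  ext p
  simp

lemma tbasic_ae {φ : G →+ Y} {s : Set Y} (hs : tbasic_FD φ s) {P : Y → Prop}
    (hP : ∀ g x, P (x + φ g) = P x) (h : ∀ᵐ p : Y, p ∈ s → P p) : ∀ᵐ p : Y, P p := by
  have h1 : ∀ᵐ p : Y, ∀ g, φ g + p ∈ s → P (φ g + p) :=
    ae_all_iff.2 fun g =>
      (measurePreserving_add_left (volume : Measure Y) (φ g)).quasiMeasurePreserving.ae h
  filter_upwards [h1] with p hp
  obtain ⟨g, hg⟩ := (hs.2 p).exists
  rw [← hP g p, add_comm]
  exact hp g hg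

lemma tbasic_fderiv [NormedSpace ℝ Y] [SecondCountableTopology Y] [SFinite (volume : Measure Y)]
    [IsLocallyFiniteMeasure (volume : Measure Y)] {φ : G →+ Y} {s K : Set Y} (hs : tbasic_FD φ s)
    (hK : IsCompact K) (hsK : s ⊆ K) {f : Y → ℝ} (hc : ContDiff ℝ 1 f)
    (hf : ∀ g x, f (x + φ g) = f x) (g : G) : ∫ p in s, fderiv ℝ f p (φ g) = 0 := by
  have c1 : Continuous fun p => fderiv ℝ f p (φ g) :=
    (hc.continuous_fderiv one_ne_zero).clm_apply continuous_const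
  have hp : ∀ g' x, fderiv ℝ f (x + φ g') (φ g) = fderiv ℝ f x (φ g) := fun g' x => by
    rw [← fderiv_comp_add_right]
    simp only [hf]
  have h1 : ∀ p : Y, ∫ t in (0 : ℝ)..1, fderiv ℝ f (p + t • φ g) (φ g) = 0 := fun p => by
    have h2 : ∀ t ∈ uIcc (0 : ℝ) 1, HasDerivAt (fun t : ℝ => f (p + t • φ g))
        (fderiv ℝ f (p + t • φ g) (φ g)) t := fun t _ => by
      have h3 : HasDerivAt (fun t : ℝ => p + t • φ g) (φ g) t := by
        simpa using ((hasDerivAt_id t).smul_const (φ g)).const_add p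
      exact (hc.differentiable one_ne_zero _).hasFDerivAt.comp_hasDerivAt t h3
    rw [intervalIntegral.integral_eq_sub_of_hasDerivAt h2
      ((c1.comp (by fun_prop : Continuous fun t : ℝ => p + t • φ g)).intervalIntegrable _ _)]
    simp [hf]
  have h4 := intervalIntegral_integral_swap (a := 0) (b := 1) (μ := volume.restrict s)
    (f := fun (t : ℝ) (p : Y) => fderiv ℝ f (p + t • φ g) (φ g)) (by
      rw [Measure.prod_restrict]
      have c2 : Continuous fun z : ℝ × Y => fderiv ℝ f (z.2 + z.1 • φ g) (φ g) :=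
        c1.comp (by fun_prop : Continuous fun z : ℝ × Y => z.2 + z.1 • φ g)
      exact (c2.continuousOn.integrableOn_compact ((isCompact_uIcc (a := 0) (b := 1)).prod hK)).mono_set
        (prod_mono uIoc_subset_uIcc hsK))
  simp only [h1, integral_zero,
    fun t : ℝ => tbasic_int_add hs (f := fun p => fderiv ℝ f p (φ g)) hp (t • φ g)] at h4
  simpa using h4

end tbasic

instance tbasic_haar : Measure.IsAddHaarMeasure (volume : Measure X) :=
  Measure.prod.instIsAddHaarMeasure volume volume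

/-- the lattices -/
def tbasic_l2 : ℤ × ℤ →+ ℝ × ℝ := (Int.castAddHom ℝ).prodMap (Int.castAddHom ℝ)
def tbasic_l3 : ℤ × ℤ × ℤ →+ X := (Int.castAddHom ℝ).prodMap tbasic_l2

lemma tbasic_uniq (a x : ℝ) : ∃! m : ℤ, (m : ℝ) + x ∈ Ico a (a + 1) := by
  simpa [add_comm x] using existsUnique_add_zsmul_mem_Ico (zero_lt_one' ℝ) x a

lemma tbasic_FD2 (b c : ℝ) : tbasic_FD tbasic_l2 (Ico b (b + 1) ×ˢ Ico c (c + 1)) := by
  refine ⟨measurableSet_Ico.prod measurableSet_Ico, fun x => ?_⟩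
  obtain ⟨m, hm, um⟩ := tbasic_uniq b x.1
  obtain ⟨n, hn, un⟩ := tbasic_uniq c x.2
  exact ⟨(m, n), ⟨hm, hn⟩, fun y hy => Prod.ext (um _ hy.1) (un _ hy.2)⟩

lemma tbasic_FD3 (a b c : ℝ) :
    tbasic_FD tbasic_l3 (Ico a (a + 1) ×ˢ Ico b (b + 1) ×ˢ Ico c (c + 1)) := by
  refine ⟨measurableSet_Ico.prod (tbasic_FD2 b c).1, fun x => ?_⟩
  obtain ⟨m, hm, um⟩ := tbasic_uniq a x.1
  obtain ⟨n, hn, un⟩ := (tbasic_FD2 b c).2 x.2
  exact ⟨(m, n), ⟨hm, hn⟩, fun y hy => Prod.ext (um _ hy.1) (un _ hy.2)⟩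

lemma tbasic_C2 : tbasic_FD tbasic_l2 C2 := by simpa [C2] using tbasic_FD2 0 0
lemma tbasic_C0 : tbasic_FD tbasic_l3 C0 := by simpa [C0, C2] using tbasic_FD3 0 0 0

lemma tbasic_p3 {α : Type*} {f : X → α} (hf : ZPer f) (g : ℤ × ℤ × ℤ) (x : X) :
    f (x + tbasic_l3 g) = f x := hf g.1 g.2.1 g.2.2 x
lemma tbasic_p2 {α : Type*} {f : ℝ × ℝ → α} (hf : ZPer2 f) (g : ℤ × ℤ) (x : ℝ × ℝ) :
    f (x + tbasic_l2 g) = f x := hf g.1 g.2 x

lemma tbasic_K2 : IsCompact (Icc (0 : ℝ) 1 ×ˢ Icc (0 : ℝ) 1) := isCompact_Icc.prod isCompact_Icc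
lemma tbasic_K3 : IsCompact (Icc (0 : ℝ) 1 ×ˢ Icc (0 : ℝ) 1 ×ˢ Icc (0 : ℝ) 1) :=
  isCompact_Icc.prod tbasic_K2
lemma tbasic_s2 : C2 ⊆ Icc (0 : ℝ) 1 ×ˢ Icc (0 : ℝ) 1 :=
  prod_mono Ico_subset_Icc_self Ico_subset_Icc_self
lemma tbasic_s3 : C0 ⊆ Icc (0 : ℝ) 1 ×ˢ Icc (0 : ℝ) 1 ×ˢ Icc (0 : ℝ) 1 :=
  prod_mono Ico_subset_Icc_self tbasic_s2

lemma tbasic_zper_fderiv {f : X → ℝ} (h : ZPer f) : ZPer (fderiv ℝ f) := fun a b c p => by
  rw [← fderiv_comp_add_right]
  simp only [h a b c]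

lemma tbasic_mul {u f : X → ℝ} (hu : ContDiff ℝ 1 u) (hf : ContDiff ℝ 1 f) (p v : X) :
    fderiv ℝ (fun p => u p * f p) p v = u p * fderiv ℝ f p v + fderiv ℝ u p v * f p := by
  rw [fderiv_fun_mul (hu.differentiable one_ne_zero p) (hf.differentiable one_ne_zero p)]
  simp [mul_comm]

lemma volume_C2 : volume C2 = 1 := by
  simp [C2, Measure.volume_eq_prod]

lemma volume_C0 : volume C0 = 1 := by
  simp [C0, Measure.volume_eq_prod (α := ℝ) (β := ℝ × ℝ), volume_C2]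

lemma continuous_d1 {f : X → ℝ} (hf : ContDiff ℝ 1 f) : Continuous (d1 f) := by
  exact (hf.continuous_fderiv one_ne_zero).clm_apply continuous_const
lemma continuous_d2 {f : X → ℝ} (hf : ContDiff ℝ 1 f) : Continuous (d2 f) := by
  exact (hf.continuous_fderiv one_ne_zero).clm_apply continuous_const
lemma continuous_d3 {f : X → ℝ} (hf : ContDiff ℝ 1 f) : Continuous (d3 f) := by
  exact (hf.continuous_fderiv one_ne_zero).clm_apply continuous_const
lemma continuous_dv {f1 f2 f3 : X → ℝ} (h1 : ContDiff ℝ 1 f1) (h2 : ContDiff ℝ 1 f2)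
    (h3 : ContDiff ℝ 1 f3) : Continuous (dv f1 f2 f3) := by
  exact ((continuous_d1 h1).add (continuous_d2 h2)).add (continuous_d3 h3)
lemma continuous_gn {f : X → ℝ} (hf : ContDiff ℝ 1 f) : Continuous (gn f) := by
  exact ((((continuous_d1 hf).pow 2).add ((continuous_d2 hf).pow 2)).add
    ((continuous_d3 hf).pow 2)).sqrt

/-- partial derivatives are derivatives along the coordinate lines -/
lemma hasDerivAt_d1 {f : X → ℝ} (hf : ContDiff ℝ 1 f) (t : ℝ) (q : ℝ × ℝ) :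
    HasDerivAt (fun s => f (s, q)) (d1 f (t, q)) t := by
  exact (hf.differentiable one_ne_zero _).hasFDerivAt.comp_hasDerivAt t
    ((hasDerivAt_id t).prodMk (hasDerivAt_const t q))
lemma hasDerivAt_d2 {f : X → ℝ} (hf : ContDiff ℝ 1 f) (x y z : ℝ) :
    HasDerivAt (fun s => f (x, s, z)) (d2 f (x, y, z)) y := by
  exact (hf.differentiable one_ne_zero _).hasFDerivAt.comp_hasDerivAt y
    ((hasDerivAt_const y x).prodMk ((hasDerivAt_id y).prodMk (hasDerivAt_const y z)))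
lemma hasDerivAt_d3 {f : X → ℝ} (hf : ContDiff ℝ 1 f) (x y z : ℝ) :
    HasDerivAt (fun s => f (x, y, s)) (d3 f (x, y, z)) z := by
  exact (hf.differentiable one_ne_zero _).hasFDerivAt.comp_hasDerivAt z
    ((hasDerivAt_const z x).prodMk ((hasDerivAt_const z y).prodMk (hasDerivAt_id z)))

protected lemma ZPer.d1 {f : X → ℝ} (h : ZPer f) : ZPer (d1 f) := by
  intro a b c p
  rw [R214.d1, tbasic_zper_fderiv h, R214.d1]
protected lemma ZPer.d2 {f : X → ℝ} (h : ZPer f) : ZPer (d2 f) := by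
  intro a b c p
  rw [R214.d2, tbasic_zper_fderiv h, R214.d2]
protected lemma ZPer.d3 {f : X → ℝ} (h : ZPer f) : ZPer (d3 f) := by
  intro a b c p
  rw [R214.d3, tbasic_zper_fderiv h, R214.d3]
lemma TField.dv_per {f1 f2 f3 : X → ℝ} (h : TField f1 f2 f3) : ZPer (dv f1 f2 f3) := by
  intro a b c p
  rw [dv, h.p1.d1, h.p2.d2, h.p3.d3, dv]

/-- continuous functions are integrable on (subsets of) the cell -/
lemma integrableOn_C0 {F : Type*} [NormedAddCommGroup F] {f : X → F} (hf : Continuous f) :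
    IntegrableOn f C0 := by
  exact (hf.continuousOn.integrableOn_compact tbasic_K3).mono_set tbasic_s3
lemma integrableOn_C2 {F : Type*} [NormedAddCommGroup F] {f : ℝ × ℝ → F} (hf : Continuous f) :
    IntegrableOn f C2 := by
  exact (hf.continuousOn.integrableOn_compact tbasic_K2).mono_set tbasic_s2

/-- a continuous periodic function is bounded -/
lemma ZPer.bdd {f : X → ℝ} (h : ZPer f) (hf : Continuous f) : ∃ C, ∀ p, |f p| ≤ C := by
  obtain ⟨C, hC⟩ := tbasic_K3.exists_bound_of_continuousOn hf.continuousOn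
  refine ⟨C, fun p => ?_⟩
  obtain ⟨g, hg⟩ := (tbasic_C0.2 p).exists
  rw [← tbasic_p3 h g p, add_comm]
  exact hC _ (tbasic_s3 hg)

/-- Both boxes are fundamental domains for `ℤ × ℤ × ℤ` acting on `X` (or: the map
`p ↦ (fract (p.1 + c.1), …)` preserves `volume.restrict C0`). -/
lemma lintegral_C0_add {f : X → ℝ≥0∞} (hf : ZPer f) (c : X) :
    ∫⁻ p in C0, f (p + c) = ∫⁻ p in C0, f p := by
  exact tbasic_lint_add tbasic_C0 (tbasic_p3 hf) c
lemma integral_C0_add {F : Type*} [NormedAddCommGroup F] [NormedSpace ℝ F] {f : X → F}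
    (hf : ZPer f) (c : X) : ∫ p in C0, f (p + c) = ∫ p in C0, f p := by
  exact tbasic_int_add tbasic_C0 (tbasic_p3 hf) c
lemma lintegral_box {f : X → ℝ≥0∞} (hf : ZPer f) (a b c : ℝ) :
    ∫⁻ p in Ico a (a + 1) ×ˢ Ico b (b + 1) ×ˢ Ico c (c + 1), f p = ∫⁻ p in C0, f p := by
  exact tbasic_lint (tbasic_FD3 a b c) tbasic_C0 (tbasic_p3 hf)
lemma integral_box {F : Type*} [NormedAddCommGroup F] [NormedSpace ℝ F] {f : X → F}
    (hf : ZPer f) (a b c : ℝ) :
    ∫ p in Ico a (a + 1) ×ˢ Ico b (b + 1) ×ˢ Ico c (c + 1), f p = ∫ p in C0, f p := by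
  exact tbasic_int (tbasic_FD3 a b c) tbasic_C0 (tbasic_p3 hf)
lemma lintegral_box2 {f : ℝ × ℝ → ℝ≥0∞} (hf : ZPer2 f) (b c : ℝ) :
    ∫⁻ q in Ico b (b + 1) ×ˢ Ico c (c + 1), f q = ∫⁻ q in C2, f q := by
  exact tbasic_lint (tbasic_FD2 b c) tbasic_C2 (tbasic_p2 hf)
lemma integral_box2 {F : Type*} [NormedAddCommGroup F] [NormedSpace ℝ F] {f : ℝ × ℝ → F}
    (hf : ZPer2 f) (b c : ℝ) :
    ∫ q in Ico b (b + 1) ×ˢ Ico c (c + 1), f q = ∫ q in C2, f q := by
  exact tbasic_int (tbasic_FD2 b c) tbasic_C2 (tbasic_p2 hf)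

/-- a periodic property that holds a.e. on a box holds a.e. -/
lemma ae_of_ae_box {P : X → Prop} (hP : ZPer P) (a b c : ℝ)
    (h : ∀ᵐ p : X, p ∈ Ico a (a + 1) ×ˢ Ico b (b + 1) ×ˢ Ico c (c + 1) → P p) : ∀ᵐ p : X, P p := by
  exact tbasic_ae (tbasic_FD3 a b c) (tbasic_p3 hP) h
lemma ae_of_ae_box2 {P : ℝ × ℝ → Prop} (hP : ZPer2 P) (b c : ℝ)
    (h : ∀ᵐ q : ℝ × ℝ, q ∈ Ico b (b + 1) ×ˢ Ico c (c + 1) → P q) : ∀ᵐ q : ℝ × ℝ, P q := by
  exact tbasic_ae (tbasic_FD2 b c) (tbasic_p2 hP) h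

lemma measurePreserving_cyc : MeasurePreserving cyc (volume : Measure X) volume := by
  exact ((measurePreserving_prodAssoc (volume : Measure ℝ) (volume : Measure ℝ)
    (volume : Measure ℝ)).comp Measure.measurePreserving_swap :)
lemma measurePreserving_cyi : MeasurePreserving cyi (volume : Measure X) volume := by
  exact (measurePreserving_cyc.comp measurePreserving_cyc :)
lemma measurePreserving_swp : MeasurePreserving swp (volume : Measure X) volume := by
  exact ((MeasurePreserving.id (volume : Measure ℝ)).prod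
    (Measure.measurePreserving_swap (μ := (volume : Measure ℝ)) (ν := (volume : Measure ℝ))) :)

/-- Fubini and the fundamental theorem of calculus -/
lemma integral_d1 {f : X → ℝ} (hf : ContDiff ℝ 1 f) (hp : ZPer f) : ∫ p in C0, d1 f p = 0 := by
  simpa [d1, tbasic_l3, tbasic_l2] using
    tbasic_fderiv tbasic_C0 tbasic_K3 tbasic_s3 hf (tbasic_p3 hp) (1, 0, 0)
lemma integral_d2 {f : X → ℝ} (hf : ContDiff ℝ 1 f) (hp : ZPer f) : ∫ p in C0, d2 f p = 0 := by
  simpa [d2, tbasic_l3, tbasic_l2] using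
    tbasic_fderiv tbasic_C0 tbasic_K3 tbasic_s3 hf (tbasic_p3 hp) (0, 1, 0)
lemma integral_d3 {f : X → ℝ} (hf : ContDiff ℝ 1 f) (hp : ZPer f) : ∫ p in C0, d3 f p = 0 := by
  simpa [d3, tbasic_l3, tbasic_l2] using
    tbasic_fderiv tbasic_C0 tbasic_K3 tbasic_s3 hf (tbasic_p3 hp) (0, 0, 1)
lemma integral_da {w : ℝ × ℝ → ℝ} (hw : ContDiff ℝ 1 w) (hp : ZPer2 w) :
    ∫ q in C2, da w q = 0 := by
  simpa [da, tbasic_l2] using
    tbasic_fderiv tbasic_C2 tbasic_K2 tbasic_s2 hw (tbasic_p2 hp) (1, 0)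
lemma integral_db {w : ℝ × ℝ → ℝ} (hw : ContDiff ℝ 1 w) (hp : ZPer2 w) :
    ∫ q in C2, db w q = 0 := by
  simpa [db, tbasic_l2] using
    tbasic_fderiv tbasic_C2 tbasic_K2 tbasic_s2 hw (tbasic_p2 hp) (0, 1)

/-- integration by parts -/
lemma integral_mul_dv {u f1 f2 f3 : X → ℝ} (hu : ContDiff ℝ 1 u) (hp : ZPer u)
    (h1 : ContDiff ℝ 1 f1) (h2 : ContDiff ℝ 1 f2) (h3 : ContDiff ℝ 1 f3)
    (p1 : ZPer f1) (p2 : ZPer f2) (p3 : ZPer f3) :
    ∫ p in C0, u p * dv f1 f2 f3 p =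
      -∫ p in C0, (d1 u p * f1 p + d2 u p * f2 p + d3 u p * f3 p) := by
  have q : ∀ {f : X → ℝ}, ZPer f → ZPer fun p => u p * f p := fun hf a b c p => by
    simp only [hp a b c p, hf a b c p]
  have e1 := integral_d1 (hu.mul h1) (q p1)
  have e2 := integral_d2 (hu.mul h2) (q p2)
  have e3 := integral_d3 (hu.mul h3) (q p3)
  have i1 := integrableOn_C0 (continuous_d1 (hu.mul h1))
  have i2 := integrableOn_C0 (continuous_d2 (hu.mul h2))
  have i3 := integrableOn_C0 (continuous_d3 (hu.mul h3))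
  have j1 := integrableOn_C0 (hu.continuous.mul (continuous_dv h1 h2 h3))
  have j2 := integrableOn_C0 ((((continuous_d1 hu).mul h1.continuous).add
    ((continuous_d2 hu).mul h2.continuous)).add ((continuous_d3 hu).mul h3.continuous))
  have e4 := integral_add (i1.add i2) i3
  have e5 := integral_add i1 i2
  have e6 := integral_add j1 j2
  simp only [Pi.add_apply, Pi.mul_apply] at e4 e5 e6
  rw [e5, e1, e2, e3] at e4
  rw [eq_neg_iff_add_eq_zero, ← e6, ← add_zero (0 : ℝ), ← add_zero (0 + 0 : ℝ), ← e4]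
  congr 1
  ext p
  simp only [dv, d1, d2, d3, tbasic_mul hu h1, tbasic_mul hu h2, tbasic_mul hu h3]
  ring

lemma integral_mul_dv_le {u f1 f2 f3 : X → ℝ} (hu : ContDiff ℝ 1 u) (hp : ZPer u)
    (h : TField f1 f2 f3) : ∫ p in C0, u p * dv f1 f2 f3 p ≤ ∫ p in C0, gn u p := by
  rw [integral_mul_dv hu hp h.c1 h.c2 h.c3 h.p1 h.p2 h.p3, ← integral_neg]
  refine integral_mono (integrableOn_C0 ((((continuous_d1 hu).mul h.c1.continuous).add
    ((continuous_d2 hu).mul h.c2.continuous)).add ((continuous_d3 hu).mul h.c3.continuous)).neg)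
    (integrableOn_C0 (continuous_gn hu)) fun p => ?_
  refine (neg_le_abs _).trans (Real.abs_le_sqrt ?_)
  have h1 := h.le p
  generalize d1 u p = a, d2 u p = b, d3 u p = c, f1 p = x, f2 p = y, f3 p = z at h1 ⊢
  nlinarith [sq_nonneg (a * y - b * x), sq_nonneg (a * z - c * x), sq_nonneg (b * z - c * y),
    mul_le_mul_of_nonneg_left h1 (by positivity : 0 ≤ a ^ 2 + b ^ 2 + c ^ 2)]

end Crest.Agent.R214
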