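import Crest.Agent.R214.Undo
import Crest.Agent.R214.Steiner

/-! Row 214: undoing the symmetrisations of a model. -/

set_option autoImplicit false

namespace Crest.Agent.R214

open MeasureTheory Set Filter Topology Real
open scoped ENNReal

lemma undomod_one {ρ k : ℝ} (hρ : 0 < ρ) (hk : 0 ≤ k) :
    ∫⁻ z in Ioo (-ρ) ρ, ENNReal.ofReal (k / √(ρ ^ 2 - z ^ 2)) = ENNReal.ofReal (k * π) := by
  have hc : ContinuousOn (fun z : ℝ => k * arcsin (z / ρ)) (Icc (-ρ) ρ) :=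
    (continuous_const.mul (continuous_arcsin.comp (continuous_id.div_const ρ))).continuousOn
  have hd : ∀ z ∈ Ioo (-ρ) ρ,
      HasDerivAt (fun z : ℝ => k * arcsin (z / ρ)) (k / √(ρ ^ 2 - z ^ 2)) z := by
    intro z hz
    have h1 : z / ρ ≠ -1 := by
      refine ne_of_gt ?_
      rw [lt_div_iff₀ hρ]; linarith [hz.1]
    have h2 : z / ρ ≠ 1 := by
      refine ne_of_lt ?_
      rw [div_lt_iff₀ hρ]; linarith [hz.2]
    have h3 := ((hasDerivAt_arcsin h1 h2).comp z ((hasDerivAt_id z).div_const ρ)).const_mul k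
    refine h3.congr_deriv ?_
    have h4 : √(ρ ^ 2 - z ^ 2) = √(1 - (z / ρ) ^ 2) * ρ := by
      rw [show ρ ^ 2 - z ^ 2 = (1 - (z / ρ) ^ 2) * ρ ^ 2 by field_simp,
        Real.sqrt_mul' _ (sq_nonneg ρ), Real.sqrt_sq hρ.le]
    rw [h4, div_mul_div_comm, mul_one, mul_one_div]
  have hle : -ρ ≤ ρ := by linarith
  have hi : IntegrableOn (fun z : ℝ => k / √(ρ ^ 2 - z ^ 2)) (Ioc (-ρ) ρ) :=
    intervalIntegral.integrableOn_deriv_of_nonneg hc hd fun z _ => by positivity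
  have hI := intervalIntegral.integral_eq_sub_of_hasDerivAt_of_le hle hc hd
    ((intervalIntegrable_iff_integrableOn_Ioc_of_le hle).mpr hi)
  rw [← ofReal_integral_eq_lintegral_ofReal (hi.mono_set Ioo_subset_Ioc_self)
    (Eventually.of_forall fun z => by positivity), ← integral_Ioc_eq_integral_Ioo,
    ← intervalIntegral.integral_of_le hle, hI, div_self hρ.ne', neg_div, div_self hρ.ne',
    arcsin_neg, arcsin_one]
  congr 1
  ring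

lemma undomod_fubini {S : Set (ℝ × ℝ)} (hS : MeasurableSet S) {f : ℝ × ℝ → ℝ≥0∞}
    (hf : Measurable f) : ∫⁻ q in S, f q = ∫⁻ y, ∫⁻ z in {z : ℝ | (y, z) ∈ S}, f (y, z) := by
  rw [← lintegral_indicator hS, Measure.volume_eq_prod,
    lintegral_prod _ (hf.indicator hS).aemeasurable]
  refine lintegral_congr fun y => ?_
  have h : MeasurableSet {z : ℝ | (y, z) ∈ S} := measurable_prodMk_left hS
  rw [← lintegral_indicator h]
  rfl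

lemma undomod_dz {s : ℝ} (h : s ∈ Ioo (-1 / 2 : ℝ) (1 / 2)) : dz s ^ 2 = s ^ 2 := by
  rw [dz_of_abs_le (abs_le.mpr ⟨by linarith [h.1], h.2.le⟩), sq_abs]

/-- `∫_Ω 2 r / √(r² - e2 y² - e3 z²)`: `2` (slab), `2 π r` (tube; primitive `arcsin`, monotone
convergence or `intervalIntegral`), `4 π r²` (ball; `lintegral_comp_polarCoord_symm` or iterate the
one-dimensional integral `∫_{-ρ}^{ρ} 1 / √(ρ² - z²) = π`). -/
lemma lintegral_mod {e2 e3 r : ℝ} (hb : Bits 1 e2 e3) (h0 : 0 < r) (h1 : r ≤ 1 / 3) :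
    ∫⁻ q in {q : ℝ × ℝ | q ∈ Ioo (-1 / 2 : ℝ) (1 / 2) ×ˢ Ioo (-1 / 2 : ℝ) (1 / 2) ∧
        e2 * q.1 ^ 2 + e3 * q.2 ^ 2 < r ^ 2},
      ENNReal.ofReal (2 * r / √(r ^ 2 - e2 * q.1 ^ 2 - e3 * q.2 ^ 2)) =
      ENNReal.ofReal (mper (1 + e2 + e3) r) := by
  have he2 : 0 ≤ e2 := by rcases hb.b2 with h | h <;> simp [h]
  have hS : MeasurableSet {q : ℝ × ℝ | q ∈ Ioo (-1 / 2 : ℝ) (1 / 2) ×ˢ Ioo (-1 / 2 : ℝ) (1 / 2) ∧
      e2 * q.1 ^ 2 + e3 * q.2 ^ 2 < r ^ 2} :=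
    (measurableSet_Ioo.prod measurableSet_Ioo).inter (measurableSet_lt
      (f := fun q : ℝ × ℝ => e2 * q.1 ^ 2 + e3 * q.2 ^ 2) (g := fun _ => r ^ 2)
      (by fun_prop) (by fun_prop))
  have hT : MeasurableSet {y : ℝ | y ∈ Ioo (-1 / 2 : ℝ) (1 / 2) ∧ e2 * y ^ 2 < r ^ 2} :=
    measurableSet_Ioo.inter (measurableSet_lt (f := fun y : ℝ => e2 * y ^ 2) (g := fun _ => r ^ 2)
      (by fun_prop) (by fun_prop))
  have hT0 : {y : ℝ | y ∈ Ioo (-1 / 2 : ℝ) (1 / 2) ∧ 0 * y ^ 2 < r ^ 2} = Ioo (-1 / 2) (1 / 2) := by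
    ext y
    simp only [mem_ofPred_eq, zero_mul, and_iff_left (pow_pos h0 2)]
  have hT1 : {y : ℝ | y ∈ Ioo (-1 / 2 : ℝ) (1 / 2) ∧ 1 * y ^ 2 < r ^ 2} = Ioo (-r) r := by
    ext y
    simp only [mem_ofPred_eq, one_mul, mem_Ioo]
    constructor
    · rintro ⟨-, h⟩
      exact abs_lt.mp (abs_lt_of_sq_lt_sq h h0.le)
    · rintro ⟨h2, h3⟩
      exact ⟨⟨by linarith, by linarith⟩, sq_lt_sq' h2 h3⟩
  rw [undomod_fubini hS (by fun_prop)]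
  rcases hb.b3 with rfl | rfl
  · have e : ∀ y : ℝ, ∫⁻ z in {z : ℝ | (y, z) ∈ {q : ℝ × ℝ |
        q ∈ Ioo (-1 / 2 : ℝ) (1 / 2) ×ˢ Ioo (-1 / 2 : ℝ) (1 / 2) ∧
          e2 * q.1 ^ 2 + 0 * q.2 ^ 2 < r ^ 2}},
        ENNReal.ofReal (2 * r / √(r ^ 2 - e2 * y ^ 2 - 0 * z ^ 2)) =
        {y : ℝ | y ∈ Ioo (-1 / 2 : ℝ) (1 / 2) ∧ e2 * y ^ 2 < r ^ 2}.indicator
          (fun y => ENNReal.ofReal (2 * r / √(r ^ 2 - e2 * y ^ 2))) y := by
      intro y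
      by_cases hy : y ∈ {y : ℝ | y ∈ Ioo (-1 / 2 : ℝ) (1 / 2) ∧ e2 * y ^ 2 < r ^ 2}
      · rw [indicator_of_mem hy]
        have e1 : {z : ℝ | (y, z) ∈ {q : ℝ × ℝ |
            q ∈ Ioo (-1 / 2 : ℝ) (1 / 2) ×ˢ Ioo (-1 / 2 : ℝ) (1 / 2) ∧
            e2 * q.1 ^ 2 + 0 * q.2 ^ 2 < r ^ 2}} = Ioo (-1 / 2) (1 / 2) := by
          ext z
          simp only [mem_ofPred_eq, mem_prod, zero_mul, add_zero]
          exact ⟨fun h => h.1.2, fun h => ⟨⟨hy.1, h⟩, hy.2⟩⟩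
        rw [e1]
        simp only [zero_mul, sub_zero, setLIntegral_const, Real.volume_Ioo]
        norm_num
      · rw [indicator_of_notMem hy]
        have e1 : {z : ℝ | (y, z) ∈ {q : ℝ × ℝ |
            q ∈ Ioo (-1 / 2 : ℝ) (1 / 2) ×ˢ Ioo (-1 / 2 : ℝ) (1 / 2) ∧
            e2 * q.1 ^ 2 + 0 * q.2 ^ 2 < r ^ 2}} = ∅ := by
          refine eq_empty_of_forall_notMem fun z hz => hy ⟨hz.1.1, ?_⟩
          simpa using hz.2
        rw [e1, Measure.restrict_empty, lintegral_zero_measure]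
    simp only [e]
    rw [lintegral_indicator hT]
    rcases hb.b2 with rfl | rfl
    · rw [hT0]
      simp only [zero_mul, sub_zero, Real.sqrt_sq h0.le, setLIntegral_const, Real.volume_Ioo]
      have : 2 * r / r = 2 := by field_simp
      rw [this]
      norm_num [mper]
    · rw [hT1]
      simp only [one_mul]
      rw [undomod_one h0 (by positivity)]
      congr 1
      norm_num [mper]
      ring
  · have e : ∀ y : ℝ, ∫⁻ z in {z : ℝ | (y, z) ∈ {q : ℝ × ℝ |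
        q ∈ Ioo (-1 / 2 : ℝ) (1 / 2) ×ˢ Ioo (-1 / 2 : ℝ) (1 / 2) ∧
          e2 * q.1 ^ 2 + 1 * q.2 ^ 2 < r ^ 2}},
        ENNReal.ofReal (2 * r / √(r ^ 2 - e2 * y ^ 2 - 1 * z ^ 2)) =
        {y : ℝ | y ∈ Ioo (-1 / 2 : ℝ) (1 / 2) ∧ e2 * y ^ 2 < r ^ 2}.indicator
          (fun _ => ENNReal.ofReal (2 * r * π)) y := by
      intro y
      by_cases hy : y ∈ {y : ℝ | y ∈ Ioo (-1 / 2 : ℝ) (1 / 2) ∧ e2 * y ^ 2 < r ^ 2}
      · rw [indicator_of_mem hy]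
        have hs : 0 < r ^ 2 - e2 * y ^ 2 := sub_pos.mpr hy.2
        obtain ⟨ρ, hρ, hρ2⟩ : ∃ ρ : ℝ, 0 < ρ ∧ r ^ 2 - e2 * y ^ 2 = ρ ^ 2 :=
          ⟨_, Real.sqrt_pos.mpr hs, (Real.sq_sqrt hs.le).symm⟩
        have hρr : ρ ≤ r := by
          refine (pow_le_pow_iff_left₀ hρ.le h0.le two_ne_zero).mp ?_
          linarith [mul_nonneg he2 (sq_nonneg y)]
        have e1 : {z : ℝ | (y, z) ∈ {q : ℝ × ℝ |
            q ∈ Ioo (-1 / 2 : ℝ) (1 / 2) ×ˢ Ioo (-1 / 2 : ℝ) (1 / 2) ∧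
            e2 * q.1 ^ 2 + 1 * q.2 ^ 2 < r ^ 2}} = Ioo (-ρ) ρ := by
          ext z
          simp only [mem_ofPred_eq, mem_prod, one_mul, mem_Ioo]
          constructor
          · rintro ⟨-, h⟩
            exact abs_lt.mp (abs_lt_of_sq_lt_sq (by linarith) hρ.le)
          · rintro ⟨h2, h3⟩
            exact ⟨⟨hy.1, by linarith, by linarith⟩, by linarith [sq_lt_sq' h2 h3]⟩
        rw [e1, hρ2]
        simp only [one_mul]
        exact undomod_one hρ (by positivity)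
      · rw [indicator_of_notMem hy]
        have e1 : {z : ℝ | (y, z) ∈ {q : ℝ × ℝ |
            q ∈ Ioo (-1 / 2 : ℝ) (1 / 2) ×ˢ Ioo (-1 / 2 : ℝ) (1 / 2) ∧
            e2 * q.1 ^ 2 + 1 * q.2 ^ 2 < r ^ 2}} = ∅ := by
          refine eq_empty_of_forall_notMem fun z hz => hy ⟨hz.1.1, ?_⟩
          have h2 : e2 * y ^ 2 + 1 * z ^ 2 < r ^ 2 := hz.2
          nlinarith [sq_nonneg z]
        rw [e1, Measure.restrict_empty, lintegral_zero_measure]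
    simp only [e]
    rw [lintegral_indicator hT, setLIntegral_const]
    rcases hb.b2 with rfl | rfl
    · rw [hT0, Real.volume_Ioo, ← ENNReal.ofReal_mul (by positivity)]
      congr 1
      norm_num [mper]
      ring
    · rw [hT1, Real.volume_Ioo, ← ENNReal.ofReal_mul (by positivity)]
      congr 1
      norm_num [mper]
      ring

lemma fib_mod {e2 e3 r : ℝ} (hb : Bits 1 e2 e3) (h0 : 0 < r) (h1 : r ≤ 1 / 3) (q : ℝ × ℝ) :
    fib (Mod 1 e2 e3 r) q = 2 * √(r ^ 2 - e2 * dz q.1 ^ 2 - e3 * dz q.2 ^ 2) := by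
  have he2 : 0 ≤ e2 := by rcases hb.b2 with h | h <;> simp [h]
  have he3 : 0 ≤ e3 := by rcases hb.b3 with h | h <;> simp [h]
  set s := r ^ 2 - e2 * dz q.1 ^ 2 - e3 * dz q.2 ^ 2 with hs
  have h2 : √s ≤ r := by
    rw [Real.sqrt_le_left h0.le]
    nlinarith [mul_nonneg he2 (sq_nonneg (dz q.1)), mul_nonneg he3 (sq_nonneg (dz q.2))]
  have e : {t : ℝ | t ∈ Ico (0 : ℝ) 1 ∧ (t, q) ∈ Mod 1 e2 e3 r} =
      {t : ℝ | t ∈ Ico (0 : ℝ) 1 ∧ dz (t - 0) < 2 * √s / 2} := by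
    ext t
    simp only [mem_ofPred_eq, Mod, sub_zero, one_mul]
    rw [mul_div_cancel_left₀ _ two_ne_zero, Real.lt_sqrt (dz_nonneg t), hs]
    refine and_congr_right fun _ => ⟨fun h => by linarith, fun h => by linarith⟩
  rw [fib, e, volume_dz_lt (by positivity) (by linarith), ENNReal.toReal_ofReal (by positivity)]

lemma undomod_grad {e2 e3 r : ℝ} (hb : Bits 1 e2 e3) (h0 : 0 < r) {q : ℝ × ℝ}
    (hq : e2 * q.1 ^ 2 + e3 * q.2 ^ 2 < r ^ 2) :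
    √(4 + da (fun q : ℝ × ℝ => 2 * √(r ^ 2 - e2 * q.1 ^ 2 - e3 * q.2 ^ 2)) q ^ 2 +
      db (fun q : ℝ × ℝ => 2 * √(r ^ 2 - e2 * q.1 ^ 2 - e3 * q.2 ^ 2)) q ^ 2) =
      2 * r / √(r ^ 2 - e2 * q.1 ^ 2 - e3 * q.2 ^ 2) := by
  have hs : 0 < r ^ 2 - e2 * q.1 ^ 2 - e3 * q.2 ^ 2 := by linarith
  have h1 : HasFDerivAt (fun q : ℝ × ℝ => r ^ 2 - e2 * q.1 ^ 2 - e3 * q.2 ^ 2) _ q :=
    ((hasFDerivAt_const (r ^ 2) q).sub
      (((hasFDerivAt_fst (𝕜 := ℝ) (p := q)).pow 2).const_mul e2)).sub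
      (((hasFDerivAt_snd (𝕜 := ℝ) (p := q)).pow 2).const_mul e3)
  have h2 := ((h1.sqrt hs.ne').const_mul 2).fderiv
  obtain ⟨ρ, hρ, hρ2⟩ : ∃ ρ : ℝ, 0 < ρ ∧ r ^ 2 - e2 * q.1 ^ 2 - e3 * q.2 ^ 2 = ρ ^ 2 :=
    ⟨_, Real.sqrt_pos.mpr hs, (Real.sq_sqrt hs.le).symm⟩
  have ha : da (fun q : ℝ × ℝ => 2 * √(r ^ 2 - e2 * q.1 ^ 2 - e3 * q.2 ^ 2)) q =
      -(2 * e2 * q.1 / ρ) := by
    rw [da, h2, hρ2, Real.sqrt_sq hρ.le]
    simp
    field_simp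
  have hb' : db (fun q : ℝ × ℝ => 2 * √(r ^ 2 - e2 * q.1 ^ 2 - e3 * q.2 ^ 2)) q =
      -(2 * e3 * q.2 / ρ) := by
    rw [db, h2, hρ2, Real.sqrt_sq hρ.le]
    simp
    field_simp
  have he2 : e2 ^ 2 = e2 := by rcases hb.b2 with h | h <;> simp [h]
  have he3 : e3 ^ 2 = e3 := by rcases hb.b3 with h | h <;> simp [h]
  rw [ha, hb', hρ2, Real.sqrt_sq hρ.le, Real.sqrt_eq_iff_eq_sq (by positivity) (by positivity)]
  field_simp
  linear_combination (-4) * hρ2 + 4 * q.1 ^ 2 * he2 + 4 * q.2 ^ 2 * he3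

lemma undomod_hyp {E : Set X} (hE : PerSet E) {e2 e3 r : ℝ} (hb : Bits 1 e2 e3) (h0 : 0 < r)
    (h1 : r ≤ 1 / 3) (hfib : fib E =ᵐ[volume] fib (Mod 1 e2 e3 r))
    (hP : tper E ≤ ENNReal.ofReal (mper (1 + e2 + e3) r)) :
    UHyp E {q : ℝ × ℝ | q ∈ Ioo (-1 / 2 : ℝ) (1 / 2) ×ˢ Ioo (-1 / 2 : ℝ) (1 / 2) ∧
        e2 * q.1 ^ 2 + e3 * q.2 ^ 2 < r ^ 2}
      fun q => 2 * √(r ^ 2 - e2 * q.1 ^ 2 - e3 * q.2 ^ 2) := by
  have he2 : 0 ≤ e2 := by rcases hb.b2 with h | h <;> simp [h]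
  have he3 : 0 ≤ e3 := by rcases hb.b3 with h | h <;> simp [h]
  have hop : IsOpen {q : ℝ × ℝ | q ∈ Ioo (-1 / 2 : ℝ) (1 / 2) ×ˢ Ioo (-1 / 2 : ℝ) (1 / 2) ∧
      e2 * q.1 ^ 2 + e3 * q.2 ^ 2 < r ^ 2} :=
    (isOpen_Ioo.prod isOpen_Ioo).inter (isOpen_lt
      (f := fun q : ℝ × ℝ => e2 * q.1 ^ 2 + e3 * q.2 ^ 2) (g := fun _ => r ^ 2)
      (by fun_prop) (by fun_prop))
  have hint := (setLIntegral_congr_fun hop.measurableSet fun q hq =>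
    congrArg ENNReal.ofReal (undomod_grad hb h0 hq.2)).trans (lintegral_mod hb h0 h1)
  refine ⟨hE, hop, ?_, fun q hq => hq.1, ⟨⟨by norm_num, by norm_num⟩, by simpa using pow_pos h0 2⟩,
    ?_, fun q hq => ?_, fun q hq => ?_, ?_, hP.trans hint.ge, hint.trans_ne ENNReal.ofReal_ne_top⟩
  · refine ((convex_Ioo _ _).prod (convex_Ioo _ _)).inter ?_
    intro p hp q hq a b ha hb' hab
    have hp' : e2 * p.1 ^ 2 + e3 * p.2 ^ 2 < r ^ 2 := hp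
    have hq' : e2 * q.1 ^ 2 + e3 * q.2 ^ 2 < r ^ 2 := hq
    change e2 * (a * p.1 + b * q.1) ^ 2 + e3 * (a * p.2 + b * q.2) ^ 2 < r ^ 2
    have k : ∀ x y : ℝ, (a * x + b * y) ^ 2 ≤ a * x ^ 2 + b * y ^ 2 := fun x y => by
      have e : a * x ^ 2 + b * y ^ 2 - (a * x + b * y) ^ 2 = a * b * (x - y) ^ 2 := by
        obtain rfl : b = 1 - a := by linarith
        ring
      nlinarith [mul_nonneg (mul_nonneg ha hb') (sq_nonneg (x - y))]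
    have k1 := mul_le_mul_of_nonneg_left (k p.1 q.1) he2
    have k2 := mul_le_mul_of_nonneg_left (k p.2 q.2) he3
    have k3 : a * (e2 * p.1 ^ 2 + e3 * p.2 ^ 2) + b * (e2 * q.1 ^ 2 + e3 * q.2 ^ 2) < r ^ 2 :=
      (convex_Iio (r ^ 2)) hp' hq' ha hb' hab
    linarith
  · refine contDiffOn_const.mul (ContDiffOn.sqrt (by fun_prop) fun q hq => ?_)
    exact ne_of_gt (by linarith [hq.2])
  · have : 0 < √(r ^ 2 - e2 * q.1 ^ 2 - e3 * q.2 ^ 2) := Real.sqrt_pos.mpr (by linarith [hq.2])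
    linarith
  · have h2 : √(r ^ 2 - e2 * q.1 ^ 2 - e3 * q.2 ^ 2) ≤ r := by
      rw [Real.sqrt_le_left h0.le]
      nlinarith [mul_nonneg he2 (sq_nonneg q.1), mul_nonneg he3 (sq_nonneg q.2)]
    linarith
  · filter_upwards [hfib] with q hq hq'
    rw [hq, fib_mod hb h0 h1, undomod_dz hq'.1.1, undomod_dz hq'.1.2]

/-- If `e1 = 0` the fibres are full or empty.  If `e1 = 1` apply `UHyp.undo` with
`m q = 2 √(r² - e2 q.1² - e3 q.2²)`; off `Ω` (mod the lattice, `ae_of_ae_box`) the fibres are null. -/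
theorem undo_mod {E : Set X} (hE : PerSet E) {e1 e2 e3 r : ℝ} (hb : Bits e1 e2 e3) (h0 : 0 < r)
    (h1 : r ≤ 1 / 3) (hst : st E =ᵐ[volume] Mod e1 e2 e3 r)
    (hP : tper E ≤ ENNReal.ofReal (mper (e1 + e2 + e3) r)) :
    ∃ a : ℝ, E =ᵐ[volume] tr (a, 0, 0) (Mod e1 e2 e3 r) := by
  have hfib : fib E =ᵐ[volume] fib (Mod e1 e2 e3 r) := by
    rw [← fib_st E]
    exact fib_congr hE.st.meas (perSet_mod e1 e2 e3 r).meas hst
  rcases hb.b1 with rfl | rfl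
  · refine ⟨0, ?_⟩
    rw [show ((0, 0, 0) : X) = 0 from rfl, tr_zero]
    refine (ae_eq_st_of_trivial hE ?_).trans hst
    filter_upwards [hfib] with q hq
    rw [hq]
    by_cases h : e2 * dz q.1 ^ 2 + e3 * dz q.2 ^ 2 < r ^ 2
    · right
      have e : {t : ℝ | t ∈ Ico (0 : ℝ) 1 ∧ (t, q) ∈ Mod 0 e2 e3 r} = Ico 0 1 := by
        ext t
        simp only [mem_ofPred_eq, Mod, zero_mul, zero_add, h, and_true]
      rw [fib, e]
      simp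
    · left
      have e : {t : ℝ | t ∈ Ico (0 : ℝ) 1 ∧ (t, q) ∈ Mod 0 e2 e3 r} = ∅ := by
        ext t
        simp only [mem_ofPred_eq, Mod, zero_mul, zero_add, h, and_false, mem_empty_iff_false]
      rw [fib, e]
      simp
  · obtain ⟨c, hc⟩ := (undomod_hyp hE hb h0 h1 hfib hP).undo
    refine ⟨c, ?_⟩
    have hF := (perSet_mod 1 e2 e3 r).tr (c, 0, 0)
    rw [eventuallyEq_set]
    refine ae_of_ae_box (P := fun p => p ∈ E ↔ p ∈ tr (c, 0, 0) (Mod 1 e2 e3 r))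
      (fun a b d p => by simp only [hE.per, hF.per]) (-1 / 2) (-1 / 2) (-1 / 2) ?_
    have hsnd : Measure.QuasiMeasurePreserving (Prod.snd : X → ℝ × ℝ) volume volume :=
      Measure.quasiMeasurePreserving_snd
    have hy : ∀ᵐ q : ℝ × ℝ, q.1 ≠ -1 / 2 :=
      (Measure.quasiMeasurePreserving_fst (μ := (volume : Measure ℝ))
        (ν := (volume : Measure ℝ))).ae (Measure.ae_ne _ _)
    have hz : ∀ᵐ q : ℝ × ℝ, q.2 ≠ -1 / 2 :=
      (Measure.quasiMeasurePreserving_snd (μ := (volume : Measure ℝ))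
        (ν := (volume : Measure ℝ))).ae (Measure.ae_ne _ _)
    filter_upwards [hc, hsnd.ae hfib, hsnd.ae hy, hsnd.ae hz, ae_notMem_of_fib_zero hE]
      with p hp1 hp2 hp3 hp4 hp5 hp6
    obtain ⟨-, ⟨hy1, hy2⟩, hz1, hz2⟩ := hp6
    have hy3 : p.2.1 ∈ Ioo (-1 / 2 : ℝ) (1 / 2) := ⟨lt_of_le_of_ne hy1 hp3.symm, by linarith⟩
    have hz3 : p.2.2 ∈ Ioo (-1 / 2 : ℝ) (1 / 2) := ⟨lt_of_le_of_ne hz1 hp4.symm, by linarith⟩
    have ht : p ∈ tr (c, 0, 0) (Mod 1 e2 e3 r) ↔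
        dz (p.1 - c) ^ 2 + e2 * p.2.1 ^ 2 + e3 * p.2.2 ^ 2 < r ^ 2 := by
      simp only [tr, Mod, mem_ofPred_eq, Prod.fst_sub, Prod.snd_sub, sub_zero, one_mul,
        undomod_dz hy3, undomod_dz hz3]
    rw [ht]
    by_cases h : e2 * p.2.1 ^ 2 + e3 * p.2.2 ^ 2 < r ^ 2
    · rw [hp1 ⟨⟨hy3, hz3⟩, h⟩, mul_div_cancel_left₀ _ two_ne_zero, Real.lt_sqrt (dz_nonneg _)]
      exact ⟨fun h => by linarith, fun h => by linarith⟩
    · rw [fib_mod hb h0 h1, undomod_dz hy3, undomod_dz hz3,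
        Real.sqrt_eq_zero'.mpr (by linarith), mul_zero] at hp2
      exact iff_of_false (hp5 hp2) fun h' => h (by nlinarith [sq_nonneg (dz (p.1 - c))])

lemma undomod_step {F : Set X} (hF : PerSet F) {e1 e2 e3 r : ℝ} (hb : Bits e1 e2 e3) (h0 : 0 < r)
    (h1 : r ≤ 1 / 3) {x z : ℝ} (hst : cyc ⁻¹' st F =ᵐ[volume] tr (x, 0, z) (Mod e3 e1 e2 r))
    (hP : tper F ≤ ENNReal.ofReal (mper (e1 + e2 + e3) r)) :
    ∃ a : ℝ, F =ᵐ[volume] tr (a, z, x) (Mod e1 e2 e3 r) := by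
  have h2 : st F =ᵐ[volume] tr (0, z, x) (Mod e1 e2 e3 r) := by
    have h := cyc_congr (cyc_congr hst)
    rwa [cyc_cyc_cyc, cyc_tr, cyc_tr, cyc_mod, cyc_mod] at h
  have h3 : st (tr (0, -z, -x) F) =ᵐ[volume] Mod e1 e2 e3 r := by
    have h := tr_congr h2 (0, -z, -x)
    rw [tr_tr, ← st_tr, show ((0, -z, -x) + (0, z, x) : X) = 0 by simp, tr_zero] at h
    exact h
  obtain ⟨a, ha⟩ := undo_mod (hF.tr _) hb h0 h1 h3 (by rwa [tper_tr hF])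
  refine ⟨a, ?_⟩
  have h := tr_congr ha (0, z, x)
  rw [tr_tr, tr_tr, show ((0, z, x) + (0, -z, -x) : X) = 0 by simp, tr_zero,
    show ((0, z, x) + (a, 0, 0) : X) = (a, z, x) by simp] at h
  exact h

/-- three times `undo_mod`, translating in between (`st_tr`, `cyc_tr`, `tper_st_le`) -/
theorem undo_sym3 {E : Set X} (hE : PerSet E) {e1 e2 e3 r : ℝ} (hb : Bits e1 e2 e3) (h0 : 0 < r)
    (h1 : r ≤ 1 / 3) (hst : sym3 E =ᵐ[volume] Mod e1 e2 e3 r)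
    (hP : tper E ≤ ENNReal.ofReal (mper (e1 + e2 + e3) r)) :
    ∃ c : X, E =ᵐ[volume] tr c (Mod e1 e2 e3 r) := by
  have hb2 : Bits e2 e3 e1 := ⟨hb.b2, hb.b3, hb.b1, by linarith [hb.pos]⟩
  have hb3 : Bits e3 e1 e2 := ⟨hb.b3, hb.b1, hb.b2, by linarith [hb.pos]⟩
  have hE1 := hE.st.cyc
  have hE2 := hE1.st.cyc
  have hP1 : tper (cyc ⁻¹' st E) ≤ tper E := by rw [tper_cyc]; exact tper_st_le hE
  have hP2 : tper (cyc ⁻¹' st (cyc ⁻¹' st E)) ≤ tper E := by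
    rw [tper_cyc]; exact (tper_st_le hE1).trans hP1
  have h2 : cyc ⁻¹' st (cyc ⁻¹' st (cyc ⁻¹' st E)) =ᵐ[volume] tr (0, 0, 0) (Mod e1 e2 e3 r) := by
    rw [show ((0, 0, 0) : X) = 0 from rfl, tr_zero]
    exact hst
  obtain ⟨a, ha⟩ := undomod_step hE2 hb2 h0 h1 h2
    (by rw [show e2 + e3 + e1 = e1 + e2 + e3 by ring]; exact hP2.trans hP)
  obtain ⟨b, hb'⟩ := undomod_step hE1 hb3 h0 h1 ha
    (by rw [show e3 + e1 + e2 = e1 + e2 + e3 by ring]; exact hP1.trans hP)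
  obtain ⟨c, hc⟩ := undomod_step hE hb h0 h1 hb' hP
  exact ⟨_, hc⟩

end Crest.Agent.R214
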