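import Crest.Agent.R214.CubeMain
import Crest.Agent.R214.Fold
import Crest.Agent.R214.UndoMod
import Crest.Agent.R214.ModPer
import Crest.Agent.R214.Bridge

/-! Row 214: the isoperimetric problem in the torus. -/

set_option autoImplicit false

namespace Crest.Agent.R214

open MeasureTheory Set Filter Topology Real
open scoped ENNReal
open Crest.GeometryTopology.PeriodicPerimeter

variable {E : Set X}

theorem two_conj_le_tper (hE : PerSet E) : ENNReal.ofReal (2 * conj (tvol E)) ≤ tper E := by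
  have hS := hE.sym3
  have hm := mono_sym3 E
  have h1 := (down_cube hS hm).conj_le_per
  rw [vol_cube hS hm, tvol_sym3 hE] at h1
  exact (ENNReal.ofReal_le_ofReal (by linarith)).trans
    ((per_cube_le hS hm).trans (tper_sym3_le hE))

theorem tper_mod {V e1 e2 e3 r : ℝ} (hb : Bits e1 e2 e3) (hs : Std V (e1 + e2 + e3) r) :
    tvol (Mod e1 e2 e3 r) = V ∧ tper (Mod e1 e2 e3 r) = ENNReal.ofReal (2 * conj V) := by
  have hv : tvol (Mod e1 e2 e3 r) = V := by rw [tvol_mod hb hs.1 hs.r_le, ← hs.2.1]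
  refine ⟨hv, le_antisymm ?_ ?_⟩
  · rw [← hs.mper_eq]
    exact tper_mod_le hb hs.1 hs.r_le
  · have := two_conj_le_tper (perSet_mod e1 e2 e3 r)
    rwa [hv] at this

theorem class_of_tper (hE : PerSet E) (h0 : 0 < tvol E) (h1 : tvol E ≤ 1 / 2)
    (hp : tper E ≤ ENNReal.ofReal (2 * conj (tvol E))) : ∃ (e1 e2 e3 r : ℝ) (c : X), Bits e1 e2 e3 ∧
      Std (tvol E) (e1 + e2 + e3) r ∧ E =ᵐ[volume] tr c (Mod e1 e2 e3 r) := by
  have hS := hE.sym3
  have hm := mono_sym3 E
  have hD := down_cube hS hm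
  have hv : vol (cube (sym3 E)) = tvol E := by rw [vol_cube hS hm, tvol_sym3 hE]
  have hc : 0 ≤ conj (tvol E) := by
    unfold conj sph
    have : 0 ≤ min (tvol E) (1 - tvol E) := le_min h0.le (by linarith)
    exact le_min (le_min (by positivity) (Real.sqrt_nonneg _)) zero_le_one
  have h2 := ((per_cube_le hS hm).trans (tper_sym3_le hE)).trans hp
  rw [ENNReal.ofReal_le_ofReal_iff (by linarith)] at h2
  obtain ⟨e1, e2, e3, r, hb, hs, hae⟩ := hD.class (by rwa [hv]) (by rwa [hv])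
    (by rw [hv]; linarith)
  rw [hv] at hs
  obtain ⟨c, hc⟩ := undo_sym3 hE hb hs.1 hs.r_le (ae_mod_of_cube hS hm hae)
    (by rwa [hs.mper_eq])
  exact ⟨e1, e2, e3, r, c, hb, hs, hc⟩

theorem lower_bound {V : ℝ} {E : Set E3} (hE : MeasurableSet E) (hp : IsLatticePeriodic E)
    (hv : periodicVolume E = V) : ENNReal.ofReal (2 * conj V) ≤ periodicPerimeter E := by
  have := two_conj_le_tper (perSet_pull hE hp)
  rwa [tvol_pull, tper_pull, hv] at this

theorem exists_half {V : ℝ} (h0 : 0 < V) (h1 : V ≤ 1 / 2) :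
    ∃ F : Set X, PerSet F ∧ tvol F = V ∧ tper F = ENNReal.ofReal (2 * conj V) := by
  obtain ⟨e1, e2, e3, r, hb, hs⟩ := exists_std h0 h1
  exact ⟨_, perSet_mod e1 e2 e3 r, tper_mod hb hs⟩

theorem exists_opt {V : ℝ} (h0 : 0 < V) (h1 : V < 1) : ∃ E : Set E3, MeasurableSet E ∧
    IsLatticePeriodic E ∧ periodicVolume E = V ∧
      periodicPerimeter E = ENNReal.ofReal (2 * conj V) := by
  have key : ∃ F : Set X, PerSet F ∧ tvol F = V ∧ tper F = ENNReal.ofReal (2 * conj V) := by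
    rcases le_total V (1 / 2) with h | h
    · exact exists_half h0 h
    · obtain ⟨F, hF, hv, hp⟩ := exists_half (V := 1 - V) (by linarith) (by linarith)
      refine ⟨Fᶜ, hF.compl, by rw [tvol_compl hF, hv]; ring, ?_⟩
      rw [tper_compl hF, hp, conj_symm]
  obtain ⟨F, hF, hv, hp⟩ := key
  have e : ofX ⁻¹' (toX ⁻¹' F) = F := by
    ext p
    simp
  refine ⟨toX ⁻¹' F, hF.push.1, hF.push.2, ?_, ?_⟩
  · rw [← tvol_pull, e, hv]
  · rw [← tper_pull, e, hp]

theorem iff_half {V : ℝ} (h0 : 0 < V) (h1 : V ≤ 1 / 2) {E : Set E3} (hE : PerSet (ofX ⁻¹' E))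
    (hv : tvol (ofX ⁻¹' E) = V) :
    tper (ofX ⁻¹' E) = ENNReal.ofReal (2 * conj V) ↔ IsStandardRegion V E := by
  constructor
  · intro h
    obtain ⟨e1, e2, e3, r, c, hb, hs, hae⟩ := class_of_tper hE (by rwa [hv]) (by rwa [hv])
      (by rw [hv, h])
    rw [hv] at hs
    exact isStandardRegion_of_mod hb hs hae
  · intro h
    obtain ⟨e1, e2, e3, r, c, hb, hs, hae⟩ := mod_of_isStandardRegion h0 h1 h
    rw [tper_congr hae, tper_tr (perSet_mod e1 e2 e3 r), (tper_mod hb hs).2]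

theorem iff_std {V : ℝ} (h0 : 0 < V) (h1 : V < 1) {E : Set E3} (hE : MeasurableSet E)
    (hp : IsLatticePeriodic E) (hv : periodicVolume E = V) :
    periodicPerimeter E = ENNReal.ofReal (2 * conj V) ↔
      ((V ≤ 1 / 2 ∧ IsStandardRegion V E) ∨ (1 / 2 < V ∧ IsStandardRegion (1 - V) Eᶜ)) := by
  have hP := perSet_pull hE hp
  rw [← tvol_pull] at hv
  rw [← tper_pull]
  rcases le_or_gt V (1 / 2) with h | h
  · rw [iff_half h0 h hP hv]
    simp [h, not_lt.2 h, -one_div]
  · have := iff_half (V := 1 - V) (E := Eᶜ) (by linarith) (by linarith) hP.compl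
      (by rw [preimage_compl, tvol_compl hP, hv])
    rw [preimage_compl, tper_compl hP, conj_symm] at this
    rw [this]
    simp [h, not_le.2 h, -one_div]

end Crest.Agent.R214
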