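import Crest.Agent.R214.Defect
import Crest.Agent.R214.Const

/-! Row 214: the equality case of the Steiner inequality. -/

set_option autoImplicit false

namespace Crest.Agent.R214

open MeasureTheory Set Filter Topology Real
open scoped ENNReal

noncomputable section

/-- first Fourier coefficient on the fibres -/
def undoG (u : X → ℝ) (q : ℝ × ℝ) : ℂ := ∫ t in (0 : ℝ)..1, (u (t, q) : ℂ) * ch t
/-- first Fourier coefficient of the variation measure -/
def undoR (u : X → ℝ) (q : ℝ × ℝ) : ℂ := ∫ t in (0 : ℝ)..1, ((|d1 u (t, q)| : ℝ) : ℂ) * ch t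
/-- the error term -/
def undoE (m : ℝ × ℝ → ℝ) (u : X → ℝ) (q : ℝ × ℝ) : ℂ :=
  (1 / 2 : ℝ) • undoR u q - (π * cos (π * m q) * (sin (π * m q))⁻¹) • undoG u q
/-- the normalised coefficient -/
def undoK (m : ℝ × ℝ → ℝ) (u : X → ℝ) (q : ℝ × ℝ) : ℂ := (sin (π * m q))⁻¹ • undoG u q

lemma undo_contDiff_ch : ContDiff ℝ 1 ch := by
  unfold ch
  refine ContDiff.cexp ?_
  exact (contDiff_const.mul Complex.ofRealCLM.contDiff).mul contDiff_const

lemma undo_continuous_ch : Continuous ch := undo_contDiff_ch.continuous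

lemma undo_norm_ch (t : ℝ) : ‖ch t‖ = 1 := by
  have : ch t = Complex.exp (((2 * π * t : ℝ) : ℂ) * Complex.I) := by
    unfold ch
    push_cast
    rfl
  rw [this, Complex.norm_exp_ofReal_mul_I]

lemma undo_contDiff_g {u : X → ℝ} (hu : ContDiff ℝ 1 u) :
    ContDiff ℝ 1 fun p : X => (u p : ℂ) * ch p.1 :=
  (Complex.ofRealCLM.contDiff.comp hu).mul (undo_contDiff_ch.comp contDiff_fst)

lemma undo_contDiff_G {u : X → ℝ} (hu : ContDiff ℝ 1 u) : ContDiff ℝ 1 (undoG u) :=
  contDiff_integral_fibre (undo_contDiff_g hu)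

lemma undo_norm_le {f : ℝ → ℝ} :
    ‖∫ t in (0 : ℝ)..1, (f t : ℂ) * ch t‖ ≤ ∫ t in (0 : ℝ)..1, |f t| := by
  refine (intervalIntegral.norm_integral_le_integral_norm zero_le_one).trans (le_of_eq ?_)
  simp [undo_norm_ch]

lemma undo_norm_G {u : X → ℝ} (h0 : ∀ p, 0 ≤ u p) (h1 : ∀ p, u p ≤ 1) (q : ℝ × ℝ) :
    ‖undoG u q‖ ≤ 1 := by
  have := intervalIntegral.norm_integral_le_of_norm_le_const (a := 0) (b := 1) (C := 1)
    (f := fun t => (u (t, q) : ℂ) * ch t) (fun t _ => by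
      rw [norm_mul, undo_norm_ch, mul_one, Complex.norm_real, Real.norm_of_nonneg (h0 _)]
      exact h1 _)
  simpa [undoG] using this

lemma undo_norm_R (u : X → ℝ) (q : ℝ × ℝ) : ‖undoR u q‖ ≤ ftv u q := by
  refine undo_norm_le.trans (le_of_eq ?_)
  simp [ftv]

lemma undo_continuous_R {u : X → ℝ} (hu : ContDiff ℝ 1 u) : Continuous (undoR u) := by
  have h1 := continuous_d1 hu
  have h2 := undo_continuous_ch
  refine intervalIntegral.continuous_parametric_intervalIntegral_of_continuous' ?_ 0 1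
  unfold Function.uncurry
  fun_prop

lemma undo_fderiv_G {u : X → ℝ} (hu : ContDiff ℝ 1 u) (q v : ℝ × ℝ) :
    fderiv ℝ (undoG u) q v = ∫ t in (0 : ℝ)..1, (fderiv ℝ u (t, q) (0, v) : ℂ) * ch t := by
  have h1 := hasFDerivAt_integral_fibre (undo_contDiff_g hu) q
  have h2 : fderiv ℝ (undoG u) q = _ := h1.fderiv
  have h3 := (undo_contDiff_g hu).continuous_fderiv one_ne_zero
  rw [h2, ContinuousLinearMap.intervalIntegral_apply]
  · refine intervalIntegral.integral_congr fun t _ => ?_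
    have a1 : HasFDerivAt (fun p : X => (u p : ℂ)) (Complex.ofRealCLM.comp (fderiv ℝ u (t, q)))
        (t, q) :=
      Complex.ofRealCLM.hasFDerivAt.comp _ (hu.differentiable one_ne_zero _).hasFDerivAt
    have a2 : HasFDerivAt (fun p : X => ch p.1)
        ((fderiv ℝ ch t).comp (ContinuousLinearMap.fst ℝ ℝ (ℝ × ℝ))) (t, q) :=
      HasFDerivAt.comp (g := ch) (f := Prod.fst) (t, q)
        (undo_contDiff_ch.differentiable one_ne_zero t).hasFDerivAt hasFDerivAt_fst
    rw [(a1.fun_mul a2).fderiv]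
    simp [mul_comm]
  · refine Continuous.intervalIntegrable ?_ _ _
    exact (h3.comp (by fun_prop)).clm_comp continuous_const

lemma undo_fderiv_G_sub {u : X → ℝ} (hu : ContDiff ℝ 1 u) (q v : ℝ × ℝ) (a : ℝ) :
    ‖fderiv ℝ (undoG u) q v - (a / 2) • undoR u q‖ ≤
      ∫ t in (0 : ℝ)..1, |fderiv ℝ u (t, q) (0, v) - a / 2 * (|d1 u (t, q)|)| := by
  have h1 := continuous_d1 hu
  have h2 := undo_continuous_ch
  have h3 := hu.continuous_fderiv one_ne_zero
  refine le_trans (le_of_eq ?_) undo_norm_le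
  rw [undo_fderiv_G hu, undoR, ← intervalIntegral.integral_smul, ← intervalIntegral.integral_sub]
  · congr 1
    refine intervalIntegral.integral_congr fun t _ => ?_
    simp only [Complex.real_smul]
    push_cast
    ring
  · refine Continuous.intervalIntegrable ?_ _ _
    fun_prop
  · refine Continuous.intervalIntegrable ?_ _ _
    fun_prop

variable {E : Set X} {Ω : Set (ℝ × ℝ)} {m : ℝ × ℝ → ℝ}

lemma undo_sin_pos (h : UHyp E Ω m) {q : ℝ × ℝ} (hq : q ∈ Ω) : 0 < sin (π * m q) :=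
  sin_pos_of_pos_of_lt_pi (mul_pos pi_pos (h.pos q hq))
    (by nlinarith [h.lt q hq, pi_pos])

lemma undo_contDiffOn_inv (h : UHyp E Ω m) : ContDiffOn ℝ 1 (fun q => (sin (π * m q))⁻¹) Ω :=
  ((contDiffOn_const.mul (h.c2.of_le (by norm_num))).sin).inv fun _ hq => (undo_sin_pos h hq).ne'

lemma undo_contDiffOn_K (h : UHyp E Ω m) {u : X → ℝ} (hu : ContDiff ℝ 1 u) :
    ContDiffOn ℝ 1 (undoK m u) Ω :=
  (undo_contDiffOn_inv h).smul (undo_contDiff_G hu).contDiffOn

lemma undo_continuousOn_E (h : UHyp E Ω m) {u : X → ℝ} (hu : ContDiff ℝ 1 u) :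
    ContinuousOn (undoE m u) Ω := by
  refine ((undo_continuous_R hu).continuousOn.const_smul (1 / 2 : ℝ)).sub
    (ContinuousOn.fun_smul ?_ (undo_contDiff_G hu).continuous.continuousOn)
  refine ContinuousOn.mul ?_ (undo_contDiffOn_inv h).continuousOn
  exact continuousOn_const.mul (continuous_cos.comp_continuousOn
    (continuousOn_const.mul h.c2.continuousOn))

lemma undo_fderiv_K (h : UHyp E Ω m) {u : X → ℝ} (hu : ContDiff ℝ 1 u) {q : ℝ × ℝ} (hq : q ∈ Ω)
    (v : ℝ × ℝ) : fderiv ℝ (undoK m u) q v = (sin (π * m q))⁻¹ •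
      ((fderiv ℝ (undoG u) q v - (fderiv ℝ m q v / 2) • undoR u q) +
        fderiv ℝ m q v • undoE m u q) := by
  have hs := (undo_sin_pos h hq).ne'
  have a1 : HasFDerivAt m (fderiv ℝ m q) q :=
    ((h.c2.contDiffAt (h.op.mem_nhds hq)).differentiableAt (by norm_num)).hasFDerivAt
  have a2 : HasDerivAt (fun x => (sin (π * x))⁻¹) (-(cos (π * m q) * π) / sin (π * m q) ^ 2)
      (m q) := by
    have := ((hasDerivAt_id (m q)).const_mul π).sin.fun_inv hs
    simpa using this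
  have a3 := (a2.comp_hasFDerivAt q a1).fun_smul
    ((undo_contDiff_G hu).differentiable one_ne_zero q).hasFDerivAt
  have a4 : fderiv ℝ (undoK m u) q = _ := a3.fderiv
  rw [a4]
  simp only [add_apply, smul_apply,
    ContinuousLinearMap.smulRight_apply, Function.comp, undoE, smul_eq_mul]
  have e : -(cos (π * m q) * π) / sin (π * m q) ^ 2 =
      -((sin (π * m q))⁻¹ * (π * cos (π * m q) * (sin (π * m q))⁻¹)) := by
    field_simp
  rw [e]
  module

lemma undo_opNorm_le (T : ℝ × ℝ →L[ℝ] ℂ) : ‖T‖ ≤ ‖T (1, 0)‖ + ‖T (0, 1)‖ := by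
  refine T.opNorm_le_bound (by positivity) fun v => ?_
  have e : v = v.1 • ((1, 0) : ℝ × ℝ) + v.2 • ((0, 1) : ℝ × ℝ) := by ext <;> simp
  have h1 := norm_fst_le v
  have h2 := norm_snd_le v
  calc ‖T v‖ = ‖v.1 • T (1, 0) + v.2 • T (0, 1)‖ := by
        conv_lhs => rw [e]
        rw [map_add, map_smul, map_smul]
    _ ≤ ‖v.1‖ * ‖T (1, 0)‖ + ‖v.2‖ * ‖T (0, 1)‖ := by
        refine (norm_add_le _ _).trans ?_
        rw [norm_smul, norm_smul]
    _ ≤ ‖v‖ * ‖T (1, 0)‖ + ‖v‖ * ‖T (0, 1)‖ := by gcongr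
    _ = _ := by ring

lemma undo_continuousOn_fderiv (h : UHyp E Ω m) (v : ℝ × ℝ) :
    ContinuousOn (fun q => fderiv ℝ m q v) Ω :=
  (h.c2.continuousOn_fderiv_of_isOpen h.op (by norm_num)).clm_apply continuousOn_const

lemma undo_bound (h : UHyp E Ω m) {L : Set (ℝ × ℝ)} (hL : L ⊆ Ω) (hc : IsCompact L) :
    ∃ C : ℝ, 0 ≤ C ∧ ∀ q ∈ L, (sin (π * m q))⁻¹ ≤ C ∧ |da m q| ≤ C ∧ |db m q| ≤ C := by
  obtain ⟨C1, h1⟩ := hc.exists_bound_of_continuousOn ((undo_contDiffOn_inv h).continuousOn.mono hL)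
  obtain ⟨C2, h2⟩ := hc.exists_bound_of_continuousOn ((undo_continuousOn_fderiv h (1, 0)).mono hL)
  obtain ⟨C3, h3⟩ := hc.exists_bound_of_continuousOn ((undo_continuousOn_fderiv h (0, 1)).mono hL)
  refine ⟨max (max 0 C1) (max C2 C3), by positivity, fun q hq => ⟨?_, ?_, ?_⟩⟩
  · exact ((le_abs_self _).trans (h1 q hq)).trans ((le_max_right _ _).trans (le_max_left _ _))
  · exact (h2 q hq).trans ((le_max_left _ _).trans (le_max_right _ _))
  · exact (h3 q hq).trans ((le_max_right _ _).trans (le_max_right _ _))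

lemma undo_moll_comp {u : ℕ → X → ℝ} (hu : Moll E u) {φ : ℕ → ℕ} (hφ : Tendsto φ atTop atTop) :
    Moll E fun n => u (φ n) :=
  ⟨fun _ => hu.c _, fun _ => hu.per _, fun _ => hu.nn _, fun _ => hu.le _, fun _ => hu.grad _,
    hu.lim.mono fun _ hp => hp.comp hφ⟩

/-- an a.e. convergent subsequence -/
lemma undo_subseq (h : UHyp E Ω m) {u : ℕ → X → ℝ} (hu : Moll E u) {L : Set (ℝ × ℝ)}
    (hL : L ⊆ Ω) (hc : IsCompact L) : ∃ φ : ℕ → ℕ, StrictMono φ ∧
      ∀ᵐ q : ℝ × ℝ, q ∈ L → Tendsto (fun n => ftv (u (φ n)) q) atTop (𝓝 2) := by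
  have h1 := (h.defect hu hL hc).1
  have hi : ∀ n, Integrable (fun q => ftv (u n) q - 2) (volume.restrict L) := fun n =>
    ((continuous_ftv (hu.c n)).sub continuous_const).continuousOn.integrableOn_compact hc
  have h2 : TendstoInMeasure (volume.restrict L) (fun n => ftv (u n)) atTop fun _ => (2 : ℝ) := by
    refine tendstoInMeasure_of_tendsto_eLpNorm (p := 1) one_ne_zero
      (fun n => (continuous_ftv (hu.c n)).aestronglyMeasurable) aestronglyMeasurable_const ?_
    have := ENNReal.tendsto_ofReal h1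
    rw [ENNReal.ofReal_zero] at this
    refine this.congr fun n => ?_
    rw [eLpNorm_one_eq_lintegral_enorm]
    exact ofReal_integral_norm_eq_lintegral_enorm (hi n)
  obtain ⟨φ, hφ, h3⟩ := h2.exists_seq_tendsto_ae
  exact ⟨φ, hφ, (ae_restrict_iff' hc.measurableSet).1 h3⟩

lemma undo_tendsto_G (hE : PerSet E) {u : ℕ → X → ℝ} (hu : Moll E u) :
    ∀ᵐ q : ℝ × ℝ, Tendsto (fun n => undoG (u n) q) atTop (𝓝 (undoG (E.indicator 1) q)) := by
  filter_upwards [hu.ae_fibre hE] with q hq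
  refine intervalIntegral.tendsto_integral_filter_of_dominated_convergence (fun _ => 1)
    (Eventually.of_forall fun n => ?_) (Eventually.of_forall fun n => ae_of_all _ fun t _ => ?_)
    intervalIntegrable_const ?_
  · have h1 := (hu.c n).continuous
    have h2 := undo_continuous_ch
    refine Continuous.aestronglyMeasurable ?_
    fun_prop
  · rw [norm_mul, undo_norm_ch, mul_one, Complex.norm_real, Real.norm_of_nonneg (hu.nn _ _)]
    exact hu.le _ _
  · filter_upwards [hq] with t ht _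
    exact ((Complex.continuous_ofReal.tendsto _).comp ht).mul_const _

/-- the fibrewise statement -/
lemma undo_fibre (h : UHyp E Ω m) {u : ℕ → X → ℝ} (hu : Moll E u) :
    ∀ᵐ q : ℝ × ℝ, q ∈ Ω → Tendsto (fun n => ftv (u n) q) atTop (𝓝 2) →
      (∃ c : ℝ, (∀ᵐ t : ℝ, (t, q) ∈ E ↔ dz (t - c) < m q / 2) ∧
        undoK m (E.indicator 1) q = (π : ℝ)⁻¹ • ch c) ∧
      Tendsto (fun n => undoE m (u n) q) atTop (𝓝 0) := by
  filter_upwards [hu.ae_fibre h.per, h.fib, undo_tendsto_G h.per hu] with q h1 h2 h3 hq h4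
  have hs := (undo_sin_pos h hq).ne'
  obtain ⟨c, hc1, hc2⟩ := arc_of_tv (v := fun n s => u n (s, q)) (B := {s | (s, q) ∈ E}) (m := m q)
    (fun n => (hu.c n).comp (contDiff_id.prodMk contDiff_const))
    (fun n t => by simpa [Prod.mk_zero_zero] using hu.per n 1 0 0 (t, q))
    (measurable_prodMk_right h.per.meas)
    (fun t => by simpa [Prod.mk_zero_zero] using h.per.per 1 0 0 (t, q)) h1 (h2 hq) (h.pos q hq) (h.lt q hq)
    (by simpa only [ftv_eq (hu.c _)] using h4)
  have e1 : undoG (E.indicator 1) q = ((Real.sin (π * m q) / π : ℝ) : ℂ) * ch c := by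
    rw [← integral_ch_arc (h.pos q hq).le (h.lt q hq).le c]
    refine intervalIntegral.integral_congr_ae ?_
    filter_upwards [hc1] with t ht _
    by_cases h5 : (t, q) ∈ E
    · rw [indicator_of_mem h5, indicator_of_mem (show t ∈ {t | dz (t - c) < m q / 2} from ht.1 h5)]
      simp
    · rw [indicator_of_notMem h5,
        indicator_of_notMem (show t ∉ {t | dz (t - c) < m q / 2} from fun h6 => h5 (ht.2 h6))]
      simp
  have e2 : Tendsto (fun n => undoR (u n) q) atTop (𝓝 (2 * (Real.cos (π * m q) : ℂ) * ch c)) := by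
    refine hc2.congr fun n => ?_
    simp only [undoR, (hasDerivAt_d1 (hu.c n) _ q).deriv]
  refine ⟨⟨c, hc1, ?_⟩, ?_⟩
  · rw [undoK, e1, ← Complex.real_smul, smul_smul]
    congr 1
    field_simp
  · have := (e2.const_smul (1 / 2 : ℝ)).sub
      (h3.const_smul (π * cos (π * m q) * (sin (π * m q))⁻¹))
    have e3 : π * cos (π * m q) * (sin (π * m q))⁻¹ * (sin (π * m q) / π) = cos (π * m q) := by
      field_simp
    have e4 : (1 / 2 : ℝ) • (2 * (Real.cos (π * m q) : ℂ) * ch c) -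
        (π * cos (π * m q) * (sin (π * m q))⁻¹) • undoG (E.indicator 1) q = 0 := by
      rw [e1, ← Complex.real_smul, smul_smul, e3]
      simp only [Complex.real_smul]
      push_cast
      ring
    rwa [e4] at this

lemma undo_ae_of_compact {P : ℝ × ℝ → Prop} (ho : IsOpen Ω)
    (hP : ∀ L ⊆ Ω, IsCompact L → ∀ᵐ q : ℝ × ℝ, q ∈ L → P q) : ∀ᵐ q : ℝ × ℝ, q ∈ Ω → P q := by
  rw [ae_iff]
  refine measure_null_of_locally_null _ fun x hx => ?_
  have hx' : x ∈ Ω := (Classical.not_imp.1 hx).1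
  obtain ⟨L, hLc, hxL, hL⟩ := exists_compact_subset ho hx'
  refine ⟨{q | ¬ (q ∈ L → P q)}, ?_, ae_iff.1 (hP L hL hLc)⟩
  filter_upwards [mem_nhdsWithin_of_mem_nhds (mem_interior_iff_mem_nhds.1 hxL),
    self_mem_nhdsWithin] with q h1 h2
  exact fun h3 => (Classical.not_imp.1 h2).2 (h3 h1)

lemma undo_arcs (h : UHyp E Ω m) : ∀ᵐ q : ℝ × ℝ, q ∈ Ω →
    ∃ c : ℝ, (∀ᵐ t : ℝ, (t, q) ∈ E ↔ dz (t - c) < m q / 2) ∧
      undoK m (E.indicator 1) q = (π : ℝ)⁻¹ • ch c := by
  obtain ⟨u, hu⟩ := exists_moll h.per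
  refine undo_ae_of_compact h.op fun L hL hc => ?_
  obtain ⟨φ, hφ, h1⟩ := undo_subseq h hu hL hc
  filter_upwards [h1, undo_fibre h (undo_moll_comp hu hφ.tendsto_atTop)] with q h2 h3 hq
  exact (h3 (hL hq) (h2 hq)).1

lemma undo_tendsto_E (h : UHyp E Ω m) {u : ℕ → X → ℝ} (hu : Moll E u) {L : Set (ℝ × ℝ)}
    (hL : L ⊆ Ω) (hc : IsCompact L) :
    Tendsto (fun n => ∫ q in L, ‖undoE m (u n) q‖) atTop (𝓝 0) := by
  obtain ⟨C, hC0, hC⟩ := undo_bound h hL hc
  have : IsFiniteMeasure (volume.restrict L) := isFiniteMeasure_restrict.2 hc.measure_lt_top.ne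
  have hcE : ∀ n, ContinuousOn (fun q => ‖undoE m (u n) q‖) L := fun n =>
    ((undo_continuousOn_E h (hu.c n)).mono hL).norm
  have hcM : ∀ n, ContinuousOn (fun q => min ‖undoE m (u n) q‖ (1 + π * C)) L := fun n =>
    (hcE n).inf continuousOn_const
  have h1 : Tendsto (fun n => ∫ q in L, min ‖undoE m (u n) q‖ (1 + π * C)) atTop (𝓝 0) := by
    refine tendsto_of_subseq_tendsto fun ns hns => ?_
    obtain ⟨φ, hφ, h2⟩ := undo_subseq h (undo_moll_comp hu hns) hL hc
    refine ⟨φ, ?_⟩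
    have h3 := undo_fibre h (undo_moll_comp (undo_moll_comp hu hns) hφ.tendsto_atTop)
    have := tendsto_integral_of_dominated_convergence (μ := volume.restrict L)
      (F := fun n q => min ‖undoE m (u (ns (φ n))) q‖ (1 + π * C)) (f := fun _ => 0)
      (fun _ => 1 + π * C) (fun n => (hcM _).aestronglyMeasurable hc.measurableSet)
      (integrable_const _) (fun n => ae_of_all _ fun q => by
        rw [Real.norm_of_nonneg (le_min (norm_nonneg _) (by positivity))]
        exact min_le_right _ _) (by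
        rw [ae_restrict_iff' hc.measurableSet]
        filter_upwards [h2, h3] with q a1 a2 hq
        have a3 := (a2 (hL hq) (a1 hq)).2.norm.min (tendsto_const_nhds (x := 1 + π * C))
        rwa [norm_zero, min_eq_left (by positivity)] at a3)
    simpa using this
  have h2 := ((h.defect hu hL hc).1.const_mul (1 / 2)).add h1
  rw [mul_zero, add_zero] at h2
  refine squeeze_zero (fun n => integral_nonneg fun q => norm_nonneg _) (fun n => ?_) h2
  have hi : IntegrableOn (fun q => |ftv (u n) q - 2|) L :=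
    ((continuous_ftv (hu.c n)).sub continuous_const).abs.continuousOn.integrableOn_compact hc
  rw [← integral_const_mul, ← integral_add (hi.const_mul _) ((hcM n).integrableOn_compact hc)]
  refine setIntegral_mono_on ((hcE n).integrableOn_compact hc)
    ((hi.const_mul _).add ((hcM n).integrableOn_compact hc)) hc.measurableSet fun q hq => ?_
  have a0 := abs_nonneg (ftv (u n) q - 2)
  rcases le_total ‖undoE m (u n) q‖ (1 + π * C) with h3 | h3
  · rw [min_eq_left h3]
    linarith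
  · rw [min_eq_right h3]
    have a1 := undo_norm_R (u n) q
    have a2 := undo_norm_G (hu.nn n) (hu.le n) q
    have a3 := le_abs_self (ftv (u n) q - 2)
    have a4 := (undo_sin_pos h (hL hq)).le
    have a5 : ‖(π * cos (π * m q) * (sin (π * m q))⁻¹) • undoG (u n) q‖ ≤ π * C := by
      rw [norm_smul, norm_mul, norm_mul, Real.norm_of_nonneg pi_pos.le,
        Real.norm_of_nonneg (inv_nonneg.2 a4), Real.norm_eq_abs]
      calc π * |cos (π * m q)| * (sin (π * m q))⁻¹ * ‖undoG (u n) q‖ ≤ π * 1 * C * 1 := by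
            gcongr
            · exact abs_cos_le_one _
            · exact (hC q hq).1
        _ = π * C := by ring
    have a6 : ‖undoE m (u n) q‖ ≤ 1 / 2 * ‖undoR (u n) q‖ + π * C := by
      refine (norm_sub_le _ _).trans (add_le_add (le_of_eq ?_) a5)
      rw [norm_smul, Real.norm_of_nonneg (by norm_num)]
    linarith

lemma undo_continuousOn_A (h : UHyp E Ω m) {u : X → ℝ} (hu : ContDiff ℝ 1 u) (v : ℝ × ℝ) :
    ContinuousOn (fun q => ∫ t in (0 : ℝ)..1,
      |fderiv ℝ u (t, q) (0, v) - fderiv ℝ m q v / 2 * (|d1 u (t, q)|)|) Ω := by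
  have h1 := continuous_d1 hu
  have h3 := hu.continuous_fderiv one_ne_zero
  have h4 : Continuous fun z : (ℝ × ℝ) × ℝ => ∫ t in (0 : ℝ)..1,
      |fderiv ℝ u (t, z.1) (0, v) - z.2 / 2 * (|d1 u (t, z.1)|)| := by
    refine intervalIntegral.continuous_parametric_intervalIntegral_of_continuous' ?_ 0 1
    unfold Function.uncurry
    fun_prop
  exact h4.comp_continuousOn (continuousOn_id.prodMk (undo_continuousOn_fderiv h v))

lemma undo_grad (h : UHyp E Ω m) {u : ℕ → X → ℝ} (hu : Moll E u) {L : Set (ℝ × ℝ)}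
    (hL : L ⊆ Ω) (hc : IsCompact L) :
    Tendsto (fun n => ∫⁻ q in L, ‖fderiv ℝ (undoK m (u n)) q‖ₑ) atTop (𝓝 0) := by
  obtain ⟨C, hC0, hC⟩ := undo_bound h hL hc
  set A : ℝ × ℝ → ℕ → ℝ × ℝ → ℝ := fun v n q => ∫ t in (0 : ℝ)..1,
    |fderiv ℝ (u n) (t, q) (0, v) - fderiv ℝ m q v / 2 * (|d1 (u n) (t, q)|)| with hA
  have hA0 : ∀ v n q, 0 ≤ A v n q := fun v n q =>
    intervalIntegral.integral_nonneg zero_le_one fun t _ => abs_nonneg _
  have h1 : Tendsto (fun n => ∫ q in L, A (1, 0) n q) atTop (𝓝 0) := (h.defect' hu hL hc).1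
  have h2 : Tendsto (fun n => ∫ q in L, A (0, 1) n q) atTop (𝓝 0) := (h.defect' hu hL hc).2
  have h3 := undo_tendsto_E h hu hL hc
  have h4 := ENNReal.tendsto_ofReal (((h1.add h2).add (h3.const_mul (2 * C))).const_mul C)
  simp only [add_zero, mul_zero, ENNReal.ofReal_zero] at h4
  refine tendsto_of_tendsto_of_tendsto_of_le_of_le tendsto_const_nhds h4
    (fun _ => zero_le) fun n => ?_
  have i1 : ∀ v, IntegrableOn (A v n) L := fun v =>
    ((undo_continuousOn_A h (hu.c n) v).mono hL).integrableOn_compact hc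
  have i2 : IntegrableOn (fun q => ‖undoE m (u n) q‖) L :=
    ((undo_continuousOn_E h (hu.c n)).mono hL).norm.integrableOn_compact hc
  have i3 : IntegrableOn (fun q => A (1, 0) n q + A (0, 1) n q) L := (i1 _).add (i1 _)
  have i4 : IntegrableOn (fun q => A (1, 0) n q + A (0, 1) n q + 2 * C * ‖undoE m (u n) q‖) L :=
    i3.add (i2.const_mul _)
  beta_reduce
  rw [← integral_const_mul, ← integral_add (i1 _) (i1 _), ← integral_add i3 (i2.const_mul _),
    ← integral_const_mul, ofReal_integral_eq_lintegral_ofReal (i4.const_mul C)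
      (ae_of_all _ fun q => by
        have := hA0 (1, 0) n q
        have := hA0 (0, 1) n q
        positivity)]
  refine setLIntegral_mono' hc.measurableSet fun q hq => ?_
  rw [← ofReal_norm]
  refine ENNReal.ofReal_le_ofReal ?_
  have a4 := (undo_sin_pos h (hL hq)).le
  have key : ∀ v, |fderiv ℝ m q v| ≤ C →
      ‖fderiv ℝ (undoK m (u n)) q v‖ ≤ C * (A v n q + C * ‖undoE m (u n) q‖) := by
    intro v hv
    rw [undo_fderiv_K h (hu.c n) (hL hq), norm_smul, Real.norm_of_nonneg (inv_nonneg.2 a4)]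
    refine mul_le_mul (hC q hq).1 ?_ (norm_nonneg _) hC0
    refine (norm_add_le _ _).trans (add_le_add (undo_fderiv_G_sub (hu.c n) q v _) ?_)
    rw [norm_smul, Real.norm_eq_abs]
    exact mul_le_mul_of_nonneg_right hv (norm_nonneg _)
  have b1 := key (1, 0) (hC q hq).2.1
  have b2 := key (0, 1) (hC q hq).2.2
  have b3 := undo_opNorm_le (fderiv ℝ (undoK m (u n)) q)
  linarith

lemma undo_tendsto_K (h : UHyp E Ω m) {u : ℕ → X → ℝ} (hu : Moll E u) :
    ∀ᵐ q : ℝ × ℝ, Tendsto (fun n => undoK m (u n) q) atTop (𝓝 (undoK m (E.indicator 1) q)) :=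
  (undo_tendsto_G h.per hu).mono fun _ hq => hq.const_smul _

lemma undo_meas_K (h : UHyp E Ω m) {u : ℕ → X → ℝ} (hu : Moll E u) :
    AEStronglyMeasurable (undoK m (E.indicator 1)) (volume.restrict Ω) :=
  aestronglyMeasurable_of_tendsto_ae atTop
    (fun n => (undo_contDiffOn_K h (hu.c n)).continuousOn.aestronglyMeasurable h.op.measurableSet)
    (ae_restrict_of_ae (undo_tendsto_K h hu))

lemma undo_conv (h : UHyp E Ω m) {u : ℕ → X → ℝ} (hu : Moll E u) {L : Set (ℝ × ℝ)}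
    (hL : L ⊆ Ω) (hc : IsCompact L) :
    Tendsto (fun n => ∫⁻ q in L, ‖undoK m (u n) q - undoK m (E.indicator 1) q‖ₑ) atTop (𝓝 0) := by
  obtain ⟨C, hC0, hC⟩ := undo_bound h hL hc
  have hb : ∀ {w : X → ℝ}, (∀ p, 0 ≤ w p) → (∀ p, w p ≤ 1) → ∀ q ∈ L, ‖undoK m w q‖ ≤ C := by
    intro w h0 h1 q hq
    rw [undoK, norm_smul, Real.norm_of_nonneg (inv_nonneg.2 (undo_sin_pos h (hL hq)).le)]
    calc _ ≤ C * 1 := mul_le_mul (hC q hq).1 (undo_norm_G h0 h1 q) (norm_nonneg _) hC0
      _ = C := mul_one C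
  have := tendsto_lintegral_of_dominated_convergence' (μ := volume.restrict L)
    (F := fun n q => ‖undoK m (u n) q - undoK m (E.indicator 1) q‖ₑ) (f := fun _ => 0)
    (fun _ => ENNReal.ofReal (C + C)) (fun n => ?_) (fun n => ?_) ?_ ?_
  · simpa using this
  · refine AEStronglyMeasurable.enorm (AEStronglyMeasurable.sub ?_ ?_)
    · exact ((undo_contDiffOn_K h (hu.c n)).continuousOn.mono hL).aestronglyMeasurable
        hc.measurableSet
    · exact (undo_meas_K h hu).mono_measure (Measure.restrict_mono hL le_rfl)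
  · refine (ae_restrict_iff' hc.measurableSet).2 (ae_of_all _ fun q hq => ?_)
    beta_reduce
    rw [← ofReal_norm]
    refine ENNReal.ofReal_le_ofReal ((norm_sub_le _ _).trans (add_le_add ?_ ?_))
    · exact hb (hu.nn n) (hu.le n) q hq
    · refine hb (fun p => ?_) (fun p => ?_) q hq
      · exact indicator_nonneg (fun _ _ => zero_le_one) p
      · exact indicator_le_self' (fun _ _ => zero_le_one) p
  · rw [setLIntegral_const]
    exact ENNReal.mul_ne_top ENNReal.ofReal_ne_top hc.measure_lt_top.ne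
  · refine ae_restrict_of_ae ((undo_tendsto_K h hu).mono fun q hq => ?_)
    have := (hq.sub_const (undoK m (E.indicator 1) q)).enorm
    simpa using this

end

/-- Pass to a subsequence (`Moll` is stable under subsequences) along which `ftv (u n) q → 2` for a.e.
`q ∈ Ω` (compact exhaustion and Borel-Cantelli / `tendstoInMeasure`: choose `n j` with
`∫_{L j} |ftv - 2| ≤ 2⁻ʲ`).  For a.e. `q ∈ Ω`, `arc_of_tv` gives `c q`; with
`G q = ∫₀¹ 1_E (t, q) ch t = sin (π m) / π * ch (c q)` (`integral_ch_arc`),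
`G n q = ∫₀¹ u n (t, q) ch t → G q` boundedly, `R n q = ∫₀¹ |d1 (u n)| ch t → 2 cos (π m) ch (c q)
= 2 π cos (π m) / sin (π m) * G q` a.e. and in `L¹(L)` (`‖R n‖ ≤ ftv`, which converges in `L¹(L)`;
Fatou).  The partial derivatives of `G n` are `∫₀¹ d2 (u n) ch`, `∫₀¹ d3 (u n) ch`, within `o(1)` in
`L¹(L)` of `da m / 2 * R n`, `db m / 2 * R n` (`defect'`).  So `K n = G n / sin (π m)` satisfies the
hypotheses of `const_of_grad` with `G / sin (π m)`; thus `ch (c q)` is a.e. constant. -/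
theorem UHyp.undo {E : Set X} {Ω : Set (ℝ × ℝ)} {m : ℝ × ℝ → ℝ} (h : UHyp E Ω m) :
    ∃ c : ℝ, ∀ᵐ p : X, p.2 ∈ Ω → (p ∈ E ↔ dz (p.1 - c) < m p.2 / 2) := by
  obtain ⟨u, hu⟩ := exists_moll h.per
  have hb : Bornology.IsBounded Ω :=
    ((Metric.isBounded_Ioo _ _).prod (Metric.isBounded_Ioo _ _)).subset h.sub
  obtain ⟨κ, hκ⟩ := const_of_grad h.op h.conv hb h.zero (K := fun n => undoK m (u n))
    (fun n => undo_contDiffOn_K h (hu.c n)) (undo_meas_K h hu)
    (fun L hL hc => undo_grad h hu hL hc) (fun L hL hc => undo_conv h hu hL hc)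
  have h1 : ∃ c₀ : ℝ, ∀ c, (π : ℝ)⁻¹ • ch c = κ → ch c = ch c₀ := by
    by_cases h2 : ∃ c₀ : ℝ, (π : ℝ)⁻¹ • ch c₀ = κ
    · obtain ⟨c₀, h3⟩ := h2
      exact ⟨c₀, fun c hc => smul_right_injective ℂ (inv_ne_zero pi_ne_zero) (hc.trans h3.symm)⟩
    · exact ⟨0, fun c hc => absurd ⟨c, hc⟩ h2⟩
  obtain ⟨c₀, hc₀⟩ := h1
  refine ⟨c₀, ?_⟩
  have h2 : ∀ᵐ q : ℝ × ℝ, ∀ᵐ t : ℝ, q ∈ Ω → ((t, q) ∈ E ↔ dz (t - c₀) < m q / 2) := by
    filter_upwards [hκ, undo_arcs h] with q a1 a2
    by_cases hq : q ∈ Ω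
    · obtain ⟨c, b1, b2⟩ := a2 hq
      have b3 := hc₀ c (b2.symm.trans (a1 hq))
      filter_upwards [b1] with t ht _
      rwa [← dz_eq_of_ch_eq b3 t]
    · exact ae_of_all _ fun t hq' => absurd hq' hq
  have hΩ : IsOpen {p : X | p.2 ∈ Ω} := h.op.preimage continuous_snd
  have hU : IsOpen {p : X | p.2 ∈ Ω ∧ dz (p.1 - c₀) < m p.2 / 2} := by
    have a1 : ContinuousOn (fun p : X => m p.2 / 2 - dz (p.1 - c₀)) {p : X | p.2 ∈ Ω} := by
      refine ContinuousOn.sub (ContinuousOn.div_const ?_ _) ?_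
      · exact h.c2.continuousOn.comp continuous_snd.continuousOn fun p hp => hp
      · exact (continuous_dz.comp (continuous_fst.sub continuous_const)).continuousOn
    convert a1.isOpen_inter_preimage hΩ (isOpen_Ioi (a := (0 : ℝ))) using 1
    ext p
    simp
  have hM : MeasurableSet {p : X | p.2 ∈ Ω → (p ∈ E ↔ dz (p.1 - c₀) < m p.2 / 2)} := by
    have : {p : X | p.2 ∈ Ω → (p ∈ E ↔ dz (p.1 - c₀) < m p.2 / 2)} =
        {p : X | p.2 ∈ Ω}ᶜ ∪ (E ∩ {p : X | p.2 ∈ Ω ∧ dz (p.1 - c₀) < m p.2 / 2}) ∪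
          (Eᶜ ∩ {p : X | p.2 ∈ Ω ∧ dz (p.1 - c₀) < m p.2 / 2}ᶜ) := by
      ext p
      simp only [mem_ofPred_eq, mem_union, mem_compl_iff, mem_inter_iff]
      tauto
    rw [this]
    exact (hΩ.measurableSet.compl.union (h.per.meas.inter hU.measurableSet)).union
      (h.per.meas.compl.inter hU.measurableSet.compl)
  rw [Measure.volume_eq_prod, Measure.ae_prod_iff_ae_ae hM]
  exact (Measure.ae_ae_comm (p := fun (t : ℝ) (q : ℝ × ℝ) =>
    q ∈ Ω → ((t, q) ∈ E ↔ dz (t - c₀) < m q / 2)) hM).2 h2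

end Crest.Agent.R214
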