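import Crest.Agent.R214.Push

/-! Row 214: first variation of area and volume. -/

set_option autoImplicit false

namespace Crest.Agent.R214

open MeasureTheory Set Filter Topology Real
open scoped ENNReal

variable {D : Set X} {A : Measure X} {n1 n2 n3 : X → ℝ}

lemma var_ev (K : ℝ) {c : ℝ} (hc : 0 < c) : ∀ᶠ ε in 𝓝[>] (0 : ℝ), ε * K < c := by
  have h : Tendsto (fun ε : ℝ => ε * K) (𝓝 0) (𝓝 (0 * K)) :=
    (continuous_id.mul continuous_const).tendsto 0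
  rw [zero_mul] at h
  exact nhdsWithin_le_nhds (h.eventually (gt_mem_nhds hc))

lemma var_bound {g : ℝ → ℝ} (hg : Continuous g) : ∃ M, 0 ≤ M ∧ ∀ t ∈ Icc (0 : ℝ) 1, |g t| ≤ M := by
  obtain ⟨M, hM⟩ := isCompact_Icc.exists_bound_of_continuousOn (hg.continuousOn (s := Icc 0 1))
  exact ⟨M, (norm_nonneg _).trans (hM 0 (by simp)), hM⟩

/-- `φ t = - ε σ + ∫₀ᵗ (1 + ε g (projIcc 0 1 s)) ds` -/
lemma exists_dif {g : ℝ → ℝ} (hg : Continuous g) {σ τ : ℝ} (hσ : 0 ≤ σ) (hτ : 0 ≤ τ)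
    (hi : ∫ t in I, g t = σ + τ) : ∃ C, ∀ᶠ ε in 𝓝[>] (0 : ℝ), ∃ φ ψ w lo hi, Dif φ ψ w lo hi ∧
      (∀ t ∈ I, w t = 1 + ε * g t) ∧ |lo - ε * σ| ≤ C * ε ^ 2 ∧ |1 - hi - ε * τ| ≤ C * ε ^ 2 ∧
      (σ = 0 → lo = 0) ∧ (τ = 0 → hi = 1) := by
  obtain ⟨M, hM0, hM⟩ := var_bound hg
  refine ⟨2 * M * (σ + τ), ?_⟩
  filter_upwards [var_ev M (c := 1 / 2) (by norm_num), self_mem_nhdsWithin] with ε hε hε0
  have hε0 : 0 < ε := hε0
  let G : ℝ → ℝ := fun t => g (projIcc 0 1 zero_le_one t)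
  have hG : Continuous G := hg.comp (continuous_subtype_val.comp continuous_projIcc)
  have hGM : ∀ t, |G t| ≤ M := fun t => hM _ (projIcc 0 1 zero_le_one t).2
  have hGg : ∀ t ∈ Icc (0 : ℝ) 1, G t = g t := fun t ht => by simp only [G, projIcc_of_mem _ ht]
  let w : ℝ → ℝ := fun t => 1 + ε * G t
  have hw : Continuous w := by fun_prop
  let φ : ℝ → ℝ := fun t => -(ε * σ) + ∫ s in (0 : ℝ)..t, w s
  have hφ : ∀ t, HasDerivAt φ (w t) t := fun t =>
    (hw.integral_hasStrictDerivAt 0 t).hasDerivAt.const_add _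
  have hkey : ∀ s t, s ≤ t → |φ t - φ s - (t - s)| ≤ ε * M * (t - s) := by
    intro s t hst
    have h1 : φ t - φ s = ∫ x in s..t, w x := by
      simp only [φ]
      rw [← intervalIntegral.integral_interval_sub_left (hw.intervalIntegrable 0 t)
        (hw.intervalIntegrable 0 s)]
      ring
    have h2 : ∫ x in s..t, w x = (t - s) + ∫ x in s..t, ε * G x := by
      simp only [w]
      rw [intervalIntegral.integral_add (by simp) ((by fun_prop : Continuous fun x => ε * G x).intervalIntegrable _ _)]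
      simp
    rw [h1, h2, add_sub_cancel_left]
    have h3 := intervalIntegral.norm_integral_le_of_norm_le_const (a := s) (b := t)
      (f := fun x => ε * G x) (C := ε * M) fun x _ => by
        rw [Real.norm_eq_abs, abs_mul, abs_of_pos hε0]
        exact mul_le_mul_of_nonneg_left (hGM x) hε0.le
    rwa [abs_of_nonneg (sub_nonneg.2 hst)] at h3
  have hhalf : ∀ s t, s ≤ t → (t - s) / 2 ≤ φ t - φ s := by
    intro s t hst
    have h1 := (abs_le.1 (hkey s t hst)).1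
    nlinarith
  have hmono : StrictMono φ := fun s t hst => by
    have := hhalf s t hst.le
    linarith
  have hcont : Continuous φ := continuous_iff_continuousAt.2 fun t => (hφ t).continuousAt
  have hsurj : Function.Surjective φ := by
    intro y
    have h1 : φ (-(2 * |y - φ 0|)) ≤ y := by
      have := hhalf (-(2 * |y - φ 0|)) 0 (by linarith [abs_nonneg (y - φ 0)])
      linarith [neg_abs_le (y - φ 0)]
    have h2 : y ≤ φ (2 * |y - φ 0|) := by
      have := hhalf 0 (2 * |y - φ 0|) (by positivity)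
      linarith [le_abs_self (y - φ 0)]
    exact mem_range_of_exists_le_of_exists_ge hcont ⟨_, h1⟩ ⟨_, h2⟩
  let ψ : ℝ → ℝ := Function.surjInv hsurj
  have hr : ∀ t, φ (ψ t) = t := Function.surjInv_eq hsurj
  have hl : ∀ t, ψ (φ t) = t := fun t => hmono.injective (hr _)
  have h0 : φ 0 = -(ε * σ) := by simp [φ]
  have h1 : φ 1 = 1 + ε * τ := by
    have h2 : ∫ s in (0 : ℝ)..1, w s = 1 + ε * (σ + τ) := by
      simp only [w]
      rw [intervalIntegral.integral_add (by simp) ((by fun_prop : Continuous fun x => ε * G x).intervalIntegrable _ _),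
        intervalIntegral.integral_const_mul, ← hi, intervalIntegral.integral_of_le zero_le_one,
        intervalIntegral.integral_of_le zero_le_one, integral_Ioc_eq_integral_Ioo,
        integral_Ioc_eq_integral_Ioo,
        setIntegral_congr_fun measurableSet_Ioo fun t ht => hGg t (Ioo_subset_Icc_self ht)]
      simp
    simp only [φ, h2]; ring
  have hlo : 0 ≤ ψ 0 := hmono.le_iff_le.1 (by rw [hr, h0]; nlinarith)
  have hhi : ψ 1 ≤ 1 := hmono.le_iff_le.1 (by rw [hr, h1]; nlinarith)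
  refine ⟨φ, ψ, w, ψ 0, ψ 1, ⟨hφ, hw, fun t => ?_, hl, hr, hr 0, hr 1, hlo, hhi⟩,
    fun t ht => by simp only [w, hGg t (Ioo_subset_Icc_self ht)], ?_, ?_, fun h => ?_, fun h => ?_⟩
  · have h2 := (abs_le.1 (hGM t)).1
    simp only [w]
    nlinarith
  · have h2 := hkey 0 (ψ 0) hlo
    have h3 := hhalf 0 (ψ 0) hlo
    rw [hr, h0] at h2 h3
    rw [abs_sub_comm]
    have h4 : ε * σ - ψ 0 = 0 - -(ε * σ) - (ψ 0 - 0) := by ring
    rw [h4]
    refine h2.trans ?_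
    have h5 : ε * M * (ψ 0 - 0) ≤ ε * M * (2 * (ε * (σ + τ))) :=
      mul_le_mul_of_nonneg_left (by nlinarith) (by positivity)
    nlinarith
  · have h2 := hkey (ψ 1) 1 hhi
    have h3 := hhalf (ψ 1) 1 hhi
    rw [hr, h1] at h2 h3
    rw [abs_sub_comm]
    have h4 : ε * τ - (1 - ψ 1) = 1 + ε * τ - 1 - (1 - ψ 1) := by ring
    rw [h4]
    refine h2.trans ?_
    have h5 : ε * M * (1 - ψ 1) ≤ ε * M * (2 * (ε * (σ + τ))) :=
      mul_le_mul_of_nonneg_left (by nlinarith) (by positivity)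
    nlinarith
  · have h2 : φ 0 = 0 := by rw [h0, h]; simp
    have h3 := hl 0
    rwa [h2] at h3
  · have h2 : φ 1 = 1 := by rw [h1, h]; simp
    have h3 := hl 1
    rwa [h2] at h3

lemma var_sq_le {M ε a b : ℝ} (hε : ε ∈ Icc (0 : ℝ) 1) (ha : |a| ≤ M) (hb : |b| ≤ M) :
    ((1 + ε * a) * (1 + ε * b)) ^ 2 ≤ 1 + 2 * ε * (a + b) + (6 * M ^ 2 + 4 * M ^ 3 + M ^ 4) * ε ^ 2 := by
  have hM : 0 ≤ M := (abs_nonneg _).trans ha
  have h1 : |a * b| ≤ M ^ 2 := by rw [abs_mul, sq]; exact mul_le_mul ha hb (abs_nonneg _) hM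
  have h2 : |a + b| ≤ 2 * M := (abs_add_le _ _).trans (by linarith)
  have h3 : (a + b) ^ 2 ≤ 4 * M ^ 2 := by
    rw [← sq_abs]; nlinarith [abs_nonneg (a + b)]
  have h4 : (a * b) ^ 2 ≤ M ^ 4 := by
    rw [← sq_abs]; nlinarith [abs_nonneg (a * b)]
  have h5 : (a + b) * (a * b) ≤ 2 * M ^ 3 := by
    refine (le_abs_self _).trans ?_
    rw [abs_mul]
    nlinarith [abs_nonneg (a * b), abs_nonneg (a + b)]
  have h6 : ε * ((a + b) * (a * b)) ≤ 2 * M ^ 3 := by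
    have : 0 ≤ 2 * M ^ 3 := by positivity
    nlinarith [hε.1, hε.2]
  have h7 : ε ^ 2 * (a * b) ^ 2 ≤ M ^ 4 := by
    have : ε ^ 2 ≤ 1 := by nlinarith [hε.1, hε.2]
    nlinarith [sq_nonneg (a * b)]
  have h8 : (a + b) ^ 2 + 2 * (a * b) + 2 * (ε * ((a + b) * (a * b))) + ε ^ 2 * (a * b) ^ 2 ≤
      6 * M ^ 2 + 4 * M ^ 3 + M ^ 4 := by linarith [le_abs_self (a * b)]
  have h9 := mul_le_mul_of_nonneg_right h8 (sq_nonneg ε)
  nlinarith

/-- pointwise: `√s ≤ (1 + s) / 2` -/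
lemma area_element_le (M : ℝ) : ∃ C, ∀ ε ∈ Icc (0 : ℝ) 1, ∀ g1 g2 g3 m1 m2 m3 : ℝ, |g1| ≤ M →
    |g2| ≤ M → |g3| ≤ M → m1 ^ 2 + m2 ^ 2 + m3 ^ 2 = 1 →
    √(((1 + ε * g2) * (1 + ε * g3) * m1) ^ 2 + ((1 + ε * g1) * (1 + ε * g3) * m2) ^ 2 +
      ((1 + ε * g1) * (1 + ε * g2) * m3) ^ 2) ≤
      1 + ε * (g1 * (1 - m1 ^ 2) + g2 * (1 - m2 ^ 2) + g3 * (1 - m3 ^ 2)) + C * ε ^ 2 := by
  refine ⟨(6 * M ^ 2 + 4 * M ^ 3 + M ^ 4) / 2, fun ε hε g1 g2 g3 m1 m2 m3 h1 h2 h3 hm => ?_⟩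
  set s := ((1 + ε * g2) * (1 + ε * g3) * m1) ^ 2 + ((1 + ε * g1) * (1 + ε * g3) * m2) ^ 2 +
      ((1 + ε * g1) * (1 + ε * g2) * m3) ^ 2 with hs
  have h4 : √s ≤ (1 + s) / 2 := by
    have h0 : 0 ≤ s := by positivity
    nlinarith [Real.sq_sqrt h0, sq_nonneg (√s - 1)]
  refine h4.trans ?_
  have a1 := mul_le_mul_of_nonneg_right (var_sq_le hε h2 h3) (sq_nonneg m1)
  have a2 := mul_le_mul_of_nonneg_right (var_sq_le hε h1 h3) (sq_nonneg m2)
  have a3 := mul_le_mul_of_nonneg_right (var_sq_le hε h1 h2) (sq_nonneg m3)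
  set K := (6 * M ^ 2 + 4 * M ^ 3 + M ^ 4) with hK
  have e1 : 1 - m1 ^ 2 = m2 ^ 2 + m3 ^ 2 := by linarith
  have e2 : 1 - m2 ^ 2 = m1 ^ 2 + m3 ^ 2 := by linarith
  have e3 : 1 - m3 ^ 2 = m1 ^ 2 + m2 ^ 2 := by linarith
  have e4 : K * ε ^ 2 = K * ε ^ 2 * (m1 ^ 2 + m2 ^ 2 + m3 ^ 2) := by rw [hm, mul_one]
  rw [e1, e2, e3, hs, mul_pow _ m1, mul_pow _ m2, mul_pow _ m3]
  nlinarith

lemma var_vol_lt (h : Down D) : volume D < ∞ :=
  (measure_mono h.sub).trans_lt (by rw [volume_Q]; exact ENNReal.one_lt_top)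

lemma var_integrableOn (h : Down D) {f : X → ℝ} (hf : Measurable f) {M : ℝ}
    (hM : ∀ p ∈ Q, |f p| ≤ M) : IntegrableOn f D :=
  Measure.integrableOn_of_bounded (var_vol_lt h).ne hf.aestronglyMeasurable
    ((ae_restrict_iff' h.meas).2 (Eventually.of_forall fun p hp => hM p (h.sub hp)))

lemma var_integral_fst (h : Down D) {g : ℝ → ℝ} (hg : Measurable g) {M : ℝ}
    (hM : ∀ t ∈ I, |g t| ≤ M) : ∫ p in D, g p.1 = ∫ t in I, g t * sa D t := by
  have h1 : IntegrableOn (fun p : X => g p.1) D :=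
    var_integrableOn h (hg.comp measurable_fst) fun p hp => hM _ hp.1
  rw [← integral_indicator h.meas, Measure.volume_eq_prod,
    integral_prod _ ((integrable_indicator_iff h.meas).2 h1), ← integral_indicator measurableSet_Ioo]
  refine integral_congr_ae (Eventually.of_forall fun t => ?_)
  have h2 : (fun q : ℝ × ℝ => D.indicator (fun p : X => g p.1) (t, q)) =
      {q : ℝ × ℝ | (t, q.1, q.2) ∈ D}.indicator fun _ => g t := by
    funext q
    by_cases hq : (t, q) ∈ D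
    · rw [indicator_of_mem hq, indicator_of_mem (show q ∈ {q : ℝ × ℝ | (t, q.1, q.2) ∈ D} from hq)]
    · rw [indicator_of_notMem hq,
        indicator_of_notMem (show q ∉ {q : ℝ × ℝ | (t, q.1, q.2) ∈ D} from hq)]
  have h3 : MeasurableSet {q : ℝ × ℝ | (t, q.1, q.2) ∈ D} := measurable_prodMk_left h.meas
  change ∫ q : ℝ × ℝ, D.indicator (fun p : X => g p.1) (t, q) = _
  rw [h2, integral_indicator_const _ h3]
  by_cases ht : t ∈ I
  · rw [indicator_of_mem ht, smul_eq_mul, mul_comm]; rfl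
  · rw [indicator_of_notMem ht]
    have : {q : ℝ × ℝ | (t, q.1, q.2) ∈ D} = ∅ :=
      eq_empty_of_forall_notMem fun q hq => ht (h.sub hq).1
    simp [this]

/-- `cyc` as a measurable equivalence -/
def var_cycE : X ≃ᵐ X where
  toFun := cyc
  invFun := cyi
  left_inv _ := rfl
  right_inv _ := rfl
  measurable_toFun := by change Measurable cyc; unfold cyc; fun_prop
  measurable_invFun := by change Measurable cyi; unfold cyi; fun_prop

lemma var_integral_cyc (D : Set X) (f : X → ℝ) :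
    ∫ p in cyc ⁻¹' D, f (cyc p) = ∫ p in D, f p :=
  measurePreserving_cyc.setIntegral_preimage_emb var_cycE.measurableEmbedding f D

lemma var_integral_thd (h : Down D) {g : ℝ → ℝ} (hg : Measurable g) {M : ℝ}
    (hM : ∀ t ∈ I, |g t| ≤ M) : ∫ p in D, g p.2.2 = ∫ t in I, g t * sc D t := by
  rw [← sa_cyc, ← var_integral_fst h.cyc hg hM, ← var_integral_cyc D fun p => g p.2.2]
  rfl

lemma var_integral_snd (h : Down D) {g : ℝ → ℝ} (hg : Measurable g) {M : ℝ}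
    (hM : ∀ t ∈ I, |g t| ≤ M) : ∫ p in D, g p.2.1 = ∫ t in I, g t * sb D t := by
  rw [← sc_cyc, ← var_integral_thd h.cyc hg hM, ← var_integral_cyc D fun p => g p.2.1]
  rfl

lemma var_vol_inter (h : Down D) {S : Set ℝ} (hS : MeasurableSet S) :
    (volume (D ∩ {p | p.1 ∈ S})).toReal = ∫ t in I ∩ S, sa D t := by
  have h1 := var_integral_fst h (g := S.indicator 1) (measurable_one.indicator hS) (M := 1)
    fun t _ => by by_cases ht : t ∈ S <;> simp [ht]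
  have h2 : (fun p : X => S.indicator (1 : ℝ → ℝ) p.1) = {p : X | p.1 ∈ S}.indicator 1 := by
    funext p
    by_cases hp : p.1 ∈ S <;> simp [hp]
  have h3 : (fun t => S.indicator (1 : ℝ → ℝ) t * sa D t) = S.indicator (sa D) := by
    funext t
    by_cases ht : t ∈ S <;> simp [ht]
  have h4 : MeasurableSet {p : X | p.1 ∈ S} := measurable_fst hS
  rw [h2, h3, setIntegral_indicator hS, setIntegral_indicator h4] at h1
  rw [← h1]
  simp [Measure.real]

lemma var_strip (h : Down D) {S : Set ℝ} {δ b η : ℝ} (hδ : 0 ≤ δ)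
    (hv : volume S = ENNReal.ofReal δ) (hb : ∀ t ∈ S, |sa D t - b| ≤ η) :
    |(∫ t in S, sa D t) - δ * b| ≤ η * δ := by
  have hfin : volume S < ∞ := by rw [hv]; exact ENNReal.ofReal_lt_top
  have hreal : volume.real S = δ := by rw [Measure.real, hv, ENNReal.toReal_ofReal hδ]
  have h1 : IntegrableOn (sa D) S :=
    Measure.integrableOn_of_bounded hfin.ne h.measurable_sa.aestronglyMeasurable (M := 1)
      (Eventually.of_forall fun t => by
        rw [Real.norm_eq_abs, abs_of_nonneg (sa_nonneg D t)]; exact h.sa_le_one t)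
  have h2 : ∫ t in S, (sa D t - b) = (∫ t in S, sa D t) - δ * b := by
    rw [integral_sub h1 (integrableOn_const hfin.ne), setIntegral_const, hreal, smul_eq_mul]
  have h3 := norm_setIntegral_le_of_norm_le_const (f := fun t => sa D t - b) hfin
    (fun t ht => by rw [Real.norm_eq_abs]; exact hb t ht)
  rwa [h2, hreal, Real.norm_eq_abs] at h3

/-- the volume of the strips cut off at the bottom and at the top (`tendsto_be`, `tendsto_al`) -/
lemma Down.vol_strip (h : Down D) {η : ℝ} (hη : 0 < η) : ∀ᶠ δ in 𝓝[≥] (0 : ℝ),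
    |(volume (D ∩ {p | p.1 ≤ δ})).toReal - δ * be D| ≤ η * δ ∧
      |(volume (D ∩ {p | 1 - δ ≤ p.1})).toReal - δ * al D| ≤ η * δ := by
  obtain ⟨a, ha, h1⟩ := mem_nhdsGT_iff_exists_Ioo_subset.1
    (h.tendsto_be.eventually (Metric.closedBall_mem_nhds _ hη))
  obtain ⟨b, hb, h2⟩ := mem_nhdsLT_iff_exists_Ioo_subset.1
    (h.tendsto_al.eventually (Metric.closedBall_mem_nhds _ hη))
  have hb' : 0 < 1 - b := sub_pos.2 hb
  filter_upwards [Ico_mem_nhdsGE ha, Ico_mem_nhdsGE hb', Ico_mem_nhdsGE one_pos] with δ c1 c2 c3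
  constructor
  · have h3 := var_vol_inter h (S := Iic δ) measurableSet_Iic
    have h4 : I ∩ Iic δ = Ioc 0 δ := by
      ext t
      simp only [mem_inter_iff, mem_Ioo, mem_Iic, mem_Ioc]
      exact ⟨fun ht => ⟨ht.1.1, ht.2⟩, fun ht => ⟨⟨ht.1, ht.2.trans_lt c3.2⟩, ht.2⟩⟩
    rw [h4] at h3
    change |(volume (D ∩ {p | p.1 ∈ Iic δ})).toReal - _| ≤ _
    rw [h3]
    exact var_strip h c1.1 (by simp) fun t ht => h1 ⟨ht.1, ht.2.trans_lt c1.2⟩
  · have h3 := var_vol_inter h (S := Ici (1 - δ)) measurableSet_Ici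
    have h4 : I ∩ Ici (1 - δ) = Ico (1 - δ) 1 := by
      ext t
      simp only [mem_inter_iff, mem_Ioo, mem_Ici, mem_Ico]
      exact ⟨fun ht => ⟨ht.2, ht.1.2⟩, fun ht => ⟨⟨by linarith [ht.1, c3.2], ht.2⟩, ht.1⟩⟩
    rw [h4] at h3
    change |(volume (D ∩ {p | p.1 ∈ Ici (1 - δ)})).toReal - _| ≤ _
    rw [h3]
    exact var_strip h c1.1 (by simp) fun t ht =>
      h2 ⟨by linarith [ht.1, c2.2], ht.2⟩


lemma var_per (h : Surf D A n1 n2 n3) {g1 g2 g3 : ℝ → ℝ} (c1 : Continuous g1)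
    (c2 : Continuous g2) (c3 : Continuous g3) {M : ℝ} (b1 : ∀ t ∈ I, |g1 t| ≤ M)
    (b2 : ∀ t ∈ I, |g2 t| ≤ M) (b3 : ∀ t ∈ I, |g3 t| ≤ M) : ∃ C, ∀ ε ∈ Icc (0 : ℝ) 1,
    ∀ {φ1 ψ1 w1 φ2 ψ2 w2 φ3 ψ3 w3 : ℝ → ℝ} {lo hi : ℝ}, Dif φ1 ψ1 w1 lo hi → Dif φ2 ψ2 w2 0 1 →
      Dif φ3 ψ3 w3 0 1 → (∀ t ∈ I, w1 t = 1 + ε * g1 t) → (∀ t ∈ I, w2 t = 1 + ε * g2 t) →
      (∀ t ∈ I, w3 t = 1 + ε * g3 t) → ∀ {η : ℝ}, ε * (3 * M) ≤ η → ε * (3 * M) ≤ 1 →
      ∀ {S : Set X}, MeasurableSet S → (∀ p ∈ S, p.1 ≤ lo ∨ hi ≤ p.1) →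
      per (psh ψ1 ψ2 ψ3 D) + (1 - η) * A.real S ≤
        A.real univ + ε * (∫ p, (g1 p.1 * (1 - n1 p ^ 2) + g2 p.2.1 * (1 - n2 p ^ 2) +
          g3 p.2.2 * (1 - n3 p ^ 2)) ∂A) + C * ε ^ 2 := by
  obtain ⟨C, hC⟩ := area_element_le M
  have := h.fin
  refine ⟨|C| * A.real univ, ?_⟩
  intro ε hε φ1 ψ1 w1 φ2 ψ2 w2 φ3 ψ3 w3 lo hi d1 d2 d3 e1 e2 e3 η hη hη1 S hS hSB
  set H : X → ℝ := fun p => g1 p.1 * (1 - n1 p ^ 2) + g2 p.2.1 * (1 - n2 p ^ 2) +
    g3 p.2.2 * (1 - n3 p ^ 2) with hH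
  have hHm : Measurable H := by
    have := h.m1
    have := h.m2
    have := h.m3
    have := c1.measurable
    have := c2.measurable
    have := c3.measurable
    simp only [hH]
    fun_prop
  have aux : ∀ a m : ℝ, |a| ≤ M → m ^ 2 ≤ 1 → |a * (1 - m ^ 2)| ≤ M := by
    intro a m ha hm
    rw [abs_mul, abs_of_nonneg (sub_nonneg.2 hm)]
    nlinarith [abs_nonneg a, sq_nonneg m]
  have hHb : ∀ p ∈ Q, |H p| ≤ 3 * M := by
    intro p hp
    have u := h.unit p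
    have a1 := aux _ (n1 p) (b1 _ hp.1) (by nlinarith [sq_nonneg (n2 p), sq_nonneg (n3 p)])
    have a2 := aux _ (n2 p) (b2 _ hp.2.1) (by nlinarith [sq_nonneg (n1 p), sq_nonneg (n3 p)])
    have a3 := aux _ (n3 p) (b3 _ hp.2.2) (by nlinarith [sq_nonneg (n2 p), sq_nonneg (n1 p)])
    have := abs_add_three (g1 p.1 * (1 - n1 p ^ 2)) (g2 p.2.1 * (1 - n2 p ^ 2))
      (g3 p.2.2 * (1 - n3 p ^ 2))
    simp only [hH]
    linarith
  have hHi : Integrable H A :=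
    Integrable.of_bound hHm.aestronglyMeasurable (3 * M) (h.ae_mem.mono fun p hp => hHb p hp)
  set G : X → ℝ := fun p => (1 + |C| * ε ^ 2) + ε * H p with hG
  have hGi : Integrable G A := (integrable_const _).add (hHi.const_mul ε)
  have hGint : ∫ p, G p ∂A = A.real univ + ε * (∫ p, H p ∂A) + |C| * A.real univ * ε ^ 2 := by
    simp only [hG]
    rw [integral_add (integrable_const _) (hHi.const_mul ε), integral_const, integral_const_mul,
      smul_eq_mul]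
    ring
  have hGlow : ∀ p ∈ Q, 1 - ε * (3 * M) ≤ G p := by
    intro p hp
    have a1 := mul_le_mul_of_nonneg_left (abs_le.1 (hHb p hp)).1 hε.1
    have a2 : 0 ≤ |C| * ε ^ 2 := by positivity
    simp only [hG]
    linarith
  set B : Set X := Ioo lo hi ×ˢ Ioo (0 : ℝ) 1 ×ˢ Ioo (0 : ℝ) 1 with hB
  have hBm : MeasurableSet B := measurableSet_Ioo.prod (measurableSet_Ioo.prod measurableSet_Ioo)
  have hBQ : B ⊆ Q := fun p hp =>
    ⟨⟨d1.lo_nn.trans_lt hp.1.1, hp.1.2.trans_le d1.hi_le⟩, hp.2⟩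
  have k1 : per (psh ψ1 ψ2 ψ3 D) ≤ ∫ p in B, G p ∂A := by
    refine (h.per_psh d1 d2 d3).trans (integral_mono_of_nonneg
      (Eventually.of_forall fun p => Real.sqrt_nonneg _) hGi.integrableOn ?_)
    refine (ae_restrict_iff' hBm).2 (Eventually.of_forall fun p hp => ?_)
    have hp' := hBQ hp
    have a1 := hC ε hε _ _ _ _ _ _ (b1 _ hp'.1) (b2 _ hp'.2.1) (b3 _ hp'.2.2) (h.unit p)
    have a2 := mul_le_mul_of_nonneg_right (le_abs_self C) (sq_nonneg ε)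
    simp only [e1 _ hp'.1, e2 _ hp'.2.1, e3 _ hp'.2.2, hG, hH]
    linarith
  have k2 : (1 - η) * A.real S ≤ ∫ p in S, G p ∂A := by
    have a1 : ∫ _ in S, (1 - η) ∂A = (1 - η) * A.real S := by
      rw [setIntegral_const, smul_eq_mul, mul_comm]
    rw [← a1]
    refine integral_mono_ae (integrable_const _) hGi.integrableOn ?_
    exact (ae_restrict_of_ae h.ae_mem).mono fun p hp => by linarith [hGlow p hp]
  have k3 : ∫ p in S, G p ∂A ≤ ∫ p in Bᶜ, G p ∂A := by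
    refine setIntegral_mono_set hGi.integrableOn
      ((ae_restrict_of_ae h.ae_mem).mono fun p hp => ?_) (LE.le.eventuallyLE ?_)
    · have := hGlow p hp
      simp only [Pi.zero_apply]
      linarith
    · intro p hp hpB
      rcases hSB p hp with a | a
      · exact absurd hpB.1.1 (not_lt.2 a)
      · exact absurd hpB.1.2 (not_lt.2 a)
  have k4 := integral_add_compl hBm hGi
  linarith

lemma var_cube_le {M ε a b c : ℝ} (hε : ε ∈ Icc (0 : ℝ) 1) (ha : |a| ≤ M) (hb : |b| ≤ M)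
    (hc : |c| ≤ M) : |(1 + ε * a) * (1 + ε * b) * (1 + ε * c) - (1 + ε * (a + b + c))| ≤
      (3 * M ^ 2 + M ^ 3) * ε ^ 2 := by
  have hM : 0 ≤ M := (abs_nonneg _).trans ha
  have p : ∀ x y : ℝ, |x| ≤ M → |y| ≤ M → |x * y| ≤ M ^ 2 := fun x y hx hy => by
    rw [abs_mul, sq]; exact mul_le_mul hx hy (abs_nonneg _) hM
  have h1 : |ε * (a * b * c)| ≤ M ^ 3 := by
    rw [abs_mul, abs_mul (a * b), abs_of_nonneg hε.1]
    have a1 : |a * b| * |c| ≤ M ^ 2 * M :=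
      mul_le_mul (p a b ha hb) hc (abs_nonneg _) (by positivity)
    have a2 : 0 ≤ |a * b| * |c| := by positivity
    nlinarith [hε.1, hε.2]
  have h2 : (1 + ε * a) * (1 + ε * b) * (1 + ε * c) - (1 + ε * (a + b + c)) =
      (a * b + a * c + b * c + ε * (a * b * c)) * ε ^ 2 := by ring
  rw [h2, abs_mul, abs_of_nonneg (sq_nonneg ε)]
  refine mul_le_mul_of_nonneg_right ?_ (sq_nonneg ε)
  have h3 := abs_add_le (a * b + a * c + b * c) (ε * (a * b * c))
  have h4 := abs_add_three (a * b) (a * c) (b * c)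
  linarith [p a b ha hb, p a c ha hc, p b c hb hc]

lemma var_vol (h : Down D) {g1 g2 g3 : ℝ → ℝ} (c1 : Continuous g1)
    (c2 : Continuous g2) (c3 : Continuous g3) {M : ℝ} (b1 : ∀ t ∈ I, |g1 t| ≤ M)
    (b2 : ∀ t ∈ I, |g2 t| ≤ M) (b3 : ∀ t ∈ I, |g3 t| ≤ M) {ε : ℝ} (hε : ε ∈ Icc (0 : ℝ) 1)
    {φ1 ψ1 w1 φ2 ψ2 w2 φ3 ψ3 w3 : ℝ → ℝ} {lo hi : ℝ} (d1 : Dif φ1 ψ1 w1 lo hi)
    (d2 : Dif φ2 ψ2 w2 0 1) (d3 : Dif φ3 ψ3 w3 0 1) (e1 : ∀ t ∈ I, w1 t = 1 + ε * g1 t)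
    (e2 : ∀ t ∈ I, w2 t = 1 + ε * g2 t) (e3 : ∀ t ∈ I, w3 t = 1 + ε * g3 t) :
    |vol (psh ψ1 ψ2 ψ3 D) - vol D - ε * ((∫ t in I, g1 t * sa D t) + (∫ t in I, g2 t * sb D t) +
        (∫ t in I, g3 t * sc D t)) + ((volume (D ∩ {p | p.1 ≤ lo})).toReal +
          (volume (D ∩ {p | hi ≤ p.1})).toReal)| ≤ (3 * M ^ 2 + M ^ 3) * ε ^ 2 +
      ε * (3 * M * ((volume (D ∩ {p | p.1 ≤ lo})).toReal +
        (volume (D ∩ {p | hi ≤ p.1})).toReal)) := by
  have hM : 0 ≤ M := (abs_nonneg _).trans (b1 (1 / 2) ⟨by norm_num, by norm_num⟩)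
  set B : Set X := Ioo lo hi ×ˢ Ioo (0 : ℝ) 1 ×ˢ Ioo (0 : ℝ) 1 with hB
  have hBm : MeasurableSet B := measurableSet_Ioo.prod (measurableSet_Ioo.prod measurableSet_Ioo)
  have hlh : lo < hi := d1.strictMono.lt_iff_lt.1 (by rw [d1.lo0, d1.hi1]; exact one_pos)
  have m1 := c1.measurable
  have m2 := c2.measurable
  have m3 := c3.measurable
  have i1 : IntegrableOn (fun p : X => g1 p.1) D :=
    var_integrableOn h (by fun_prop) fun p hp => b1 _ hp.1
  have i2 : IntegrableOn (fun p : X => g2 p.2.1) D :=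
    var_integrableOn h (by fun_prop) fun p hp => b2 _ hp.2.1
  have i3 : IntegrableOn (fun p : X => g3 p.2.2) D :=
    var_integrableOn h (by fun_prop) fun p hp => b3 _ hp.2.2
  set Γ : X → ℝ := fun p => g1 p.1 + g2 p.2.1 + g3 p.2.2 with hΓ
  have iΓ : IntegrableOn Γ D := (i1.add i2).add i3
  have hΓb : ∀ p ∈ Q, |Γ p| ≤ 3 * M := fun p hp => by
    have := abs_add_three (g1 p.1) (g2 p.2.1) (g3 p.2.2)
    simp only [hΓ]
    linarith [b1 _ hp.1, b2 _ hp.2.1, b3 _ hp.2.2]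
  have k1 : ∫ p in D, Γ p = (∫ t in I, g1 t * sa D t) + (∫ t in I, g2 t * sb D t) +
      (∫ t in I, g3 t * sc D t) := by
    have i12 : IntegrableOn (fun p : X => g1 p.1 + g2 p.2.1) D := i1.add i2
    simp only [hΓ]
    rw [integral_add i12 i3, integral_add i1 i2, var_integral_fst h m1 b1,
      var_integral_snd h m2 b2, var_integral_thd h m3 b3]
  have hfin := var_vol_lt h
  have fin' : ∀ T : Set X, T ⊆ D → volume T < ∞ := fun T hT => (measure_mono hT).trans_lt hfin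
  have k2 : volume.real (D \ B) = (volume (D ∩ {p | p.1 ≤ lo})).toReal +
      (volume (D ∩ {p | hi ≤ p.1})).toReal := by
    have a1 : D \ B = (D ∩ {p | p.1 ≤ lo}) ∪ (D ∩ {p | hi ≤ p.1}) := by
      ext p
      constructor
      · rintro ⟨hp, hpB⟩
        by_contra hc
        simp only [mem_union, mem_inter_iff, mem_ofPred_eq, hp, true_and, not_or, not_le] at hc
        exact hpB ⟨hc, (h.sub hp).2⟩
      · rintro (⟨hp, a⟩ | ⟨hp, a⟩)
        · exact ⟨hp, fun hpB => absurd hpB.1.1 (not_lt.2 a)⟩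
        · exact ⟨hp, fun hpB => absurd hpB.1.2 (not_lt.2 a)⟩
    rw [a1]
    refine measureReal_union ?_ (h.meas.inter (measurableSet_le measurable_const measurable_fst))
      (fin' _ inter_subset_left).ne (fin' _ inter_subset_left).ne
    refine disjoint_left.2 fun p hp hq => ?_
    have a2 : p.1 ≤ lo := hp.2
    have a3 : hi ≤ p.1 := hq.2
    linarith
  rw [← k2, ← k1, h.vol_psh d1 d2 d3]
  have k3 : volume.real (D ∩ B) + volume.real (D \ B) = vol D :=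
    measureReal_inter_add_sdiff hBm hfin.ne
  have k4 := integral_inter_add_sdiff hBm iΓ
  have k5 : |∫ p in D \ B, Γ p| ≤ 3 * M * volume.real (D \ B) :=
    norm_setIntegral_le_of_norm_le_const (f := Γ) (fin' _ sdiff_subset)
      fun p hp => hΓb p (h.sub hp.1)
  set W : X → ℝ := fun p => (1 + ε * g1 p.1) * (1 + ε * g2 p.2.1) * (1 + ε * g3 p.2.2) with hW
  have k6 : ∫ p in D ∩ B, w1 p.1 * w2 p.2.1 * w3 p.2.2 = ∫ p in D ∩ B, W p :=
    setIntegral_congr_fun (h.meas.inter hBm) fun p hp => by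
      have hp' := h.sub hp.1
      simp only [hW, e1 _ hp'.1, e2 _ hp'.2.1, e3 _ hp'.2.2]
  have hR : ∀ p ∈ Q, |W p - (1 + ε * Γ p)| ≤ (3 * M ^ 2 + M ^ 3) * ε ^ 2 := fun p hp =>
    var_cube_le hε (b1 _ hp.1) (b2 _ hp.2.1) (b3 _ hp.2.2)
  have iR : IntegrableOn (fun p => W p - (1 + ε * Γ p)) (D ∩ B) :=
    (var_integrableOn h (by simp only [hW, hΓ]; fun_prop) hR).mono_set inter_subset_left
  have iC : IntegrableOn (fun _ : X => (1 : ℝ)) (D ∩ B) :=
    integrableOn_const (fin' _ inter_subset_left).ne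
  have iL : IntegrableOn (fun p => 1 + ε * Γ p) (D ∩ B) :=
    iC.add ((iΓ.mono_set inter_subset_left).const_mul ε)
  have k7 : ∫ p in D ∩ B, W p = (∫ p in D ∩ B, (W p - (1 + ε * Γ p))) +
      (volume.real (D ∩ B) + ε * ∫ p in D ∩ B, Γ p) := by
    have a1 : ∫ p in D ∩ B, (1 + ε * Γ p) = volume.real (D ∩ B) + ε * ∫ p in D ∩ B, Γ p := by
      rw [integral_add iC ((iΓ.mono_set inter_subset_left).const_mul ε), setIntegral_const,
        integral_const_mul, smul_eq_mul, mul_one]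
    rw [← a1, ← integral_add iR iL]
    simp
  have k8 : |∫ p in D ∩ B, (W p - (1 + ε * Γ p))| ≤
      (3 * M ^ 2 + M ^ 3) * ε ^ 2 * volume.real (D ∩ B) :=
    norm_setIntegral_le_of_norm_le_const (f := fun p => W p - (1 + ε * Γ p))
      (fin' _ inter_subset_left) fun p hp => hR p (h.sub hp.1)
  have k9 : volume.real (D ∩ B) ≤ 1 := by
    have := h.vol_le_one
    linarith [measureReal_nonneg (μ := volume) (s := D \ B)]
  have k10 : (3 * M ^ 2 + M ^ 3) * ε ^ 2 * volume.real (D ∩ B) ≤ (3 * M ^ 2 + M ^ 3) * ε ^ 2 :=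
    mul_le_of_le_one_right (by positivity) k9
  rw [k6, k7, ← k3, ← k4]
  have k11 : (∫ p in D ∩ B, (W p - (1 + ε * Γ p))) +
      (volume.real (D ∩ B) + ε * ∫ p in D ∩ B, Γ p) -
      (volume.real (D ∩ B) + volume.real (D \ B)) -
      ε * ((∫ p in D ∩ B, Γ p) + ∫ p in D \ B, Γ p) + volume.real (D \ B) =
      (∫ p in D ∩ B, (W p - (1 + ε * Γ p))) - ε * ∫ p in D \ B, Γ p := by ring
  rw [k11]
  refine (abs_sub _ _).trans (add_le_add (k8.trans k10) ?_)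
  rw [abs_mul, abs_of_nonneg hε.1]
  exact mul_le_mul_of_nonneg_left k5 hε.1

/-- The integrand bound `1 + ε (…) + C ε²` is integrated over the box `= Q` minus the strips; on the
strips it is at least `1 - η`. -/
theorem Surf.var (h : Surf D A n1 n2 n3) {g1 g2 g3 : ℝ → ℝ} (c1 : Continuous g1)
    (c2 : Continuous g2) (c3 : Continuous g3) {σ τ : ℝ} (hσ : 0 ≤ σ) (hτ : 0 ≤ τ)
    (i1 : ∫ t in I, g1 t = σ + τ) (i2 : ∫ t in I, g2 t = 0) (i3 : ∫ t in I, g3 t = 0)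
    {η : ℝ} (hη : 0 < η) : ∀ᶠ ε in 𝓝[>] (0 : ℝ), ∃ D', Down D' ∧
      per D' + (1 - η) * A.real {p | p.1 ≤ ε * (σ - η) ∨ 1 - ε * (τ - η) ≤ p.1} ≤
        A.real univ + ε * (∫ p, (g1 p.1 * (1 - n1 p ^ 2) + g2 p.2.1 * (1 - n2 p ^ 2) +
          g3 p.2.2 * (1 - n3 p ^ 2)) ∂A) + η * ε ∧
      |vol D' - vol D - ε * ((∫ t in I, g1 t * sa D t) + (∫ t in I, g2 t * sb D t) +
        (∫ t in I, g3 t * sc D t) - σ * be D - τ * al D)| ≤ η * ε := by
  obtain ⟨M1, p1, q1⟩ := var_bound c1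
  obtain ⟨M2, p2, q2⟩ := var_bound c2
  obtain ⟨M3, p3, q3⟩ := var_bound c3
  set M := M1 + M2 + M3 with hMdef
  have hM : 0 ≤ M := by positivity
  have b1 : ∀ t ∈ I, |g1 t| ≤ M := fun t ht => by linarith [q1 t (Ioo_subset_Icc_self ht)]
  have b2 : ∀ t ∈ I, |g2 t| ≤ M := fun t ht => by linarith [q2 t (Ioo_subset_Icc_self ht)]
  have b3 : ∀ t ∈ I, |g3 t| ≤ M := fun t ht => by linarith [q3 t (Ioo_subset_Icc_self ht)]
  obtain ⟨C, hC⟩ := exists_dif c1 hσ hτ i1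
  obtain ⟨C2, hC2⟩ := exists_dif c2 le_rfl le_rfl (by rw [i2, add_zero])
  obtain ⟨C3, hC3⟩ := exists_dif c3 le_rfl le_rfl (by rw [i3, add_zero])
  obtain ⟨K, hK⟩ := var_per h c1 c2 c3 b1 b2 b3
  set L := σ + τ + 2 * |C| with hL
  have hL0 : 0 ≤ L := by positivity
  set η' := min 1 (η / (2 * (L + 1))) with hη'
  have hη'0 : 0 < η' := lt_min one_pos (by positivity)
  have hη'1 : η' ≤ 1 := min_le_left _ _
  have hη'L : η' * L ≤ η / 2 := by
    have a1 : η' ≤ η / (2 * (L + 1)) := min_le_right _ _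
    rw [le_div_iff₀ (by positivity)] at a1
    nlinarith
  obtain ⟨δ0, hδ0, hstrip⟩ := mem_nhdsGE_iff_exists_Ico_subset.1 (h.down.vol_strip hη'0)
  have hδ0 : 0 < δ0 := hδ0
  filter_upwards [hC, hC2, hC3, self_mem_nhdsWithin, var_ev 1 one_pos, var_ev (3 * M) hη,
    var_ev (3 * M) one_pos, var_ev |C| hη, var_ev K hη, var_ev L hδ0,
    var_ev (3 * M ^ 2 + M ^ 3 + 6 * M * L + 2 * |C|) (half_pos hη)]
    with ε ⟨φ1, ψ1, w1, lo, hi, d1, e1, l1, l2, _, _⟩ ⟨φ2, ψ2, w2, lo2, hi2, d2, e2, _, _, x2, y2⟩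
      ⟨φ3, ψ3, w3, lo3, hi3, d3, e3, _, _, x3, y3⟩ hε0 hε1 s1 s2 s3 s4 s5 s6
  have hε0 : 0 < ε := hε0
  rw [mul_one] at hε1
  obtain rfl := x2 rfl
  obtain rfl := y2 rfl
  obtain rfl := x3 rfl
  obtain rfl := y3 rfl
  have hε : ε ∈ Icc (0 : ℝ) 1 := ⟨hε0.le, hε1.le⟩
  have hCε : C * ε ^ 2 ≤ |C| * ε ^ 2 := mul_le_mul_of_nonneg_right (le_abs_self C) (sq_nonneg ε)
  have l1' := abs_le.1 (l1.trans hCε)
  have l2' := abs_le.1 (l2.trans hCε)
  have t1 : |C| * ε ^ 2 ≤ ε * η := by nlinarith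
  have t2 : |C| * ε ^ 2 ≤ ε * |C| := by nlinarith [abs_nonneg C, mul_pos hε0 (sub_pos.2 hε1)]
  refine ⟨psh ψ1 ψ2 ψ3 D, h.down.psh d1 d2 d3, ?_, ?_⟩
  · refine (hK ε hε d1 d2 d3 e1 e2 e3 s1.le s2.le ?_ ?_).trans ?_
    · exact (measurableSet_le measurable_fst measurable_const).union
        (measurableSet_le measurable_const measurable_fst)
    · rintro p (hp | hp)
      · left; linarith [l1'.1]
      · right; linarith [l2'.1]
    · nlinarith
  · have hv := var_vol h.down c1 c2 c3 b1 b2 b3 hε d1 d2 d3 e1 e2 e3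
    have hlo := d1.lo_nn
    have hhi := sub_nonneg.2 d1.hi_le
    have u1 : lo + (1 - hi) ≤ ε * L := by rw [hL]; linarith [l1'.2, l2'.2]
    have u2 := (hstrip (show lo ∈ Ico 0 δ0 from ⟨hlo, by linarith⟩)).1
    have u3 := (hstrip (show 1 - hi ∈ Ico 0 δ0 from ⟨hhi, by linarith⟩)).2
    rw [sub_sub_cancel] at u3
    set v1 := (volume (D ∩ {p | p.1 ≤ lo})).toReal
    set v2 := (volume (D ∩ {p | hi ≤ p.1})).toReal
    have be1 := be_le_one D
    have be0 : 0 ≤ be D := ENNReal.toReal_nonneg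
    have al0 := al_nonneg D
    have al1 : al D ≤ 1 :=
      (h.down.al_le_sa (t := 1 / 2) ⟨by norm_num, by norm_num⟩).trans (h.down.sa_le_one _)
    have u2' := abs_le.1 u2
    have u3' := abs_le.1 u3
    have u4 : v1 + v2 ≤ 2 * (ε * L) := by nlinarith [u2'.2, u3'.2]
    have u5 : |(lo - ε * σ) * be D| ≤ |C| * ε ^ 2 := by
      rw [abs_mul, abs_of_nonneg be0]
      exact (mul_le_of_le_one_right (abs_nonneg _) be1).trans (l1.trans hCε)
    have u6 : |(1 - hi - ε * τ) * al D| ≤ |C| * ε ^ 2 := by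
      rw [abs_mul, abs_of_nonneg al0]
      exact (mul_le_of_le_one_right (abs_nonneg _) al1).trans (l2.trans hCε)
    have u5' := abs_le.1 u5
    have u6' := abs_le.1 u6
    have u7 : ε * (3 * M * (v1 + v2)) ≤ ε * (3 * M * (2 * (ε * L))) := by gcongr
    have u8 : η' * (lo + (1 - hi)) ≤ η / 2 * ε := by nlinarith
    have u9 : ε * (ε * (3 * M ^ 2 + M ^ 3 + 6 * M * L + 2 * |C|)) ≤ ε * (η / 2) :=
      mul_le_mul_of_nonneg_left s6.le hε0.le
    have hv' := abs_le.1 hv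
    rw [abs_le]
    constructor <;> linarith [hv'.1, hv'.2, u2'.1, u2'.2, u3'.1, u3'.2, u5'.1, u5'.2, u6'.1, u6'.2]

end Crest.Agent.R214
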